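import Vale.Agent.P098.CkDefs

namespace Vale.Agent.P098.Ck

noncomputable def S212_227_660_808_0 : EL := (EL.cons 0 (TM.mk (P.cons (P.lf 7871865163 0 0) (P.cons (P.lf 228047217 0 0) (P.cons (P.lf 0 18724113 0) (P.cons (P.lf 0 894670 0) (P.cons (P.lf 28400 0 0) (P.cons (P.lf 1893 0 0) P.nil)))))) 140)
 (EL.cons 1 (TM.mk (P.cons (P.lf 0 1064241138 0) (P.cons (P.lf 185599968 0 0) (P.cons (P.lf 9632411 0 0) (P.cons (P.lf 0 474855 0) (P.cons (P.lf 0 25702 0) (P.cons (P.lf 519 0 0) P.nil)))))) 134)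
 (EL.cons 5 (TM.mk (P.cons (P.lf 4502559014 0 0) (P.cons (P.lf 0 81083452 0) (P.cons (P.lf 6657460 0 0) (P.cons (P.lf 318104 0 0) (P.cons (P.lf 0 10096 0) (P.cons (P.lf 0 672 0) P.nil)))))) 143)
 (EL.cons 9 (TM.mk (P.lf 6442450944 0 0) 2)
 EL.nil))))
noncomputable def S212_227_660_808_1 : EL := (EL.cons 0 (TM.mk (P.cons (P.cons (P.lf 0 972745580 0) (P.cons (P.lf 0 496676781 0) (P.cons (P.lf 214172632 0 0) (P.lf 23796958 0 0)))) (P.cons (P.cons (P.lf 0 499459432 0) (P.cons (P.lf 0 105166227 0) (P.cons (P.lf 45348858 0 0) (P.lf 5038754 0 0)))) (P.cons (P.cons (P.lf 0 92697617 0) (P.cons (P.lf 3668200 0 0) (P.cons (P.lf 0 1581760 0) (P.lf 0 175745 0)))) (P.cons (P.cons (P.lf 5746105 0 0) (P.cons (P.lf 1181919 0 0) (P.cons (P.lf 0 509652 0) P.nil))) (P.cons (P.cons (P.lf 1010988 0 0) (P.cons (P.lf 4080 0 0) P.nil)) (P.cons (P.cons (P.lf 0 12965 0) P.nil) P.nil))))))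 122657)
 (EL.cons 1 (TM.mk (P.cons (P.cons (P.lf 1338826895 0 0) (P.cons (P.lf 202050611 0 0) (P.cons (P.lf 0 87126502 0) (P.lf 0 9680716 0)))) (P.cons (P.cons (P.lf 211175560 0 0) (P.cons (P.lf 0 16574682 0) (P.cons (P.lf 7147190 0 0) (P.lf 794132 0 0)))) (P.cons (P.cons (P.lf 0 28067324 0) (P.cons (P.lf 0 6358013 0) (P.cons (P.lf 2741641 0 0) (P.lf 304621 0 0)))) (P.cons (P.cons (P.lf 0 5885218 0) (P.cons (P.lf 25780 0 0) (P.cons (P.lf 0 11115 0) P.nil))) (P.cons (P.cons (P.lf 146403 0 0) (P.cons (P.lf 47900 0 0) P.nil)) (P.cons (P.cons (P.lf 41195 0 0) P.nil) P.nil)))))) 67687)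
 (EL.cons 5 (TM.mk (P.cons (P.cons (P.lf 0 1736325720 0) (P.cons (P.lf 0 415932274 0) (P.cons (P.lf 179354690 0 0) (P.lf 19928294 0 0)))) (P.cons (P.cons (P.lf 0 154888165 0) (P.cons (P.lf 242746 0 0) (P.cons (P.lf 0 104674 0) (P.lf 0 11624 0)))) (P.cons (P.cons (P.lf 12203681 0 0) (P.cons (P.lf 1357784 0 0) (P.cons (P.lf 0 585490 0) (P.lf 0 65056 0)))) (P.cons (P.cons (P.lf 399366 0 0) (P.cons (P.lf 0 208042 0) (P.cons (P.lf 89710 0 0) P.nil))) (P.cons (P.cons (P.lf 0 229767 0) (P.cons (P.lf 0 6358 0) P.nil)) (P.cons (P.cons (P.lf 0 540 0) P.nil) P.nil)))))) 69196)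
 (EL.cons 9 (TM.mk (P.cons (P.cons (P.lf 0 1837227184 0) (P.cons (P.lf 0 522819228 0) (P.cons (P.lf 225445548 0 0) (P.lf 25049502 0 0)))) (P.cons (P.cons (P.lf 0 293359173 0) (P.cons (P.lf 0 32779128 0) (P.cons (P.lf 14134728 0 0) (P.lf 1570524 0 0)))) (P.cons (P.cons (P.lf 0 18313647 0) (P.cons (P.lf 2348844 0 0) (P.cons (P.lf 0 1012842 0) (P.lf 0 112536 0)))) (P.cons (P.cons (P.lf 2155068 0 0) (P.cons (P.lf 187224 0 0) (P.cons (P.lf 0 80730 0) P.nil))) (P.cons (P.cons (P.lf 114430 0 0) (P.cons (P.lf 0 4326 0) P.nil)) (P.cons (P.cons (P.lf 0 4530 0) P.nil) P.nil)))))) 15716)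
 (EL.cons 2 (TM.mk (P.cons (P.cons (P.lf 299659741 0 0) (P.cons (P.lf 0 279160770 0) (P.cons (P.lf 0 28650974 0) (P.cons (P.lf 5958604 0 0) (P.lf 496549 0 0))))) (P.cons (P.cons (P.lf 0 45997042 0) (P.cons (P.lf 42850501 0 0) (P.cons (P.lf 4397855 0 0) (P.cons (P.lf 0 914630 0) (P.lf 0 76218 0))))) (P.cons (P.cons (P.lf 0 4384018 0) (P.cons (P.lf 4084118 0 0) (P.cons (P.lf 419160 0 0) (P.cons (P.lf 0 87173 0) P.nil)))) (P.cons (P.cons (P.lf 165653 0 0) (P.cons (P.lf 0 154321 0) (P.cons (P.lf 0 15837 0) P.nil))) (P.cons (P.cons (P.lf 17926 0 0) (P.cons (P.lf 0 16700 0) P.nil)) (P.cons (P.cons (P.lf 0 205 0) P.nil) P.nil)))))) 17841)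
 (EL.cons 6 (TM.mk (P.cons (P.cons (P.lf 546217857 0 0) (P.cons (P.lf 0 508852464 0) (P.cons (P.lf 0 52224816 0) (P.cons (P.lf 10861308 0 0) (P.lf 905106 0 0))))) (P.cons (P.cons (P.lf 34246155 0 0) (P.cons (P.lf 0 31903461 0) (P.cons (P.lf 0 3274332 0) (P.cons (P.lf 680967 0 0) (P.lf 56745 0 0))))) (P.cons (P.cons (P.lf 0 2453967 0) (P.cons (P.lf 2286099 0 0) (P.cons (P.lf 234627 0 0) (P.cons (P.lf 0 48795 0) P.nil)))) (P.cons (P.cons (P.lf 0 195609 0) (P.cons (P.lf 182226 0 0) (P.cons (P.lf 18699 0 0) P.nil))) (P.cons (P.cons (P.lf 4518 0 0) (P.cons (P.lf 0 4209 0) P.nil)) (P.cons (P.cons (P.lf 567 0 0) P.nil) P.nil)))))) 11910)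
 EL.nil))))))
noncomputable def S212_227_660_808_2 : EL := (EL.cons 0 (TM.mk (P.cons (P.cons (P.lf 0 85372754 0) (P.cons (P.lf 76809862 0 0) (P.cons (P.lf 0 4350049 0) (P.cons (P.lf 0 28493112 0) (P.cons (P.lf 2592830 0 0) (P.cons (P.lf 1188852 0 0) P.nil)))))) (P.cons (P.cons (P.lf 150468586 0 0) (P.cons (P.lf 104600827 0 0) (P.cons (P.lf 0 30984404 0) (P.cons (P.lf 0 17189639 0) (P.cons (P.lf 1272531 0 0) P.nil))))) (P.cons (P.cons (P.lf 70401912 0 0) (P.cons (P.lf 22604501 0 0) (P.cons (P.lf 0 9437652 0) (P.cons (P.lf 0 1350080 0) P.nil)))) (P.cons (P.cons (P.lf 6533955 0 0) (P.cons (P.lf 0 490433 0) (P.cons (P.lf 0 27944 0) P.nil))) (P.cons (P.cons (P.lf 0 611074 0) (P.cons (P.lf 0 414620 0) P.nil)) (P.cons (P.cons (P.lf 0 160075 0) P.nil) P.nil)))))) 2417324)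
 (EL.cons 1 (TM.mk (P.cons (P.cons (P.lf 0 677051134 0) (P.cons (P.lf 0 283278587 0) (P.cons (P.lf 96367960 0 0) (P.cons (P.lf 35810068 0 0) (P.cons (P.lf 0 2323694 0) (P.cons (P.lf 0 1065453 0) P.nil)))))) (P.cons (P.cons (P.lf 0 229826307 0) (P.cons (P.lf 0 54482913 0) (P.cons (P.lf 23784273 0 0) (P.cons (P.lf 2359750 0 0) (P.cons (P.lf 26190 0 0) P.nil))))) (P.cons (P.cons (P.lf 0 12506776 0) (P.cons (P.lf 5776540 0 0) (P.cons (P.lf 0 1395102 0) (P.cons (P.lf 0 1221794 0) P.nil)))) (P.cons (P.cons (P.lf 4783020 0 0) (P.cons (P.lf 1976164 0 0) (P.cons (P.lf 0 799582 0) P.nil))) (P.cons (P.cons (P.lf 732463 0 0) (P.cons (P.lf 30509 0 0) P.nil)) (P.cons (P.cons (P.lf 0 12089 0) P.nil) P.nil)))))) 1223612)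
 (EL.cons 5 (TM.mk (P.cons (P.cons (P.lf 624143922 0 0) (P.cons (P.lf 310638664 0 0) (P.cons (P.lf 0 96095659 0) (P.cons (P.lf 0 47530626 0) (P.cons (P.lf 3411444 0 0) (P.cons (P.lf 1564200 0 0) P.nil)))))) (P.cons (P.cons (P.lf 136126574 0 0) (P.cons (P.lf 37958903 0 0) (P.cons (P.lf 0 15359424 0) (P.cons (P.lf 0 2688786 0) (P.cons (P.lf 90928 0 0) P.nil))))) (P.cons (P.cons (P.lf 1945404 0 0) (P.cons (P.lf 0 2803479 0) (P.cons (P.lf 855754 0 0) (P.cons (P.lf 438864 0 0) P.nil)))) (P.cons (P.cons (P.lf 0 1825996 0) (P.cons (P.lf 0 374283 0) (P.cons (P.lf 184990 0 0) P.nil))) (P.cons (P.cons (P.lf 0 20137 0) (P.cons (P.lf 69843 0 0) P.nil)) (P.cons (P.cons (P.lf 34150 0 0) P.nil) P.nil)))))) 1450163)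
 (EL.cons 9 (TM.mk (P.cons (P.cons (P.lf 523931614 0 0) (P.cons (P.lf 298190146 0 0) (P.cons (P.lf 0 86155011 0) (P.cons (P.lf 0 50877808 0) (P.cons (P.lf 3823540 0 0) (P.cons (P.lf 1753152 0 0) P.nil)))))) (P.cons (P.cons (P.lf 167317516 0 0) (P.cons (P.lf 66309087 0 0) (P.cons (P.lf 0 23273026 0) (P.cons (P.lf 0 7765282 0) (P.cons (P.lf 479448 0 0) P.nil))))) (P.cons (P.cons (P.lf 23803404 0 0) (P.cons (P.lf 4617939 0 0) (P.cons (P.lf 0 2205757 0) (P.cons (P.lf 0 36313 0) P.nil)))) (P.cons (P.cons (P.lf 438691 0 0) (P.cons (P.lf 0 484111 0) (P.cons (P.lf 154462 0 0) P.nil))) (P.cons (P.cons (P.lf 0 209469 0) (P.cons (P.lf 0 68439 0) P.nil)) (P.cons (P.cons (P.lf 0 20089 0) P.nil) P.nil)))))) 670411)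
 (EL.cons 2 (TM.mk (P.cons (P.cons (P.lf 0 170911046 0) (P.cons (P.lf 110583343 0 0) (P.cons (P.lf 82622565 0 0) (P.cons (P.lf 0 15955807 0) (P.cons (P.lf 0 5426386 0) (P.cons (P.lf 113630 0 0) P.nil)))))) (P.cons (P.cons (P.lf 0 1055778 0) (P.cons (P.lf 5399752 0 0) (P.cons (P.lf 0 5917455 0) (P.cons (P.lf 1119217 0 0) (P.cons (P.lf 465255 0 0) P.nil))))) (P.cons (P.cons (P.lf 4985746 0 0) (P.cons (P.lf 0 3246570 0) (P.cons (P.lf 0 2382046 0) (P.cons (P.lf 460113 0 0) P.nil)))) (P.cons (P.cons (P.lf 766755 0 0) (P.cons (P.lf 0 712704 0) (P.cons (P.lf 0 75493 0) P.nil))) (P.cons (P.cons (P.lf 0 20514 0) (P.cons (P.lf 8240 0 0) P.nil)) (P.cons (P.cons (P.lf 0 7441 0) P.nil) P.nil)))))) 533660)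
 (EL.cons 6 (TM.mk (P.cons (P.cons (P.lf 0 311535558 0) (P.cons (P.lf 201570606 0 0) (P.cons (P.lf 150603888 0 0) (P.cons (P.lf 0 29084142 0) (P.cons (P.lf 0 9891186 0) (P.cons (P.lf 207126 0 0) P.nil)))))) (P.cons (P.cons (P.lf 0 69276732 0) (P.cons (P.lf 53421078 0 0) (P.cons (P.lf 21773412 0 0) (P.cons (P.lf 0 4247718 0) (P.cons (P.lf 0 1290354 0) P.nil))))) (P.cons (P.cons (P.lf 0 4824606 0) (P.cons (P.lf 4942662 0 0) (P.cons (P.lf 0 149364 0) (P.cons (P.lf 19752 0 0) P.nil)))) (P.cons (P.cons (P.lf 505776 0 0) (P.cons (P.lf 0 357738 0) (P.cons (P.lf 0 202950 0) P.nil))) (P.cons (P.cons (P.lf 71496 0 0) (P.cons (P.lf 0 65886 0) P.nil)) (P.cons (P.cons (P.lf 0 810 0) P.nil) P.nil)))))) 604326)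
 EL.nil))))))
noncomputable def S212_227_660_808_3 : EL := (EL.cons 0 (TM.mk (P.cons (P.lf 583851700 0 0) (P.cons (P.lf 0 228047217 0) (P.cons (P.lf 18724113 0 0) (P.cons (P.lf 894670 0 0) (P.cons (P.lf 0 28400 0) (P.cons (P.lf 0 1893 0) P.nil)))))) 140)
 (EL.cons 1 (TM.mk (P.cons (P.lf 1064241138 0 0) (P.cons (P.lf 0 185599968 0) (P.cons (P.lf 0 9632411 0) (P.cons (P.lf 474855 0 0) (P.cons (P.lf 25702 0 0) (P.cons (P.lf 0 519 0) P.nil)))))) 134)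
 (EL.cons 5 (TM.mk (P.cons (P.lf 1939891930 0 0) (P.cons (P.lf 81083452 0 0) (P.cons (P.lf 0 6657460 0) (P.cons (P.lf 0 318104 0) (P.cons (P.lf 10096 0 0) (P.cons (P.lf 672 0 0) P.nil)))))) 136)
 EL.nil)))
noncomputable def S212_227_660_808_4 : EL := (EL.cons 0 (TM.mk (P.cons (P.cons (P.lf 0 166500019 0) (P.cons (P.lf 0 47380863 0) (P.cons (P.lf 20431161 0 0) (P.lf 2270128 0 0)))) (P.cons (P.cons (P.lf 38447523 0 0) (P.cons (P.lf 15535907 0 0) (P.cons (P.lf 0 6699257 0) (P.lf 0 744361 0)))) (P.cons (P.cons (P.lf 3384866 0 0) (P.cons (P.lf 0 146334 0) (P.cons (P.lf 63101 0 0) (P.lf 7010 0 0)))) (P.cons (P.cons (P.lf 0 264181 0) (P.cons (P.lf 0 234047 0) (P.cons (P.lf 100923 0 0) P.nil))) (P.cons (P.cons (P.lf 0 151778 0) (P.cons (P.lf 0 2439 0) P.nil)) (P.cons (P.cons (P.lf 1091 0 0) P.nil) P.nil)))))) 26521)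
 (EL.cons 1 (TM.mk (P.cons (P.cons (P.lf 0 303495168 0) (P.cons (P.lf 0 86365533 0) (P.cons (P.lf 37241791 0 0) (P.lf 4137975 0 0)))) (P.cons (P.cons (P.lf 4467926 0 0) (P.cons (P.lf 9647000 0 0) (P.cons (P.lf 0 4159895 0) (P.lf 0 462210 0)))) (P.cons (P.cons (P.lf 8173014 0 0) (P.cons (P.lf 2114030 0 0) (P.cons (P.lf 0 911591 0) (P.lf 0 101285 0)))) (P.cons (P.cons (P.lf 1186792 0 0) (P.cons (P.lf 0 26263 0) (P.cons (P.lf 11325 0 0) P.nil))) (P.cons (P.cons (P.lf 0 44752 0) (P.cons (P.lf 0 14120 0) P.nil)) (P.cons (P.cons (P.lf 0 9637 0) P.nil) P.nil)))))) 19194)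
 (EL.cons 5 (TM.mk (P.cons (P.cons (P.lf 0 553209052 0) (P.cons (P.lf 0 157426544 0) (P.cons (P.lf 67884100 0 0) (P.lf 7542676 0 0)))) (P.cons (P.cons (P.lf 0 111456620 0) (P.cons (P.lf 0 16450252 0) (P.cons (P.lf 7093534 0 0) (P.lf 788168 0 0)))) (P.cons (P.cons (P.lf 0 7308056 0) (P.cons (P.lf 834976 0 0) (P.cons (P.lf 0 360050 0) (P.lf 0 40004 0)))) (P.cons (P.cons (P.lf 812286 0 0) (P.cons (P.lf 145624 0 0) (P.cons (P.lf 0 62794 0) P.nil))) (P.cons (P.cons (P.lf 92108 0 0) (P.cons (P.lf 0 572 0) P.nil)) (P.cons (P.cons (P.lf 0 1896 0) P.nil) P.nil)))))) 13922)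
 EL.nil)))
noncomputable def S212_227_660_808_5 : EL := (EL.cons 0 (TM.mk (P.cons (P.cons (P.lf 47481674 0 0) (P.cons (P.lf 27023693 0 0) (P.cons (P.lf 0 7807858 0) (P.cons (P.lf 0 4610837 0) (P.cons (P.lf 346510 0 0) (P.cons (P.lf 158879 0 0) P.nil)))))) (P.cons (P.cons (P.lf 0 3382644 0) (P.cons (P.lf 0 4545901 0) (P.cons (P.lf 940543 0 0) (P.cons (P.lf 1097216 0 0) (P.cons (P.lf 0 91893 0) P.nil))))) (P.cons (P.cons (P.lf 0 2242698 0) (P.cons (P.lf 0 1062028 0) (P.cons (P.lf 373512 0 0) (P.cons (P.lf 123711 0 0) P.nil)))) (P.cons (P.cons (P.lf 0 243780 0) (P.cons (P.lf 26790 0 0) (P.cons (P.lf 12471 0 0) P.nil))) (P.cons (P.cons (P.lf 55594 0 0) (P.cons (P.lf 32248 0 0) P.nil)) (P.cons (P.cons (P.lf 9283 0 0) P.nil) P.nil)))))) 239717)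
 (EL.cons 1 (TM.mk (P.cons (P.cons (P.lf 86549291 0 0) (P.cons (P.lf 49258614 0 0) (P.cons (P.lf 0 14232114 0) (P.cons (P.lf 0 8404603 0) (P.cons (P.lf 631616 0 0) (P.cons (P.lf 289605 0 0) P.nil)))))) (P.cons (P.cons (P.lf 12545611 0 0) (P.cons (P.lf 2363193 0 0) (P.cons (P.lf 0 1362483 0) (P.cons (P.lf 182970 0 0) (P.cons (P.lf 0 30950 0) P.nil))))) (P.cons (P.cons (P.lf 0 1671457 0) (P.cons (P.lf 0 1593283 0) (P.cons (P.lf 434910 0 0) (P.cons (P.lf 293778 0 0) P.nil)))) (P.cons (P.cons (P.lf 0 824827 0) (P.cons (P.lf 0 290171 0) (P.cons (P.lf 117506 0 0) P.nil))) (P.cons (P.cons (P.lf 0 68405 0) (P.cons (P.lf 1813 0 0) P.nil)) (P.cons (P.cons (P.lf 4438 0 0) P.nil) P.nil)))))) 250912)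
 (EL.cons 5 (TM.mk (P.cons (P.cons (P.lf 157761496 0 0) (P.cons (P.lf 89788290 0 0) (P.cons (P.lf 0 25942208 0) (P.cons (P.lf 0 15319858 0) (P.cons (P.lf 1151308 0 0) (P.cons (P.lf 527892 0 0) P.nil)))))) (P.cons (P.cons (P.lf 56975222 0 0) (P.cons (P.lf 23719348 0 0) (P.cons (P.lf 0 8092090 0) (P.cons (P.lf 0 2978548 0) (P.cons (P.lf 192488 0 0) P.nil))))) (P.cons (P.cons (P.lf 8731872 0 0) (P.cons (P.lf 1916922 0 0) (P.cons (P.lf 0 868056 0) (P.cons (P.lf 0 56090 0) P.nil)))) (P.cons (P.cons (P.lf 232908 0 0) (P.cons (P.lf 0 170896 0) (P.cons (P.lf 47052 0 0) P.nil))) (P.cons (P.cons (P.lf 0 89588 0) (P.cons (P.lf 0 34278 0) P.nil)) (P.cons (P.cons (P.lf 0 9996 0) P.nil) P.nil)))))) 268132)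
 EL.nil)))
noncomputable def S212_227_660_808_6 : EL := (EL.cons 12 (TM.mk (P.lf 8589934592 0 0) 0)
 (EL.cons 3 (TM.mk (P.cons (P.lf 0 1119737460 0) (P.cons (P.lf 218679686 0 0) (P.cons (P.lf 3398598 0 0) (P.cons (P.lf 0 194190 0) (P.cons (P.lf 0 5531 0) (P.cons (P.lf 146 0 0) P.nil)))))) 52)
 (EL.cons 7 (TM.mk (P.cons (P.lf 0 2041050269 0) (P.cons (P.lf 0 42655831 0) (P.cons (P.lf 3948043 0 0) (P.cons (P.lf 84836 0 0) (P.cons (P.lf 0 3266 0) (P.cons (P.lf 0 122 0) P.nil)))))) 52)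
 EL.nil)))
noncomputable def S212_227_660_808_7 : EL := (EL.cons 12 (TM.mk (P.cons (P.cons (P.lf 0 2449636246 0) (P.cons (P.lf 0 697092304 0) (P.cons (P.lf 300594064 0 0) (P.lf 33399336 0 0)))) (P.cons (P.cons (P.lf 0 391145564 0) (P.cons (P.lf 0 43705504 0) (P.cons (P.lf 18846304 0 0) (P.lf 2094032 0 0)))) (P.cons (P.cons (P.lf 0 24418196 0) (P.cons (P.lf 3131792 0 0) (P.cons (P.lf 0 1350456 0) (P.lf 0 150048 0)))) (P.cons (P.cons (P.lf 2873424 0 0) (P.cons (P.lf 249632 0 0) (P.cons (P.lf 0 107640 0) P.nil))) (P.cons (P.cons (P.lf 152574 0 0) (P.cons (P.lf 0 5768 0) P.nil)) (P.cons (P.cons (P.lf 0 6040 0) P.nil) P.nil)))))) 20930)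
 (EL.cons 3 (TM.mk (P.cons (P.cons (P.lf 0 2120399070 0) (P.cons (P.lf 0 181738370 0) (P.cons (P.lf 78367634 0 0) (P.lf 8707512 0 0)))) (P.cons (P.cons (P.lf 0 342126744 0) (P.cons (P.lf 24098258 0 0) (P.cons (P.lf 0 10391440 0) (P.lf 0 1154604 0)))) (P.cons (P.cons (P.lf 45446226 0 0) (P.cons (P.lf 3593372 0 0) (P.cons (P.lf 0 1549500 0) (P.lf 0 172164 0)))) (P.cons (P.cons (P.lf 3622616 0 0) (P.cons (P.lf 0 91306 0) (P.cons (P.lf 39372 0 0) P.nil))) (P.cons (P.cons (P.lf 0 153481 0) (P.cons (P.lf 0 19564 0) P.nil)) (P.cons (P.cons (P.lf 0 16167 0) P.nil) P.nil)))))) 54447)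
 (EL.cons 7 (TM.mk (P.cons (P.cons (P.lf 1057950694 0 0) (P.cons (P.lf 218810821 0 0) (P.cons (P.lf 0 94353696 0) (P.lf 0 10483744 0)))) (P.cons (P.cons (P.lf 66735514 0 0) (P.cons (P.lf 0 4700621 0) (P.cons (P.lf 2026960 0 0) (P.lf 225217 0 0)))) (P.cons (P.cons (P.lf 0 16078698 0) (P.cons (P.lf 0 192804 0) (P.cons (P.lf 83142 0 0) (P.lf 9237 0 0)))) (P.cons (P.cons (P.lf 647061 0 0) (P.cons (P.lf 113477 0 0) (P.cons (P.lf 0 48931 0) P.nil))) (P.cons (P.cons (P.lf 124783 0 0) (P.cons (P.lf 56 0 0) P.nil)) (P.cons (P.cons (P.lf 0 2401 0) P.nil) P.nil)))))) 43143)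
 (EL.cons 10 (TM.mk (P.cons (P.cons (P.lf 0 1149402282 0) (P.cons (P.lf 1070774556 0 0) (P.cons (P.lf 109896303 0 0) (P.cons (P.lf 0 22855374 0) (P.lf 0 1904613 0))))) (P.cons (P.cons (P.lf 0 48042627 0) (P.cons (P.lf 44756151 0 0) (P.cons (P.lf 4593435 0 0) (P.cons (P.lf 0 955305 0) (P.lf 0 79608 0))))) (P.cons (P.cons (P.lf 3944601 0 0) (P.cons (P.lf 0 3674760 0) (P.cons (P.lf 0 377148 0) (P.cons (P.lf 78435 0 0) P.nil)))) (P.cons (P.cons (P.lf 188478 0 0) (P.cons (P.lf 0 175584 0) (P.cons (P.lf 0 18018 0) P.nil))) (P.cons (P.cons (P.lf 0 5979 0) (P.cons (P.lf 5571 0 0) P.nil)) (P.cons (P.cons (P.lf 0 396 0) P.nil) P.nil)))))) 11988)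
 EL.nil))))
noncomputable def S212_227_660_808_8 : EL := (EL.cons 12 (TM.mk (P.cons (P.cons (P.lf 698575486 0 0) (P.cons (P.lf 397586862 0 0) (P.cons (P.lf 0 114873348 0) (P.cons (P.lf 0 67837078 0) (P.cons (P.lf 5098054 0 0) (P.cons (P.lf 2337536 0 0) P.nil)))))) (P.cons (P.cons (P.lf 223090022 0 0) (P.cons (P.lf 88412116 0 0) (P.cons (P.lf 0 31030702 0) (P.cons (P.lf 0 10353710 0) (P.cons (P.lf 639264 0 0) P.nil))))) (P.cons (P.cons (P.lf 31737872 0 0) (P.cons (P.lf 6157252 0 0) (P.cons (P.lf 0 2941010 0) (P.cons (P.lf 0 48418 0) P.nil)))) (P.cons (P.cons (P.lf 584922 0 0) (P.cons (P.lf 0 645482 0) (P.cons (P.lf 205950 0 0) P.nil))) (P.cons (P.cons (P.lf 0 279292 0) (P.cons (P.lf 0 91252 0) P.nil)) (P.cons (P.cons (P.lf 0 26786 0) P.nil) P.nil)))))) 893852)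
 (EL.cons 3 (TM.mk (P.cons (P.cons (P.lf 1300432947 0 0) (P.cons (P.lf 499632024 0 0) (P.cons (P.lf 0 178575778 0) (P.cons (P.lf 0 55737082 0) (P.cons (P.lf 3322770 0 0) (P.cons (P.lf 1523540 0 0) P.nil)))))) (P.cons (P.cons (P.lf 399534998 0 0) (P.cons (P.lf 81315709 0 0) (P.cons (P.lf 0 37641609 0) (P.cons (P.lf 0 1673247 0) (P.cons (P.lf 0 232265 0) P.nil))))) (P.cons (P.cons (P.lf 15473988 0 0) (P.cons (P.lf 0 10257126 0) (P.cons (P.lf 3221775 0 0) (P.cons (P.lf 1527381 0 0) P.nil)))) (P.cons (P.cons (P.lf 0 6482672 0) (P.cons (P.lf 0 2223790 0) (P.cons (P.lf 940499 0 0) P.nil))) (P.cons (P.cons (P.lf 0 863329 0) (P.cons (P.lf 17209 0 0) P.nil)) (P.cons (P.cons (P.lf 28069 0 0) P.nil) P.nil)))))) 1662354)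
 (EL.cons 7 (TM.mk (P.cons (P.cons (P.lf 0 437414394 0) (P.cons (P.lf 0 202038515 0) (P.cons (P.lf 65049023 0 0) (P.cons (P.lf 28715753 0 0) (P.cons (P.lf 0 1989114 0) (P.cons (P.lf 0 912036 0) P.nil)))))) (P.cons (P.cons (P.lf 0 77933612 0) (P.cons (P.lf 0 15861514 0) (P.cons (P.lf 7342403 0 0) (P.cons (P.lf 326390 0 0) (P.cons (P.lf 45305 0 0) P.nil))))) (P.cons (P.cons (P.lf 5406035 0 0) (P.cons (P.lf 3715347 0 0) (P.cons (P.lf 0 1422138 0) (P.cons (P.lf 0 333210 0) P.nil)))) (P.cons (P.cons (P.lf 1610778 0 0) (P.cons (P.lf 127345 0 0) (P.cons (P.lf 0 84509 0) P.nil))) (P.cons (P.cons (P.lf 0 36436 0) (P.cons (P.lf 0 69181 0) P.nil)) (P.cons (P.cons (P.lf 0 31787 0) P.nil) P.nil)))))) 734931)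
 (EL.cons 10 (TM.mk (P.cons (P.cons (P.lf 655562028 0 0) (P.cons (P.lf 0 424163574 0) (P.cons (P.lf 0 316914672 0) (P.cons (P.lf 61201554 0 0) (P.cons (P.lf 20813952 0 0) (P.cons (P.lf 0 435864 0) P.nil)))))) (P.cons (P.cons (P.lf 132077970 0 0) (P.cons (P.lf 0 103549020 0) (P.cons (P.lf 0 39194454 0) (P.cons (P.lf 7659402 0 0) (P.cons (P.lf 2280294 0 0) P.nil))))) (P.cons (P.cons (P.lf 8660166 0 0) (P.cons (P.lf 0 9057210 0) (P.cons (P.lf 520422 0 0) (P.cons (P.lf 0 83262 0) P.nil)))) (P.cons (P.cons (P.lf 0 962568 0) (P.cons (P.lf 724152 0 0) (P.cons (P.lf 327204 0 0) P.nil))) (P.cons (P.cons (P.lf 0 109152 0) (P.cons (P.lf 102366 0 0) P.nil)) (P.cons (P.cons (P.lf 2244 0 0) P.nil) P.nil)))))) 1107600)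
 EL.nil))))
noncomputable def S212_227_660_808_9 : EL := (EL.cons 3 (TM.mk (P.cons (P.lf 0 1119737460 0) (P.cons (P.lf 218679686 0 0) (P.cons (P.lf 3398598 0 0) (P.cons (P.lf 0 194190 0) (P.cons (P.lf 0 5531 0) (P.cons (P.lf 146 0 0) P.nil)))))) 52)
 (EL.cons 7 (TM.mk (P.cons (P.lf 0 2041050269 0) (P.cons (P.lf 0 42655831 0) (P.cons (P.lf 3948043 0 0) (P.cons (P.lf 84836 0 0) (P.cons (P.lf 0 3266 0) (P.cons (P.lf 0 122 0) P.nil)))))) 52)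
 EL.nil))
noncomputable def S212_227_660_808_10 : EL := (EL.cons 3 (TM.mk (P.cons (P.cons (P.lf 319321344 0 0) (P.cons (P.lf 90869185 0 0) (P.cons (P.lf 0 39183817 0) (P.lf 0 4353756 0)))) (P.cons (P.cons (P.lf 0 11374398 0) (P.cons (P.lf 0 12049129 0) (P.cons (P.lf 5195720 0 0) (P.lf 577302 0 0)))) (P.cons (P.cons (P.lf 0 7743825 0) (P.cons (P.lf 0 1796686 0) (P.cons (P.lf 774750 0 0) (P.lf 86082 0 0)))) (P.cons (P.cons (P.lf 0 1095571 0) (P.cons (P.lf 45653 0 0) (P.cons (P.lf 0 19686 0) P.nil))) (P.cons (P.cons (P.lf 54020 0 0) (P.cons (P.lf 9782 0 0) P.nil)) (P.cons (P.cons (P.lf 6570 0 0) P.nil) P.nil)))))) 13529)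
 (EL.cons 7 (TM.mk (P.cons (P.cons (P.lf 582056902 0 0) (P.cons (P.lf 165635770 0 0) (P.cons (P.lf 0 71424012 0) (P.lf 0 7936000 0)))) (P.cons (P.cons (P.lf 105104296 0 0) (P.cons (P.lf 13846459 0 0) (P.cons (P.lf 0 5970749 0) (P.lf 0 663416 0)))) (P.cons (P.cons (P.lf 6618459 0 0) (P.cons (P.lf 0 847503 0) (P.cons (P.lf 365451 0 0) (P.lf 40605 0 0)))) (P.cons (P.cons (P.lf 0 765465 0) (P.cons (P.lf 0 101839 0) (P.cons (P.lf 43913 0 0) P.nil))) (P.cons (P.cons (P.lf 0 64676 0) (P.cons (P.lf 1403 0 0) P.nil)) (P.cons (P.cons (P.lf 1940 0 0) P.nil) P.nil)))))) 9161)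
 EL.nil))
noncomputable def S212_227_660_808_11 : EL := (EL.cons 3 (TM.mk (P.cons (P.cons (P.lf 0 91062525 0) (P.cons (P.lf 0 51827274 0) (P.cons (P.lf 14974268 0 0) (P.cons (P.lf 8842874 0 0) (P.cons (P.lf 0 664554 0) (P.cons (P.lf 0 304708 0) P.nil)))))) (P.cons (P.cons (P.lf 0 11296708 0) (P.cons (P.lf 0 1403291 0) (P.cons (P.lf 1120587 0 0) (P.cons (P.lf 0 377319 0) (P.cons (P.lf 46453 0 0) P.nil))))) (P.cons (P.cons (P.lf 1818564 0 0) (P.cons (P.lf 1605444 0 0) (P.cons (P.lf 0 452043 0) (P.cons (P.lf 0 284109 0) P.nil)))) (P.cons (P.cons (P.lf 804196 0 0) (P.cons (P.lf 266882 0 0) (P.cons (P.lf 0 111397 0) P.nil))) (P.cons (P.cons (P.lf 58361 0 0) (P.cons (P.lf 0 4355 0) P.nil)) (P.cons (P.cons (P.lf 0 4235 0) P.nil) P.nil)))))) 237080)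
 (EL.cons 7 (TM.mk (P.cons (P.cons (P.lf 0 165988188 0) (P.cons (P.lf 0 94470425 0) (P.cons (P.lf 27295001 0 0) (P.cons (P.lf 16118735 0 0) (P.cons (P.lf 0 1211346 0) (P.cons (P.lf 0 555420 0) P.nil)))))) (P.cons (P.cons (P.lf 0 56477294 0) (P.cons (P.lf 0 22981894 0) (P.cons (P.lf 7943627 0 0) (P.cons (P.lf 2797004 0 0) (P.cons (P.lf 0 177211 0) P.nil))))) (P.cons (P.cons (P.lf 0 8327965 0) (P.cons (P.lf 0 1719321 0) (P.cons (P.lf 800106 0 0) (P.cons (P.lf 31740 0 0) P.nil)))) (P.cons (P.cons (P.lf 0 187152 0) (P.cons (P.lf 167359 0 0) (P.cons (P.lf 0 49727 0) P.nil))) (P.cons (P.cons (P.lf 79982 0 0) (P.cons (P.lf 28439 0 0) P.nil)) (P.cons (P.cons (P.lf 8239 0 0) P.nil) P.nil)))))) 245747)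
 EL.nil))
noncomputable def S212_227_660_808_12 : EL := (EL.cons 4 (TM.mk (P.cons (P.lf 1119737460 0 0) (P.cons (P.lf 0 218679686 0) (P.cons (P.lf 0 3398598 0) (P.cons (P.lf 194190 0 0) (P.cons (P.lf 5531 0 0) (P.cons (P.lf 0 146 0) P.nil)))))) 52)
 (EL.cons 8 (TM.mk (P.cons (P.lf 2041050269 0 0) (P.cons (P.lf 42655831 0 0) (P.cons (P.lf 0 3948043 0) (P.cons (P.lf 0 84836 0) (P.cons (P.lf 3266 0 0) (P.cons (P.lf 122 0 0) P.nil)))))) 52)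
 EL.nil))
noncomputable def S212_227_660_808_13 : EL := (EL.cons 4 (TM.mk (P.cons (P.cons (P.lf 0 319321344 0) (P.cons (P.lf 0 90869185 0) (P.cons (P.lf 39183817 0 0) (P.lf 4353756 0 0)))) (P.cons (P.cons (P.lf 11374398 0 0) (P.cons (P.lf 12049129 0 0) (P.cons (P.lf 0 5195720 0) (P.lf 0 577302 0)))) (P.cons (P.cons (P.lf 7743825 0 0) (P.cons (P.lf 1796686 0 0) (P.cons (P.lf 0 774750 0) (P.lf 0 86082 0)))) (P.cons (P.cons (P.lf 1095571 0 0) (P.cons (P.lf 0 45653 0) (P.cons (P.lf 19686 0 0) P.nil))) (P.cons (P.cons (P.lf 0 54020 0) (P.cons (P.lf 0 9782 0) P.nil)) (P.cons (P.cons (P.lf 0 6570 0) P.nil) P.nil)))))) 13529)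
 (EL.cons 8 (TM.mk (P.cons (P.cons (P.lf 0 582056902 0) (P.cons (P.lf 0 165635770 0) (P.cons (P.lf 71424012 0 0) (P.lf 7936000 0 0)))) (P.cons (P.cons (P.lf 0 105104296 0) (P.cons (P.lf 0 13846459 0) (P.cons (P.lf 5970749 0 0) (P.lf 663416 0 0)))) (P.cons (P.cons (P.lf 0 6618459 0) (P.cons (P.lf 847503 0 0) (P.cons (P.lf 0 365451 0) (P.lf 0 40605 0)))) (P.cons (P.cons (P.lf 765465 0 0) (P.cons (P.lf 101839 0 0) (P.cons (P.lf 0 43913 0) P.nil))) (P.cons (P.cons (P.lf 64676 0 0) (P.cons (P.lf 0 1403 0) P.nil)) (P.cons (P.cons (P.lf 0 1940 0) P.nil) P.nil)))))) 9161)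
 EL.nil))
noncomputable def S212_227_660_808_14 : EL := (EL.cons 4 (TM.mk (P.cons (P.cons (P.lf 91062525 0 0) (P.cons (P.lf 51827274 0 0) (P.cons (P.lf 0 14974268 0) (P.cons (P.lf 0 8842874 0) (P.cons (P.lf 664554 0 0) (P.cons (P.lf 304708 0 0) P.nil)))))) (P.cons (P.cons (P.lf 11296708 0 0) (P.cons (P.lf 1403291 0 0) (P.cons (P.lf 0 1120587 0) (P.cons (P.lf 377319 0 0) (P.cons (P.lf 0 46453 0) P.nil))))) (P.cons (P.cons (P.lf 0 1818564 0) (P.cons (P.lf 0 1605444 0) (P.cons (P.lf 452043 0 0) (P.cons (P.lf 284109 0 0) P.nil)))) (P.cons (P.cons (P.lf 0 804196 0) (P.cons (P.lf 0 266882 0) (P.cons (P.lf 111397 0 0) P.nil))) (P.cons (P.cons (P.lf 0 58361 0) (P.cons (P.lf 4355 0 0) P.nil)) (P.cons (P.cons (P.lf 4235 0 0) P.nil) P.nil)))))) 237080)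
 (EL.cons 8 (TM.mk (P.cons (P.cons (P.lf 165988188 0 0) (P.cons (P.lf 94470425 0 0) (P.cons (P.lf 0 27295001 0) (P.cons (P.lf 0 16118735 0) (P.cons (P.lf 1211346 0 0) (P.cons (P.lf 555420 0 0) P.nil)))))) (P.cons (P.cons (P.lf 56477294 0 0) (P.cons (P.lf 22981894 0 0) (P.cons (P.lf 0 7943627 0) (P.cons (P.lf 0 2797004 0) (P.cons (P.lf 177211 0 0) P.nil))))) (P.cons (P.cons (P.lf 8327965 0 0) (P.cons (P.lf 1719321 0 0) (P.cons (P.lf 0 800106 0) (P.cons (P.lf 0 31740 0) P.nil)))) (P.cons (P.cons (P.lf 187152 0 0) (P.cons (P.lf 0 167359 0) (P.cons (P.lf 49727 0 0) P.nil))) (P.cons (P.cons (P.lf 0 79982 0) (P.cons (P.lf 0 28439 0) P.nil)) (P.cons (P.cons (P.lf 0 8239 0) P.nil) P.nil)))))) 245747)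
 EL.nil))
noncomputable def S212_227_660_808_15 : EL := (EL.cons 4 (TM.mk (P.cons (P.lf 0 311387573 0) (P.cons (P.lf 121625182 0 0) (P.cons (P.lf 0 9986193 0) (P.cons (P.lf 0 477157 0) (P.cons (P.lf 15147 0 0) (P.cons (P.lf 1009 0 0) P.nil)))))) 78)
 (EL.cons 8 (TM.mk (P.cons (P.lf 0 567595274 0) (P.cons (P.lf 98986650 0 0) (P.cons (P.lf 5137286 0 0) (P.cons (P.lf 0 253256 0) (P.cons (P.lf 0 13708 0) (P.cons (P.lf 277 0 0) P.nil)))))) 68)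
 EL.nil))
noncomputable def S212_227_660_808_16 : EL := (EL.cons 4 (TM.mk (P.cons (P.cons (P.lf 88800010 0 0) (P.cons (P.lf 25269794 0 0) (P.cons (P.lf 0 10896619 0) (P.lf 0 1210735 0)))) (P.cons (P.cons (P.lf 0 20505345 0) (P.cons (P.lf 0 8285817 0) (P.cons (P.lf 3572937 0 0) (P.lf 396992 0 0)))) (P.cons (P.cons (P.lf 0 1805262 0) (P.cons (P.lf 78045 0 0) (P.cons (P.lf 0 33654 0) (P.lf 0 3738 0)))) (P.cons (P.cons (P.lf 140896 0 0) (P.cons (P.lf 124825 0 0) (P.cons (P.lf 0 53825 0) P.nil))) (P.cons (P.cons (P.lf 80948 0 0) (P.cons (P.lf 1301 0 0) P.nil)) (P.cons (P.cons (P.lf 0 582 0) P.nil) P.nil)))))) 14153)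
 (EL.cons 8 (TM.mk (P.cons (P.cons (P.lf 161864090 0 0) (P.cons (P.lf 46061618 0 0) (P.cons (P.lf 0 19862289 0) (P.lf 0 2206920 0)))) (P.cons (P.cons (P.lf 0 2382894 0) (P.cons (P.lf 0 5145067 0) (P.cons (P.lf 2218611 0 0) (P.lf 246512 0 0)))) (P.cons (P.cons (P.lf 0 4358941 0) (P.cons (P.lf 0 1127483 0) (P.cons (P.lf 486182 0 0) (P.lf 54019 0 0)))) (P.cons (P.cons (P.lf 0 632956 0) (P.cons (P.lf 14007 0 0) (P.cons (P.lf 0 6040 0) P.nil))) (P.cons (P.cons (P.lf 23868 0 0) (P.cons (P.lf 7531 0 0) P.nil)) (P.cons (P.cons (P.lf 5140 0 0) P.nil) P.nil)))))) 10227)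
 EL.nil))
noncomputable def S212_227_660_808_17 : EL := (EL.cons 4 (TM.mk (P.cons (P.cons (P.lf 0 25323559 0) (P.cons (P.lf 0 14412636 0) (P.cons (P.lf 4164191 0 0) (P.cons (P.lf 2459113 0 0) (P.cons (P.lf 0 184805 0) (P.cons (P.lf 0 84735 0) P.nil)))))) (P.cons (P.cons (P.lf 1804077 0 0) (P.cons (P.lf 2424480 0 0) (P.cons (P.lf 0 501623 0) (P.cons (P.lf 0 585181 0) (P.cons (P.lf 49009 0 0) P.nil))))) (P.cons (P.cons (P.lf 1196105 0 0) (P.cons (P.lf 566415 0 0) (P.cons (P.lf 0 199206 0) (P.cons (P.lf 0 65979 0) P.nil)))) (P.cons (P.cons (P.lf 130016 0 0) (P.cons (P.lf 0 14288 0) (P.cons (P.lf 0 6651 0) P.nil))) (P.cons (P.cons (P.lf 0 29650 0) (P.cons (P.lf 0 17199 0) P.nil)) (P.cons (P.cons (P.lf 0 4950 0) P.nil) P.nil)))))) 127859)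
 (EL.cons 8 (TM.mk (P.cons (P.cons (P.lf 0 46159622 0) (P.cons (P.lf 0 26271261 0) (P.cons (P.lf 7590461 0 0) (P.cons (P.lf 4482455 0 0) (P.cons (P.lf 0 336862 0) (P.cons (P.lf 0 154456 0) P.nil)))))) (P.cons (P.cons (P.lf 0 6690993 0) (P.cons (P.lf 0 1260370 0) (P.cons (P.lf 726658 0 0) (P.cons (P.lf 0 97584 0) (P.cons (P.lf 16507 0 0) P.nil))))) (P.cons (P.cons (P.lf 891444 0 0) (P.cons (P.lf 849751 0 0) (P.cons (P.lf 0 231952 0) (P.cons (P.lf 0 156682 0) P.nil)))) (P.cons (P.cons (P.lf 439908 0 0) (P.cons (P.lf 154758 0 0) (P.cons (P.lf 0 62670 0) P.nil))) (P.cons (P.cons (P.lf 36483 0 0) (P.cons (P.lf 0 967 0) P.nil)) (P.cons (P.cons (P.lf 0 2367 0) P.nil) P.nil)))))) 133808)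
 EL.nil))
noncomputable def S212_227_660_808_18 : EL := (EL.cons 4 (TM.mk (P.cons (P.lf 86593710 0 0) (P.cons (P.lf 0 50734084 0) (P.cons (P.lf 9119656 0 0) (P.cons (P.lf 0 291978 0) (P.cons (P.lf 0 43993 0) (P.cons (P.lf 441 0 0) P.nil)))))) 153)
 (EL.cons 8 (TM.mk (P.cons (P.lf 157842459 0 0) (P.cons (P.lf 0 58353100 0) (P.cons (P.lf 3468227 0 0) (P.cons (P.lf 460355 0 0) (P.cons (P.lf 0 9599 0) (P.cons (P.lf 0 1439 0) P.nil)))))) 99)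
 EL.nil))
noncomputable def S212_227_660_808_19 : EL := (EL.cons 4 (TM.mk (P.cons (P.cons (P.lf 0 24694377 0) (P.cons (P.lf 0 7027272 0) (P.cons (P.lf 3030238 0 0) (P.lf 336692 0 0)))) (P.cons (P.cons (P.lf 10525028 0 0) (P.cons (P.lf 3676595 0 0) (P.cons (P.lf 0 1585389 0) (P.lf 0 176154 0)))) (P.cons (P.cons (P.lf 0 536661 0) (P.cons (P.lf 0 450374 0) (P.cons (P.lf 194205 0 0) (P.lf 21578 0 0)))) (P.cons (P.cons (P.lf 0 158815 0) (P.cons (P.lf 0 38685 0) (P.cons (P.lf 16681 0 0) P.nil))) (P.cons (P.cons (P.lf 0 15515 0) (P.cons (P.lf 6847 0 0) P.nil)) (P.cons (P.cons (P.lf 4795 0 0) P.nil) P.nil)))))) 10829)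
 (EL.cons 8 (TM.mk (P.cons (P.cons (P.lf 0 45012753 0) (P.cons (P.lf 0 12809266 0) (P.cons (P.lf 5523499 0 0) (P.lf 613722 0 0)))) (P.cons (P.cons (P.lf 9453446 0 0) (P.cons (P.lf 3932382 0 0) (P.cons (P.lf 0 1695687 0) (P.lf 0 188409 0)))) (P.cons (P.cons (P.lf 1219384 0 0) (P.cons (P.lf 72993 0 0) (P.cons (P.lf 0 31475 0) (P.lf 0 3497 0)))) (P.cons (P.cons (P.lf 0 70530 0) (P.cons (P.lf 0 71692 0) (P.cons (P.lf 30914 0 0) P.nil))) (P.cons (P.cons (P.lf 0 44799 0) (P.cons (P.lf 0 2100 0) P.nil)) (P.cons (P.cons (P.lf 0 448 0) P.nil) P.nil)))))) 8805)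
 EL.nil))
noncomputable def S212_227_660_808_20 : EL := (EL.cons 4 (TM.mk (P.cons (P.cons (P.lf 7042223 0 0) (P.cons (P.lf 4008006 0 0) (P.cons (P.lf 0 1158018 0) (P.cons (P.lf 0 683853 0) (P.cons (P.lf 51391 0 0) (P.cons (P.lf 23564 0 0) P.nil)))))) (P.cons (P.cons (P.lf 0 1877010 0) (P.cons (P.lf 0 1456968 0) (P.cons (P.lf 365652 0 0) (P.cons (P.lf 296286 0 0) (P.cons (P.lf 0 23665 0) P.nil))))) (P.cons (P.cons (P.lf 0 256020 0) (P.cons (P.lf 0 38006 0) (P.cons (P.lf 31668 0 0) (P.cons (P.lf 0 11356 0) P.nil)))) (P.cons (P.cons (P.lf 31547 0 0) (P.cons (P.lf 37476 0 0) (P.cons (P.lf 0 9592 0) P.nil))) (P.cons (P.cons (P.lf 16263 0 0) (P.cons (P.lf 4387 0 0) P.nil)) (P.cons (P.cons (P.lf 0 184 0) P.nil) P.nil)))))) 65462)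
 (EL.cons 8 (TM.mk (P.cons (P.cons (P.lf 12836520 0 0) (P.cons (P.lf 7305770 0 0) (P.cons (P.lf 0 2110829 0) (P.cons (P.lf 0 1246525 0) (P.cons (P.lf 93678 0 0) (P.cons (P.lf 42952 0 0) P.nil)))))) (P.cons (P.cons (P.lf 0 646217 0) (P.cons (P.lf 0 1076287 0) (P.cons (P.lf 210158 0 0) (P.cons (P.lf 270577 0 0) (P.cons (P.lf 0 22885 0) P.nil))))) (P.cons (P.cons (P.lf 0 650248 0) (P.cons (P.lf 0 326931 0) (P.cons (P.lf 110374 0 0) (P.cons (P.lf 42055 0 0) P.nil)))) (P.cons (P.cons (P.lf 0 77341 0) (P.cons (P.lf 3315 0 0) (P.cons (P.lf 5077 0 0) P.nil))) (P.cons (P.cons (P.lf 14883 0 0) (P.cons (P.lf 9487 0 0) P.nil)) (P.cons (P.cons (P.lf 2975 0 0) P.nil) P.nil)))))) 70058)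
 EL.nil))
noncomputable def S212_227_660_808_21 : EL := (EL.cons 4 (TM.mk (P.cons (P.cons (P.lf 2439720414 0 0) (P.cons (P.lf 272607555 0 0) (P.cons (P.lf 0 117551451 0) (P.lf 0 13061268 0)))) (P.cons (P.cons (P.lf 330752346 0 0) (P.cons (P.lf 0 36147387 0) (P.cons (P.lf 15587160 0 0) (P.lf 1731906 0 0)))) (P.cons (P.cons (P.lf 0 53190051 0) (P.cons (P.lf 0 5390058 0) (P.cons (P.lf 2324250 0 0) (P.lf 258246 0 0)))) (P.cons (P.cons (P.lf 0 4718187 0) (P.cons (P.lf 136959 0 0) (P.cons (P.lf 0 59058 0) P.nil))) (P.cons (P.cons (P.lf 207501 0 0) (P.cons (P.lf 29346 0 0) P.nil)) (P.cons (P.cons (P.lf 22737 0 0) P.nil) P.nil)))))) 40899)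
 (EL.cons 8 (TM.mk (P.cons (P.cons (P.lf 0 475893792 0) (P.cons (P.lf 0 53175051 0) (P.cons (P.lf 22929684 0 0) (P.lf 2547744 0 0)))) (P.cons (P.cons (P.lf 38368782 0 0) (P.cons (P.lf 18547080 0 0) (P.cons (P.lf 0 7997709 0) (P.lf 0 888633 0)))) (P.cons (P.cons (P.lf 22697157 0 0) (P.cons (P.lf 0 654699 0) (P.cons (P.lf 282309 0 0) (P.lf 31368 0 0)))) (P.cons (P.cons (P.lf 0 1412526 0) (P.cons (P.lf 0 215316 0) (P.cons (P.lf 92844 0 0) P.nil))) (P.cons (P.cons (P.lf 0 189459 0) (P.cons (P.lf 1347 0 0) P.nil)) (P.cons (P.cons (P.lf 4341 0 0) P.nil) P.nil)))))) 33963)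
 (EL.cons 11 (TM.mk (P.cons (P.cons (P.lf 1149402282 0 0) (P.cons (P.lf 0 1070774556 0) (P.cons (P.lf 0 109896303 0) (P.cons (P.lf 22855374 0 0) (P.lf 1904613 0 0))))) (P.cons (P.cons (P.lf 48042627 0 0) (P.cons (P.lf 0 44756151 0) (P.cons (P.lf 0 4593435 0) (P.cons (P.lf 955305 0 0) (P.lf 79608 0 0))))) (P.cons (P.cons (P.lf 0 3944601 0) (P.cons (P.lf 3674760 0 0) (P.cons (P.lf 377148 0 0) (P.cons (P.lf 0 78435 0) P.nil)))) (P.cons (P.cons (P.lf 0 188478 0) (P.cons (P.lf 175584 0 0) (P.cons (P.lf 18018 0 0) P.nil))) (P.cons (P.cons (P.lf 5979 0 0) (P.cons (P.lf 0 5571 0) P.nil)) (P.cons (P.cons (P.lf 396 0 0) P.nil) P.nil)))))) 11988)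
 EL.nil)))
noncomputable def S212_227_660_808_22 : EL := (EL.cons 4 (TM.mk (P.cons (P.cons (P.lf 0 695747736 0) (P.cons (P.lf 0 275729649 0) (P.cons (P.lf 96775023 0 0) (P.cons (P.lf 32289978 0 0) (P.cons (P.lf 0 1993662 0) (P.cons (P.lf 0 914124 0) P.nil)))))) (P.cons (P.cons (P.lf 0 205415853 0) (P.cons (P.lf 0 41359500 0) (P.cons (P.lf 19381098 0 0) (P.cons (P.lf 647964 0 0) (P.cons (P.lf 139359 0 0) P.nil))))) (P.cons (P.cons (P.lf 0 6827712 0) (P.cons (P.lf 5931285 0 0) (P.cons (P.lf 0 1836909 0) (P.cons (P.lf 0 905745 0) P.nil)))) (P.cons (P.cons (P.lf 3643434 0 0) (P.cons (P.lf 1245336 0 0) (P.cons (P.lf 0 525948 0) P.nil))) (P.cons (P.cons (P.lf 460845 0 0) (P.cons (P.lf 0 10782 0) P.nil)) (P.cons (P.cons (P.lf 0 16152 0) P.nil) P.nil)))))) 712626)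
 (EL.cons 8 (TM.mk (P.cons (P.cons (P.lf 135713103 0 0) (P.cons (P.lf 53784045 0 0) (P.cons (P.lf 0 18877011 0) (P.cons (P.lf 0 6298509 0) (P.cons (P.lf 388884 0 0) (P.cons (P.lf 178308 0 0) P.nil)))))) (P.cons (P.cons (P.lf 10728159 0 0) (P.cons (P.lf 0 3560190 0) (P.cons (P.lf 300612 0 0) (P.cons (P.lf 1235307 0 0) (P.cons (P.lf 0 111258 0) P.nil))))) (P.cons (P.cons (P.lf 0 6867000 0) (P.cons (P.lf 0 2717334 0) (P.cons (P.lf 1111122 0 0) (P.cons (P.lf 182475 0 0) P.nil)))) (P.cons (P.cons (P.lf 0 898965 0) (P.cons (P.lf 20007 0 0) (P.cons (P.lf 17391 0 0) P.nil))) (P.cons (P.cons (P.lf 58209 0 0) (P.cons (P.lf 48810 0 0) P.nil)) (P.cons (P.cons (P.lf 20013 0 0) P.nil) P.nil)))))) 244581)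
 (EL.cons 11 (TM.mk (P.cons (P.cons (P.lf 0 327781014 0) (P.cons (P.lf 212081787 0 0) (P.cons (P.lf 158457336 0 0) (P.cons (P.lf 0 30600777 0) (P.cons (P.lf 0 10406976 0) (P.cons (P.lf 217932 0 0) P.nil)))))) (P.cons (P.cons (P.lf 0 66038985 0) (P.cons (P.lf 51774510 0 0) (P.cons (P.lf 19597227 0 0) (P.cons (P.lf 0 3829701 0) (P.cons (P.lf 0 1140147 0) P.nil))))) (P.cons (P.cons (P.lf 0 4330083 0) (P.cons (P.lf 4528605 0 0) (P.cons (P.lf 0 260211 0) (P.cons (P.lf 41631 0 0) P.nil)))) (P.cons (P.cons (P.lf 481284 0 0) (P.cons (P.lf 0 362076 0) (P.cons (P.lf 0 163602 0) P.nil))) (P.cons (P.cons (P.lf 54576 0 0) (P.cons (P.lf 0 51183 0) P.nil)) (P.cons (P.cons (P.lf 0 1122 0) P.nil) P.nil)))))) 553800)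
 EL.nil)))
noncomputable def S212_227_660_808_23 : EL := (EL.cons 4 (TM.mk (P.cons (P.cons (P.lf 0 678461376 0) (P.cons (P.lf 0 75809382 0) (P.cons (P.lf 32689860 0 0) (P.lf 3632205 0 0)))) (P.cons (P.cons (P.lf 40521597 0 0) (P.cons (P.lf 24857448 0 0) (P.cons (P.lf 0 10718811 0) (P.lf 0 1190976 0)))) (P.cons (P.cons (P.lf 34813914 0 0) (P.cons (P.lf 0 234138 0) (P.cons (P.lf 100962 0 0) (P.lf 11217 0 0)))) (P.cons (P.cons (P.lf 0 1415145 0) (P.cons (P.lf 0 374475 0) (P.cons (P.lf 161478 0 0) P.nil))) (P.cons (P.cons (P.lf 0 378144 0) (P.cons (P.lf 0 3903 0) P.nil)) (P.cons (P.cons (P.lf 3162 0 0) P.nil) P.nil)))))) 40284)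
 (EL.cons 8 (TM.mk (P.cons (P.cons (P.lf 132341211 0 0) (P.cons (P.lf 14787438 0 0) (P.cons (P.lf 0 6376509 0) (P.lf 0 708501 0)))) (P.cons (P.cons (P.lf 0 36515610 0) (P.cons (P.lf 0 8045673 0) (P.cons (P.lf 3469383 0 0) (P.lf 385485 0 0)))) (P.cons (P.cons (P.lf 0 4629729 0) (P.cons (P.lf 1144467 0 0) (P.cons (P.lf 0 493506 0) (P.lf 0 54834 0)))) (P.cons (P.cons (P.lf 1680819 0 0) (P.cons (P.lf 42537 0 0) (P.cons (P.lf 0 18342 0) P.nil))) (P.cons (P.cons (P.lf 0 6066 0) (P.cons (P.lf 0 13440 0) P.nil)) (P.cons (P.cons (P.lf 0 13851 0) P.nil) P.nil)))))) 20682)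
 (EL.cons 11 (TM.mk (P.cons (P.cons (P.lf 0 319637058 0) (P.cons (P.lf 297771489 0 0) (P.cons (P.lf 30561039 0 0) (P.cons (P.lf 0 6355845 0) (P.lf 0 529653 0))))) (P.cons (P.cons (P.lf 49063512 0 0) (P.cons (P.lf 0 45707202 0) (P.cons (P.lf 0 4691046 0) (P.cons (P.lf 975606 0 0) (P.lf 81300 0 0))))) (P.cons (P.cons (P.lf 4676286 0 0) (P.cons (P.lf 0 4356393 0) (P.cons (P.lf 0 447105 0) (P.cons (P.lf 92985 0 0) P.nil)))) (P.cons (P.cons (P.lf 0 176697 0) (P.cons (P.lf 164610 0 0) (P.cons (P.lf 16893 0 0) P.nil))) (P.cons (P.cons (P.lf 0 19122 0) (P.cons (P.lf 17814 0 0) P.nil)) (P.cons (P.cons (P.lf 219 0 0) P.nil) P.nil)))))) 19008)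
 EL.nil)))
noncomputable def S212_227_660_808_24 : EL := (EL.cons 4 (TM.mk (P.cons (P.cons (P.lf 193480353 0 0) (P.cons (P.lf 76677603 0 0) (P.cons (P.lf 0 26912145 0) (P.cons (P.lf 0 8979513 0) (P.cons (P.lf 554415 0 0) (P.cons (P.lf 254208 0 0) P.nil)))))) (P.cons (P.cons (P.lf 19338213 0 0) (P.cons (P.lf 0 3473133 0) (P.cons (P.lf 0 133863 0) (P.cons (P.lf 1573464 0 0) (P.cons (P.lf 0 147030 0) P.nil))))) (P.cons (P.cons (P.lf 0 9844599 0) (P.cons (P.lf 0 4128381 0) (P.cons (P.lf 1645089 0 0) (P.cons (P.lf 314322 0 0) P.nil)))) (P.cons (P.cons (P.lf 0 1523838 0) (P.cons (P.lf 0 45801 0) (P.cons (P.lf 58188 0 0) P.nil))) (P.cons (P.cons (P.lf 74814 0 0) (P.cons (P.lf 78012 0 0) P.nil)) (P.cons (P.cons (P.lf 33180 0 0) P.nil) P.nil)))))) 346059)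
 (EL.cons 8 (TM.mk (P.cons (P.cons (P.lf 0 37740429 0) (P.cons (P.lf 0 14956794 0) (P.cons (P.lf 5249505 0 0) (P.cons (P.lf 1751550 0 0) (P.cons (P.lf 0 108144 0) (P.cons (P.lf 0 49584 0) P.nil)))))) (P.cons (P.cons (P.lf 4387143 0 0) (P.cons (P.lf 3911046 0 0) (P.cons (P.lf 0 1108800 0) (P.cons (P.lf 0 685596 0) (P.cons (P.lf 52059 0 0) P.nil))))) (P.cons (P.cons (P.lf 2606832 0 0) (P.cons (P.lf 607704 0 0) (P.cons (P.lf 0 308598 0) (P.cons (P.lf 11025 0 0) P.nil)))) (P.cons (P.cons (P.lf 0 120441 0) (P.cons (P.lf 0 158739 0) (P.cons (P.lf 56670 0 0) P.nil))) (P.cons (P.cons (P.lf 0 71508 0) (P.cons (P.lf 0 14682 0) P.nil)) (P.cons (P.cons (P.lf 0 2841 0) P.nil) P.nil)))))) 112383)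
 (EL.cons 11 (TM.mk (P.cons (P.cons (P.lf 91152558 0 0) (P.cons (P.lf 0 58977783 0) (P.cons (P.lf 0 44065368 0) (P.cons (P.lf 8509764 0 0) (P.cons (P.lf 2894073 0 0) (P.cons (P.lf 0 60603 0) P.nil)))))) (P.cons (P.cons (P.lf 563082 0 0) (P.cons (P.lf 0 2879868 0) (P.cons (P.lf 3155976 0 0) (P.cons (P.lf 0 596916 0) (P.cons (P.lf 0 248136 0) P.nil))))) (P.cons (P.cons (P.lf 0 2659065 0) (P.cons (P.lf 1731504 0 0) (P.cons (P.lf 1270425 0 0) (P.cons (P.lf 0 245394 0) P.nil)))) (P.cons (P.cons (P.lf 0 408936 0) (P.cons (P.lf 380109 0 0) (P.cons (P.lf 40263 0 0) P.nil))) (P.cons (P.cons (P.lf 10941 0 0) (P.cons (P.lf 0 4395 0) P.nil)) (P.cons (P.cons (P.lf 3969 0 0) P.nil) P.nil)))))) 284607)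
 EL.nil)))
noncomputable def S212_227_660_808_25 : EL := (EL.cons 4 (TM.mk (P.cons (P.cons (P.lf 188673192 0 0) (P.cons (P.lf 21081816 0 0) (P.cons (P.lf 0 9090714 0) (P.lf 0 1010079 0)))) (P.cons (P.cons (P.lf 0 48115668 0) (P.cons (P.lf 0 11029785 0) (P.cons (P.lf 4756167 0 0) (P.lf 528462 0 0)))) (P.cons (P.cons (P.lf 0 8053335 0) (P.cons (P.lf 1351122 0 0) (P.cons (P.lf 0 582618 0) (P.lf 0 64734 0)))) (P.cons (P.cons (P.lf 2351190 0 0) (P.cons (P.lf 116058 0 0) (P.cons (P.lf 0 50043 0) P.nil))) (P.cons (P.cons (P.lf 56664 0 0) (P.cons (P.lf 0 20544 0) P.nil)) (P.cons (P.cons (P.lf 0 24369 0) P.nil) P.nil)))))) 33921)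
 (EL.cons 8 (TM.mk (P.cons (P.cons (P.lf 0 36802740 0) (P.cons (P.lf 0 4112235 0) (P.cons (P.lf 1773240 0 0) (P.lf 197025 0 0)))) (P.cons (P.cons (P.lf 17342028 0 0) (P.cons (P.lf 3040521 0 0) (P.cons (P.lf 0 1311105 0) (P.lf 0 145677 0)))) (P.cons (P.cons (P.lf 0 583965 0) (P.cons (P.lf 0 742740 0) (P.cons (P.lf 320277 0 0) (P.lf 35586 0 0)))) (P.cons (P.cons (P.lf 0 756060 0) (P.cons (P.lf 42819 0 0) (P.cons (P.lf 0 18465 0) P.nil))) (P.cons (P.cons (P.lf 90642 0 0) (P.cons (P.lf 7380 0 0) P.nil)) (P.cons (P.cons (P.lf 5217 0 0) P.nil) P.nil)))))) 13995)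
 (EL.cons 11 (TM.mk (P.cons (P.cons (P.lf 88887807 0 0) (P.cons (P.lf 0 82807215 0) (P.cons (P.lf 0 8498712 0) (P.cons (P.lf 1767495 0 0) (P.lf 147291 0 0))))) (P.cons (P.cons (P.lf 0 31003449 0) (P.cons (P.lf 28882581 0 0) (P.cons (P.lf 2964291 0 0) (P.cons (P.lf 0 616488 0) (P.lf 0 51372 0))))) (P.cons (P.cons (P.lf 1094406 0 0) (P.cons (P.lf 0 1019538 0) (P.cons (P.lf 0 104637 0) (P.cons (P.lf 21759 0 0) P.nil)))) (P.cons (P.cons (P.lf 359931 0 0) (P.cons (P.lf 0 335310 0) (P.cons (P.lf 0 34413 0) P.nil))) (P.cons (P.cons (P.lf 0 2256 0) (P.cons (P.lf 2103 0 0) P.nil)) (P.cons (P.cons (P.lf 0 1551 0) P.nil) P.nil)))))) 21048)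
 EL.nil)))
noncomputable def S212_227_660_808_26 : EL := (EL.cons 4 (TM.mk (P.cons (P.cons (P.lf 0 53804913 0) (P.cons (P.lf 0 21323259 0) (P.cons (P.lf 7483992 0 0) (P.cons (P.lf 2497110 0 0) (P.cons (P.lf 0 154176 0) (P.cons (P.lf 0 70692 0) P.nil)))))) (P.cons (P.cons (P.lf 5130096 0 0) (P.cons (P.lf 5130180 0 0) (P.cons (P.lf 0 1424361 0) (P.cons (P.lf 0 925239 0) (P.cons (P.lf 70995 0 0) P.nil))))) (P.cons (P.cons (P.lf 3951240 0 0) (P.cons (P.lf 1024155 0 0) (P.cons (P.lf 0 487467 0) (P.cons (P.lf 0 9534 0) P.nil)))) (P.cons (P.cons (P.lf 0 103899 0) (P.cons (P.lf 0 218103 0) (P.cons (P.lf 74346 0 0) P.nil))) (P.cons (P.cons (P.lf 0 113070 0) (P.cons (P.lf 0 27603 0) P.nil)) (P.cons (P.cons (P.lf 0 5994 0) P.nil) P.nil)))))) 148590)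
 (EL.cons 8 (TM.mk (P.cons (P.cons (P.lf 10495227 0 0) (P.cons (P.lf 4159332 0 0) (P.cons (P.lf 0 1459833 0) (P.cons (P.lf 0 487086 0) (P.cons (P.lf 30072 0 0) (P.cons (P.lf 13788 0 0) P.nil)))))) (P.cons (P.cons (P.lf 0 3269691 0) (P.cons (P.lf 0 1899921 0) (P.cons (P.lf 593445 0 0) (P.cons (P.lf 285783 0 0) (P.cons (P.lf 0 20349 0) P.nil))))) (P.cons (P.cons (P.lf 0 518523 0) (P.cons (P.lf 30786 0 0) (P.cons (P.lf 30030 0 0) (P.cons (P.lf 0 38820 0) P.nil)))) (P.cons (P.cons (P.lf 180591 0 0) (P.cons (P.lf 81168 0 0) (P.cons (P.lf 0 33708 0) P.nil))) (P.cons (P.cons (P.lf 15384 0 0) (P.cons (P.lf 0 4191 0) P.nil)) (P.cons (P.cons (P.lf 0 3327 0) P.nil) P.nil)))))) 46764)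
 (EL.cons 11 (TM.mk (P.cons (P.cons (P.lf 0 25348596 0) (P.cons (P.lf 16401120 0 0) (P.cons (P.lf 12254130 0 0) (P.cons (P.lf 0 2366478 0) (P.cons (P.lf 0 804810 0) (P.cons (P.lf 16851 0 0) P.nil)))))) (P.cons (P.cons (P.lf 4793877 0 0) (P.cons (P.lf 0 2402202 0) (P.cons (P.lf 0 3270819 0) (P.cons (P.lf 628158 0 0) (P.cons (P.lf 226179 0 0) P.nil))))) (P.cons (P.cons (P.lf 846975 0 0) (P.cons (P.lf 0 687696 0) (P.cons (P.lf 0 219084 0) (P.cons (P.lf 43005 0 0) P.nil)))) (P.cons (P.cons (P.lf 0 34611 0) (P.cons (P.lf 0 11253 0) (P.cons (P.lf 62586 0 0) P.nil))) (P.cons (P.cons (P.lf 0 27648 0) (P.cons (P.lf 23547 0 0) P.nil)) (P.cons (P.cons (P.lf 0 723 0) P.nil) P.nil)))))) 123360)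
 EL.nil)))
noncomputable def S212_227_660_808_27 : EL := (EL.cons 13 (TM.mk (P.lf 0 4294967296 0) 0)
 EL.nil)
noncomputable def S212_227_660_808_28 : EL := (EL.cons 13 (TM.mk (P.cons (P.cons (P.lf 1224818123 0 0) (P.cons (P.lf 348546152 0 0) (P.cons (P.lf 0 150297032 0) (P.lf 0 16699668 0)))) (P.cons (P.cons (P.lf 195572782 0 0) (P.cons (P.lf 21852752 0 0) (P.cons (P.lf 0 9423152 0) (P.lf 0 1047016 0)))) (P.cons (P.cons (P.lf 12209098 0 0) (P.cons (P.lf 0 1565896 0) (P.cons (P.lf 675228 0 0) (P.lf 75024 0 0)))) (P.cons (P.cons (P.lf 0 1436712 0) (P.cons (P.lf 0 124816 0) (P.cons (P.lf 53820 0 0) P.nil))) (P.cons (P.cons (P.lf 0 76287 0) (P.cons (P.lf 2884 0 0) P.nil)) (P.cons (P.cons (P.lf 3020 0 0) P.nil) P.nil)))))) 10465)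
 EL.nil)
noncomputable def S212_227_660_808_29 : EL := (EL.cons 13 (TM.mk (P.cons (P.cons (P.lf 0 349287743 0) (P.cons (P.lf 0 198793431 0) (P.cons (P.lf 57436674 0 0) (P.cons (P.lf 33918539 0 0) (P.cons (P.lf 0 2549027 0) (P.cons (P.lf 0 1168768 0) P.nil)))))) (P.cons (P.cons (P.lf 0 111545011 0) (P.cons (P.lf 0 44206058 0) (P.cons (P.lf 15515351 0 0) (P.cons (P.lf 5176855 0 0) (P.cons (P.lf 0 319632 0) P.nil))))) (P.cons (P.cons (P.lf 0 15868936 0) (P.cons (P.lf 0 3078626 0) (P.cons (P.lf 1470505 0 0) (P.cons (P.lf 24209 0 0) P.nil)))) (P.cons (P.cons (P.lf 0 292461 0) (P.cons (P.lf 322741 0 0) (P.cons (P.lf 0 102975 0) P.nil))) (P.cons (P.cons (P.lf 139646 0 0) (P.cons (P.lf 45626 0 0) P.nil)) (P.cons (P.cons (P.lf 13393 0 0) P.nil) P.nil)))))) 446926)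
 EL.nil)
noncomputable def S212_227_660_808_30 : EL := (EL.cons 13 (TM.mk (P.cons (P.lf 1194386624 0 0) (P.cons (P.lf 0 233258332 0) (P.cons (P.lf 0 3625172 0) (P.cons (P.lf 207136 0 0) (P.cons (P.lf 5900 0 0) (P.cons (P.lf 0 156 0) P.nil)))))) 48)
 EL.nil)
noncomputable def S212_227_660_808_31 : EL := (EL.cons 13 (TM.mk (P.cons (P.cons (P.lf 0 340609434 0) (P.cons (P.lf 0 96927131 0) (P.cons (P.lf 41796072 0 0) (P.lf 4644007 0 0)))) (P.cons (P.cons (P.lf 12132692 0 0) (P.cons (P.lf 12852405 0 0) (P.cons (P.lf 0 5542102 0) (P.lf 0 615789 0)))) (P.cons (P.cons (P.lf 8260080 0 0) (P.cons (P.lf 1916466 0 0) (P.cons (P.lf 0 826400 0) (P.lf 0 91821 0)))) (P.cons (P.cons (P.lf 1168610 0 0) (P.cons (P.lf 0 48697 0) (P.cons (P.lf 20999 0 0) P.nil))) (P.cons (P.cons (P.lf 0 57622 0) (P.cons (P.lf 0 10435 0) P.nil)) (P.cons (P.cons (P.lf 0 7008 0) P.nil) P.nil))))))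 14411)
 EL.nil)
noncomputable def S212_227_660_808_32 : EL := (EL.cons 13 (TM.mk (P.cons (P.cons (P.lf 97133360 0 0) (P.cons (P.lf 55282426 0 0) (P.cons (P.lf 0 15972553 0) (P.cons (P.lf 0 9432399 0) (P.cons (P.lf 708858 0 0) (P.cons (P.lf 325022 0 0) P.nil)))))) (P.cons (P.cons (P.lf 12049822 0 0) (P.cons (P.lf 1496844 0 0) (P.cons (P.lf 0 1195293 0) (P.cons (P.lf 402474 0 0) (P.cons (P.lf 0 49550 0) P.nil))))) (P.cons (P.cons (P.lf 0 1939802 0) (P.cons (P.lf 0 1712474 0) (P.cons (P.lf 482180 0 0) (P.cons (P.lf 303050 0 0) P.nil)))) (P.cons (P.cons (P.lf 0 857810 0) (P.cons (P.lf 0 284675 0) (P.cons (P.lf 118824 0 0) P.nil))) (P.cons (P.cons (P.lf 0 62252 0) (P.cons (P.lf 4646 0 0) P.nil)) (P.cons (P.cons (P.lf 4518 0 0) P.nil) P.nil)))))) 252862)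
 EL.nil)
noncomputable def S212_227_660_808_33 : EL := (EL.cons 14 (TM.mk (P.lf 8589934592 0 0) 0)
 EL.nil)
noncomputable def S212_227_660_808_34 : EL := (EL.cons 14 (TM.mk (P.cons (P.cons (P.lf 0 2449636246 0) (P.cons (P.lf 0 697092304 0) (P.cons (P.lf 300594064 0 0) (P.lf 33399336 0 0)))) (P.cons (P.cons (P.lf 0 391145564 0) (P.cons (P.lf 0 43705504 0) (P.cons (P.lf 18846304 0 0) (P.lf 2094032 0 0)))) (P.cons (P.cons (P.lf 0 24418196 0) (P.cons (P.lf 3131792 0 0) (P.cons (P.lf 0 1350456 0) (P.lf 0 150048 0)))) (P.cons (P.cons (P.lf 2873424 0 0) (P.cons (P.lf 249632 0 0) (P.cons (P.lf 0 107640 0) P.nil))) (P.cons (P.cons (P.lf 152574 0 0) (P.cons (P.lf 0 5768 0) P.nil)) (P.cons (P.cons (P.lf 0 6040 0) P.nil) P.nil)))))) 20930)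
 EL.nil)
noncomputable def S212_227_660_808_35 : EL := (EL.cons 14 (TM.mk (P.cons (P.cons (P.lf 698575486 0 0) (P.cons (P.lf 397586862 0 0) (P.cons (P.lf 0 114873348 0) (P.cons (P.lf 0 67837078 0) (P.cons (P.lf 5098054 0 0) (P.cons (P.lf 2337536 0 0) P.nil)))))) (P.cons (P.cons (P.lf 223090022 0 0) (P.cons (P.lf 88412116 0 0) (P.cons (P.lf 0 31030702 0) (P.cons (P.lf 0 10353710 0) (P.cons (P.lf 639264 0 0) P.nil))))) (P.cons (P.cons (P.lf 31737872 0 0) (P.cons (P.lf 6157252 0 0) (P.cons (P.lf 0 2941010 0) (P.cons (P.lf 0 48418 0) P.nil)))) (P.cons (P.cons (P.lf 584922 0 0) (P.cons (P.lf 0 645482 0) (P.cons (P.lf 205950 0 0) P.nil))) (P.cons (P.cons (P.lf 0 279292 0) (P.cons (P.lf 0 91252 0) P.nil)) (P.cons (P.cons (P.lf 0 26786 0) P.nil) P.nil)))))) 893852)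
 EL.nil)
noncomputable def S212_227_660_808_36 : EL := (EL.cons 14 (TM.mk (P.cons (P.lf 0 2388773248 0) (P.cons (P.lf 466516664 0 0) (P.cons (P.lf 7250344 0 0) (P.cons (P.lf 0 414272 0) (P.cons (P.lf 0 11800 0) (P.cons (P.lf 312 0 0) P.nil)))))) 96)
 EL.nil)
noncomputable def S212_227_660_808_37 : EL := (EL.cons 14 (TM.mk (P.cons (P.cons (P.lf 681218868 0 0) (P.cons (P.lf 193854262 0 0) (P.cons (P.lf 0 83592144 0) (P.lf 0 9288014 0)))) (P.cons (P.cons (P.lf 0 24265384 0) (P.cons (P.lf 0 25704810 0) (P.cons (P.lf 11084204 0 0) (P.lf 1231578 0 0)))) (P.cons (P.cons (P.lf 0 16520160 0) (P.cons (P.lf 0 3832932 0) (P.cons (P.lf 1652800 0 0) (P.lf 183642 0 0)))) (P.cons (P.cons (P.lf 0 2337220 0) (P.cons (P.lf 97394 0 0) (P.cons (P.lf 0 41998 0) P.nil))) (P.cons (P.cons (P.lf 115244 0 0) (P.cons (P.lf 20870 0 0) P.nil)) (P.cons (P.cons (P.lf 14016 0 0) P.nil) P.nil))))))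 28822)
 EL.nil)
noncomputable def S212_227_660_808_38 : EL := (EL.cons 14 (TM.mk (P.cons (P.cons (P.lf 0 194266720 0) (P.cons (P.lf 0 110564852 0) (P.cons (P.lf 31945106 0 0) (P.cons (P.lf 18864798 0 0) (P.cons (P.lf 0 1417716 0) (P.cons (P.lf 0 650044 0) P.nil)))))) (P.cons (P.cons (P.lf 0 24099644 0) (P.cons (P.lf 0 2993688 0) (P.cons (P.lf 2390586 0 0) (P.cons (P.lf 0 804948 0) (P.cons (P.lf 99100 0 0) P.nil))))) (P.cons (P.cons (P.lf 3879604 0 0) (P.cons (P.lf 3424948 0 0) (P.cons (P.lf 0 964360 0) (P.cons (P.lf 0 606100 0) P.nil)))) (P.cons (P.cons (P.lf 1715620 0 0) (P.cons (P.lf 569350 0 0) (P.cons (P.lf 0 237648 0) P.nil))) (P.cons (P.cons (P.lf 124504 0 0) (P.cons (P.lf 0 9292 0) P.nil)) (P.cons (P.cons (P.lf 0 9036 0) P.nil) P.nil)))))) 505724)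
 EL.nil)
noncomputable def S212_227_660_808_39 : EL := (EL.cons 14 (TM.mk (P.cons (P.lf 664293490 0 0) (P.cons (P.lf 0 259467056 0) (P.cons (P.lf 21303880 0 0) (P.cons (P.lf 1017936 0 0) (P.cons (P.lf 0 32314 0) (P.cons (P.lf 0 2154 0) P.nil)))))) 152)
 EL.nil)
noncomputable def S212_227_660_808_40 : EL := (EL.cons 14 (TM.mk (P.cons (P.cons (P.lf 0 189440022 0) (P.cons (P.lf 0 53908894 0) (P.cons (P.lf 23246122 0 0) (P.lf 2582902 0 0)))) (P.cons (P.cons (P.lf 43744738 0 0) (P.cons (P.lf 17676410 0 0) (P.cons (P.lf 0 7622266 0) (P.lf 0 846918 0)))) (P.cons (P.cons (P.lf 3851226 0 0) (P.cons (P.lf 0 166496 0) (P.cons (P.lf 71796 0 0) (P.lf 7976 0 0)))) (P.cons (P.cons (P.lf 0 300580 0) (P.cons (P.lf 0 266294 0) (P.cons (P.lf 114828 0 0) P.nil))) (P.cons (P.cons (P.lf 0 172690 0) (P.cons (P.lf 0 2776 0) P.nil)) (P.cons (P.cons (P.lf 1242 0 0) P.nil) P.nil))))))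 30154)
 EL.nil)
noncomputable def S212_227_660_808_41 : EL := (EL.cons 14 (TM.mk (P.cons (P.cons (P.lf 54023594 0 0) (P.cons (P.lf 30746958 0 0) (P.cons (P.lf 0 8883608 0) (P.cons (P.lf 0 5246108 0) (P.cons (P.lf 394252 0 0) (P.cons (P.lf 180770 0 0) P.nil)))))) (P.cons (P.cons (P.lf 0 3848698 0) (P.cons (P.lf 0 5172226 0) (P.cons (P.lf 1070130 0 0) (P.cons (P.lf 1248388 0 0) (P.cons (P.lf 0 104554 0) P.nil))))) (P.cons (P.cons (P.lf 0 2551692 0) (P.cons (P.lf 0 1208352 0) (P.cons (P.lf 424974 0 0) (P.cons (P.lf 140756 0 0) P.nil)))) (P.cons (P.cons (P.lf 0 277368 0) (P.cons (P.lf 30482 0 0) (P.cons (P.lf 14190 0 0) P.nil))) (P.cons (P.cons (P.lf 63254 0 0) (P.cons (P.lf 36692 0 0) P.nil)) (P.cons (P.cons (P.lf 10562 0 0) P.nil) P.nil)))))) 272720)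
 EL.nil)
noncomputable def S212_227_660_808_42 : EL := (EL.cons 14 (TM.mk (P.cons (P.lf 0 184733248 0) (P.cons (P.lf 108232714 0 0) (P.cons (P.lf 0 19455268 0) (P.cons (P.lf 622888 0 0) (P.cons (P.lf 93852 0 0) (P.cons (P.lf 0 942 0) P.nil)))))) 312)
 EL.nil)
noncomputable def S212_227_660_808_43 : EL := (EL.cons 14 (TM.mk (P.cons (P.cons (P.lf 52681338 0 0) (P.cons (P.lf 14991514 0 0) (P.cons (P.lf 0 6464508 0) (P.lf 0 718278 0)))) (P.cons (P.cons (P.lf 0 22453394 0) (P.cons (P.lf 0 7843404 0) (P.cons (P.lf 3382164 0 0) (P.lf 375796 0 0)))) (P.cons (P.cons (P.lf 1144878 0 0) (P.cons (P.lf 960798 0 0) (P.cons (P.lf 0 414306 0) (P.lf 0 46034 0)))) (P.cons (P.cons (P.lf 338806 0 0) (P.cons (P.lf 82530 0 0) (P.cons (P.lf 0 35588 0) P.nil))) (P.cons (P.cons (P.lf 33100 0 0) (P.cons (P.lf 0 14608 0) P.nil)) (P.cons (P.cons (P.lf 0 10230 0) P.nil) P.nil)))))) 23062)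
 EL.nil)
noncomputable def S212_227_660_808_44 : EL := (EL.cons 14 (TM.mk (P.cons (P.cons (P.lf 0 15023410 0) (P.cons (P.lf 0 8550414 0) (P.cons (P.lf 2470440 0 0) (P.cons (P.lf 1458888 0 0) (P.cons (P.lf 0 109636 0) (P.cons (P.lf 0 50270 0) P.nil)))))) (P.cons (P.cons (P.lf 4004288 0 0) (P.cons (P.lf 3108200 0 0) (P.cons (P.lf 0 780058 0) (P.cons (P.lf 0 632078 0) (P.cons (P.lf 50486 0 0) P.nil))))) (P.cons (P.cons (P.lf 546176 0 0) (P.cons (P.lf 81080 0 0) (P.cons (P.lf 0 67560 0) (P.cons (P.lf 24228 0 0) P.nil)))) (P.cons (P.cons (P.lf 0 67302 0) (P.cons (P.lf 0 79950 0) (P.cons (P.lf 20464 0 0) P.nil))) (P.cons (P.cons (P.lf 0 34696 0) (P.cons (P.lf 0 9360 0) P.nil)) (P.cons (P.cons (P.lf 394 0 0) P.nil) P.nil)))))) 139606)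
 EL.nil)
noncomputable def S212_227_660_808_45 : EL := (EL.cons 14 (TM.mk (P.cons (P.cons (P.lf 0 199216398 0) (P.cons (P.lf 0 170072864 0) (P.cons (P.lf 24939748 0 0) (P.cons (P.lf 45296932 0 0) (P.cons (P.lf 1577336 0 0) (P.cons (P.lf 0 3900848 0) P.nil)))))) (P.cons (P.cons (P.lf 0 95429608 0) (P.cons (P.lf 0 64975790 0) (P.cons (P.lf 14221656 0 0) (P.cons (P.lf 14148180 0 0) (P.cons (P.lf 0 126288 0) P.nil))))) (P.cons (P.cons (P.lf 0 21195140 0) (P.cons (P.lf 0 10367958 0) (P.cons (P.lf 3263942 0 0) (P.cons (P.lf 1545296 0 0) P.nil)))) (P.cons (P.cons (P.lf 0 2012486 0) (P.cons (P.lf 0 321936 0) (P.cons (P.lf 236088 0 0) P.nil))) (P.cons (P.cons (P.lf 49826 0 0) (P.cons (P.lf 111822 0 0) P.nil)) (P.cons (P.cons (P.lf 32780 0 0) P.nil) P.nil)))))) 2877850)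
 EL.nil)
noncomputable def S212_227_660_808_46 : EL := (EL.cons 15 (TM.mk (P.lf 4294967296 0 0) 0)
 EL.nil)
noncomputable def S212_227_660_808_47 : EL := (EL.cons 15 (TM.mk (P.cons (P.cons (P.lf 0 1224818123 0) (P.cons (P.lf 0 348546152 0) (P.cons (P.lf 150297032 0 0) (P.lf 16699668 0 0)))) (P.cons (P.cons (P.lf 0 195572782 0) (P.cons (P.lf 0 21852752 0) (P.cons (P.lf 9423152 0 0) (P.lf 1047016 0 0)))) (P.cons (P.cons (P.lf 0 12209098 0) (P.cons (P.lf 1565896 0 0) (P.cons (P.lf 0 675228 0) (P.lf 0 75024 0)))) (P.cons (P.cons (P.lf 1436712 0 0) (P.cons (P.lf 124816 0 0) (P.cons (P.lf 0 53820 0) P.nil))) (P.cons (P.cons (P.lf 76287 0 0) (P.cons (P.lf 0 2884 0) P.nil)) (P.cons (P.cons (P.lf 0 3020 0) P.nil) P.nil)))))) 10465)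
 EL.nil)
noncomputable def S212_227_660_808_48 : EL := (EL.cons 15 (TM.mk (P.cons (P.cons (P.lf 349287743 0 0) (P.cons (P.lf 198793431 0 0) (P.cons (P.lf 0 57436674 0) (P.cons (P.lf 0 33918539 0) (P.cons (P.lf 2549027 0 0) (P.cons (P.lf 1168768 0 0) P.nil)))))) (P.cons (P.cons (P.lf 111545011 0 0) (P.cons (P.lf 44206058 0 0) (P.cons (P.lf 0 15515351 0) (P.cons (P.lf 0 5176855 0) (P.cons (P.lf 319632 0 0) P.nil))))) (P.cons (P.cons (P.lf 15868936 0 0) (P.cons (P.lf 3078626 0 0) (P.cons (P.lf 0 1470505 0) (P.cons (P.lf 0 24209 0) P.nil)))) (P.cons (P.cons (P.lf 292461 0 0) (P.cons (P.lf 0 322741 0) (P.cons (P.lf 102975 0 0) P.nil))) (P.cons (P.cons (P.lf 0 139646 0) (P.cons (P.lf 0 45626 0) P.nil)) (P.cons (P.cons (P.lf 0 13393 0) P.nil) P.nil)))))) 446926)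
 EL.nil)
noncomputable def S212_227_660_808 : SL := (SL.cons S212_227_660_808_0 (SL.cons S212_227_660_808_1 (SL.cons S212_227_660_808_2 (SL.cons S212_227_660_808_3 (SL.cons S212_227_660_808_4 (SL.cons S212_227_660_808_5 (SL.cons S212_227_660_808_6 (SL.cons S212_227_660_808_7 (SL.cons S212_227_660_808_8 (SL.cons S212_227_660_808_9 (SL.cons S212_227_660_808_10 (SL.cons S212_227_660_808_11 (SL.cons S212_227_660_808_12 (SL.cons S212_227_660_808_13 (SL.cons S212_227_660_808_14 (SL.cons S212_227_660_808_15 (SL.cons S212_227_660_808_16 (SL.cons S212_227_660_808_17 (SL.cons S212_227_660_808_18 (SL.cons S212_227_660_808_19 (SL.cons S212_227_660_808_20 (SL.cons S212_227_660_808_21 (SL.cons S212_227_660_808_22 (SL.cons S212_227_660_808_23 (SL.cons S212_227_660_808_24 (SL.cons S212_227_660_808_25 (SL.cons S212_227_660_808_26 (SL.cons S212_227_660_808_27 (SL.cons S212_227_660_808_28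 (SL.cons S212_227_660_808_29 (SL.cons S212_227_660_808_30 (SL.cons S212_227_660_808_31 (SL.cons S212_227_660_808_32 (SL.cons S212_227_660_808_33 (SL.cons S212_227_660_808_34 (SL.cons S212_227_660_808_35 (SL.cons S212_227_660_808_36 (SL.cons S212_227_660_808_37 (SL.cons S212_227_660_808_38 (SL.cons S212_227_660_808_39 (SL.cons S212_227_660_808_40 (SL.cons S212_227_660_808_41 (SL.cons S212_227_660_808_42 (SL.cons S212_227_660_808_43 (SL.cons S212_227_660_808_44 (SL.cons S212_227_660_808_45 (SL.cons S212_227_660_808_46 (SL.cons S212_227_660_808_47 (SL.cons S212_227_660_808_48 SL.nil)))))))))))))))))))))))))))))))))))))))))))))))))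
noncomputable def S219_227_216_364_0 : EL := (EL.cons 0 (TM.mk (P.cons (P.lf 7974119968 0 0) (P.cons (P.lf 111999383 0 0) (P.cons (P.lf 0 5671151 0) (P.cons (P.lf 0 127063 0) (P.cons (P.lf 2649 0 0) (P.cons (P.lf 73 0 0) P.nil)))))) 59)
 (EL.cons 1 (TM.mk (P.cons (P.lf 0 975579558 0) (P.cons (P.lf 103610482 0 0) (P.cons (P.lf 2541390 0 0) (P.cons (P.lf 0 79128 0) (P.cons (P.lf 0 1965 0) (P.cons (P.lf 24 0 0) P.nil)))))) 82)
 (EL.cons 5 (TM.mk (P.cons (P.lf 4466201750 0 0) (P.cons (P.lf 0 39822002 0) (P.cons (P.lf 2016406 0 0) (P.cons (P.lf 45176 0 0) (P.cons (P.lf 0 938 0) (P.cons (P.lf 0 26 0) P.nil)))))) 113)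
 (EL.cons 9 (TM.mk (P.lf 6442450944 0 0) 2)
 EL.nil))))
noncomputable def S219_227_216_364_1 : EL := (EL.cons 0 (TM.mk (P.cons (P.cons (P.lf 4862899102 0 0) (P.cons (P.lf 0 544835331 0) (P.cons (P.lf 0 234939138 0) (P.lf 26104347 0 0)))) (P.cons (P.cons (P.lf 291455120 0 0) (P.cons (P.lf 0 53850716 0) (P.cons (P.lf 0 23221033 0) (P.lf 2580102 0 0)))) (P.cons (P.cons (P.lf 0 40625044 0) (P.cons (P.lf 1513882 0 0) (P.cons (P.lf 652794 0 0) (P.lf 0 72529 0)))) (P.cons (P.cons (P.lf 0 842506 0) (P.cons (P.lf 178500 0 0) (P.cons (P.lf 76966 0 0) P.nil))) (P.cons (P.cons (P.lf 86907 0 0) (P.cons (P.lf 0 778 0) P.nil)) (P.cons (P.cons (P.lf 1763 0 0) P.nil) P.nil)))))) 15000)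
 (EL.cons 1 (TM.mk (P.cons (P.cons (P.lf 0 725297784 0) (P.cons (P.lf 192936033 0 0) (P.cons (P.lf 83196189 0 0) (P.lf 0 9244015 0)))) (P.cons (P.cons (P.lf 230571678 0 0) (P.cons (P.lf 0 11985260 0) (P.cons (P.lf 0 5168182 0) (P.lf 574241 0 0)))) (P.cons (P.cons (P.lf 9632599 0 0) (P.cons (P.lf 0 1780248 0) (P.cons (P.lf 0 767657 0) (P.lf 85290 0 0)))) (P.cons (P.cons (P.lf 0 1035159 0) (P.cons (P.lf 17664 0 0) (P.cons (P.lf 7614 0 0) P.nil))) (P.cons (P.cons (P.lf 0 24709 0) (P.cons (P.lf 3954 0 0) P.nil)) (P.cons (P.cons (P.lf 1637 0 0) P.nil) P.nil)))))) 8316)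
 (EL.cons 5 (TM.mk (P.cons (P.cons (P.lf 2837599573 0 0) (P.cons (P.lf 0 415544708 0) (P.cons (P.lf 0 179187564 0) (P.lf 19909728 0 0)))) (P.cons (P.cons (P.lf 0 84618823 0) (P.cons (P.lf 731652 0 0) (P.cons (P.lf 315492 0 0) (P.lf 0 35050 0)))) (P.cons (P.cons (P.lf 176705 0 0) (P.cons (P.lf 301430 0 0) (P.cons (P.lf 129980 0 0) (P.lf 0 14448 0)))) (P.cons (P.cons (P.lf 363065 0 0) (P.cons (P.lf 0 32862 0) (P.cons (P.lf 0 14168 0) P.nil))) (P.cons (P.cons (P.lf 0 15754 0) (P.cons (P.lf 0 238 0) P.nil)) (P.cons (P.cons (P.lf 0 601 0) P.nil) P.nil)))))) 9888)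
 (EL.cons 9 (TM.mk (P.cons (P.cons (P.lf 4029379723 0 0) (P.cons (P.lf 0 537585822 0) (P.cons (P.lf 0 231813066 0) (P.lf 25757004 0 0)))) (P.cons (P.cons (P.lf 16773225 0 0) (P.cons (P.lf 0 16248762 0) (P.cons (P.lf 0 7006650 0) (P.lf 778512 0 0)))) (P.cons (P.cons (P.lf 0 12589180 0) (P.cons (P.lf 740904 0 0) (P.cons (P.lf 319482 0 0) (P.lf 0 35496 0)))) (P.cons (P.cons (P.lf 56043 0 0) (P.cons (P.lf 26994 0 0) (P.cons (P.lf 11640 0 0) P.nil))) (P.cons (P.cons (P.lf 13344 0 0) (P.cons (P.lf 0 444 0) P.nil)) (P.cons (P.cons (P.lf 21 0 0) P.nil) P.nil)))))) 2426)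
 (EL.cons 2 (TM.mk (P.cons (P.cons (P.lf 277257391 0 0) (P.cons (P.lf 258290910 0 0) (P.cons (P.lf 0 26509047 0) (P.cons (P.lf 0 5513144 0) (P.lf 459427 0 0))))) (P.cons (P.cons (P.lf 0 26652442 0) (P.cons (P.lf 0 24829216 0) (P.cons (P.lf 2548285 0 0) (P.cons (P.lf 529970 0 0) (P.lf 0 44164 0))))) (P.cons (P.cons (P.lf 0 1174443 0) (P.cons (P.lf 0 1094101 0) (P.cons (P.lf 112289 0 0) (P.cons (P.lf 23352 0 0) P.nil)))) (P.cons (P.cons (P.lf 30124 0 0) (P.cons (P.lf 28063 0 0) (P.cons (P.lf 0 2880 0) P.nil))) (P.cons (P.cons (P.lf 1397 0 0) (P.cons (P.lf 1302 0 0) P.nil)) (P.cons (P.cons (P.lf 0 11 0) P.nil) P.nil)))))) 3443)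
 (EL.cons 6 (TM.mk (P.cons (P.cons (P.lf 561645324 0 0) (P.cons (P.lf 523224579 0 0) (P.cons (P.lf 0 53699862 0) (P.cons (P.lf 0 11168076 0) (P.lf 930672 0 0))))) (P.cons (P.cons (P.lf 16975977 0 0) (P.cons (P.lf 15814692 0 0) (P.cons (P.lf 0 1623099 0) (P.cons (P.lf 0 337557 0) (P.lf 28128 0 0))))) (P.cons (P.cons (P.lf 0 774066 0) (P.cons (P.lf 0 721113 0) (P.cons (P.lf 74007 0 0) (P.cons (P.lf 15390 0 0) P.nil)))) (P.cons (P.cons (P.lf 0 28203 0) (P.cons (P.lf 0 26274 0) (P.cons (P.lf 2694 0 0) P.nil))) (P.cons (P.cons (P.lf 468 0 0) (P.cons (P.lf 435 0 0) P.nil)) (P.cons (P.cons (P.lf 21 0 0) P.nil) P.nil)))))) 2598)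
 EL.nil))))))
noncomputable def S219_227_216_364_2 : EL := (EL.cons 0 (TM.mk (P.cons (P.cons (P.lf 2963624793 0 0) (P.cons (P.lf 0 660756419 0) (P.cons (P.lf 0 249522225 0) (P.cons (P.lf 62191092 0 0) (P.cons (P.lf 3190509 0 0) (P.cons (P.lf 0 1462902 0) P.nil)))))) (P.cons (P.cons (P.lf 320116875 0 0) (P.cons (P.lf 0 103055607 0) (P.cons (P.lf 0 36839643 0) (P.cons (P.lf 11491243 0 0) (P.cons (P.lf 684807 0 0) P.nil))))) (P.cons (P.cons (P.lf 0 47013590 0) (P.cons (P.lf 6337949 0 0) (P.cons (P.lf 2721323 0 0) (P.cons (P.lf 0 313721 0) P.nil)))) (P.cons (P.cons (P.lf 0 1984326 0) (P.cons (P.lf 687077 0 0) (P.cons (P.lf 256805 0 0) P.nil))) (P.cons (P.cons (P.lf 222311 0 0) (P.cons (P.lf 0 18964 0) P.nil)) (P.cons (P.cons (P.lf 5570 0 0) P.nil) P.nil)))))) 862803)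
 (EL.cons 1 (TM.mk (P.cons (P.cons (P.lf 0 525638443 0) (P.cons (P.lf 260554391 0 0) (P.cons (P.lf 86948071 0 0) (P.cons (P.lf 0 34394396 0) (P.cons (P.lf 0 2289531 0) (P.cons (P.lf 1049787 0 0) P.nil)))))) (P.cons (P.cons (P.lf 247288845 0 0) (P.cons (P.lf 0 41495695 0) (P.cons (P.lf 0 17177224 0) (P.cons (P.lf 2605809 0 0) (P.cons (P.lf 64539 0 0) P.nil))))) (P.cons (P.cons (P.lf 12374864 0 0) (P.cons (P.lf 0 4897931 0) (P.cons (P.lf 0 1783919 0) (P.cons (P.lf 517629 0 0) P.nil)))) (P.cons (P.cons (P.lf 0 1882513 0) (P.cons (P.lf 201572 0 0) (P.cons (P.lf 91371 0 0) P.nil))) (P.cons (P.cons (P.lf 0 59485 0) (P.cons (P.lf 22170 0 0) P.nil)) (P.cons (P.cons (P.lf 6195 0 0) P.nil) P.nil)))))) 423107)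
 (EL.cons 5 (TM.mk (P.cons (P.cons (P.lf 1802429398 0 0) (P.cons (P.lf 0 527182949 0) (P.cons (P.lf 0 189075496 0) (P.cons (P.lf 58247735 0 0) (P.cons (P.lf 3447175 0 0) (P.cons (P.lf 0 1580573 0) P.nil)))))) (P.cons (P.cons (P.lf 0 90040442 0) (P.cons (P.lf 10434122 0 0) (P.cons (P.lf 4870710 0 0) (P.cons (P.lf 0 179609 0) (P.cons (P.lf 33475 0 0) P.nil))))) (P.cons (P.cons (P.lf 0 1081875 0) (P.cons (P.lf 1082118 0 0) (P.cons (P.lf 377083 0 0) (P.cons (P.lf 0 129072 0) P.nil)))) (P.cons (P.cons (P.lf 710683 0 0) (P.cons (P.lf 0 140269 0) (P.cons (P.lf 0 55795 0) P.nil))) (P.cons (P.cons (P.lf 0 31883 0) (P.cons (P.lf 118 0 0) P.nil)) (P.cons (P.cons (P.lf 0 2107 0) P.nil) P.nil)))))) 568899)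
 (EL.cons 9 (TM.mk (P.cons (P.cons (P.lf 2520143512 0 0) (P.cons (P.lf 0 672457555 0) (P.cons (P.lf 0 245112804 0) (P.cons (P.lf 70905985 0 0) (P.cons (P.lf 4042575 0 0) (P.cons (P.lf 0 1853583 0) P.nil)))))) (P.cons (P.cons (P.lf 20981359 0 0) (P.cons (P.lf 0 23124577 0) (P.cons (P.lf 0 7259845 0) (P.cons (P.lf 3446607 0 0) (P.cons (P.lf 244377 0 0) P.nil))))) (P.cons (P.cons (P.lf 0 15703935 0) (P.cons (P.lf 2943166 0 0) (P.cons (P.lf 1186453 0 0) (P.cons (P.lf 0 212304 0) P.nil)))) (P.cons (P.cons (P.lf 4549 0 0) (P.cons (P.lf 91774 0 0) (P.cons (P.lf 31330 0 0) P.nil))) (P.cons (P.cons (P.lf 41583 0 0) (P.cons (P.lf 0 5820 0) P.nil)) (P.cons (P.cons (P.lf 0 123 0) P.nil) P.nil)))))) 295255)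
 (EL.cons 2 (TM.mk (P.cons (P.cons (P.lf 346816861 0 0) (P.cons (P.lf 276820891 0 0) (P.cons (P.lf 0 96218173 0) (P.cons (P.lf 0 18842996 0) (P.cons (P.lf 5467775 0 0) (P.cons (P.lf 108106 0 0) P.nil)))))) (P.cons (P.cons (P.lf 0 31895409 0) (P.cons (P.lf 0 26664103 0) (P.cons (P.lf 7205338 0 0) (P.cons (P.lf 1421550 0 0) (P.cons (P.lf 0 375322 0) P.nil))))) (P.cons (P.cons (P.lf 0 2691450 0) (P.cons (P.lf 0 2113121 0) (P.cons (P.lf 794565 0 0) (P.cons (P.lf 155295 0 0) P.nil)))) (P.cons (P.cons (P.lf 140551 0 0) (P.cons (P.lf 128025 0 0) (P.cons (P.lf 0 17403 0) P.nil))) (P.cons (P.cons (P.lf 7177 0 0) (P.cons (P.lf 5771 0 0) P.nil)) (P.cons (P.cons (P.lf 0 253 0) P.nil) P.nil)))))) 234550)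
 (EL.cons 6 (TM.mk (P.cons (P.cons (P.lf 702553200 0 0) (P.cons (P.lf 560761098 0 0) (P.cons (P.lf 0 194910906 0) (P.cons (P.lf 0 38170602 0) (P.cons (P.lf 11076168 0 0) (P.cons (P.lf 218994 0 0) P.nil)))))) (P.cons (P.cons (P.lf 24159516 0 0) (P.cons (P.lf 16840632 0 0) (P.cons (P.lf 0 10031838 0) (P.cons (P.lf 0 1943346 0) (P.cons (P.lf 639216 0 0) P.nil))))) (P.cons (P.cons (P.lf 0 3074886 0) (P.cons (P.lf 0 2691810 0) (P.cons (P.lf 529392 0 0) (P.cons (P.lf 105738 0 0) P.nil)))) (P.cons (P.cons (P.lf 0 95880 0) (P.cons (P.lf 0 72102 0) (P.cons (P.lf 32634 0 0) P.nil))) (P.cons (P.cons (P.lf 6084 0 0) (P.cons (P.lf 5622 0 0) P.nil)) (P.cons (P.cons (P.lf 198 0 0) P.nil) P.nil)))))) 313668)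
 EL.nil))))))
noncomputable def S219_227_216_364_3 : EL := (EL.cons 0 (TM.mk (P.cons (P.lf 481596895 0 0) (P.cons (P.lf 0 111999383 0) (P.cons (P.lf 5671151 0 0) (P.cons (P.lf 127063 0 0) (P.cons (P.lf 0 2649 0) (P.cons (P.lf 0 73 0) P.nil)))))) 59)
 (EL.cons 1 (TM.mk (P.cons (P.lf 975579558 0 0) (P.cons (P.lf 0 103610482 0) (P.cons (P.lf 0 2541390 0) (P.cons (P.lf 79128 0 0) (P.cons (P.lf 1965 0 0) (P.cons (P.lf 0 24 0) P.nil)))))) 82)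
 (EL.cons 5 (TM.mk (P.cons (P.lf 1976249194 0 0) (P.cons (P.lf 39822002 0 0) (P.cons (P.lf 0 2016406 0) (P.cons (P.lf 0 45176 0) (P.cons (P.lf 938 0 0) (P.cons (P.lf 26 0 0) P.nil)))))) 106)
 EL.nil)))
noncomputable def S219_227_216_364_4 : EL := (EL.cons 0 (TM.mk (P.cons (P.cons (P.lf 301210948 0 0) (P.cons (P.lf 0 40186515 0) (P.cons (P.lf 0 17328877 0) (P.lf 1925430 0 0)))) (P.cons (P.cons (P.lf 0 68795263 0) (P.cons (P.lf 8131055 0 0) (P.cons (P.lf 3506201 0 0) (P.lf 0 389576 0)))) (P.cons (P.cons (P.lf 2314291 0 0) (P.cons (P.lf 0 135360 0) (P.cons (P.lf 0 58368 0) (P.lf 6484 0 0)))) (P.cons (P.cons (P.lf 317281 0 0) (P.cons (P.lf 0 35767 0) (P.cons (P.lf 0 15423 0) P.nil))) (P.cons (P.cons (P.lf 0 12383 0) (P.cons (P.lf 49 0 0) P.nil)) (P.cons (P.cons (P.lf 0 481 0) P.nil) P.nil)))))) 3003)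
 (EL.cons 1 (TM.mk (P.cons (P.cons (P.lf 610168479 0 0) (P.cons (P.lf 0 81406554 0) (P.cons (P.lf 0 35103423 0) (P.lf 3900378 0 0)))) (P.cons (P.cons (P.lf 0 62262384 0) (P.cons (P.lf 6185154 0 0) (P.cons (P.lf 2667108 0 0) (P.lf 0 296343 0)))) (P.cons (P.cons (P.lf 0 3765624 0) (P.cons (P.lf 585579 0 0) (P.cons (P.lf 252506 0 0) (P.lf 0 28055 0)))) (P.cons (P.cons (P.lf 253824 0 0) (P.cons (P.lf 0 8019 0) (P.cons (P.lf 0 3457 0) P.nil))) (P.cons (P.cons (P.lf 7520 0 0) (P.cons (P.lf 0 1155 0) P.nil)) (P.cons (P.cons (P.lf 0 397 0) P.nil) P.nil)))))) 2372)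
 (EL.cons 5 (TM.mk (P.cons (P.cons (P.lf 1236029346 0 0) (P.cons (P.lf 0 164906734 0) (P.cons (P.lf 0 71109642 0) (P.lf 7901070 0 0)))) (P.cons (P.cons (P.lf 30051610 0 0) (P.cons (P.lf 0 8307294 0) (P.cons (P.lf 0 3582198 0) (P.lf 398020 0 0)))) (P.cons (P.cons (P.lf 0 5019250 0) (P.cons (P.lf 295096 0 0) (P.cons (P.lf 127246 0 0) (P.lf 0 14136 0)))) (P.cons (P.cons (P.lf 0 94130 0) (P.cons (P.lf 21714 0 0) (P.cons (P.lf 9362 0 0) P.nil))) (P.cons (P.cons (P.lf 8848 0 0) (P.cons (P.lf 0 164 0) P.nil)) (P.cons (P.cons (P.lf 178 0 0) P.nil) P.nil)))))) 1852)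
 EL.nil)))
noncomputable def S219_227_216_364_5 : EL := (EL.cons 0 (TM.mk (P.cons (P.cons (P.lf 188389993 0 0) (P.cons (P.lf 0 50268673 0) (P.cons (P.lf 0 18323082 0) (P.cons (P.lf 5300481 0 0) (P.cons (P.lf 302196 0 0) (P.cons (P.lf 0 138561 0) P.nil)))))) (P.cons (P.cons (P.lf 0 42243233 0) (P.cons (P.lf 9961751 0 0) (P.cons (P.lf 3718485 0 0) (P.cons (P.lf 0 975023 0) (P.cons (P.lf 0 52010 0) P.nil))))) (P.cons (P.cons (P.lf 679747 0 0) (P.cons (P.lf 30072 0 0) (P.cons (P.lf 0 864 0) (P.cons (P.lf 0 13369 0) P.nil)))) (P.cons (P.cons (P.lf 341520 0 0) (P.cons (P.lf 0 77923 0) (P.cons (P.lf 0 29508 0) P.nil))) (P.cons (P.cons (P.lf 0 11415 0) (P.cons (P.lf 379 0 0) P.nil)) (P.cons (P.cons (P.lf 0 1074 0) P.nil) P.nil)))))) 80176)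
 (EL.cons 1 (TM.mk (P.cons (P.cons (P.lf 381625023 0 0) (P.cons (P.lf 0 101830164 0) (P.cons (P.lf 0 37117400 0) (P.cons (P.lf 10737283 0 0) (P.cons (P.lf 612165 0 0) (P.cons (P.lf 0 280685 0) P.nil)))))) (P.cons (P.cons (P.lf 0 37352910 0) (P.cons (P.lf 7313021 0 0) (P.cons (P.lf 2842659 0 0) (P.cons (P.lf 0 618421 0) (P.cons (P.lf 0 28006 0) P.nil))))) (P.cons (P.cons (P.lf 0 3709610 0) (P.cons (P.lf 1082850 0 0) (P.cons (P.lf 393110 0 0) (P.cons (P.lf 0 115548 0) P.nil)))) (P.cons (P.cons (P.lf 275923 0 0) (P.cons (P.lf 0 32572 0) (P.cons (P.lf 0 14482 0) P.nil))) (P.cons (P.cons (P.lf 13443 0 0) (P.cons (P.lf 0 4006 0) P.nil)) (P.cons (P.cons (P.lf 0 885 0) P.nil) P.nil)))))) 100042)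
 (EL.cons 5 (TM.mk (P.cons (P.cons (P.lf 773064726 0 0) (P.cons (P.lf 0 206279210 0) (P.cons (P.lf 0 75189392 0) (P.cons (P.lf 21750710 0 0) (P.cons (P.lf 1240076 0 0) (P.cons (P.lf 0 568594 0) P.nil)))))) (P.cons (P.cons (P.lf 22013602 0 0) (P.cons (P.lf 0 11250148 0) (P.cons (P.lf 0 3742076 0) (P.cons (P.lf 1495544 0 0) (P.cons (P.lf 99950 0 0) P.nil))))) (P.cons (P.cons (P.lf 0 5476332 0) (P.cons (P.lf 970360 0 0) (P.cons (P.lf 395790 0 0) (P.cons (P.lf 0 66012 0) P.nil)))) (P.cons (P.cons (P.lf 0 119910 0) (P.cons (P.lf 58296 0 0) (P.cons (P.lf 20934 0 0) P.nil))) (P.cons (P.cons (P.lf 17918 0 0) (P.cons (P.lf 0 2074 0) P.nil)) (P.cons (P.cons (P.lf 340 0 0) P.nil) P.nil)))))) 111788)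
 EL.nil)))
noncomputable def S219_227_216_364_6 : EL := (EL.cons 12 (TM.mk (P.lf 8589934592 0 0) 0)
 (EL.cons 3 (TM.mk (P.cons (P.lf 0 1016966793 0) (P.cons (P.lf 118252065 0 0) (P.cons (P.lf 887366 0 0) (P.cons (P.lf 0 30975 0) (P.cons (P.lf 0 416 0) (P.cons (P.lf 3 0 0) P.nil)))))) 44)
 (EL.cons 7 (TM.mk (P.cons (P.lf 0 2060088064 0) (P.cons (P.lf 0 20755690 0) (P.cons (P.lf 1155533 0 0) (P.cons (P.lf 11905 0 0) (P.cons (P.lf 0 285 0) (P.cons (P.lf 0 5 0) P.nil)))))) 48)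
 EL.nil)))
noncomputable def S219_227_216_364_7 : EL := (EL.cons 12 (TM.mk (P.cons (P.cons (P.lf 5372506298 0 0) (P.cons (P.lf 0 716781096 0) (P.cons (P.lf 0 309084088 0) (P.lf 34342672 0 0)))) (P.cons (P.cons (P.lf 22364300 0 0) (P.cons (P.lf 0 21665016 0) (P.cons (P.lf 0 9342200 0) (P.lf 1038016 0 0)))) (P.cons (P.cons (P.lf 0 16785574 0) (P.cons (P.lf 987872 0 0) (P.cons (P.lf 425976 0 0) (P.lf 0 47328 0)))) (P.cons (P.cons (P.lf 74724 0 0) (P.cons (P.lf 35992 0 0) (P.cons (P.lf 15520 0 0) P.nil))) (P.cons (P.cons (P.lf 17792 0 0) (P.cons (P.lf 0 592 0) P.nil)) (P.cons (P.cons (P.lf 28 0 0) P.nil) P.nil)))))) 3210)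
 (EL.cons 3 (TM.mk (P.cons (P.cons (P.lf 0 373256477 0) (P.cons (P.lf 0 169720168 0) (P.cons (P.lf 0 73185248 0) (P.lf 8131692 0 0)))) (P.cons (P.cons (P.lf 0 321823196 0) (P.cons (P.lf 14605054 0 0) (P.cons (P.lf 6297864 0 0) (P.lf 0 699762 0)))) (P.cons (P.cons (P.lf 3373590 0 0) (P.cons (P.lf 978496 0 0) (P.cons (P.lf 421936 0 0) (P.lf 0 46880 0)))) (P.cons (P.cons (P.lf 717269 0 0) (P.cons (P.lf 0 19368 0) (P.cons (P.lf 0 8350 0) P.nil))) (P.cons (P.cons (P.lf 2069 0 0) (P.cons (P.lf 0 1560 0) P.nil)) (P.cons (P.cons (P.lf 0 737 0) P.nil) P.nil)))))) 7051)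
 (EL.cons 7 (TM.mk (P.cons (P.cons (P.lf 0 1334592093 0) (P.cons (P.lf 216586731 0 0) (P.cons (P.lf 93394644 0 0) (P.lf 0 10377185 0)))) (P.cons (P.cons (P.lf 56486644 0 0) (P.cons (P.lf 0 2563488 0) (P.cons (P.lf 0 1105404 0) (P.lf 122819 0 0)))) (P.cons (P.cons (P.lf 0 4160794 0) (P.cons (P.lf 0 9794 0) (P.cons (P.lf 0 4225 0) (P.lf 469 0 0)))) (P.cons (P.cons (P.lf 0 57913 0) (P.cons (P.lf 17042 0 0) (P.cons (P.lf 7349 0 0) P.nil))) (P.cons (P.cons (P.lf 10647 0 0) (P.cons (P.lf 0 98 0) P.nil)) (P.cons (P.cons (P.lf 111 0 0) P.nil) P.nil)))))) 6282)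
 (EL.cons 10 (TM.mk (P.cons (P.cons (P.lf 0 1170944265 0) (P.cons (P.lf 0 1090842909 0) (P.cons (P.lf 111955968 0 0) (P.cons (P.lf 23283726 0 0) (P.lf 0 1940310 0))))) (P.cons (P.cons (P.lf 0 23594871 0) (P.cons (P.lf 0 21980805 0) (P.cons (P.lf 2255943 0 0) (P.cons (P.lf 469173 0 0) (P.lf 0 39096 0))))) (P.cons (P.cons (P.lf 1194735 0 0) (P.cons (P.lf 1113006 0 0) (P.cons (P.lf 0 114228 0) (P.cons (P.lf 0 23754 0) P.nil)))) (P.cons (P.cons (P.lf 26766 0 0) (P.cons (P.lf 24936 0 0) (P.cons (P.lf 0 2559 0) P.nil))) (P.cons (P.cons (P.lf 0 555 0) (P.cons (P.lf 0 516 0) P.nil)) (P.cons (P.cons (P.lf 0 15 0) P.nil) P.nil)))))) 2874)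
 EL.nil))))
noncomputable def S219_227_216_364_8 : EL := (EL.cons 12 (TM.mk (P.cons (P.cons (P.lf 3360191350 0 0) (P.cons (P.lf 0 896610074 0) (P.cons (P.lf 0 326817072 0) (P.cons (P.lf 94541314 0 0) (P.cons (P.lf 5390100 0 0) (P.cons (P.lf 0 2471444 0) P.nil)))))) (P.cons (P.cons (P.lf 27975146 0 0) (P.cons (P.lf 0 30832770 0) (P.cons (P.lf 0 9679794 0) (P.cons (P.lf 4595476 0 0) (P.cons (P.lf 325836 0 0) P.nil))))) (P.cons (P.cons (P.lf 0 20938580 0) (P.cons (P.lf 3924222 0 0) (P.cons (P.lf 1581938 0 0) (P.cons (P.lf 0 283072 0) P.nil)))) (P.cons (P.cons (P.lf 6066 0 0) (P.cons (P.lf 122366 0 0) (P.cons (P.lf 41774 0 0) P.nil))) (P.cons (P.cons (P.lf 55444 0 0) (P.cons (P.lf 0 7760 0) P.nil)) (P.cons (P.cons (P.lf 0 164 0) P.nil) P.nil)))))) 393644)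
 (EL.cons 3 (TM.mk (P.cons (P.cons (P.lf 0 69085805 0) (P.cons (P.lf 0 256158137 0) (P.cons (P.lf 0 75052821 0) (P.cons (P.lf 42807596 0 0) (P.cons (P.lf 3190680 0 0) (P.cons (P.lf 0 1462976 0) P.nil)))))) (P.cons (P.cons (P.lf 0 447452685 0) (P.cons (P.lf 81669653 0 0) (P.cons (P.lf 33240246 0 0) (P.cons (P.lf 0 5617669 0) (P.cons (P.lf 0 178131 0) P.nil))))) (P.cons (P.cons (P.lf 791806 0 0) (P.cons (P.lf 3919499 0 0) (P.cons (P.lf 1345120 0 0) (P.cons (P.lf 0 485328 0) P.nil)))) (P.cons (P.cons (P.lf 2464232 0 0) (P.cons (P.lf 0 332615 0) (P.cons (P.lf 0 143130 0) P.nil))) (P.cons (P.cons (P.lf 0 5103 0) (P.cons (P.lf 0 15317 0) P.nil)) (P.cons (P.cons (P.lf 0 5844 0) P.nil) P.nil)))))) 604472)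
 (EL.cons 7 (TM.mk (P.cons (P.cons (P.lf 0 863559394 0) (P.cons (P.lf 278622861 0 0) (P.cons (P.lf 98343756 0 0) (P.cons (P.lf 0 32151641 0) (P.cons (P.lf 0 1964721 0) (P.cons (P.lf 900852 0 0) P.nil)))))) (P.cons (P.cons (P.lf 78537224 0 0) (P.cons (P.lf 0 14334711 0) (P.cons (P.lf 0 5834350 0) (P.cons (P.lf 986012 0 0) (P.cons (P.lf 31263 0 0) P.nil))))) (P.cons (P.cons (P.lf 0 5100727 0) (P.cons (P.lf 217666 0 0) (P.cons (P.lf 132494 0 0) (P.cons (P.lf 22893 0 0) P.nil)))) (P.cons (P.cons (P.lf 0 395646 0) (P.cons (P.lf 111734 0 0) (P.cons (P.lf 43139 0 0) P.nil))) (P.cons (P.cons (P.lf 40932 0 0) (P.cons (P.lf 0 3002 0) P.nil)) (P.cons (P.cons (P.lf 697 0 0) P.nil) P.nil)))))) 263981)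
 (EL.cons 10 (TM.mk (P.cons (P.cons (P.lf 0 1464715560 0) (P.cons (P.lf 0 1169100792 0) (P.cons (P.lf 406359312 0 0) (P.cons (P.lf 79579854 0 0) (P.cons (P.lf 0 23092122 0) (P.cons (P.lf 0 456576 0) P.nil)))))) (P.cons (P.cons (P.lf 0 35611662 0) (P.cons (P.lf 0 23331276 0) (P.cons (P.lf 16820718 0 0) (P.cons (P.lf 3249810 0 0) (P.cons (P.lf 0 1100016 0) P.nil))))) (P.cons (P.cons (P.lf 5947890 0 0) (P.cons (P.lf 5191314 0 0) (P.cons (P.lf 0 1045242 0) (P.cons (P.lf 0 208554 0) P.nil)))) (P.cons (P.cons (P.lf 111540 0 0) (P.cons (P.lf 78180 0 0) (P.cons (P.lf 0 45732 0) P.nil))) (P.cons (P.cons (P.lf 0 10482 0) (P.cons (P.lf 0 9570 0) P.nil)) (P.cons (P.cons (P.lf 0 210 0) P.nil) P.nil)))))) 611484)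
 EL.nil))))
noncomputable def S219_227_216_364_9 : EL := (EL.cons 3 (TM.mk (P.cons (P.lf 0 1016966793 0) (P.cons (P.lf 118252065 0 0) (P.cons (P.lf 887366 0 0) (P.cons (P.lf 0 30975 0) (P.cons (P.lf 0 416 0) (P.cons (P.lf 3 0 0) P.nil)))))) 44)
 (EL.cons 7 (TM.mk (P.cons (P.lf 0 2060088064 0) (P.cons (P.lf 0 20755690 0) (P.cons (P.lf 1155533 0 0) (P.cons (P.lf 11905 0 0) (P.cons (P.lf 0 285 0) (P.cons (P.lf 0 5 0) P.nil)))))) 48)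
 EL.nil))
noncomputable def S219_227_216_364_10 : EL := (EL.cons 3 (TM.mk (P.cons (P.cons (P.lf 0 636053795 0) (P.cons (P.lf 84860084 0 0) (P.cons (P.lf 36592624 0 0) (P.lf 0 4065846 0)))) (P.cons (P.cons (P.lf 71312092 0 0) (P.cons (P.lf 0 7302527 0) (P.cons (P.lf 0 3148932 0) (P.lf 349881 0 0)))) (P.cons (P.cons (P.lf 2850123 0 0) (P.cons (P.lf 0 489248 0) (P.cons (P.lf 0 210968 0) (P.lf 23440 0 0)))) (P.cons (P.cons (P.lf 0 256984 0) (P.cons (P.lf 9684 0 0) (P.cons (P.lf 4175 0 0) P.nil))) (P.cons (P.cons (P.lf 0 3151 0) (P.cons (P.lf 780 0 0) P.nil)) (P.cons (P.cons (P.lf 310 0 0) P.nil) P.nil)))))) 1713)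
 (EL.cons 7 (TM.mk (P.cons (P.cons (P.lf 0 1288465701 0) (P.cons (P.lf 171902610 0 0) (P.cons (P.lf 74126343 0 0) (P.lf 0 8236259 0)))) (P.cons (P.cons (P.lf 0 18345017 0) (P.cons (P.lf 6927774 0 0) (P.cons (P.lf 2987334 0 0) (P.lf 0 331924 0)))) (P.cons (P.cons (P.lf 4694294 0 0) (P.cons (P.lf 0 280991 0) (P.cons (P.lf 0 121165 0) (P.lf 13462 0 0)))) (P.cons (P.cons (P.lf 33092 0 0) (P.cons (P.lf 0 14926 0) (P.cons (P.lf 0 6436 0) P.nil))) (P.cons (P.cons (P.lf 0 6852 0) (P.cons (P.lf 181 0 0) P.nil)) (P.cons (P.cons (P.lf 0 66 0) P.nil) P.nil)))))) 1277)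
 EL.nil))
noncomputable def S219_227_216_364_11 : EL := (EL.cons 3 (TM.mk (P.cons (P.cons (P.lf 0 397814789 0) (P.cons (P.lf 106150129 0 0) (P.cons (P.lf 38692041 0 0) (P.cons (P.lf 0 11192794 0) (P.cons (P.lf 0 638136 0) (P.cons (P.lf 292594 0 0) P.nil)))))) (P.cons (P.cons (P.lf 42945585 0 0) (P.cons (P.lf 0 8692741 0) (P.cons (P.lf 0 3353082 0) (P.cons (P.lf 757427 0 0) (P.cons (P.lf 35625 0 0) P.nil))))) (P.cons (P.cons (P.lf 3211162 0 0) (P.cons (P.lf 0 981667 0) (P.cons (P.lf 0 354302 0) (P.cons (P.lf 106542 0 0) P.nil)))) (P.cons (P.cons (P.lf 0 298192 0) (P.cons (P.lf 39583 0 0) (P.cons (P.lf 17010 0 0) P.nil))) (P.cons (P.cons (P.lf 0 8907 0) (P.cons (P.lf 3163 0 0) P.nil)) (P.cons (P.cons (P.lf 858 0 0) P.nil) P.nil)))))) 97222)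
 (EL.cons 7 (TM.mk (P.cons (P.cons (P.lf 0 805860628 0) (P.cons (P.lf 215030241 0 0) (P.cons (P.lf 78379170 0 0) (P.cons (P.lf 0 22673447 0) (P.cons (P.lf 0 1292685 0) (P.cons (P.lf 592716 0 0) P.nil)))))) (P.cons (P.cons (P.lf 0 14828326 0) (P.cons (P.lf 9560955 0 0) (P.cons (P.lf 3111146 0 0) (P.cons (P.lf 0 1330552 0) (P.cons (P.lf 0 91167 0) P.nil))))) (P.cons (P.cons (P.lf 5406035 0 0) (P.cons (P.lf 0 987242 0) (P.cons (P.lf 0 399964 0) (P.cons (P.lf 69501 0 0) P.nil)))) (P.cons (P.cons (P.lf 57558 0 0) (P.cons (P.lf 0 44218 0) (P.cons (P.lf 0 15595 0) P.nil))) (P.cons (P.cons (P.lf 0 16200 0) (P.cons (P.lf 2080 0 0) P.nil)) (P.cons (P.cons (P.lf 0 125 0) P.nil) P.nil)))))) 105211)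
 EL.nil))
noncomputable def S219_227_216_364_12 : EL := (EL.cons 4 (TM.mk (P.cons (P.lf 1016966793 0 0) (P.cons (P.lf 0 118252065 0) (P.cons (P.lf 0 887366 0) (P.cons (P.lf 30975 0 0) (P.cons (P.lf 416 0 0) (P.cons (P.lf 0 3 0) P.nil)))))) 44)
 (EL.cons 8 (TM.mk (P.cons (P.lf 2060088064 0 0) (P.cons (P.lf 20755690 0 0) (P.cons (P.lf 0 1155533 0) (P.cons (P.lf 0 11905 0) (P.cons (P.lf 285 0 0) (P.cons (P.lf 5 0 0) P.nil)))))) 48)
 EL.nil))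
noncomputable def S219_227_216_364_13 : EL := (EL.cons 4 (TM.mk (P.cons (P.cons (P.lf 636053795 0 0) (P.cons (P.lf 0 84860084 0) (P.cons (P.lf 0 36592624 0) (P.lf 4065846 0 0)))) (P.cons (P.cons (P.lf 0 71312092 0) (P.cons (P.lf 7302527 0 0) (P.cons (P.lf 3148932 0 0) (P.lf 0 349881 0)))) (P.cons (P.cons (P.lf 0 2850123 0) (P.cons (P.lf 489248 0 0) (P.cons (P.lf 210968 0 0) (P.lf 0 23440 0)))) (P.cons (P.cons (P.lf 256984 0 0) (P.cons (P.lf 0 9684 0) (P.cons (P.lf 0 4175 0) P.nil))) (P.cons (P.cons (P.lf 3151 0 0) (P.cons (P.lf 0 780 0) P.nil)) (P.cons (P.cons (P.lf 0 310 0) P.nil) P.nil)))))) 1713)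
 (EL.cons 8 (TM.mk (P.cons (P.cons (P.lf 1288465701 0 0) (P.cons (P.lf 0 171902610 0) (P.cons (P.lf 0 74126343 0) (P.lf 8236259 0 0)))) (P.cons (P.cons (P.lf 18345017 0 0) (P.cons (P.lf 0 6927774 0) (P.cons (P.lf 0 2987334 0) (P.lf 331924 0 0)))) (P.cons (P.cons (P.lf 0 4694294 0) (P.cons (P.lf 280991 0 0) (P.cons (P.lf 121165 0 0) (P.lf 0 13462 0)))) (P.cons (P.cons (P.lf 0 33092 0) (P.cons (P.lf 14926 0 0) (P.cons (P.lf 6436 0 0) P.nil))) (P.cons (P.cons (P.lf 6852 0 0) (P.cons (P.lf 0 181 0) P.nil)) (P.cons (P.cons (P.lf 66 0 0) P.nil) P.nil)))))) 1277)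
 EL.nil))
noncomputable def S219_227_216_364_14 : EL := (EL.cons 4 (TM.mk (P.cons (P.cons (P.lf 397814789 0 0) (P.cons (P.lf 0 106150129 0) (P.cons (P.lf 0 38692041 0) (P.cons (P.lf 11192794 0 0) (P.cons (P.lf 638136 0 0) (P.cons (P.lf 0 292594 0) P.nil)))))) (P.cons (P.cons (P.lf 0 42945585 0) (P.cons (P.lf 8692741 0 0) (P.cons (P.lf 3353082 0 0) (P.cons (P.lf 0 757427 0) (P.cons (P.lf 0 35625 0) P.nil))))) (P.cons (P.cons (P.lf 0 3211162 0) (P.cons (P.lf 981667 0 0) (P.cons (P.lf 354302 0 0) (P.cons (P.lf 0 106542 0) P.nil)))) (P.cons (P.cons (P.lf 298192 0 0) (P.cons (P.lf 0 39583 0) (P.cons (P.lf 0 17010 0) P.nil))) (P.cons (P.cons (P.lf 8907 0 0) (P.cons (P.lf 0 3163 0) P.nil)) (P.cons (P.cons (P.lf 0 858 0) P.nil) P.nil)))))) 97222)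
 (EL.cons 8 (TM.mk (P.cons (P.cons (P.lf 805860628 0 0) (P.cons (P.lf 0 215030241 0) (P.cons (P.lf 0 78379170 0) (P.cons (P.lf 22673447 0 0) (P.cons (P.lf 1292685 0 0) (P.cons (P.lf 0 592716 0) P.nil)))))) (P.cons (P.cons (P.lf 14828326 0 0) (P.cons (P.lf 0 9560955 0) (P.cons (P.lf 0 3111146 0) (P.cons (P.lf 1330552 0 0) (P.cons (P.lf 91167 0 0) P.nil))))) (P.cons (P.cons (P.lf 0 5406035 0) (P.cons (P.lf 987242 0 0) (P.cons (P.lf 399964 0 0) (P.cons (P.lf 0 69501 0) P.nil)))) (P.cons (P.cons (P.lf 0 57558 0) (P.cons (P.lf 44218 0 0) (P.cons (P.lf 15595 0 0) P.nil))) (P.cons (P.cons (P.lf 16200 0 0) (P.cons (P.lf 0 2080 0) P.nil)) (P.cons (P.cons (P.lf 125 0 0) P.nil) P.nil)))))) 105211)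
 EL.nil))
noncomputable def S219_227_216_364_15 : EL := (EL.cons 4 (TM.mk (P.cons (P.lf 0 256851677 0) (P.cons (P.lf 59733004 0 0) (P.cons (P.lf 0 3024614 0) (P.cons (P.lf 0 67767 0) (P.cons (P.lf 1412 0 0) (P.cons (P.lf 39 0 0) P.nil)))))) 35)
 (EL.cons 8 (TM.mk (P.cons (P.lf 0 520309098 0) (P.cons (P.lf 55258924 0 0) (P.cons (P.lf 1355408 0 0) (P.cons (P.lf 0 42202 0) (P.cons (P.lf 0 1048 0) (P.cons (P.lf 13 0 0) P.nil)))))) 40)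
 EL.nil))
noncomputable def S219_227_216_364_16 : EL := (EL.cons 4 (TM.mk (P.cons (P.cons (P.lf 0 160645839 0) (P.cons (P.lf 21432808 0 0) (P.cons (P.lf 9242068 0 0) (P.lf 0 1026896 0)))) (P.cons (P.cons (P.lf 36690807 0 0) (P.cons (P.lf 0 4336562 0) (P.cons (P.lf 0 1869974 0) (P.lf 207774 0 0)))) (P.cons (P.cons (P.lf 0 1234289 0) (P.cons (P.lf 72192 0 0) (P.cons (P.lf 31129 0 0) (P.lf 0 3458 0)))) (P.cons (P.cons (P.lf 0 169216 0) (P.cons (P.lf 19076 0 0) (P.cons (P.lf 8225 0 0) P.nil))) (P.cons (P.cons (P.lf 6604 0 0) (P.cons (P.lf 0 26 0) P.nil)) (P.cons (P.cons (P.lf 256 0 0) P.nil) P.nil)))))) 1610)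
 (EL.cons 8 (TM.mk (P.cons (P.cons (P.lf 0 325423189 0) (P.cons (P.lf 43416829 0 0) (P.cons (P.lf 18721826 0 0) (P.lf 0 2080202 0)))) (P.cons (P.cons (P.lf 33206605 0 0) (P.cons (P.lf 0 3298749 0) (P.cons (P.lf 0 1422458 0) (P.lf 158050 0 0)))) (P.cons (P.cons (P.lf 2008333 0 0) (P.cons (P.lf 0 312309 0) (P.cons (P.lf 0 134670 0) (P.lf 14963 0 0)))) (P.cons (P.cons (P.lf 0 135373 0) (P.cons (P.lf 4277 0 0) (P.cons (P.lf 1844 0 0) P.nil))) (P.cons (P.cons (P.lf 0 4011 0) (P.cons (P.lf 616 0 0) P.nil)) (P.cons (P.cons (P.lf 212 0 0) P.nil) P.nil)))))) 1255)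
 EL.nil))
noncomputable def S219_227_216_364_17 : EL := (EL.cons 4 (TM.mk (P.cons (P.cons (P.lf 0 100474663 0) (P.cons (P.lf 26809959 0 0) (P.cons (P.lf 9772310 0 0) (P.cons (P.lf 0 2826923 0) (P.cons (P.lf 0 161171 0) (P.cons (P.lf 73899 0 0) P.nil)))))) (P.cons (P.cons (P.lf 22529724 0 0) (P.cons (P.lf 0 5312934 0) (P.cons (P.lf 0 1983192 0) (P.cons (P.lf 520012 0 0) (P.cons (P.lf 27738 0 0) P.nil))))) (P.cons (P.cons (P.lf 0 362532 0) (P.cons (P.lf 0 16038 0) (P.cons (P.lf 461 0 0) (P.cons (P.lf 7130 0 0) P.nil)))) (P.cons (P.cons (P.lf 0 182144 0) (P.cons (P.lf 41559 0 0) (P.cons (P.lf 15737 0 0) P.nil))) (P.cons (P.cons (P.lf 6088 0 0) (P.cons (P.lf 0 202 0) P.nil)) (P.cons (P.cons (P.lf 572 0 0) P.nil) P.nil)))))) 42771)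
 (EL.cons 8 (TM.mk (P.cons (P.cons (P.lf 0 203533346 0) (P.cons (P.lf 54309421 0 0) (P.cons (P.lf 19795947 0 0) (P.cons (P.lf 0 5726551 0) (P.cons (P.lf 0 326488 0) (P.cons (P.lf 149699 0 0) P.nil)))))) (P.cons (P.cons (P.lf 19921552 0 0) (P.cons (P.lf 0 3900278 0) (P.cons (P.lf 0 1516085 0) (P.cons (P.lf 329825 0 0) (P.cons (P.lf 14937 0 0) P.nil))))) (P.cons (P.cons (P.lf 1978459 0 0) (P.cons (P.lf 0 577520 0) (P.cons (P.lf 0 209659 0) (P.cons (P.lf 61626 0 0) P.nil)))) (P.cons (P.cons (P.lf 0 147159 0) (P.cons (P.lf 17372 0 0) (P.cons (P.lf 7724 0 0) P.nil))) (P.cons (P.cons (P.lf 0 7170 0) (P.cons (P.lf 2137 0 0) P.nil)) (P.cons (P.cons (P.lf 472 0 0) P.nil) P.nil)))))) 53344)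
 EL.nil))
noncomputable def S219_227_216_364_18 : EL := (EL.cons 4 (TM.mk (P.cons (P.lf 64872112 0 0) (P.cons (P.lf 0 22629827 0) (P.cons (P.lf 2461562 0 0) (P.cons (P.lf 0 56571 0) (P.cons (P.lf 0 3446 0) (P.cons (P.lf 32 0 0) P.nil)))))) 26)
 (EL.cons 8 (TM.mk (P.cons (P.lf 131412614 0 0) (P.cons (P.lf 0 29237100 0) (P.cons (P.lf 1165859 0 0) (P.cons (P.lf 66645 0 0) (P.cons (P.lf 0 1046 0) (P.cons (P.lf 0 59 0) P.nil)))))) 26)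
 EL.nil))
noncomputable def S219_227_216_364_19 : EL := (EL.cons 4 (TM.mk (P.cons (P.cons (P.lf 40573746 0 0) (P.cons (P.lf 0 5413207 0) (P.cons (P.lf 0 2334236 0) (P.lf 259359 0 0)))) (P.cons (P.cons (P.lf 0 13984747 0) (P.cons (P.lf 1724713 0 0) (P.cons (P.lf 743715 0 0) (P.lf 0 82635 0)))) (P.cons (P.cons (P.lf 1353880 0 0) (P.cons (P.lf 0 140866 0) (P.cons (P.lf 0 60743 0) (P.lf 6749 0 0)))) (P.cons (P.cons (P.lf 15810 0 0) (P.cons (P.lf 0 3818 0) (P.cons (P.lf 0 1646 0) P.nil))) (P.cons (P.cons (P.lf 0 7174 0) (P.cons (P.lf 613 0 0) P.nil)) (P.cons (P.cons (P.lf 96 0 0) P.nil) P.nil)))))) 1173)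
 (EL.cons 8 (TM.mk (P.cons (P.cons (P.lf 82190974 0 0) (P.cons (P.lf 0 10965633 0) (P.cons (P.lf 0 4728504 0) (P.lf 525389 0 0)))) (P.cons (P.cons (P.lf 0 17943973 0) (P.cons (P.lf 2108228 0 0) (P.cons (P.lf 909091 0 0) (P.lf 0 101009 0)))) (P.cons (P.cons (P.lf 396263 0 0) (P.cons (P.lf 0 8430 0) (P.cons (P.lf 0 3635 0) (P.lf 403 0 0)))) (P.cons (P.cons (P.lf 102993 0 0) (P.cons (P.lf 0 11313 0) (P.cons (P.lf 0 4878 0) P.nil))) (P.cons (P.cons (P.lf 0 2741 0) (P.cons (P.lf 0 78 0) P.nil)) (P.cons (P.cons (P.lf 0 220 0) P.nil) P.nil)))))) 997)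
 EL.nil))
noncomputable def S219_227_216_364_20 : EL := (EL.cons 4 (TM.mk (P.cons (P.cons (P.lf 25376526 0 0) (P.cons (P.lf 0 6771295 0) (P.cons (P.lf 0 2468157 0) (P.cons (P.lf 713985 0 0) (P.cons (P.lf 40706 0 0) (P.cons (P.lf 0 18663 0) P.nil)))))) (P.cons (P.cons (P.lf 0 8641013 0) (P.cons (P.lf 2129229 0 0) (P.cons (P.lf 787882 0 0) (P.cons (P.lf 0 214359 0) (P.cons (P.lf 0 11738 0) P.nil))))) (P.cons (P.cons (P.lf 731078 0 0) (P.cons (P.lf 0 146071 0) (P.cons (P.lf 0 56205 0) (P.cons (P.lf 12847 0 0) P.nil)))) (P.cons (P.cons (P.lf 41094 0 0) (P.cons (P.lf 0 12344 0) (P.cons (P.lf 0 4472 0) P.nil))) (P.cons (P.cons (P.lf 0 7129 0) (P.cons (P.lf 1305 0 0) P.nil)) (P.cons (P.cons (P.lf 0 5 0) P.nil) P.nil)))))) 17704)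
 (EL.cons 8 (TM.mk (P.cons (P.cons (P.lf 51405691 0 0) (P.cons (P.lf 0 13716736 0) (P.cons (P.lf 0 4999791 0) (P.cons (P.lf 1446334 0 0) (P.cons (P.lf 82459 0 0) (P.cons (P.lf 0 37809 0) P.nil)))))) (P.cons (P.cons (P.lf 0 11008927 0) (P.cons (P.lf 2580050 0 0) (P.cons (P.lf 964283 0 0) (P.cons (P.lf 0 251481 0) (P.cons (P.lf 0 13361 0) P.nil))))) (P.cons (P.cons (P.lf 40512 0 0) (P.cons (P.lf 43286 0 0) (P.cons (P.lf 12791 0 0) (P.cons (P.lf 0 7140 0) P.nil)))) (P.cons (P.cons (P.lf 101227 0 0) (P.cons (P.lf 0 22625 0) (P.cons (P.lf 0 8594 0) P.nil))) (P.cons (P.cons (P.lf 0 2206 0) (P.cons (P.lf 0 132 0) P.nil)) (P.cons (P.cons (P.lf 0 379 0) P.nil) P.nil)))))) 23038)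
 EL.nil))
noncomputable def S219_227_216_364_21 : EL := (EL.cons 4 (TM.mk (P.cons (P.cons (P.lf 0 262797318 0) (P.cons (P.lf 254580252 0 0) (P.cons (P.lf 109777872 0 0) (P.lf 0 12197538 0)))) (P.cons (P.cons (P.lf 393135288 0 0) (P.cons (P.lf 0 21907581 0) (P.cons (P.lf 0 9446796 0) (P.lf 1049643 0 0)))) (P.cons (P.cons (P.lf 0 523467 0) (P.cons (P.lf 0 1467744 0) (P.cons (P.lf 0 632904 0) (P.lf 70320 0 0)))) (P.cons (P.cons (P.lf 0 974253 0) (P.cons (P.lf 29052 0 0) (P.cons (P.lf 12525 0 0) P.nil))) (P.cons (P.cons (P.lf 0 5220 0) (P.cons (P.lf 2340 0 0) P.nil)) (P.cons (P.cons (P.lf 1047 0 0) P.nil) P.nil)))))) 5319)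
 (EL.cons 8 (TM.mk (P.cons (P.cons (P.lf 46126392 0 0) (P.cons (P.lf 0 44684121 0) (P.cons (P.lf 0 19268301 0) (P.lf 2140926 0 0)))) (P.cons (P.cons (P.lf 0 74831661 0) (P.cons (P.lf 9491262 0 0) (P.cons (P.lf 4092738 0 0) (P.lf 0 454743 0)))) (P.cons (P.cons (P.lf 8855088 0 0) (P.cons (P.lf 0 271197 0) (P.cons (P.lf 0 116940 0) (P.lf 12993 0 0)))) (P.cons (P.cons (P.lf 91005 0 0) (P.cons (P.lf 0 31968 0) (P.cons (P.lf 0 13785 0) P.nil))) (P.cons (P.cons (P.lf 0 17499 0) (P.cons (P.lf 279 0 0) P.nil)) (P.cons (P.cons (P.lf 0 177 0) P.nil) P.nil)))))) 4986)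
 (EL.cons 11 (TM.mk (P.cons (P.cons (P.lf 1170944265 0 0) (P.cons (P.lf 1090842909 0 0) (P.cons (P.lf 0 111955968 0) (P.cons (P.lf 0 23283726 0) (P.lf 1940310 0 0))))) (P.cons (P.cons (P.lf 23594871 0 0) (P.cons (P.lf 21980805 0 0) (P.cons (P.lf 0 2255943 0) (P.cons (P.lf 0 469173 0) (P.lf 39096 0 0))))) (P.cons (P.cons (P.lf 0 1194735 0) (P.cons (P.lf 0 1113006 0) (P.cons (P.lf 114228 0 0) (P.cons (P.lf 23754 0 0) P.nil)))) (P.cons (P.cons (P.lf 0 26766 0) (P.cons (P.lf 0 24936 0) (P.cons (P.lf 2559 0 0) P.nil))) (P.cons (P.cons (P.lf 555 0 0) (P.cons (P.lf 516 0 0) P.nil)) (P.cons (P.cons (P.lf 15 0 0) P.nil) P.nil)))))) 2874)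
 EL.nil)))
noncomputable def S219_227_216_364_22 : EL := (EL.cons 4 (TM.mk (P.cons (P.cons (P.lf 0 164364492 0) (P.cons (P.lf 181154133 0 0) (P.cons (P.lf 56872431 0 0) (P.cons (P.lf 0 27000195 0) (P.cons (P.lf 0 1914408 0) (P.cons (P.lf 877785 0 0) P.nil)))))) (P.cons (P.cons (P.lf 245199135 0 0) (P.cons (P.lf 0 45181197 0) (P.cons (P.lf 0 18296664 0) (P.cons (P.lf 3187548 0 0) (P.cons (P.lf 106878 0 0) P.nil))))) (P.cons (P.cons (P.lf 1209678 0 0) (P.cons (P.lf 0 2450583 0) (P.cons (P.lf 0 849711 0) (P.cons (P.lf 295935 0 0) P.nil)))) (P.cons (P.cons (P.lf 0 1381212 0) (P.cons (P.lf 186099 0 0) (P.cons (P.lf 80070 0 0) P.nil))) (P.cons (P.cons (P.lf 0 1902 0) (P.cons (P.lf 9240 0 0) P.nil)) (P.cons (P.cons (P.lf 3351 0 0) P.nil) P.nil)))))) 253614)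
 (EL.cons 8 (TM.mk (P.cons (P.cons (P.lf 28849383 0 0) (P.cons (P.lf 0 31796310 0) (P.cons (P.lf 0 9982293 0) (P.cons (P.lf 4739097 0 0) (P.cons (P.lf 336018 0 0) (P.cons (P.lf 0 154068 0) P.nil)))))) (P.cons (P.cons (P.lf 0 46682775 0) (P.cons (P.lf 11947833 0 0) (P.cons (P.lf 4472748 0 0) (P.cons (P.lf 0 1158282 0) (P.cons (P.lf 0 61215 0) P.nil))))) (P.cons (P.cons (P.lf 5253381 0 0) (P.cons (P.lf 0 602454 0) (P.cons (P.lf 0 266229 0) (P.cons (P.lf 23304 0 0) P.nil)))) (P.cons (P.cons (P.lf 226602 0 0) (P.cons (P.lf 0 77976 0) (P.cons (P.lf 0 29367 0) P.nil))) (P.cons (P.cons (P.lf 0 28566 0) (P.cons (P.lf 2541 0 0) P.nil)) (P.cons (P.cons (P.lf 0 411 0) P.nil) P.nil)))))) 79374)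
 (EL.cons 11 (TM.mk (P.cons (P.cons (P.lf 732357780 0 0) (P.cons (P.lf 584550396 0 0) (P.cons (P.lf 0 203179656 0) (P.cons (P.lf 0 39789927 0) (P.cons (P.lf 11546061 0 0) (P.cons (P.lf 228288 0 0) P.nil)))))) (P.cons (P.cons (P.lf 17805831 0 0) (P.cons (P.lf 11665638 0 0) (P.cons (P.lf 0 8410359 0) (P.cons (P.lf 0 1624905 0) (P.cons (P.lf 550008 0 0) P.nil))))) (P.cons (P.cons (P.lf 0 2973945 0) (P.cons (P.lf 0 2595657 0) (P.cons (P.lf 522621 0 0) (P.cons (P.lf 104277 0 0) P.nil)))) (P.cons (P.cons (P.lf 0 55770 0) (P.cons (P.lf 0 39090 0) (P.cons (P.lf 22866 0 0) P.nil))) (P.cons (P.cons (P.lf 5241 0 0) (P.cons (P.lf 4785 0 0) P.nil)) (P.cons (P.cons (P.lf 105 0 0) P.nil) P.nil)))))) 305742)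
 EL.nil)))
noncomputable def S219_227_216_364_23 : EL := (EL.cons 4 (TM.mk (P.cons (P.cons (P.lf 66373779 0 0) (P.cons (P.lf 0 64298424 0) (P.cons (P.lf 0 27726204 0) (P.lf 3080688 0 0)))) (P.cons (P.cons (P.lf 0 107010666 0) (P.cons (P.lf 13009686 0 0) (P.cons (P.lf 5609922 0 0) (P.lf 0 623322 0)))) (P.cons (P.cons (P.lf 11619975 0 0) (P.cons (P.lf 0 216579 0) (P.cons (P.lf 0 93390 0) (P.lf 10377 0 0)))) (P.cons (P.cons (P.lf 319350 0 0) (P.cons (P.lf 0 57228 0) (P.cons (P.lf 0 24675 0) P.nil))) (P.cons (P.cons (P.lf 0 30405 0) (P.cons (P.lf 78 0 0) P.nil)) (P.cons (P.cons (P.lf 0 669 0) P.nil) P.nil)))))) 4713)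
 (EL.cons 8 (TM.mk (P.cons (P.cons (P.lf 0 11649978 0) (P.cons (P.lf 11285709 0 0) (P.cons (P.lf 4866525 0 0) (P.lf 0 540726 0)))) (P.cons (P.cons (P.lf 20254614 0 0) (P.cons (P.lf 0 3709467 0) (P.cons (P.lf 0 1599561 0) (P.lf 177726 0 0)))) (P.cons (P.cons (P.lf 0 4424004 0) (P.cons (P.lf 337389 0 0) (P.cons (P.lf 145485 0 0) (P.lf 0 16164 0)))) (P.cons (P.cons (P.lf 220227 0 0) (P.cons (P.lf 2544 0 0) (P.cons (P.lf 1095 0 0) P.nil))) (P.cons (P.cons (P.lf 9612 0 0) (P.cons (P.lf 0 1137 0) P.nil)) (P.cons (P.cons (P.lf 0 507 0) P.nil) P.nil)))))) 2469)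
 (EL.cons 11 (TM.mk (P.cons (P.cons (P.lf 0 295741218 0) (P.cons (P.lf 0 275510304 0) (P.cons (P.lf 28276317 0 0) (P.cons (P.lf 5880687 0 0) (P.lf 0 490056 0))))) (P.cons (P.cons (P.lf 28429272 0 0) (P.cons (P.lf 26484498 0 0) (P.cons (P.lf 0 2718171 0) (P.cons (P.lf 0 565302 0) (P.lf 47109 0 0))))) (P.cons (P.cons (P.lf 1252740 0 0) (P.cons (P.lf 1167042 0 0) (P.cons (P.lf 0 119775 0) (P.cons (P.lf 0 24909 0) P.nil)))) (P.cons (P.cons (P.lf 0 32133 0) (P.cons (P.lf 0 29934 0) (P.cons (P.lf 3072 0 0) P.nil))) (P.cons (P.cons (P.lf 0 1491 0) (P.cons (P.lf 0 1389 0) P.nil)) (P.cons (P.cons (P.lf 12 0 0) P.nil) P.nil)))))) 3651)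
 EL.nil)))
noncomputable def S219_227_216_364_24 : EL := (EL.cons 4 (TM.mk (P.cons (P.cons (P.lf 41512953 0 0) (P.cons (P.lf 0 45753453 0) (P.cons (P.lf 0 14364066 0) (P.cons (P.lf 6819342 0 0) (P.cons (P.lf 483513 0 0) (P.cons (P.lf 0 221697 0) P.nil)))))) (P.cons (P.cons (P.lf 0 66756162 0) (P.cons (P.lf 16731426 0 0) (P.cons (P.lf 6291363 0 0) (P.cons (P.lf 0 1598013 0) (P.cons (P.lf 0 83214 0) P.nil))))) (P.cons (P.cons (P.lf 6859314 0 0) (P.cons (P.lf 0 668031 0) (P.cons (P.lf 0 310197 0) (P.cons (P.lf 12918 0 0) P.nil)))) (P.cons (P.cons (P.lf 439674 0 0) (P.cons (P.lf 0 130320 0) (P.cons (P.lf 0 49647 0) P.nil))) (P.cons (P.cons (P.lf 0 41685 0) (P.cons (P.lf 2919 0 0) P.nil)) (P.cons (P.cons (P.lf 0 1242 0) P.nil) P.nil)))))) 105369)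
 (EL.cons 8 (TM.mk (P.cons (P.cons (P.lf 0 7286385 0) (P.cons (P.lf 8030679 0 0) (P.cons (P.lf 2521191 0 0) (P.cons (P.lf 0 1196937 0) (P.cons (P.lf 0 84867 0) (P.cons (P.lf 38910 0 0) P.nil)))))) (P.cons (P.cons (P.lf 12637755 0 0) (P.cons (P.lf 0 3951423 0) (P.cons (P.lf 0 1422828 0) (P.cons (P.lf 431721 0 0) (P.cons (P.lf 25329 0 0) P.nil))))) (P.cons (P.cons (P.lf 0 2691459 0) (P.cons (P.lf 496038 0 0) (P.cons (P.lf 196395 0 0) (P.cons (P.lf 0 38856 0) P.nil)))) (P.cons (P.cons (P.lf 86538 0 0) (P.cons (P.lf 4878 0 0) (P.cons (P.lf 660 0 0) P.nil))) (P.cons (P.cons (P.lf 15381 0 0) (P.cons (P.lf 0 3153 0) P.nil)) (P.cons (P.cons (P.lf 0 720 0) P.nil) P.nil)))))) 31671)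
 (EL.cons 11 (TM.mk (P.cons (P.cons (P.lf 0 184968993 0) (P.cons (P.lf 0 147637809 0) (P.cons (P.lf 51316359 0 0) (P.cons (P.lf 10049598 0 0) (P.cons (P.lf 0 2916147 0) (P.cons (P.lf 0 57657 0) P.nil)))))) (P.cons (P.cons (P.lf 17010885 0 0) (P.cons (P.lf 14220855 0 0) (P.cons (P.lf 0 3842847 0) (P.cons (P.lf 0 758160 0) (P.cons (P.lf 200172 0 0) P.nil))))) (P.cons (P.cons (P.lf 1435440 0 0) (P.cons (P.lf 1126998 0 0) (P.cons (P.lf 0 423768 0) (P.cons (P.lf 0 82824 0) P.nil)))) (P.cons (P.cons (P.lf 0 74961 0) (P.cons (P.lf 0 68280 0) (P.cons (P.lf 9282 0 0) P.nil))) (P.cons (P.cons (P.lf 0 3828 0) (P.cons (P.lf 0 3078 0) P.nil)) (P.cons (P.cons (P.lf 135 0 0) P.nil) P.nil)))))) 125082)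
 EL.nil)))
noncomputable def S219_227_216_364_25 : EL := (EL.cons 4 (TM.mk (P.cons (P.cons (P.lf 0 16763787 0) (P.cons (P.lf 16239624 0 0) (P.cons (P.lf 7002708 0 0) (P.lf 0 778077 0)))) (P.cons (P.cons (P.lf 28976580 0 0) (P.cons (P.lf 0 5174139 0) (P.cons (P.lf 0 2231145 0) (P.lf 247905 0 0)))) (P.cons (P.cons (P.lf 0 6062901 0) (P.cons (P.lf 422601 0 0) (P.cons (P.lf 182229 0 0) (P.lf 0 20247 0)))) (P.cons (P.cons (P.lf 236505 0 0) (P.cons (P.lf 11454 0 0) (P.cons (P.lf 4938 0 0) P.nil))) (P.cons (P.cons (P.lf 20433 0 0) (P.cons (P.lf 0 1842 0) P.nil)) (P.cons (P.cons (P.lf 0 729 0) P.nil) P.nil)))))) 3618)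
 (EL.cons 8 (TM.mk (P.cons (P.cons (P.lf 2942391 0 0) (P.cons (P.lf 0 2850390 0) (P.cons (P.lf 0 1229121 0) (P.lf 136569 0 0)))) (P.cons (P.cons (P.lf 0 5457774 0) (P.cons (P.lf 1268328 0 0) (P.cons (P.lf 546915 0 0) (P.lf 0 60768 0)))) (P.cons (P.cons (P.lf 1709628 0 0) (P.cons (P.lf 0 191664 0) (P.cons (P.lf 0 82647 0) (P.lf 9183 0 0)))) (P.cons (P.cons (P.lf 0 180993 0) (P.cons (P.lf 8361 0 0) (P.cons (P.lf 3603 0 0) P.nil))) (P.cons (P.cons (P.lf 2907 0 0) (P.cons (P.lf 462 0 0) P.nil)) (P.cons (P.cons (P.lf 489 0 0) P.nil) P.nil)))))) 1482)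
 (EL.cons 11 (TM.mk (P.cons (P.cons (P.lf 74694303 0 0) (P.cons (P.lf 69584655 0 0) (P.cons (P.lf 0 7141647 0) (P.cons (P.lf 0 1485264 0) (P.lf 123771 0 0))))) (P.cons (P.cons (P.lf 0 15865671 0) (P.cons (P.lf 0 14780340 0) (P.cons (P.lf 1516944 0 0) (P.cons (P.lf 315480 0 0) (P.lf 0 26289 0))))) (P.cons (P.cons (P.lf 453339 0 0) (P.cons (P.lf 422328 0 0) (P.cons (P.lf 0 43344 0) (P.cons (P.lf 0 9012 0) P.nil)))) (P.cons (P.cons (P.lf 53445 0 0) (P.cons (P.lf 49791 0 0) (P.cons (P.lf 0 5109 0) P.nil))) (P.cons (P.cons (P.lf 0 477 0) (P.cons (P.lf 0 444 0) P.nil)) (P.cons (P.cons (P.lf 0 66 0) P.nil) P.nil)))))) 3813)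
 EL.nil)))
noncomputable def S219_227_216_364_26 : EL := (EL.cons 4 (TM.mk (P.cons (P.cons (P.lf 0 10484778 0) (P.cons (P.lf 11555784 0 0) (P.cons (P.lf 3627879 0 0) (P.cons (P.lf 0 1722336 0) (P.cons (P.lf 0 122118 0) (P.cons (P.lf 55992 0 0) P.nil)))))) (P.cons (P.cons (P.lf 18079527 0 0) (P.cons (P.lf 0 5569494 0) (P.cons (P.lf 0 2010834 0) (P.cons (P.lf 603876 0 0) (P.cons (P.lf 35217 0 0) P.nil))))) (P.cons (P.cons (P.lf 0 3683793 0) (P.cons (P.lf 650010 0 0) (P.cons (P.lf 259944 0 0) (P.cons (P.lf 0 48690 0) P.nil)))) (P.cons (P.cons (P.lf 75366 0 0) (P.cons (P.lf 17334 0 0) (P.cons (P.lf 4926 0 0) P.nil))) (P.cons (P.cons (P.lf 25461 0 0) (P.cons (P.lf 0 4833 0) P.nil)) (P.cons (P.cons (P.lf 0 858 0) P.nil) P.nil)))))) 41640)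
 (EL.cons 8 (TM.mk (P.cons (P.cons (P.lf 1840296 0 0) (P.cons (P.lf 0 2028279 0) (P.cons (P.lf 0 636768 0) (P.cons (P.lf 302304 0 0) (P.cons (P.lf 21432 0 0) (P.cons (P.lf 0 9828 0) P.nil)))))) (P.cons (P.cons (P.lf 0 3405861 0) (P.cons (P.lf 1233843 0 0) (P.cons (P.lf 433401 0 0) (P.cons (P.lf 0 144189 0) (P.cons (P.lf 0 8889 0) P.nil))))) (P.cons (P.cons (P.lf 1049313 0 0) (P.cons (P.lf 0 239559 0) (P.cons (P.lf 0 90831 0) (P.cons (P.lf 22227 0 0) P.nil)))) (P.cons (P.cons (P.lf 0 98058 0) (P.cons (P.lf 12402 0 0) (P.cons (P.lf 5265 0 0) P.nil))) (P.cons (P.cons (P.lf 0 2031 0) (P.cons (P.lf 1077 0 0) P.nil)) (P.cons (P.cons (P.lf 672 0 0) P.nil) P.nil)))))) 12303)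
 (EL.cons 11 (TM.mk (P.cons (P.cons (P.lf 46716957 0 0) (P.cons (P.lf 37288353 0 0) (P.cons (P.lf 0 12960789 0) (P.cons (P.lf 0 2538189 0) (P.cons (P.lf 736521 0 0) (P.cons (P.lf 14562 0 0) P.nil)))))) (P.cons (P.cons (P.lf 0 9728586 0) (P.cons (P.lf 0 7927569 0) (P.cons (P.lf 2477643 0 0) (P.cons (P.lf 486624 0 0) (P.cons (P.lf 0 136197 0) P.nil))))) (P.cons (P.cons (P.lf 96270 0 0) (P.cons (P.lf 100461 0 0) (P.cons (P.lf 5481 0 0) (P.cons (P.lf 867 0 0) P.nil)))) (P.cons (P.cons (P.lf 66261 0 0) (P.cons (P.lf 54612 0 0) (P.cons (P.lf 0 16029 0) P.nil))) (P.cons (P.cons (P.lf 0 1029 0) (P.cons (P.lf 0 1071 0) P.nil)) (P.cons (P.cons (P.lf 0 174 0) P.nil) P.nil)))))) 49212)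
 EL.nil)))
noncomputable def S219_227_216_364_27 : EL := (EL.cons 13 (TM.mk (P.lf 0 4294967296 0) 0)
 EL.nil)
noncomputable def S219_227_216_364_28 : EL := (EL.cons 13 (TM.mk (P.cons (P.cons (P.lf 0 2686253149 0) (P.cons (P.lf 358390548 0 0) (P.cons (P.lf 154542044 0 0) (P.lf 0 17171336 0)))) (P.cons (P.cons (P.lf 0 11182150 0) (P.cons (P.lf 10832508 0 0) (P.cons (P.lf 4671100 0 0) (P.lf 0 519008 0)))) (P.cons (P.cons (P.lf 8392787 0 0) (P.cons (P.lf 0 493936 0) (P.cons (P.lf 0 212988 0) (P.lf 23664 0 0)))) (P.cons (P.cons (P.lf 0 37362 0) (P.cons (P.lf 0 17996 0) (P.cons (P.lf 0 7760 0) P.nil))) (P.cons (P.cons (P.lf 0 8896 0) (P.cons (P.lf 296 0 0) P.nil)) (P.cons (P.cons (P.lf 0 14 0) P.nil) P.nil)))))) 1605)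
 EL.nil)
noncomputable def S219_227_216_364_29 : EL := (EL.cons 13 (TM.mk (P.cons (P.cons (P.lf 0 1680095675 0) (P.cons (P.lf 448305037 0 0) (P.cons (P.lf 163408536 0 0) (P.cons (P.lf 0 47270657 0) (P.cons (P.lf 0 2695050 0) (P.cons (P.lf 1235722 0 0) P.nil)))))) (P.cons (P.cons (P.lf 0 13987573 0) (P.cons (P.lf 15416385 0 0) (P.cons (P.lf 4839897 0 0) (P.cons (P.lf 0 2297738 0) (P.cons (P.lf 0 162918 0) P.nil))))) (P.cons (P.cons (P.lf 10469290 0 0) (P.cons (P.lf 0 1962111 0) (P.cons (P.lf 0 790969 0) (P.cons (P.lf 141536 0 0) P.nil)))) (P.cons (P.cons (P.lf 0 3033 0) (P.cons (P.lf 0 61183 0) (P.cons (P.lf 0 20887 0) P.nil))) (P.cons (P.cons (P.lf 0 27722 0) (P.cons (P.lf 3880 0 0) P.nil)) (P.cons (P.cons (P.lf 82 0 0) P.nil) P.nil)))))) 196822)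
 EL.nil)
noncomputable def S219_227_216_364_30 : EL := (EL.cons 13 (TM.mk (P.cons (P.lf 1084764580 0 0) (P.cons (P.lf 0 126135536 0) (P.cons (P.lf 0 946524 0) (P.cons (P.lf 33040 0 0) (P.cons (P.lf 444 0 0) (P.cons (P.lf 0 4 0) P.nil)))))) 40)
 EL.nil)
noncomputable def S219_227_216_364_31 : EL := (EL.cons 13 (TM.mk (P.cons (P.cons (P.lf 678457382 0 0) (P.cons (P.lf 0 90517423 0) (P.cons (P.lf 0 39032133 0) (P.lf 4336903 0 0)))) (P.cons (P.cons (P.lf 0 76066232 0) (P.cons (P.lf 7789363 0 0) (P.cons (P.lf 3358861 0 0) (P.lf 0 373207 0)))) (P.cons (P.cons (P.lf 0 3040132 0) (P.cons (P.lf 521865 0 0) (P.cons (P.lf 225033 0 0) (P.lf 0 25003 0)))) (P.cons (P.cons (P.lf 274117 0 0) (P.cons (P.lf 0 10330 0) (P.cons (P.lf 0 4454 0) P.nil))) (P.cons (P.cons (P.lf 3362 0 0) (P.cons (P.lf 0 832 0) P.nil)) (P.cons (P.cons (P.lf 0 331 0) P.nil) P.nil)))))) 1807)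
 EL.nil)
noncomputable def S219_227_216_364_32 : EL := (EL.cons 13 (TM.mk (P.cons (P.cons (P.lf 424335775 0 0) (P.cons (P.lf 0 113226805 0) (P.cons (P.lf 0 41271511 0) (P.cons (P.lf 11938981 0 0) (P.cons (P.lf 680679 0 0) (P.cons (P.lf 0 312101 0) P.nil)))))) (P.cons (P.cons (P.lf 0 45808624 0) (P.cons (P.lf 9272258 0 0) (P.cons (P.lf 3576621 0 0) (P.cons (P.lf 0 807923 0) (P.cons (P.lf 0 38001 0) P.nil))))) (P.cons (P.cons (P.lf 0 3425240 0) (P.cons (P.lf 1047112 0 0) (P.cons (P.lf 377923 0 0) (P.cons (P.lf 0 113645 0) P.nil)))) (P.cons (P.cons (P.lf 318072 0 0) (P.cons (P.lf 0 42222 0) (P.cons (P.lf 0 18144 0) P.nil))) (P.cons (P.cons (P.lf 9501 0 0) (P.cons (P.lf 0 3374 0) P.nil)) (P.cons (P.cons (P.lf 0 916 0) P.nil) P.nil)))))) 103681)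
 EL.nil)
noncomputable def S219_227_216_364_33 : EL := (EL.cons 14 (TM.mk (P.lf 8589934592 0 0) 0)
 EL.nil)
noncomputable def S219_227_216_364_34 : EL := (EL.cons 14 (TM.mk (P.cons (P.cons (P.lf 5372506298 0 0) (P.cons (P.lf 0 716781096 0) (P.cons (P.lf 0 309084088 0) (P.lf 34342672 0 0)))) (P.cons (P.cons (P.lf 22364300 0 0) (P.cons (P.lf 0 21665016 0) (P.cons (P.lf 0 9342200 0) (P.lf 1038016 0 0)))) (P.cons (P.cons (P.lf 0 16785574 0) (P.cons (P.lf 987872 0 0) (P.cons (P.lf 425976 0 0) (P.lf 0 47328 0)))) (P.cons (P.cons (P.lf 74724 0 0) (P.cons (P.lf 35992 0 0) (P.cons (P.lf 15520 0 0) P.nil))) (P.cons (P.cons (P.lf 17792 0 0) (P.cons (P.lf 0 592 0) P.nil)) (P.cons (P.cons (P.lf 28 0 0) P.nil) P.nil)))))) 3210)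
 EL.nil)
noncomputable def S219_227_216_364_35 : EL := (EL.cons 14 (TM.mk (P.cons (P.cons (P.lf 3360191350 0 0) (P.cons (P.lf 0 896610074 0) (P.cons (P.lf 0 326817072 0) (P.cons (P.lf 94541314 0 0) (P.cons (P.lf 5390100 0 0) (P.cons (P.lf 0 2471444 0) P.nil)))))) (P.cons (P.cons (P.lf 27975146 0 0) (P.cons (P.lf 0 30832770 0) (P.cons (P.lf 0 9679794 0) (P.cons (P.lf 4595476 0 0) (P.cons (P.lf 325836 0 0) P.nil))))) (P.cons (P.cons (P.lf 0 20938580 0) (P.cons (P.lf 3924222 0 0) (P.cons (P.lf 1581938 0 0) (P.cons (P.lf 0 283072 0) P.nil)))) (P.cons (P.cons (P.lf 6066 0 0) (P.cons (P.lf 122366 0 0) (P.cons (P.lf 41774 0 0) P.nil))) (P.cons (P.cons (P.lf 55444 0 0) (P.cons (P.lf 0 7760 0) P.nil)) (P.cons (P.cons (P.lf 0 164 0) P.nil) P.nil)))))) 393644)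
 EL.nil)
noncomputable def S219_227_216_364_36 : EL := (EL.cons 14 (TM.mk (P.cons (P.lf 0 2169529160 0) (P.cons (P.lf 252271072 0 0) (P.cons (P.lf 1893048 0 0) (P.cons (P.lf 0 66080 0) (P.cons (P.lf 0 888 0) (P.cons (P.lf 8 0 0) P.nil)))))) 80)
 EL.nil)
noncomputable def S219_227_216_364_37 : EL := (EL.cons 14 (TM.mk (P.cons (P.cons (P.lf 0 1356914764 0) (P.cons (P.lf 181034846 0 0) (P.cons (P.lf 78064266 0 0) (P.lf 0 8673806 0)))) (P.cons (P.cons (P.lf 152132464 0 0) (P.cons (P.lf 0 15578726 0) (P.cons (P.lf 0 6717722 0) (P.lf 746414 0 0)))) (P.cons (P.cons (P.lf 6080264 0 0) (P.cons (P.lf 0 1043730 0) (P.cons (P.lf 0 450066 0) (P.lf 50006 0 0)))) (P.cons (P.cons (P.lf 0 548234 0) (P.cons (P.lf 20660 0 0) (P.cons (P.lf 8908 0 0) P.nil))) (P.cons (P.cons (P.lf 0 6724 0) (P.cons (P.lf 1664 0 0) P.nil)) (P.cons (P.cons (P.lf 662 0 0) P.nil) P.nil)))))) 3614)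
 EL.nil)
noncomputable def S219_227_216_364_38 : EL := (EL.cons 14 (TM.mk (P.cons (P.cons (P.lf 0 848671550 0) (P.cons (P.lf 226453610 0 0) (P.cons (P.lf 82543022 0 0) (P.cons (P.lf 0 23877962 0) (P.cons (P.lf 0 1361358 0) (P.cons (P.lf 624202 0 0) P.nil)))))) (P.cons (P.cons (P.lf 91617248 0 0) (P.cons (P.lf 0 18544516 0) (P.cons (P.lf 0 7153242 0) (P.cons (P.lf 1615846 0 0) (P.cons (P.lf 76002 0 0) P.nil))))) (P.cons (P.cons (P.lf 6850480 0 0) (P.cons (P.lf 0 2094224 0) (P.cons (P.lf 0 755846 0) (P.cons (P.lf 227290 0 0) P.nil)))) (P.cons (P.cons (P.lf 0 636144 0) (P.cons (P.lf 84444 0 0) (P.cons (P.lf 36288 0 0) P.nil))) (P.cons (P.cons (P.lf 0 19002 0) (P.cons (P.lf 6748 0 0) P.nil)) (P.cons (P.cons (P.lf 1832 0 0) P.nil) P.nil)))))) 207362)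
 EL.nil)
noncomputable def S219_227_216_364_39 : EL := (EL.cons 14 (TM.mk (P.cons (P.lf 547950246 0 0) (P.cons (P.lf 0 127430410 0) (P.cons (P.lf 6452510 0 0) (P.cons (P.lf 144570 0 0) (P.cons (P.lf 0 3014 0) (P.cons (P.lf 0 84 0) P.nil)))))) 60)
 EL.nil)
noncomputable def S219_227_216_364_40 : EL := (EL.cons 14 (TM.mk (P.cons (P.cons (P.lf 342711124 0 0) (P.cons (P.lf 0 45723324 0) (P.cons (P.lf 0 19716412 0) (P.lf 2190712 0 0)))) (P.cons (P.cons (P.lf 0 78273722 0) (P.cons (P.lf 9251334 0 0) (P.cons (P.lf 3989278 0 0) (P.lf 0 443252 0)))) (P.cons (P.cons (P.lf 2633150 0 0) (P.cons (P.lf 0 154010 0) (P.cons (P.lf 0 66410 0) (P.lf 7378 0 0)))) (P.cons (P.cons (P.lf 360996 0 0) (P.cons (P.lf 0 40696 0) (P.cons (P.lf 0 17548 0) P.nil))) (P.cons (P.cons (P.lf 0 14090 0) (P.cons (P.lf 56 0 0) P.nil)) (P.cons (P.cons (P.lf 0 548 0) P.nil) P.nil)))))) 3396)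
 EL.nil)
noncomputable def S219_227_216_364_41 : EL := (EL.cons 14 (TM.mk (P.cons (P.cons (P.lf 214345948 0 0) (P.cons (P.lf 0 57194580 0) (P.cons (P.lf 0 20847596 0) (P.cons (P.lf 6030770 0 0) (P.cons (P.lf 343832 0 0) (P.cons (P.lf 0 157652 0) P.nil)))))) (P.cons (P.cons (P.lf 0 48063412 0) (P.cons (P.lf 11334260 0 0) (P.cons (P.lf 4230810 0 0) (P.cons (P.lf 0 1109360 0) (P.cons (P.lf 0 59176 0) P.nil))))) (P.cons (P.cons (P.lf 773402 0 0) (P.cons (P.lf 34216 0 0) (P.cons (P.lf 0 984 0) (P.cons (P.lf 0 15212 0) P.nil)))) (P.cons (P.cons (P.lf 388574 0 0) (P.cons (P.lf 0 88660 0) (P.cons (P.lf 0 33574 0) P.nil))) (P.cons (P.cons (P.lf 0 12988 0) (P.cons (P.lf 432 0 0) P.nil)) (P.cons (P.cons (P.lf 0 1222 0) P.nil) P.nil)))))) 91198)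
 EL.nil)
noncomputable def S219_227_216_364_42 : EL := (EL.cons 14 (TM.mk (P.cons (P.lf 0 138393840 0) (P.cons (P.lf 48276966 0 0) (P.cons (P.lf 0 5251334 0) (P.cons (P.lf 120686 0 0) (P.cons (P.lf 7352 0 0) (P.cons (P.lf 0 70 0) P.nil)))))) 42)
 EL.nil)
noncomputable def S219_227_216_364_43 : EL := (EL.cons 14 (TM.mk (P.cons (P.cons (P.lf 0 86557326 0) (P.cons (P.lf 11548176 0 0) (P.cons (P.lf 4979704 0 0) (P.lf 0 553300 0)))) (P.cons (P.cons (P.lf 29834128 0 0) (P.cons (P.lf 0 3679388 0) (P.cons (P.lf 0 1586594 0) (P.lf 176288 0 0)))) (P.cons (P.cons (P.lf 0 2888278 0) (P.cons (P.lf 300516 0 0) (P.cons (P.lf 129586 0 0) (P.lf 0 14398 0)))) (P.cons (P.cons (P.lf 0 33730 0) (P.cons (P.lf 8146 0 0) (P.cons (P.lf 3512 0 0) P.nil))) (P.cons (P.cons (P.lf 15306 0 0) (P.cons (P.lf 0 1308 0) P.nil)) (P.cons (P.cons (P.lf 0 206 0) P.nil) P.nil)))))) 2462)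
 EL.nil)
noncomputable def S219_227_216_364_44 : EL := (EL.cons 14 (TM.mk (P.cons (P.cons (P.lf 0 54136590 0) (P.cons (P.lf 14445430 0 0) (P.cons (P.lf 5265402 0 0) (P.cons (P.lf 0 1523170 0) (P.cons (P.lf 0 86840 0) (P.cons (P.lf 39816 0 0) P.nil)))))) (P.cons (P.cons (P.lf 18434162 0 0) (P.cons (P.lf 0 4542356 0) (P.cons (P.lf 0 1680816 0) (P.cons (P.lf 457300 0 0) (P.cons (P.lf 25042 0 0) P.nil))))) (P.cons (P.cons (P.lf 0 1559634 0) (P.cons (P.lf 311620 0 0) (P.cons (P.lf 119904 0 0) (P.cons (P.lf 0 27408 0) P.nil)))) (P.cons (P.cons (P.lf 0 87668 0) (P.cons (P.lf 26334 0 0) (P.cons (P.lf 9542 0 0) P.nil))) (P.cons (P.cons (P.lf 15210 0 0) (P.cons (P.lf 0 2786 0) P.nil)) (P.cons (P.cons (P.lf 12 0 0) P.nil) P.nil)))))) 37722)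
 EL.nil)
noncomputable def S219_227_216_364_45 : EL := (EL.cons 14 (TM.mk (P.cons (P.cons (P.lf 2101604964 0 0) (P.cons (P.lf 0 841166464 0) (P.cons (P.lf 0 250494958 0) (P.cons (P.lf 132097158 0 0) (P.cons (P.lf 3657174 0 0) (P.cons (P.lf 0 6703934 0) P.nil)))))) (P.cons (P.cons (P.lf 26245248 0 0) (P.cons (P.lf 0 32427716 0) (P.cons (P.lf 0 6731904 0) (P.cons (P.lf 7354800 0 0) (P.cons (P.lf 68032 0 0) P.nil))))) (P.cons (P.cons (P.lf 0 19589176 0) (P.cons (P.lf 6189244 0 0) (P.cons (P.lf 2139660 0 0) (P.cons (P.lf 0 745976 0) P.nil)))) (P.cons (P.cons (P.lf 0 76156 0) (P.cons (P.lf 208800 0 0) (P.cons (P.lf 48918 0 0) P.nil))) (P.cons (P.cons (P.lf 82812 0 0) (P.cons (P.lf 0 21492 0) P.nil)) (P.cons (P.cons (P.lf 0 82 0) P.nil) P.nil)))))) 1911174)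
 EL.nil)
noncomputable def S219_227_216_364_46 : EL := (EL.cons 15 (TM.mk (P.lf 4294967296 0 0) 0)
 EL.nil)
noncomputable def S219_227_216_364_47 : EL := (EL.cons 15 (TM.mk (P.cons (P.cons (P.lf 2686253149 0 0) (P.cons (P.lf 0 358390548 0) (P.cons (P.lf 0 154542044 0) (P.lf 17171336 0 0)))) (P.cons (P.cons (P.lf 11182150 0 0) (P.cons (P.lf 0 10832508 0) (P.cons (P.lf 0 4671100 0) (P.lf 519008 0 0)))) (P.cons (P.cons (P.lf 0 8392787 0) (P.cons (P.lf 493936 0 0) (P.cons (P.lf 212988 0 0) (P.lf 0 23664 0)))) (P.cons (P.cons (P.lf 37362 0 0) (P.cons (P.lf 17996 0 0) (P.cons (P.lf 7760 0 0) P.nil))) (P.cons (P.cons (P.lf 8896 0 0) (P.cons (P.lf 0 296 0) P.nil)) (P.cons (P.cons (P.lf 14 0 0) P.nil) P.nil)))))) 1605)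
 EL.nil)
noncomputable def S219_227_216_364_48 : EL := (EL.cons 15 (TM.mk (P.cons (P.cons (P.lf 1680095675 0 0) (P.cons (P.lf 0 448305037 0) (P.cons (P.lf 0 163408536 0) (P.cons (P.lf 47270657 0 0) (P.cons (P.lf 2695050 0 0) (P.cons (P.lf 0 1235722 0) P.nil)))))) (P.cons (P.cons (P.lf 13987573 0 0) (P.cons (P.lf 0 15416385 0) (P.cons (P.lf 0 4839897 0) (P.cons (P.lf 2297738 0 0) (P.cons (P.lf 162918 0 0) P.nil))))) (P.cons (P.cons (P.lf 0 10469290 0) (P.cons (P.lf 1962111 0 0) (P.cons (P.lf 790969 0 0) (P.cons (P.lf 0 141536 0) P.nil)))) (P.cons (P.cons (P.lf 3033 0 0) (P.cons (P.lf 61183 0 0) (P.cons (P.lf 20887 0 0) P.nil))) (P.cons (P.cons (P.lf 27722 0 0) (P.cons (P.lf 0 3880 0) P.nil)) (P.cons (P.cons (P.lf 0 82 0) P.nil) P.nil)))))) 196822)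
 EL.nil)
noncomputable def S219_227_216_364 : SL := (SL.cons S219_227_216_364_0 (SL.cons S219_227_216_364_1 (SL.cons S219_227_216_364_2 (SL.cons S219_227_216_364_3 (SL.cons S219_227_216_364_4 (SL.cons S219_227_216_364_5 (SL.cons S219_227_216_364_6 (SL.cons S219_227_216_364_7 (SL.cons S219_227_216_364_8 (SL.cons S219_227_216_364_9 (SL.cons S219_227_216_364_10 (SL.cons S219_227_216_364_11 (SL.cons S219_227_216_364_12 (SL.cons S219_227_216_364_13 (SL.cons S219_227_216_364_14 (SL.cons S219_227_216_364_15 (SL.cons S219_227_216_364_16 (SL.cons S219_227_216_364_17 (SL.cons S219_227_216_364_18 (SL.cons S219_227_216_364_19 (SL.cons S219_227_216_364_20 (SL.cons S219_227_216_364_21 (SL.cons S219_227_216_364_22 (SL.cons S219_227_216_364_23 (SL.cons S219_227_216_364_24 (SL.cons S219_227_216_364_25 (SL.cons S219_227_216_364_26 (SL.cons S219_227_216_364_27 (SL.cons S219_227_216_364_28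 (SL.cons S219_227_216_364_29 (SL.cons S219_227_216_364_30 (SL.cons S219_227_216_364_31 (SL.cons S219_227_216_364_32 (SL.cons S219_227_216_364_33 (SL.cons S219_227_216_364_34 (SL.cons S219_227_216_364_35 (SL.cons S219_227_216_364_36 (SL.cons S219_227_216_364_37 (SL.cons S219_227_216_364_38 (SL.cons S219_227_216_364_39 (SL.cons S219_227_216_364_40 (SL.cons S219_227_216_364_41 (SL.cons S219_227_216_364_42 (SL.cons S219_227_216_364_43 (SL.cons S219_227_216_364_44 (SL.cons S219_227_216_364_45 (SL.cons S219_227_216_364_46 (SL.cons S219_227_216_364_47 (SL.cons S219_227_216_364_48 SL.nil)))))))))))))))))))))))))))))))))))))))))))))))))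
noncomputable def S219_227_364_512_0 : EL := (EL.cons 0 (TM.mk (P.cons (P.lf 7974119968 0 0) (P.cons (P.lf 111999383 0 0) (P.cons (P.lf 0 5671151 0) (P.cons (P.lf 0 127063 0) (P.cons (P.lf 2649 0 0) (P.cons (P.lf 73 0 0) P.nil)))))) 59)
 (EL.cons 1 (TM.mk (P.cons (P.lf 0 975579558 0) (P.cons (P.lf 103610482 0 0) (P.cons (P.lf 2541390 0 0) (P.cons (P.lf 0 79128 0) (P.cons (P.lf 0 1965 0) (P.cons (P.lf 24 0 0) P.nil)))))) 82)
 (EL.cons 5 (TM.mk (P.cons (P.lf 4466201750 0 0) (P.cons (P.lf 0 39822002 0) (P.cons (P.lf 2016406 0 0) (P.cons (P.lf 45176 0 0) (P.cons (P.lf 0 938 0) (P.cons (P.lf 0 26 0) P.nil)))))) 113)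
 (EL.cons 9 (TM.mk (P.lf 6442450944 0 0) 2)
 EL.nil))))
noncomputable def S219_227_364_512_1 : EL := (EL.cons 0 (TM.mk (P.cons (P.cons (P.lf 3042306667 0 0) (P.cons (P.lf 0 1171339699 0) (P.cons (P.lf 0 78313044 0) (P.lf 26104347 0 0)))) (P.cons (P.cons (P.lf 111510421 0 0) (P.cons (P.lf 0 115773500 0) (P.cons (P.lf 0 7740336 0) (P.lf 2580102 0 0)))) (P.cons (P.cons (P.lf 0 35566313 0) (P.cons (P.lf 3254699 0 0) (P.cons (P.lf 217599 0 0) (P.lf 0 72529 0)))) (P.cons (P.cons (P.lf 0 246011 0) (P.cons (P.lf 383764 0 0) (P.cons (P.lf 25645 0 0) P.nil))) (P.cons (P.cons (P.lf 84264 0 0) (P.cons (P.lf 0 1695 0) P.nil)) (P.cons (P.cons (P.lf 900 0 0) P.nil) P.nil)))))) 13160)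
 (EL.cons 1 (TM.mk (P.cons (P.cons (P.lf 0 80593095 0) (P.cons (P.lf 414792557 0 0) (P.cons (P.lf 27732057 0 0) (P.lf 0 9244015 0)))) (P.cons (P.cons (P.lf 190522371 0 0) (P.cons (P.lf 0 25767075 0) (P.cons (P.lf 0 1722723 0) (P.lf 574241 0 0)))) (P.cons (P.cons (P.lf 3683799 0 0) (P.cons (P.lf 0 3827353 0) (P.cons (P.lf 0 255882 0) (P.lf 85290 0 0)))) (P.cons (P.cons (P.lf 0 976128 0) (P.cons (P.lf 37975 0 0) (P.cons (P.lf 2538 0 0) P.nil))) (P.cons (P.cons (P.lf 0 11463 0) (P.cons (P.lf 8515 0 0) P.nil)) (P.cons (P.cons (P.lf 1668 0 0) P.nil) P.nil)))))) 6992)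
 (EL.cons 5 (TM.mk (P.cons (P.cons (P.lf 1449037735 0 0) (P.cons (P.lf 0 893378220 0) (P.cons (P.lf 0 59729188 0) (P.lf 19909728 0 0)))) (P.cons (P.cons (P.lf 0 82173969 0) (P.cons (P.lf 1572974 0 0) (P.cons (P.lf 105160 0 0) (P.lf 0 35050 0)))) (P.cons (P.cons (P.lf 1183941 0 0) (P.cons (P.lf 648042 0 0) (P.cons (P.lf 43332 0 0) (P.lf 0 14448 0)))) (P.cons (P.cons (P.lf 253225 0 0) (P.cons (P.lf 0 70662 0) (P.cons (P.lf 0 4720 0) P.nil))) (P.cons (P.cons (P.lf 0 16526 0) (P.cons (P.lf 0 500 0) P.nil)) (P.cons (P.cons (P.lf 0 375 0) P.nil) P.nil)))))) 8472)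
 (EL.cons 9 (TM.mk (P.cons (P.cons (P.lf 2233011841 0 0) (P.cons (P.lf 0 1155754014 0) (P.cons (P.lf 0 77271018 0) (P.lf 25757004 0 0)))) (P.cons (P.cons (P.lf 0 37522783 0) (P.cons (P.lf 0 34933170 0) (P.cons (P.lf 0 2335548 0) (P.lf 778512 0 0)))) (P.cons (P.cons (P.lf 0 10113394 0) (P.cons (P.lf 1592874 0 0) (P.cons (P.lf 106494 0 0) (P.lf 0 35496 0)))) (P.cons (P.cons (P.lf 146259 0 0) (P.cons (P.lf 58038 0 0) (P.cons (P.lf 3876 0 0) P.nil))) (P.cons (P.cons (P.lf 11838 0 0) (P.cons (P.lf 0 966 0) P.nil)) (P.cons (P.cons (P.lf 0 49 0) P.nil) P.nil)))))) 2102)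
 (EL.cons 2 (TM.mk (P.cons (P.cons (P.lf 651048713 0 0) (P.cons (P.lf 100798689 0 0) (P.cons (P.lf 0 48561629 0) (P.cons (P.lf 0 1837712 0) (P.lf 459427 0 0))))) (P.cons (P.cons (P.lf 0 62584588 0) (P.cons (P.lf 0 9689664 0) (P.cons (P.lf 4668173 0 0) (P.cons (P.lf 176655 0 0) (P.lf 0 44164 0))))) (P.cons (P.cons (P.lf 0 2757802 0) (P.cons (P.lf 0 426974 0) (P.cons (P.lf 205703 0 0) (P.cons (P.lf 7782 0 0) P.nil)))) (P.cons (P.cons (P.lf 70740 0 0) (P.cons (P.lf 10951 0 0) (P.cons (P.lf 0 5276 0) P.nil))) (P.cons (P.cons (P.lf 3285 0 0) (P.cons (P.lf 506 0 0) P.nil)) (P.cons (P.cons (P.lf 0 30 0) P.nil) P.nil)))))) 2847)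
 (EL.cons 6 (TM.mk (P.cons (P.cons (P.lf 1318841178 0 0) (P.cons (P.lf 204189732 0 0) (P.cons (P.lf 0 98372172 0) (P.cons (P.lf 0 3722691 0) (P.lf 930672 0 0))))) (P.cons (P.cons (P.lf 39862554 0 0) (P.cons (P.lf 6171723 0 0) (P.cons (P.lf 0 2973342 0) (P.cons (P.lf 0 112518 0) (P.lf 28128 0 0))))) (P.cons (P.cons (P.lf 0 1817646 0) (P.cons (P.lf 0 281415 0) (P.cons (P.lf 135576 0 0) (P.cons (P.lf 5127 0 0) P.nil)))) (P.cons (P.cons (P.lf 0 66231 0) (P.cons (P.lf 0 10251 0) (P.cons (P.lf 4938 0 0) P.nil))) (P.cons (P.cons (P.lf 1104 0 0) (P.cons (P.lf 168 0 0) P.nil)) (P.cons (P.cons (P.lf 54 0 0) P.nil) P.nil)))))) 2307)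
 EL.nil))))))
noncomputable def S219_227_364_512_2 : EL := (EL.cons 0 (TM.mk (P.cons (P.cons (P.lf 1150988553 0 0) (P.cons (P.lf 0 911883544 0) (P.cons (P.lf 102670077 0 0) (P.cons (P.lf 42202851 0 0) (P.cons (P.lf 0 6562127 0) (P.cons (P.lf 0 487634 0) P.nil)))))) (P.cons (P.cons (P.lf 60602654 0 0) (P.cons (P.lf 0 112375536 0) (P.cons (P.lf 27610252 0 0) (P.cons (P.lf 7200913 0 0) (P.cons (P.lf 0 1408505 0) P.nil))))) (P.cons (P.cons (P.lf 0 25965208 0) (P.cons (P.lf 13458389 0 0) (P.cons (P.lf 845892 0 0) (P.cons (P.lf 0 307132 0) P.nil)))) (P.cons (P.cons (P.lf 0 129063 0) (P.cons (P.lf 910086 0 0) (P.cons (P.lf 0 121567 0) P.nil))) (P.cons (P.cons (P.lf 150864 0 0) (P.cons (P.lf 0 51127 0) P.nil)) (P.cons (P.cons (P.lf 0 384 0) P.nil) P.nil)))))) 573514)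
 (EL.cons 1 (TM.mk (P.cons (P.cons (P.lf 61335427 0 0) (P.cons (P.lf 195133923 0 0) (P.cons (P.lf 0 104381349 0) (P.cons (P.lf 0 20050588 0) (P.cons (P.lf 4709052 0 0) (P.cons (P.lf 349923 0 0) P.nil)))))) (P.cons (P.cons (P.lf 116625904 0 0) (P.cons (P.lf 0 78921376 0) (P.cons (P.lf 0 1966257 0) (P.cons (P.lf 2201461 0 0) (P.cons (P.lf 0 132745 0) P.nil))))) (P.cons (P.cons (P.lf 0 328154 0) (P.cons (P.lf 0 5815750 0) (P.cons (P.lf 1127719 0 0) (P.cons (P.lf 332385 0 0) P.nil)))) (P.cons (P.cons (P.lf 0 1159209 0) (P.cons (P.lf 497361 0 0) (P.cons (P.lf 53832 0 0) P.nil))) (P.cons (P.cons (P.lf 2670 0 0) (P.cons (P.lf 32288 0 0) P.nil)) (P.cons (P.cons (P.lf 4574 0 0) P.nil) P.nil)))))) 270386)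
 (EL.cons 5 (TM.mk (P.cons (P.cons (P.lf 467939382 0 0) (P.cons (P.lf 0 583789635 0) (P.cons (P.lf 137770816 0 0) (P.cons (P.lf 36651361 0 0) (P.cons (P.lf 0 7090059 0) (P.cons (P.lf 0 526850 0) P.nil)))))) (P.cons (P.cons (P.lf 0 51027273 0) (P.cons (P.lf 27768561 0 0) (P.cons (P.lf 3573181 0 0) (P.cons (P.lf 0 389298 0) (P.cons (P.lf 0 68846 0) P.nil))))) (P.cons (P.cons (P.lf 1534181 0 0) (P.cons (P.lf 1039860 0 0) (P.cons (P.lf 0 344339 0) (P.cons (P.lf 0 78525 0) P.nil)))) (P.cons (P.cons (P.lf 294307 0 0) (P.cons (P.lf 0 234182 0) (P.cons (P.lf 6016 0 0) P.nil))) (P.cons (P.cons (P.lf 0 28255 0) (P.cons (P.lf 4358 0 0) P.nil)) (P.cons (P.cons (P.lf 0 580 0) P.nil) P.nil)))))) 375182)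
 (EL.cons 9 (TM.mk (P.cons (P.cons (P.lf 773982126 0 0) (P.cons (P.lf 0 801189615 0) (P.cons (P.lf 153772710 0 0) (P.cons (P.lf 45579541 0 0) (P.cons (P.lf 0 8314647 0) (P.cons (P.lf 0 617860 0) P.nil)))))) (P.cons (P.cons (P.lf 0 26011473 0) (P.cons (P.lf 0 10753383 0) (P.cons (P.lf 11814841 0 0) (P.cons (P.lf 1915603 0 0) (P.cons (P.lf 0 502626 0) P.nil))))) (P.cons (P.cons (P.lf 0 6792243 0) (P.cons (P.lf 5139748 0 0) (P.cons (P.lf 0 38461 0) (P.cons (P.lf 0 165633 0) P.nil)))) (P.cons (P.cons (P.lf 219195 0 0) (P.cons (P.lf 78877 0 0) (P.cons (P.lf 0 32826 0) P.nil))) (P.cons (P.cons (P.lf 22378 0 0) (P.cons (P.lf 0 12180 0) P.nil)) (P.cons (P.cons (P.lf 0 630 0) P.nil) P.nil)))))) 202630)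
 (EL.cons 2 (TM.mk (P.cons (P.cons (P.lf 451318758 0 0) (P.cons (P.lf 0 163716412 0) (P.cons (P.lf 0 85447096 0) (P.cons (P.lf 18937479 0 0) (P.cons (P.lf 2948731 0 0) (P.cons (P.lf 0 509051 0) P.nil)))))) (P.cons (P.cons (P.lf 0 50968575 0) (P.cons (P.lf 7503294 0 0) (P.cons (P.lf 7214433 0 0) (P.cons (P.lf 0 1188129 0) (P.cons (P.lf 0 209306 0) P.nil))))) (P.cons (P.cons (P.lf 0 3226770 0) (P.cons (P.lf 1490540 0 0) (P.cons (P.lf 681856 0 0) (P.cons (P.lf 0 163085 0) P.nil)))) (P.cons (P.cons (P.lf 307215 0 0) (P.cons (P.lf 32872 0 0) (P.cons (P.lf 0 26167 0) P.nil))) (P.cons (P.cons (P.lf 9658 0 0) (P.cons (P.lf 0 3133 0) P.nil)) (P.cons (P.cons (P.lf 0 646 0) P.nil) P.nil)))))) 141248)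
 (EL.cons 6 (TM.mk (P.cons (P.cons (P.lf 914244588 0 0) (P.cons (P.lf 0 331643310 0) (P.cons (P.lf 0 173091738 0) (P.cons (P.lf 38362002 0 0) (P.cons (P.lf 5973300 0 0) (P.cons (P.lf 0 1031202 0) P.nil)))))) (P.cons (P.cons (P.lf 12270780 0 0) (P.cons (P.lf 0 26704998 0) (P.cons (P.lf 0 7256466 0) (P.cons (P.lf 2440374 0 0) (P.cons (P.lf 330744 0 0) P.nil))))) (P.cons (P.cons (P.lf 0 5865012 0) (P.cons (P.lf 0 36030 0) (P.cons (P.lf 630774 0 0) (P.cons (P.lf 0 58890 0) P.nil)))) (P.cons (P.cons (P.lf 0 90006 0) (P.cons (P.lf 73008 0 0) (P.cons (P.lf 25980 0 0) P.nil))) (P.cons (P.cons (P.lf 13896 0 0) (P.cons (P.lf 1896 0 0) P.nil)) (P.cons (P.cons (P.lf 276 0 0) P.nil) P.nil)))))) 179334)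
 EL.nil))))))
noncomputable def S219_227_364_512_3 : EL := (EL.cons 0 (TM.mk (P.cons (P.lf 481596895 0 0) (P.cons (P.lf 0 111999383 0) (P.cons (P.lf 5671151 0 0) (P.cons (P.lf 127063 0 0) (P.cons (P.lf 0 2649 0) (P.cons (P.lf 0 73 0) P.nil)))))) 59)
 (EL.cons 1 (TM.mk (P.cons (P.lf 975579558 0 0) (P.cons (P.lf 0 103610482 0) (P.cons (P.lf 0 2541390 0) (P.cons (P.lf 79128 0 0) (P.cons (P.lf 1965 0 0) (P.cons (P.lf 0 24 0) P.nil)))))) 82)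
 (EL.cons 5 (TM.mk (P.cons (P.lf 1976249194 0 0) (P.cons (P.lf 39822002 0 0) (P.cons (P.lf 0 2016406 0) (P.cons (P.lf 0 45176 0) (P.cons (P.lf 938 0 0) (P.cons (P.lf 26 0 0) P.nil)))))) 106)
 EL.nil)))
noncomputable def S219_227_364_512_4 : EL := (EL.cons 0 (TM.mk (P.cons (P.cons (P.lf 166925844 0 0) (P.cons (P.lf 0 86396860 0) (P.cons (P.lf 0 5776291 0) (P.lf 1925430 0 0)))) (P.cons (P.cons (P.lf 0 41624966 0) (P.cons (P.lf 17480928 0 0) (P.cons (P.lf 1168732 0 0) (P.lf 0 389576 0)))) (P.cons (P.cons (P.lf 1861976 0 0) (P.cons (P.lf 0 291012 0) (P.cons (P.lf 0 19455 0) (P.lf 6484 0 0)))) (P.cons (P.cons (P.lf 197760 0 0) (P.cons (P.lf 0 76897 0) (P.cons (P.lf 0 5139 0) P.nil))) (P.cons (P.cons (P.lf 0 12218 0) (P.cons (P.lf 107 0 0) P.nil)) (P.cons (P.cons (P.lf 0 290 0) P.nil) P.nil)))))) 2539)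
 (EL.cons 1 (TM.mk (P.cons (P.cons (P.lf 338144709 0 0) (P.cons (P.lf 0 175015687 0) (P.cons (P.lf 0 11701140 0) (P.lf 3900378 0 0)))) (P.cons (P.cons (P.lf 0 41594401 0) (P.cons (P.lf 13297445 0 0) (P.cons (P.lf 889035 0 0) (P.lf 0 296343 0)))) (P.cons (P.cons (P.lf 0 1808878 0) (P.cons (P.lf 1258935 0 0) (P.cons (P.lf 84168 0 0) (P.lf 0 28055 0)))) (P.cons (P.cons (P.lf 227023 0 0) (P.cons (P.lf 0 17242 0) (P.cons (P.lf 0 1151 0) P.nil))) (P.cons (P.cons (P.lf 3648 0 0) (P.cons (P.lf 0 2488 0) P.nil)) (P.cons (P.cons (P.lf 0 399 0) P.nil) P.nil)))))) 2021)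
 (EL.cons 5 (TM.mk (P.cons (P.cons (P.lf 684985866 0 0) (P.cons (P.lf 0 354532452 0) (P.cons (P.lf 0 23703212 0) (P.lf 7901070 0 0)))) (P.cons (P.cons (P.lf 2292392 0 0) (P.cons (P.lf 0 17859830 0) (P.cons (P.lf 0 1194064 0) (P.lf 398020 0 0)))) (P.cons (P.cons (P.lf 0 4033166 0) (P.cons (P.lf 634428 0 0) (P.cons (P.lf 42414 0 0) (P.lf 0 14136 0)))) (P.cons (P.cons (P.lf 0 21562 0) (P.cons (P.lf 46686 0 0) (P.cons (P.lf 3118 0 0) P.nil))) (P.cons (P.cons (P.lf 8288 0 0) (P.cons (P.lf 0 358 0) P.nil)) (P.cons (P.cons (P.lf 86 0 0) P.nil) P.nil)))))) 1570)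
 EL.nil)))
noncomputable def S219_227_364_512_5 : EL := (EL.cons 0 (TM.mk (P.cons (P.cons (P.lf 57858008 0 0) (P.cons (P.lf 0 59891869 0) (P.cons (P.lf 11495074 0 0) (P.cons (P.lf 3407238 0 0) (P.cons (P.lf 0 621550 0) (P.cons (P.lf 0 46186 0) P.nil)))))) (P.cons (P.cons (P.lf 0 15399815 0) (P.cons (P.lf 13124499 0 0) (P.cons (P.lf 0 1790071 0) (P.cons (P.lf 0 649183 0) (P.cons (P.lf 106973 0 0) P.nil))))) (P.cons (P.cons (P.lf 625772 0 0) (P.cons (P.lf 0 134110 0) (P.cons (P.lf 0 72907 0) (P.cons (P.lf 0 5559 0) P.nil)))) (P.cons (P.cons (P.lf 126833 0 0) (P.cons (P.lf 0 108722 0) (P.cons (P.lf 11647 0 0) P.nil))) (P.cons (P.cons (P.lf 0 8947 0) (P.cons (P.lf 2358 0 0) P.nil)) (P.cons (P.cons (P.lf 0 374 0) P.nil) P.nil)))))) 53960)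
 (EL.cons 1 (TM.mk (P.cons (P.cons (P.lf 117204018 0 0) (P.cons (P.lf 0 121324044 0) (P.cons (P.lf 23285780 0 0) (P.cons (P.lf 6902101 0 0) (P.cons (P.lf 0 1259085 0) (P.cons (P.lf 0 93560 0) P.nil)))))) (P.cons (P.cons (P.lf 0 16386451 0) (P.cons (P.lf 11256718 0 0) (P.cons (P.lf 0 683923 0) (P.cons (P.lf 0 442950 0) (P.cons (P.lf 57605 0 0) P.nil))))) (P.cons (P.cons (P.lf 0 915536 0) (P.cons (P.lf 1267301 0 0) (P.cons (P.lf 0 256494 0) (P.cons (P.lf 0 73867 0) P.nil)))) (P.cons (P.cons (P.lf 162195 0 0) (P.cons (P.lf 0 76312 0) (P.cons (P.lf 0 7123 0) P.nil))) (P.cons (P.cons (P.lf 2458 0 0) (P.cons (P.lf 0 5516 0) P.nil)) (P.cons (P.cons (P.lf 0 633 0) P.nil) P.nil)))))) 64143)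
 (EL.cons 5 (TM.mk (P.cons (P.cons (P.lf 237422304 0 0) (P.cons (P.lf 0 245768316 0) (P.cons (P.lf 47170430 0 0) (P.cons (P.lf 13981716 0 0) (P.cons (P.lf 0 2550552 0) (P.cons (P.lf 0 189530 0) P.nil)))))) (P.cons (P.cons (P.lf 0 3195000 0) (P.cons (P.lf 0 8250948 0) (P.cons (P.lf 4574748 0 0) (P.cons (P.lf 869354 0 0) (P.cons (P.lf 0 205576 0) P.nil))))) (P.cons (P.cons (P.lf 0 2486576 0) (P.cons (P.lf 1760932 0 0) (P.cons (P.lf 13102 0 0) (P.cons (P.lf 0 53232 0) P.nil)))) (P.cons (P.cons (P.lf 27968 0 0) (P.cons (P.lf 64948 0 0) (P.cons (P.lf 0 15082 0) P.nil))) (P.cons (P.cons (P.lf 10638 0 0) (P.cons (P.lf 0 4898 0) P.nil)) (P.cons (P.cons (P.lf 0 74 0) P.nil) P.nil)))))) 76600)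
 EL.nil)))
noncomputable def S219_227_364_512_6 : EL := (EL.cons 12 (TM.mk (P.lf 8589934592 0 0) 0)
 (EL.cons 3 (TM.mk (P.cons (P.lf 0 1016966793 0) (P.cons (P.lf 118252065 0 0) (P.cons (P.lf 887366 0 0) (P.cons (P.lf 0 30975 0) (P.cons (P.lf 0 416 0) (P.cons (P.lf 3 0 0) P.nil)))))) 44)
 (EL.cons 7 (TM.mk (P.cons (P.lf 0 2060088064 0) (P.cons (P.lf 0 20755690 0) (P.cons (P.lf 1155533 0 0) (P.cons (P.lf 11905 0 0) (P.cons (P.lf 0 285 0) (P.cons (P.lf 0 5 0) P.nil)))))) 48)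
 EL.nil)))
noncomputable def S219_227_364_512_7 : EL := (EL.cons 12 (TM.mk (P.cons (P.cons (P.lf 2977349122 0 0) (P.cons (P.lf 0 1541005352 0) (P.cons (P.lf 0 103028024 0) (P.lf 34342672 0 0)))) (P.cons (P.cons (P.lf 0 50030378 0) (P.cons (P.lf 0 46577560 0) (P.cons (P.lf 0 3114064 0) (P.lf 1038016 0 0)))) (P.cons (P.cons (P.lf 0 13484526 0) (P.cons (P.lf 2123832 0 0) (P.cons (P.lf 141992 0 0) (P.lf 0 47328 0)))) (P.cons (P.cons (P.lf 195012 0 0) (P.cons (P.lf 77384 0 0) (P.cons (P.lf 5168 0 0) P.nil))) (P.cons (P.cons (P.lf 15784 0 0) (P.cons (P.lf 0 1288 0) P.nil)) (P.cons (P.cons (P.lf 0 66 0) P.nil) P.nil)))))) 2778)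
 (EL.cons 3 (TM.mk (P.cons (P.cons (P.lf 0 940384267 0) (P.cons (P.lf 0 364880838 0) (P.cons (P.lf 0 24395080 0) (P.lf 8131692 0 0)))) (P.cons (P.cons (P.lf 0 273019731 0) (P.cons (P.lf 31399360 0 0) (P.cons (P.lf 2099286 0 0) (P.lf 0 699762 0)))) (P.cons (P.cons (P.lf 6643289 0 0) (P.cons (P.lf 2103668 0 0) (P.cons (P.lf 140644 0 0) (P.lf 0 46880 0)))) (P.cons (P.cons (P.lf 652546 0 0) (P.cons (P.lf 0 41640 0) (P.cons (P.lf 0 2784 0) P.nil))) (P.cons (P.cons (P.lf 0 3153 0) (P.cons (P.lf 0 3358 0) P.nil)) (P.cons (P.cons (P.lf 0 711 0) P.nil) P.nil)))))) 6046)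
 (EL.cons 7 (TM.mk (P.cons (P.cons (P.lf 0 610857533 0) (P.cons (P.lf 465639107 0 0) (P.cons (P.lf 31131551 0 0) (P.lf 0 10377185 0)))) (P.cons (P.cons (P.lf 47920628 0 0) (P.cons (P.lf 0 5511236 0) (P.cons (P.lf 0 368467 0) (P.lf 122819 0 0)))) (P.cons (P.cons (P.lf 0 4193520 0) (P.cons (P.lf 0 21057 0) (P.cons (P.lf 0 1409 0) (P.lf 469 0 0)))) (P.cons (P.cons (P.lf 0 956 0) (P.cons (P.lf 36642 0 0) (P.cons (P.lf 2449 0 0) P.nil))) (P.cons (P.cons (P.lf 10307 0 0) (P.cons (P.lf 0 218 0) P.nil)) (P.cons (P.cons (P.lf 31 0 0) P.nil) P.nil)))))) 5395)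
 (EL.cons 10 (TM.mk (P.cons (P.cons (P.lf 0 2749581357 0) (P.cons (P.lf 0 425704242 0) (P.cons (P.lf 205090878 0 0) (P.cons (P.lf 7761240 0 0) (P.lf 0 1940310 0))))) (P.cons (P.cons (P.lf 0 55404870 0) (P.cons (P.lf 0 8578065 0) (P.cons (P.lf 4132641 0 0) (P.cons (P.lf 156390 0 0) (P.lf 0 39096 0))))) (P.cons (P.cons (P.lf 2805450 0 0) (P.cons (P.lf 434352 0 0) (P.cons (P.lf 0 209256 0) (P.cons (P.lf 0 7917 0) P.nil)))) (P.cons (P.cons (P.lf 62853 0 0) (P.cons (P.lf 9729 0 0) (P.cons (P.lf 0 4686 0) P.nil))) (P.cons (P.cons (P.lf 0 1305 0) (P.cons (P.lf 0 201 0) P.nil)) (P.cons (P.cons (P.lf 0 36 0) P.nil) P.nil)))))) 2604)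
 EL.nil))))
noncomputable def S219_227_364_512_8 : EL := (EL.cons 12 (TM.mk (P.cons (P.cons (P.lf 1031976168 0 0) (P.cons (P.lf 0 1068252820 0) (P.cons (P.lf 205030280 0 0) (P.cons (P.lf 60772722 0 0) (P.cons (P.lf 0 11086196 0) (P.cons (P.lf 0 823814 0) P.nil)))))) (P.cons (P.cons (P.lf 0 34681964 0) (P.cons (P.lf 0 14337844 0) (P.cons (P.lf 15753122 0 0) (P.cons (P.lf 2554138 0 0) (P.cons (P.lf 0 670168 0) P.nil))))) (P.cons (P.cons (P.lf 0 9056324 0) (P.cons (P.lf 6852998 0 0) (P.cons (P.lf 0 51282 0) (P.cons (P.lf 0 220844 0) P.nil)))) (P.cons (P.cons (P.lf 292260 0 0) (P.cons (P.lf 105170 0 0) (P.cons (P.lf 0 43768 0) P.nil))) (P.cons (P.cons (P.lf 29838 0 0) (P.cons (P.lf 0 16240 0) P.nil)) (P.cons (P.cons (P.lf 0 840 0) P.nil) P.nil)))))) 270144)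
 (EL.cons 3 (TM.mk (P.cons (P.cons (P.lf 0 529715211 0) (P.cons (P.lf 0 42009460 0) (P.cons (P.lf 160837328 0 0) (P.cons (P.lf 22818191 0 0) (P.cons (P.lf 0 6562500 0) (P.cons (P.lf 0 487656 0) P.nil)))))) (P.cons (P.cons (P.lf 0 196620620 0) (P.cons (P.lf 147181243 0 0) (P.cons (P.lf 704118 0 0) (P.cons (P.lf 0 4501694 0) (P.cons (P.lf 366370 0 0) P.nil))))) (P.cons (P.cons (P.lf 10036642 0 0) (P.cons (P.lf 3469420 0 0) (P.cons (P.lf 0 1362705 0) (P.cons (P.lf 0 290544 0) P.nil)))) (P.cons (P.cons (P.lf 1356026 0 0) (P.cons (P.lf 0 710903 0) (P.cons (P.lf 0 46177 0) P.nil))) (P.cons (P.cons (P.lf 0 46125 0) (P.cons (P.lf 0 19837 0) P.nil)) (P.cons (P.cons (P.lf 0 3764 0) P.nil) P.nil)))))) 389007)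
 (EL.cons 7 (TM.mk (P.cons (P.cons (P.lf 0 175962981 0) (P.cons (P.lf 285766425 0 0) (P.cons (P.lf 0 81662363 0) (P.cons (P.lf 0 19842795 0) (P.cons (P.lf 4040981 0 0) (P.cons (P.lf 300279 0 0) P.nil)))))) (P.cons (P.cons (P.lf 34510998 0 0) (P.cons (P.lf 0 25833359 0) (P.cons (P.lf 0 123587 0) (P.cons (P.lf 790132 0 0) (P.cons (P.lf 0 64304 0) P.nil))))) (P.cons (P.cons (P.lf 0 3941940 0) (P.cons (P.lf 1023118 0 0) (P.cons (P.lf 246987 0 0) (P.cons (P.lf 1081 0 0) P.nil)))) (P.cons (P.cons (P.lf 0 78552 0) (P.cons (P.lf 167792 0 0) (P.cons (P.lf 0 12081 0) P.nil))) (P.cons (P.cons (P.lf 29412 0 0) (P.cons (P.lf 0 8340 0) P.nil)) (P.cons (P.cons (P.lf 0 258 0) P.nil) P.nil)))))) 164065)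
 (EL.cons 10 (TM.mk (P.cons (P.cons (P.lf 0 1906059594 0) (P.cons (P.lf 691425384 0 0) (P.cons (P.lf 360869706 0 0) (P.cons (P.lf 0 79978890 0) (P.cons (P.lf 0 12453414 0) (P.cons (P.lf 2149902 0 0) P.nil)))))) (P.cons (P.cons (P.lf 0 6378870 0) (P.cons (P.lf 48709620 0 0) (P.cons (P.lf 11492814 0 0) (P.cons (P.lf 0 4282014 0) (P.cons (P.lf 0 564090 0) P.nil))))) (P.cons (P.cons (P.lf 11222790 0 0) (P.cons (P.lf 0 27804 0) (P.cons (P.lf 0 1228452 0) (P.cons (P.lf 121068 0 0) P.nil)))) (P.cons (P.cons (P.lf 59994 0 0) (P.cons (P.lf 0 120624 0) (P.cons (P.lf 0 33264 0) P.nil))) (P.cons (P.cons (P.lf 0 23064 0) (P.cons (P.lf 0 2568 0) P.nil)) (P.cons (P.cons (P.lf 0 240 0) P.nil) P.nil)))))) 328626)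
 EL.nil))))
noncomputable def S219_227_364_512_9 : EL := (EL.cons 3 (TM.mk (P.cons (P.lf 0 1016966793 0) (P.cons (P.lf 118252065 0 0) (P.cons (P.lf 887366 0 0) (P.cons (P.lf 0 30975 0) (P.cons (P.lf 0 416 0) (P.cons (P.lf 3 0 0) P.nil)))))) 44)
 (EL.cons 7 (TM.mk (P.cons (P.lf 0 2060088064 0) (P.cons (P.lf 0 20755690 0) (P.cons (P.lf 1155533 0 0) (P.cons (P.lf 11905 0 0) (P.cons (P.lf 0 285 0) (P.cons (P.lf 0 5 0) P.nil)))))) 48)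
 EL.nil))
noncomputable def S219_227_364_512_10 : EL := (EL.cons 3 (TM.mk (P.cons (P.cons (P.lf 0 352489900 0) (P.cons (P.lf 182440419 0 0) (P.cons (P.lf 12197540 0 0) (P.lf 0 4065846 0)))) (P.cons (P.cons (P.lf 46910358 0 0) (P.cons (P.lf 0 15699680 0) (P.cons (P.lf 0 1049643 0) (P.lf 349881 0 0)))) (P.cons (P.cons (P.lf 1215272 0 0) (P.cons (P.lf 0 1051834 0) (P.cons (P.lf 0 70322 0) (P.lf 23440 0 0)))) (P.cons (P.cons (P.lf 0 224624 0) (P.cons (P.lf 20820 0 0) (P.cons (P.lf 1392 0 0) P.nil))) (P.cons (P.cons (P.lf 0 540 0) (P.cons (P.lf 1679 0 0) P.nil)) (P.cons (P.cons (P.lf 297 0 0) P.nil) P.nil)))))) 1461)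
 (EL.cons 7 (TM.mk (P.cons (P.cons (P.lf 0 714045179 0) (P.cons (P.lf 369572864 0 0) (P.cons (P.lf 24708779 0 0) (P.lf 0 8236259 0)))) (P.cons (P.cons (P.lf 4804466 0 0) (P.cons (P.lf 14894002 0 0) (P.cons (P.lf 995777 0 0) (P.lf 0 331924 0)))) (P.cons (P.cons (P.lf 3755343 0 0) (P.cons (P.lf 0 604104 0) (P.cons (P.lf 0 40388 0) (P.lf 13462 0 0)))) (P.cons (P.cons (P.lf 0 16790 0) (P.cons (P.lf 0 32091 0) (P.cons (P.lf 0 2144 0) P.nil))) (P.cons (P.cons (P.lf 0 6238 0) (P.cons (P.lf 394 0 0) P.nil)) (P.cons (P.cons (P.lf 0 14 0) P.nil) P.nil)))))) 1092)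
 EL.nil))
noncomputable def S219_227_364_512_11 : EL := (EL.cons 3 (TM.mk (P.cons (P.cons (P.lf 0 122176191 0) (P.cons (P.lf 126471002 0 0) (P.cons (P.lf 0 24273640 0) (P.cons (P.lf 0 7194913 0) (P.cons (P.lf 1312500 0 0) (P.cons (P.lf 97530 0 0) P.nil)))))) (P.cons (P.cons (P.lf 18312562 0 0) (P.cons (P.lf 0 13008479 0) (P.cons (P.lf 957498 0 0) (P.cons (P.lf 534232 0 0) (P.cons (P.lf 0 73274 0) P.nil))))) (P.cons (P.cons (P.lf 701344 0 0) (P.cons (P.lf 0 1119062 0) (P.cons (P.lf 244113 0 0) (P.cons (P.lf 67584 0 0) P.nil)))) (P.cons (P.cons (P.lf 0 166576 0) (P.cons (P.lf 84259 0 0) (P.cons (P.lf 5363 0 0) P.nil))) (P.cons (P.cons (P.lf 0 369 0) (P.cons (P.lf 4181 0 0) P.nil)) (P.cons (P.cons (P.lf 574 0 0) P.nil) P.nil)))))) 62213)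
 (EL.cons 7 (TM.mk (P.cons (P.cons (P.lf 0 247494525 0) (P.cons (P.lf 256194603 0 0) (P.cons (P.lf 0 49171553 0) (P.cons (P.lf 0 14574867 0) (P.cons (P.lf 2658755 0 0) (P.cons (P.lf 197571 0 0) P.nil)))))) (P.cons (P.cons (P.lf 5824086 0 0) (P.cons (P.lf 6019783 0 0) (P.cons (P.lf 0 4273415 0) (P.cons (P.lf 0 759392 0) (P.cons (P.lf 187510 0 0) P.nil))))) (P.cons (P.cons (P.lf 2394564 0 0) (P.cons (P.lf 0 1752584 0) (P.cons (P.lf 1815 0 0) (P.cons (P.lf 54967 0 0) P.nil)))) (P.cons (P.cons (P.lf 0 51444 0) (P.cons (P.lf 0 45190 0) (P.cons (P.lf 13023 0 0) P.nil))) (P.cons (P.cons (P.lf 0 9162 0) (P.cons (P.lf 4578 0 0) P.nil)) (P.cons (P.cons (P.lf 156 0 0) P.nil) P.nil)))))) 72051)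
 EL.nil))
noncomputable def S219_227_364_512_12 : EL := (EL.cons 4 (TM.mk (P.cons (P.lf 1016966793 0 0) (P.cons (P.lf 0 118252065 0) (P.cons (P.lf 0 887366 0) (P.cons (P.lf 30975 0 0) (P.cons (P.lf 416 0 0) (P.cons (P.lf 0 3 0) P.nil)))))) 44)
 (EL.cons 8 (TM.mk (P.cons (P.lf 2060088064 0 0) (P.cons (P.lf 20755690 0 0) (P.cons (P.lf 0 1155533 0) (P.cons (P.lf 0 11905 0) (P.cons (P.lf 285 0 0) (P.cons (P.lf 5 0 0) P.nil)))))) 48)
 EL.nil))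
noncomputable def S219_227_364_512_13 : EL := (EL.cons 4 (TM.mk (P.cons (P.cons (P.lf 352489900 0 0) (P.cons (P.lf 0 182440419 0) (P.cons (P.lf 0 12197540 0) (P.lf 4065846 0 0)))) (P.cons (P.cons (P.lf 0 46910358 0) (P.cons (P.lf 15699680 0 0) (P.cons (P.lf 1049643 0 0) (P.lf 0 349881 0)))) (P.cons (P.cons (P.lf 0 1215272 0) (P.cons (P.lf 1051834 0 0) (P.cons (P.lf 70322 0 0) (P.lf 0 23440 0)))) (P.cons (P.cons (P.lf 224624 0 0) (P.cons (P.lf 0 20820 0) (P.cons (P.lf 0 1392 0) P.nil))) (P.cons (P.cons (P.lf 540 0 0) (P.cons (P.lf 0 1679 0) P.nil)) (P.cons (P.cons (P.lf 0 297 0) P.nil) P.nil)))))) 1461)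
 (EL.cons 8 (TM.mk (P.cons (P.cons (P.lf 714045179 0 0) (P.cons (P.lf 0 369572864 0) (P.cons (P.lf 0 24708779 0) (P.lf 8236259 0 0)))) (P.cons (P.cons (P.lf 0 4804466 0) (P.cons (P.lf 0 14894002 0) (P.cons (P.lf 0 995777 0) (P.lf 331924 0 0)))) (P.cons (P.cons (P.lf 0 3755343 0) (P.cons (P.lf 604104 0 0) (P.cons (P.lf 40388 0 0) (P.lf 0 13462 0)))) (P.cons (P.cons (P.lf 16790 0 0) (P.cons (P.lf 32091 0 0) (P.cons (P.lf 2144 0 0) P.nil))) (P.cons (P.cons (P.lf 6238 0 0) (P.cons (P.lf 0 394 0) P.nil)) (P.cons (P.cons (P.lf 14 0 0) P.nil) P.nil)))))) 1092)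
 EL.nil))
noncomputable def S219_227_364_512_14 : EL := (EL.cons 4 (TM.mk (P.cons (P.cons (P.lf 122176191 0 0) (P.cons (P.lf 0 126471002 0) (P.cons (P.lf 24273640 0 0) (P.cons (P.lf 7194913 0 0) (P.cons (P.lf 0 1312500 0) (P.cons (P.lf 0 97530 0) P.nil)))))) (P.cons (P.cons (P.lf 0 18312562 0) (P.cons (P.lf 13008479 0 0) (P.cons (P.lf 0 957498 0) (P.cons (P.lf 0 534232 0) (P.cons (P.lf 73274 0 0) P.nil))))) (P.cons (P.cons (P.lf 0 701344 0) (P.cons (P.lf 1119062 0 0) (P.cons (P.lf 0 244113 0) (P.cons (P.lf 0 67584 0) P.nil)))) (P.cons (P.cons (P.lf 166576 0 0) (P.cons (P.lf 0 84259 0) (P.cons (P.lf 0 5363 0) P.nil))) (P.cons (P.cons (P.lf 369 0 0) (P.cons (P.lf 0 4181 0) P.nil)) (P.cons (P.cons (P.lf 0 574 0) P.nil) P.nil)))))) 62213)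
 (EL.cons 8 (TM.mk (P.cons (P.cons (P.lf 247494525 0 0) (P.cons (P.lf 0 256194603 0) (P.cons (P.lf 49171553 0 0) (P.cons (P.lf 14574867 0 0) (P.cons (P.lf 0 2658755 0) (P.cons (P.lf 0 197571 0) P.nil)))))) (P.cons (P.cons (P.lf 0 5824086 0) (P.cons (P.lf 0 6019783 0) (P.cons (P.lf 4273415 0 0) (P.cons (P.lf 759392 0 0) (P.cons (P.lf 0 187510 0) P.nil))))) (P.cons (P.cons (P.lf 0 2394564 0) (P.cons (P.lf 1752584 0 0) (P.cons (P.lf 0 1815 0) (P.cons (P.lf 0 54967 0) P.nil)))) (P.cons (P.cons (P.lf 51444 0 0) (P.cons (P.lf 45190 0 0) (P.cons (P.lf 0 13023 0) P.nil))) (P.cons (P.cons (P.lf 9162 0 0) (P.cons (P.lf 0 4578 0) P.nil)) (P.cons (P.cons (P.lf 0 156 0) P.nil) P.nil)))))) 72051)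
 EL.nil))
noncomputable def S219_227_364_512_15 : EL := (EL.cons 4 (TM.mk (P.cons (P.lf 0 256851677 0) (P.cons (P.lf 59733004 0 0) (P.cons (P.lf 0 3024614 0) (P.cons (P.lf 0 67767 0) (P.cons (P.lf 1412 0 0) (P.cons (P.lf 39 0 0) P.nil)))))) 35)
 (EL.cons 8 (TM.mk (P.cons (P.lf 0 520309098 0) (P.cons (P.lf 55258924 0 0) (P.cons (P.lf 1355408 0 0) (P.cons (P.lf 0 42202 0) (P.cons (P.lf 0 1048 0) (P.cons (P.lf 13 0 0) P.nil)))))) 40)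
 EL.nil))
noncomputable def S219_227_364_512_16 : EL := (EL.cons 4 (TM.mk (P.cons (P.cons (P.lf 0 89027116 0) (P.cons (P.lf 46078325 0 0) (P.cons (P.lf 3080688 0 0) (P.lf 0 1026896 0)))) (P.cons (P.cons (P.lf 22199982 0 0) (P.cons (P.lf 0 9323161 0) (P.cons (P.lf 0 623324 0) (P.lf 207774 0 0)))) (P.cons (P.cons (P.lf 0 993054 0) (P.cons (P.lf 155206 0 0) (P.cons (P.lf 10376 0 0) (P.lf 0 3458 0)))) (P.cons (P.cons (P.lf 0 105472 0) (P.cons (P.lf 41011 0 0) (P.cons (P.lf 2741 0 0) P.nil))) (P.cons (P.cons (P.lf 6516 0 0) (P.cons (P.lf 0 57 0) P.nil)) (P.cons (P.cons (P.lf 154 0 0) P.nil) P.nil)))))) 1363)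
 (EL.cons 8 (TM.mk (P.cons (P.cons (P.lf 0 180343845 0) (P.cons (P.lf 93341700 0 0) (P.cons (P.lf 6240608 0 0) (P.lf 0 2080202 0)))) (P.cons (P.cons (P.lf 22183681 0 0) (P.cons (P.lf 0 7091971 0) (P.cons (P.lf 0 474152 0) (P.lf 158050 0 0)))) (P.cons (P.cons (P.lf 964735 0 0) (P.cons (P.lf 0 671432 0) (P.cons (P.lf 0 44890 0) (P.lf 14963 0 0)))) (P.cons (P.cons (P.lf 0 121079 0) (P.cons (P.lf 9196 0 0) (P.cons (P.lf 614 0 0) P.nil))) (P.cons (P.cons (P.lf 0 1946 0) (P.cons (P.lf 1327 0 0) P.nil)) (P.cons (P.cons (P.lf 213 0 0) P.nil) P.nil)))))) 1068)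
 EL.nil))
noncomputable def S219_227_364_512_17 : EL := (EL.cons 4 (TM.mk (P.cons (P.cons (P.lf 0 30857604 0) (P.cons (P.lf 31942330 0 0) (P.cons (P.lf 0 6130706 0) (P.cons (P.lf 0 1817193 0) (P.cons (P.lf 331493 0 0) (P.cons (P.lf 24632 0 0) P.nil)))))) (P.cons (P.cons (P.lf 8213235 0 0) (P.cons (P.lf 0 6999733 0) (P.cons (P.lf 954705 0 0) (P.cons (P.lf 346230 0 0) (P.cons (P.lf 0 57052 0) P.nil))))) (P.cons (P.cons (P.lf 0 333745 0) (P.cons (P.lf 71525 0 0) (P.cons (P.lf 38883 0 0) (P.cons (P.lf 2965 0 0) P.nil)))) (P.cons (P.cons (P.lf 0 67644 0) (P.cons (P.lf 57985 0 0) (P.cons (P.lf 0 6211 0) P.nil))) (P.cons (P.cons (P.lf 4771 0 0) (P.cons (P.lf 0 1258 0) P.nil)) (P.cons (P.cons (P.lf 199 0 0) P.nil) P.nil)))))) 28789)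
 (EL.cons 8 (TM.mk (P.cons (P.cons (P.lf 0 62508810 0) (P.cons (P.lf 64706157 0 0) (P.cons (P.lf 0 12419083 0) (P.cons (P.lf 0 3681121 0) (P.cons (P.lf 671512 0 0) (P.cons (P.lf 49899 0 0) P.nil)))))) (P.cons (P.cons (P.lf 8739441 0 0) (P.cons (P.lf 0 6003583 0) (P.cons (P.lf 364759 0 0) (P.cons (P.lf 236240 0 0) (P.cons (P.lf 0 30723 0) P.nil))))) (P.cons (P.cons (P.lf 488286 0 0) (P.cons (P.lf 0 675894 0) (P.cons (P.lf 136797 0 0) (P.cons (P.lf 39396 0 0) P.nil)))) (P.cons (P.cons (P.lf 0 86504 0) (P.cons (P.lf 40700 0 0) (P.cons (P.lf 3799 0 0) P.nil))) (P.cons (P.cons (P.lf 0 1311 0) (P.cons (P.lf 2942 0 0) P.nil)) (P.cons (P.cons (P.lf 338 0 0) P.nil) P.nil)))))) 34198)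
 EL.nil))
noncomputable def S219_227_364_512_18 : EL := (EL.cons 4 (TM.mk (P.cons (P.lf 64872112 0 0) (P.cons (P.lf 0 22629827 0) (P.cons (P.lf 2461562 0 0) (P.cons (P.lf 0 56571 0) (P.cons (P.lf 0 3446 0) (P.cons (P.lf 32 0 0) P.nil)))))) 26)
 (EL.cons 8 (TM.mk (P.cons (P.lf 131412614 0 0) (P.cons (P.lf 0 29237100 0) (P.cons (P.lf 1165859 0 0) (P.cons (P.lf 66645 0 0) (P.cons (P.lf 0 1046 0) (P.cons (P.lf 0 59 0) P.nil)))))) 26)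
 EL.nil))
noncomputable def S219_227_364_512_19 : EL := (EL.cons 4 (TM.mk (P.cons (P.cons (P.lf 22485261 0 0) (P.cons (P.lf 0 11637838 0) (P.cons (P.lf 0 778078 0) (P.lf 259359 0 0)))) (P.cons (P.cons (P.lf 0 8221537 0) (P.cons (P.lf 3707955 0 0) (P.cons (P.lf 247905 0 0) (P.lf 0 82635 0)))) (P.cons (P.cons (P.lf 883166 0 0) (P.cons (P.lf 0 302850 0) (P.cons (P.lf 0 20247 0) (P.lf 6749 0 0)))) (P.cons (P.cons (P.lf 3051 0 0) (P.cons (P.lf 0 8208 0) (P.cons (P.lf 0 548 0) P.nil))) (P.cons (P.cons (P.lf 0 5123 0) (P.cons (P.lf 1320 0 0) P.nil)) (P.cons (P.cons (P.lf 133 0 0) P.nil) P.nil)))))) 958)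
 (EL.cons 8 (TM.mk (P.cons (P.cons (P.lf 45548801 0 0) (P.cons (P.lf 0 23574980 0) (P.cons (P.lf 0 1576167 0) (P.lf 525389 0 0)))) (P.cons (P.cons (P.lf 0 10899230 0) (P.cons (P.lf 4532473 0 0) (P.cons (P.lf 303030 0 0) (P.lf 0 101009 0)))) (P.cons (P.cons (P.lf 368090 0 0) (P.cons (P.lf 0 18126 0) (P.cons (P.lf 0 1211 0) (P.lf 403 0 0)))) (P.cons (P.cons (P.lf 65189 0 0) (P.cons (P.lf 0 24322 0) (P.cons (P.lf 0 1625 0) P.nil))) (P.cons (P.cons (P.lf 0 3003 0) (P.cons (P.lf 0 168 0) P.nil)) (P.cons (P.cons (P.lf 0 147 0) P.nil) P.nil)))))) 834)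
 EL.nil))
noncomputable def S219_227_364_512_20 : EL := (EL.cons 4 (TM.mk (P.cons (P.cons (P.lf 7793595 0 0) (P.cons (P.lf 0 8067559 0) (P.cons (P.lf 1548410 0 0) (P.cons (P.lf 458961 0 0) (P.cons (P.lf 0 83723 0) (P.cons (P.lf 0 6221 0) P.nil)))))) (P.cons (P.cons (P.lf 0 2980620 0) (P.cons (P.lf 2705986 0 0) (P.cons (P.lf 0 421173 0) (P.cons (P.lf 0 140813 0) (P.cons (P.lf 24144 0 0) P.nil))))) (P.cons (P.cons (P.lf 318700 0 0) (P.cons (P.lf 0 216595 0) (P.cons (P.lf 16865 0 0) (P.cons (P.lf 9017 0 0) P.nil)))) (P.cons (P.cons (P.lf 9330 0 0) (P.cons (P.lf 0 14332 0) (P.cons (P.lf 2968 0 0) P.nil))) (P.cons (P.cons (P.lf 0 3325 0) (P.cons (P.lf 2086 0 0) P.nil)) (P.cons (P.cons (P.lf 75 0 0) P.nil) P.nil)))))) 12818)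
 (EL.cons 8 (TM.mk (P.cons (P.cons (P.lf 15787626 0 0) (P.cons (P.lf 0 16342603 0) (P.cons (P.lf 3136643 0 0) (P.cons (P.lf 929727 0 0) (P.cons (P.lf 0 169601 0) (P.cons (P.lf 0 12602 0) P.nil)))))) (P.cons (P.cons (P.lf 0 4043061 0) (P.cons (P.lf 3416608 0 0) (P.cons (P.lf 0 456852 0) (P.cons (P.lf 0 167774 0) (P.cons (P.lf 27480 0 0) P.nil))))) (P.cons (P.cons (P.lf 119561 0 0) (P.cons (P.lf 8654 0 0) (P.cons (P.lf 0 26574 0) (P.cons (P.lf 0 3823 0) P.nil)))) (P.cons (P.cons (P.lf 38594 0 0) (P.cons (P.lf 0 31949 0) (P.cons (P.lf 3233 0 0) P.nil))) (P.cons (P.cons (P.lf 0 2162 0) (P.cons (P.lf 342 0 0) P.nil)) (P.cons (P.cons (P.lf 0 147 0) P.nil) P.nil)))))) 15636)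
 EL.nil))
noncomputable def S219_227_364_512_21 : EL := (EL.cons 4 (TM.mk (P.cons (P.cons (P.lf 587894367 0 0) (P.cons (P.lf 547321257 0 0) (P.cons (P.lf 36592620 0 0) (P.lf 0 12197538 0)))) (P.cons (P.cons (P.lf 319930089 0 0) (P.cons (P.lf 0 47099040 0) (P.cons (P.lf 0 3148929 0) (P.lf 1049643 0 0)))) (P.cons (P.cons (P.lf 0 5428017 0) (P.cons (P.lf 0 3155502 0) (P.cons (P.lf 0 210966 0) (P.lf 70320 0 0)))) (P.cons (P.cons (P.lf 0 877170 0) (P.cons (P.lf 62460 0 0) (P.cons (P.lf 4176 0 0) P.nil))) (P.cons (P.cons (P.lf 2613 0 0) (P.cons (P.lf 5037 0 0) P.nil)) (P.cons (P.cons (P.lf 1008 0 0) P.nil) P.nil)))))) 4566)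
 (EL.cons 8 (TM.mk (P.cons (P.cons (P.lf 0 103187646 0) (P.cons (P.lf 0 96066243 0) (P.cons (P.lf 0 6422772 0) (P.lf 2140926 0 0)))) (P.cons (P.cons (P.lf 0 43116162 0) (P.cons (P.lf 20405238 0 0) (P.cons (P.lf 1364244 0 0) (P.lf 0 454743 0)))) (P.cons (P.cons (P.lf 7948863 0 0) (P.cons (P.lf 0 583047 0) (P.cons (P.lf 0 38979 0) (P.lf 12993 0 0)))) (P.cons (P.cons (P.lf 0 15834 0) (P.cons (P.lf 0 68733 0) (P.cons (P.lf 0 4593 0) P.nil))) (P.cons (P.cons (P.lf 0 16545 0) (P.cons (P.lf 612 0 0) P.nil)) (P.cons (P.cons (P.lf 0 45 0) P.nil) P.nil)))))) 4284)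
 (EL.cons 11 (TM.mk (P.cons (P.cons (P.lf 2749581357 0 0) (P.cons (P.lf 425704242 0 0) (P.cons (P.lf 0 205090878 0) (P.cons (P.lf 0 7761240 0) (P.lf 1940310 0 0))))) (P.cons (P.cons (P.lf 55404870 0 0) (P.cons (P.lf 8578065 0 0) (P.cons (P.lf 0 4132641 0) (P.cons (P.lf 0 156390 0) (P.lf 39096 0 0))))) (P.cons (P.cons (P.lf 0 2805450 0) (P.cons (P.lf 0 434352 0) (P.cons (P.lf 209256 0 0) (P.cons (P.lf 7917 0 0) P.nil)))) (P.cons (P.cons (P.lf 0 62853 0) (P.cons (P.lf 0 9729 0) (P.cons (P.lf 4686 0 0) P.nil))) (P.cons (P.cons (P.lf 1305 0 0) (P.cons (P.lf 201 0 0) P.nil)) (P.cons (P.cons (P.lf 36 0 0) P.nil) P.nil)))))) 2604)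
 EL.nil)))
noncomputable def S219_227_364_512_22 : EL := (EL.cons 4 (TM.mk (P.cons (P.cons (P.lf 203769510 0 0) (P.cons (P.lf 84240231 0 0) (P.cons (P.lf 0 92555484 0) (P.cons (P.lf 0 15006552 0) (P.cons (P.lf 3937500 0 0) (P.cons (P.lf 292593 0 0) P.nil)))))) (P.cons (P.cons (P.lf 107466591 0 0) (P.cons (P.lf 0 80094861 0) (P.cons (P.lf 126690 0 0) (P.cons (P.lf 2517963 0 0) (P.cons (P.lf 0 219822 0) P.nil))))) (P.cons (P.cons (P.lf 0 4667649 0) (P.cons (P.lf 0 2294241 0) (P.cons (P.lf 803409 0 0) (P.cons (P.lf 179064 0 0) P.nil)))) (P.cons (P.cons (P.lf 0 761301 0) (P.cons (P.lf 397581 0 0) (P.cons (P.lf 25770 0 0) P.nil))) (P.cons (P.cons (P.lf 22878 0 0) (P.cons (P.lf 12009 0 0) P.nil)) (P.cons (P.cons (P.lf 2169 0 0) P.nil) P.nil)))))) 163386)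
 (EL.cons 8 (TM.mk (P.cons (P.cons (P.lf 0 35765772 0) (P.cons (P.lf 0 14785911 0) (P.cons (P.lf 16245405 0 0) (P.cons (P.lf 2633964 0 0) (P.cons (P.lf 0 691113 0) (P.cons (P.lf 0 51354 0) P.nil)))))) (P.cons (P.cons (P.lf 0 14343456 0) (P.cons (P.lf 15926571 0 0) (P.cons (P.lf 0 2074914 0) (P.cons (P.lf 0 774762 0) (P.cons (P.lf 125907 0 0) P.nil))))) (P.cons (P.cons (P.lf 3168252 0 0) (P.cons (P.lf 0 1387851 0) (P.cons (P.lf 0 122586 0) (P.cons (P.lf 26943 0 0) P.nil)))) (P.cons (P.cons (P.lf 13554 0 0) (P.cons (P.lf 0 106491 0) (P.cons (P.lf 12552 0 0) P.nil))) (P.cons (P.cons (P.lf 0 19287 0) (P.cons (P.lf 6459 0 0) P.nil)) (P.cons (P.cons (P.lf 207 0 0) P.nil) P.nil)))))) 45996)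
 (EL.cons 11 (TM.mk (P.cons (P.cons (P.lf 953029797 0 0) (P.cons (P.lf 0 345712692 0) (P.cons (P.lf 0 180434853 0) (P.cons (P.lf 39989445 0 0) (P.cons (P.lf 6226707 0 0) (P.cons (P.lf 0 1074951 0) P.nil)))))) (P.cons (P.cons (P.lf 3189435 0 0) (P.cons (P.lf 0 24354810 0) (P.cons (P.lf 0 5746407 0) (P.cons (P.lf 2141007 0 0) (P.cons (P.lf 282045 0 0) P.nil))))) (P.cons (P.cons (P.lf 0 5611395 0) (P.cons (P.lf 13902 0 0) (P.cons (P.lf 614226 0 0) (P.cons (P.lf 0 60534 0) P.nil)))) (P.cons (P.cons (P.lf 0 29997 0) (P.cons (P.lf 60312 0 0) (P.cons (P.lf 16632 0 0) P.nil))) (P.cons (P.cons (P.lf 11532 0 0) (P.cons (P.lf 1284 0 0) P.nil)) (P.cons (P.cons (P.lf 120 0 0) P.nil) P.nil)))))) 164313)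
 EL.nil)))
noncomputable def S219_227_364_512_23 : EL := (EL.cons 4 (TM.mk (P.cons (P.cons (P.lf 0 148482384 0) (P.cons (P.lf 0 138234978 0) (P.cons (P.lf 0 9242067 0) (P.lf 3080688 0 0)))) (P.cons (P.cons (P.lf 0 63538191 0) (P.cons (P.lf 27969486 0 0) (P.cons (P.lf 1869972 0 0) (P.lf 0 623322 0)))) (P.cons (P.cons (P.lf 10896270 0 0) (P.cons (P.lf 0 465621 0) (P.cons (P.lf 0 31131 0) (P.lf 10377 0 0)))) (P.cons (P.cons (P.lf 128115 0 0) (P.cons (P.lf 0 123036 0) (P.cons (P.lf 0 8223 0) P.nil))) (P.cons (P.cons (P.lf 0 30138 0) (P.cons (P.lf 171 0 0) P.nil)) (P.cons (P.cons (P.lf 0 360 0) P.nil) P.nil)))))) 4206)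
 (EL.cons 8 (TM.mk (P.cons (P.cons (P.lf 26061735 0 0) (P.cons (P.lf 24263106 0 0) (P.cons (P.lf 1622175 0 0) (P.lf 0 540726 0)))) (P.cons (P.cons (P.lf 7859256 0 0) (P.cons (P.lf 0 7974972 0) (P.cons (P.lf 0 533187 0) (P.lf 177726 0 0)))) (P.cons (P.cons (P.lf 0 3296601 0) (P.cons (P.lf 725352 0 0) (P.cons (P.lf 48492 0 0) (P.lf 0 16164 0)))) (P.cons (P.cons (P.lf 228732 0 0) (P.cons (P.lf 5472 0 0) (P.cons (P.lf 363 0 0) P.nil))) (P.cons (P.cons (P.lf 5805 0 0) (P.cons (P.lf 0 2448 0) P.nil)) (P.cons (P.cons (P.lf 0 534 0) P.nil) P.nil)))))) 1974)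
 (EL.cons 11 (TM.mk (P.cons (P.cons (P.lf 0 694451961 0) (P.cons (P.lf 0 107518602 0) (P.cons (P.lf 51799071 0 0) (P.cons (P.lf 1960227 0 0) (P.lf 0 490056 0))))) (P.cons (P.cons (P.lf 66756894 0 0) (P.cons (P.lf 10335642 0 0) (P.cons (P.lf 0 4979385 0) (P.cons (P.lf 0 188433 0) (P.lf 47109 0 0))))) (P.cons (P.cons (P.lf 2941656 0 0) (P.cons (P.lf 455439 0 0) (P.cons (P.lf 0 219417 0) (P.cons (P.lf 0 8301 0) P.nil)))) (P.cons (P.cons (P.lf 0 75456 0) (P.cons (P.lf 0 11682 0) (P.cons (P.lf 5628 0 0) P.nil))) (P.cons (P.cons (P.lf 0 3504 0) (P.cons (P.lf 0 540 0) P.nil)) (P.cons (P.cons (P.lf 33 0 0) P.nil) P.nil)))))) 3015)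
 EL.nil)))
noncomputable def S219_227_364_512_24 : EL := (EL.cons 4 (TM.mk (P.cons (P.cons (P.lf 0 51465339 0) (P.cons (P.lf 0 21276255 0) (P.cons (P.lf 23376408 0 0) (P.cons (P.lf 3790149 0 0) (P.cons (P.lf 0 994479 0) (P.cons (P.lf 0 73899 0) P.nil)))))) (P.cons (P.cons (P.lf 0 21158106 0) (P.cons (P.lf 22703259 0 0) (P.cons (P.lf 0 2750187 0) (P.cons (P.lf 0 1076667 0) (P.cons (P.lf 171156 0 0) P.nil))))) (P.cons (P.cons (P.lf 4379898 0 0) (P.cons (P.lf 0 1754229 0) (P.cons (P.lf 0 219591 0) (P.cons (P.lf 25413 0 0) P.nil)))) (P.cons (P.cons (P.lf 77313 0 0) (P.cons (P.lf 0 186090 0) (P.cons (P.lf 17823 0 0) P.nil))) (P.cons (P.cons (P.lf 0 30012 0) (P.cons (P.lf 8742 0 0) P.nil)) (P.cons (P.cons (P.lf 0 18 0) P.nil) P.nil)))))) 67635)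
 (EL.cons 8 (TM.mk (P.cons (P.cons (P.lf 9033231 0 0) (P.cons (P.lf 3734424 0 0) (P.cons (P.lf 0 4103043 0) (P.cons (P.lf 0 665250 0) (P.cons (P.lf 174552 0 0) (P.cons (P.lf 12969 0 0) P.nil)))))) (P.cons (P.cons (P.lf 2572296 0 0) (P.cons (P.lf 0 4456752 0) (P.cons (P.lf 1001151 0 0) (P.cons (P.lf 273033 0 0) (P.cons (P.lf 0 52095 0) P.nil))))) (P.cons (P.cons (P.lf 0 1229316 0) (P.cons (P.lf 815001 0 0) (P.cons (P.lf 0 26394 0) (P.cons (P.lf 0 28977 0) P.nil)))) (P.cons (P.cons (P.lf 86736 0 0) (P.cons (P.lf 0 10236 0) (P.cons (P.lf 0 7350 0) P.nil))) (P.cons (P.cons (P.lf 6081 0 0) (P.cons (P.lf 0 5184 0) P.nil)) (P.cons (P.cons (P.lf 0 636 0) P.nil) P.nil)))))) 19161)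
 (EL.cons 11 (TM.mk (P.cons (P.cons (P.lf 0 240703338 0) (P.cons (P.lf 87315420 0 0) (P.cons (P.lf 45571785 0 0) (P.cons (P.lf 0 10099989 0) (P.cons (P.lf 0 1572657 0) (P.cons (P.lf 271494 0 0) P.nil)))))) (P.cons (P.cons (P.lf 27183240 0 0) (P.cons (P.lf 0 4001757 0) (P.cons (P.lf 0 3847698 0) (P.cons (P.lf 633669 0 0) (P.cons (P.lf 111630 0 0) P.nil))))) (P.cons (P.cons (P.lf 1720944 0 0) (P.cons (P.lf 0 794955 0) (P.cons (P.lf 0 363657 0) (P.cons (P.lf 86979 0 0) P.nil)))) (P.cons (P.cons (P.lf 0 163848 0) (P.cons (P.lf 0 17532 0) (P.cons (P.lf 13956 0 0) P.nil))) (P.cons (P.cons (P.lf 0 5151 0) (P.cons (P.lf 1671 0 0) P.nil)) (P.cons (P.cons (P.lf 345 0 0) P.nil) P.nil)))))) 75321)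
 EL.nil)))
noncomputable def S219_227_364_512_25 : EL := (EL.cons 4 (TM.mk (P.cons (P.cons (P.lf 37501665 0 0) (P.cons (P.lf 34913514 0 0) (P.cons (P.lf 2334234 0 0) (P.lf 0 778077 0)))) (P.cons (P.cons (P.lf 11686950 0 0) (P.cons (P.lf 0 11123868 0) (P.cons (P.lf 0 743715 0) (P.lf 247905 0 0)))) (P.cons (P.cons (P.lf 0 4650756 0) (P.cons (P.lf 908550 0 0) (P.cons (P.lf 60741 0 0) (P.lf 0 20247 0)))) (P.cons (P.cons (P.lf 274785 0 0) (P.cons (P.lf 24627 0 0) (P.cons (P.lf 1644 0 0) P.nil))) (P.cons (P.cons (P.lf 14280 0 0) (P.cons (P.lf 0 3960 0) P.nil)) (P.cons (P.cons (P.lf 0 840 0) P.nil) P.nil)))))) 3078)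
 (EL.cons 8 (TM.mk (P.cons (P.cons (P.lf 0 6582318 0) (P.cons (P.lf 0 6128046 0) (P.cons (P.lf 0 409707 0) (P.lf 136569 0 0)))) (P.cons (P.cons (P.lf 0 1219596 0) (P.cons (P.lf 2726772 0 0) (P.cons (P.lf 182304 0 0) (P.lf 0 60768 0)))) (P.cons (P.cons (P.lf 1069164 0 0) (P.cons (P.lf 0 412062 0) (P.cons (P.lf 0 27549 0) (P.lf 9183 0 0)))) (P.cons (P.cons (P.lf 0 153054 0) (P.cons (P.lf 17973 0 0) (P.cons (P.lf 1200 0 0) P.nil))) (P.cons (P.cons (P.lf 4461 0 0) (P.cons (P.lf 996 0 0) P.nil)) (P.cons (P.cons (P.lf 378 0 0) P.nil) P.nil)))))) 1212)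
 (EL.cons 11 (TM.mk (P.cons (P.cons (P.lf 175395255 0 0) (P.cons (P.lf 27155589 0 0) (P.cons (P.lf 0 13082706 0) (P.cons (P.lf 0 495087 0) (P.lf 123771 0 0))))) (P.cons (P.cons (P.lf 0 37255365 0) (P.cons (P.lf 0 5768064 0) (P.cons (P.lf 2778870 0 0) (P.cons (P.lf 105159 0 0) (P.lf 0 26289 0))))) (P.cons (P.cons (P.lf 1064523 0 0) (P.cons (P.lf 164814 0 0) (P.cons (P.lf 0 79401 0) (P.cons (P.lf 0 3003 0) P.nil)))) (P.cons (P.cons (P.lf 125502 0 0) (P.cons (P.lf 19431 0 0) (P.cons (P.lf 0 9360 0) P.nil))) (P.cons (P.cons (P.lf 0 1122 0) (P.cons (P.lf 0 174 0) P.nil)) (P.cons (P.cons (P.lf 0 156 0) P.nil) P.nil)))))) 3180)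
 EL.nil)))
noncomputable def S219_227_364_512_26 : EL := (EL.cons 4 (TM.mk (P.cons (P.cons (P.lf 12998415 0 0) (P.cons (P.lf 5373666 0 0) (P.cons (P.lf 0 5904096 0) (P.cons (P.lf 0 957264 0) (P.cons (P.lf 251172 0 0) (P.cons (P.lf 18663 0 0) P.nil)))))) (P.cons (P.cons (P.lf 3832380 0 0) (P.cons (P.lf 0 6358926 0) (P.cons (P.lf 1381128 0 0) (P.cons (P.lf 383238 0 0) (P.cons (P.lf 0 72432 0) P.nil))))) (P.cons (P.cons (P.lf 0 1738932 0) (P.cons (P.lf 1105125 0 0) (P.cons (P.lf 0 20154 0) (P.cons (P.lf 0 37203 0) P.nil)))) (P.cons (P.cons (P.lf 104835 0 0) (P.cons (P.lf 648 0 0) (P.cons (P.lf 0 11736 0) P.nil))) (P.cons (P.cons (P.lf 10983 0 0) (P.cons (P.lf 0 8232 0) P.nil)) (P.cons (P.cons (P.lf 0 888 0) P.nil) P.nil)))))) 25500)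
 (EL.cons 8 (TM.mk (P.cons (P.cons (P.lf 0 2281491 0) (P.cons (P.lf 0 943188 0) (P.cons (P.lf 1036290 0 0) (P.cons (P.lf 168018 0 0) (P.cons (P.lf 0 44085 0) (P.cons (P.lf 0 3276 0) P.nil)))))) (P.cons (P.cons (P.lf 0 384384 0) (P.cons (P.lf 1235298 0 0) (P.cons (P.lf 0 373356 0) (P.cons (P.lf 0 88494 0) (P.cons (P.lf 18282 0 0) P.nil))))) (P.cons (P.cons (P.lf 388017 0 0) (P.cons (P.lf 0 335904 0) (P.cons (P.lf 35163 0 0) (P.cons (P.lf 15189 0 0) P.nil)))) (P.cons (P.cons (P.lf 0 57510 0) (P.cons (P.lf 25509 0 0) (P.cons (P.lf 1332 0 0) P.nil))) (P.cons (P.cons (P.lf 717 0 0) (P.cons (P.lf 1221 0 0) P.nil)) (P.cons (P.cons (P.lf 366 0 0) P.nil) P.nil)))))) 7758)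
 (EL.cons 11 (TM.mk (P.cons (P.cons (P.lf 60793581 0 0) (P.cons (P.lf 0 22052943 0) (P.cons (P.lf 0 11509902 0) (P.cons (P.lf 2550918 0 0) (P.cons (P.lf 397200 0 0) (P.cons (P.lf 0 68571 0) P.nil)))))) (P.cons (P.cons (P.lf 0 13934601 0) (P.cons (P.lf 3575007 0 0) (P.cons (P.lf 2310159 0 0) (P.cons (P.lf 0 456660 0) (P.cons (P.lf 0 74379 0) P.nil))))) (P.cons (P.cons (P.lf 310623 0 0) (P.cons (P.lf 102495 0 0) (P.cons (P.lf 0 11106 0) (P.cons (P.lf 0 5583 0) P.nil)))) (P.cons (P.cons (P.lf 99765 0 0) (P.cons (P.lf 0 20469 0) (P.cons (P.lf 0 15402 0) P.nil))) (P.cons (P.cons (P.lf 0 3315 0) (P.cons (P.lf 0 1089 0) P.nil)) (P.cons (P.cons (P.lf 0 288 0) P.nil) P.nil)))))) 33492)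
 EL.nil)))
noncomputable def S219_227_364_512_27 : EL := (EL.cons 13 (TM.mk (P.lf 0 4294967296 0) 0)
 EL.nil)
noncomputable def S219_227_364_512_28 : EL := (EL.cons 13 (TM.mk (P.cons (P.cons (P.lf 0 1488674561 0) (P.cons (P.lf 770502676 0 0) (P.cons (P.lf 51514012 0 0) (P.lf 0 17171336 0)))) (P.cons (P.cons (P.lf 25015189 0 0) (P.cons (P.lf 23288780 0 0) (P.cons (P.lf 1557032 0 0) (P.lf 0 519008 0)))) (P.cons (P.cons (P.lf 6742263 0 0) (P.cons (P.lf 0 1061916 0) (P.cons (P.lf 0 70996 0) (P.lf 23664 0 0)))) (P.cons (P.cons (P.lf 0 97506 0) (P.cons (P.lf 0 38692 0) (P.cons (P.lf 0 2584 0) P.nil))) (P.cons (P.cons (P.lf 0 7892 0) (P.cons (P.lf 644 0 0) P.nil)) (P.cons (P.cons (P.lf 33 0 0) P.nil) P.nil)))))) 1389)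
 EL.nil)
noncomputable def S219_227_364_512_29 : EL := (EL.cons 13 (TM.mk (P.cons (P.cons (P.lf 0 515988084 0) (P.cons (P.lf 534126410 0 0) (P.cons (P.lf 0 102515140 0) (P.cons (P.lf 0 30386361 0) (P.cons (P.lf 5543098 0 0) (P.cons (P.lf 411907 0 0) P.nil)))))) (P.cons (P.cons (P.lf 17340982 0 0) (P.cons (P.lf 7168922 0 0) (P.cons (P.lf 0 7876561 0) (P.cons (P.lf 0 1277069 0) (P.cons (P.lf 335084 0 0) P.nil))))) (P.cons (P.cons (P.lf 4528162 0 0) (P.cons (P.lf 0 3426499 0) (P.cons (P.lf 25641 0 0) (P.cons (P.lf 110422 0 0) P.nil)))) (P.cons (P.cons (P.lf 0 146130 0) (P.cons (P.lf 0 52585 0) (P.cons (P.lf 21884 0 0) P.nil))) (P.cons (P.cons (P.lf 0 14919 0) (P.cons (P.lf 8120 0 0) P.nil)) (P.cons (P.cons (P.lf 420 0 0) P.nil) P.nil)))))) 135072)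
 EL.nil)
noncomputable def S219_227_364_512_30 : EL := (EL.cons 13 (TM.mk (P.cons (P.lf 1084764580 0 0) (P.cons (P.lf 0 126135536 0) (P.cons (P.lf 0 946524 0) (P.cons (P.lf 33040 0 0) (P.cons (P.lf 444 0 0) (P.cons (P.lf 0 4 0) P.nil)))))) 40)
 EL.nil)
noncomputable def S219_227_364_512_31 : EL := (EL.cons 13 (TM.mk (P.cons (P.cons (P.lf 375989227 0 0) (P.cons (P.lf 0 194603114 0) (P.cons (P.lf 0 13010710 0) (P.lf 4336903 0 0)))) (P.cons (P.cons (P.lf 0 50037716 0) (P.cons (P.lf 16746326 0 0) (P.cons (P.lf 1119620 0 0) (P.lf 0 373207 0)))) (P.cons (P.cons (P.lf 0 1296291 0) (P.cons (P.lf 1121957 0 0) (P.cons (P.lf 75011 0 0) (P.lf 0 25003 0)))) (P.cons (P.cons (P.lf 239599 0 0) (P.cons (P.lf 0 22209 0) (P.cons (P.lf 0 1485 0) P.nil))) (P.cons (P.cons (P.lf 576 0 0) (P.cons (P.lf 0 1791 0) P.nil)) (P.cons (P.cons (P.lf 0 317 0) P.nil) P.nil)))))) 1539)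
 EL.nil)
noncomputable def S219_227_364_512_32 : EL := (EL.cons 13 (TM.mk (P.cons (P.cons (P.lf 130321271 0 0) (P.cons (P.lf 0 134902403 0) (P.cons (P.lf 25891883 0 0) (P.cons (P.lf 7674574 0 0) (P.cons (P.lf 0 1400000 0) (P.cons (P.lf 0 104033 0) P.nil)))))) (P.cons (P.cons (P.lf 0 19533400 0) (P.cons (P.lf 13875711 0 0) (P.cons (P.lf 0 1021332 0) (P.cons (P.lf 0 569848 0) (P.cons (P.lf 78159 0 0) P.nil))))) (P.cons (P.cons (P.lf 0 748101 0) (P.cons (P.lf 1193667 0 0) (P.cons (P.lf 0 260388 0) (P.cons (P.lf 0 72090 0) P.nil)))) (P.cons (P.cons (P.lf 177682 0 0) (P.cons (P.lf 0 89877 0) (P.cons (P.lf 0 5721 0) P.nil))) (P.cons (P.cons (P.lf 394 0 0) (P.cons (P.lf 0 4460 0) P.nil)) (P.cons (P.cons (P.lf 0 613 0) P.nil) P.nil)))))) 66338)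
 EL.nil)
noncomputable def S219_227_364_512_33 : EL := (EL.cons 14 (TM.mk (P.lf 8589934592 0 0) 0)
 EL.nil)
noncomputable def S219_227_364_512_34 : EL := (EL.cons 14 (TM.mk (P.cons (P.cons (P.lf 2977349122 0 0) (P.cons (P.lf 0 1541005352 0) (P.cons (P.lf 0 103028024 0) (P.lf 34342672 0 0)))) (P.cons (P.cons (P.lf 0 50030378 0) (P.cons (P.lf 0 46577560 0) (P.cons (P.lf 0 3114064 0) (P.lf 1038016 0 0)))) (P.cons (P.cons (P.lf 0 13484526 0) (P.cons (P.lf 2123832 0 0) (P.cons (P.lf 141992 0 0) (P.lf 0 47328 0)))) (P.cons (P.cons (P.lf 195012 0 0) (P.cons (P.lf 77384 0 0) (P.cons (P.lf 5168 0 0) P.nil))) (P.cons (P.cons (P.lf 15784 0 0) (P.cons (P.lf 0 1288 0) P.nil)) (P.cons (P.cons (P.lf 0 66 0) P.nil) P.nil)))))) 2778)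
 EL.nil)
noncomputable def S219_227_364_512_35 : EL := (EL.cons 14 (TM.mk (P.cons (P.cons (P.lf 1031976168 0 0) (P.cons (P.lf 0 1068252820 0) (P.cons (P.lf 205030280 0 0) (P.cons (P.lf 60772722 0 0) (P.cons (P.lf 0 11086196 0) (P.cons (P.lf 0 823814 0) P.nil)))))) (P.cons (P.cons (P.lf 0 34681964 0) (P.cons (P.lf 0 14337844 0) (P.cons (P.lf 15753122 0 0) (P.cons (P.lf 2554138 0 0) (P.cons (P.lf 0 670168 0) P.nil))))) (P.cons (P.cons (P.lf 0 9056324 0) (P.cons (P.lf 6852998 0 0) (P.cons (P.lf 0 51282 0) (P.cons (P.lf 0 220844 0) P.nil)))) (P.cons (P.cons (P.lf 292260 0 0) (P.cons (P.lf 105170 0 0) (P.cons (P.lf 0 43768 0) P.nil))) (P.cons (P.cons (P.lf 29838 0 0) (P.cons (P.lf 0 16240 0) P.nil)) (P.cons (P.cons (P.lf 0 840 0) P.nil) P.nil)))))) 270144)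
 EL.nil)
noncomputable def S219_227_364_512_36 : EL := (EL.cons 14 (TM.mk (P.cons (P.lf 0 2169529160 0) (P.cons (P.lf 252271072 0 0) (P.cons (P.lf 1893048 0 0) (P.cons (P.lf 0 66080 0) (P.cons (P.lf 0 888 0) (P.cons (P.lf 8 0 0) P.nil)))))) 80)
 EL.nil)
noncomputable def S219_227_364_512_37 : EL := (EL.cons 14 (TM.mk (P.cons (P.cons (P.lf 0 751978454 0) (P.cons (P.lf 389206228 0 0) (P.cons (P.lf 26021420 0 0) (P.lf 0 8673806 0)))) (P.cons (P.cons (P.lf 100075432 0 0) (P.cons (P.lf 0 33492652 0) (P.cons (P.lf 0 2239240 0) (P.lf 746414 0 0)))) (P.cons (P.cons (P.lf 2592582 0 0) (P.cons (P.lf 0 2243914 0) (P.cons (P.lf 0 150022 0) (P.lf 50006 0 0)))) (P.cons (P.cons (P.lf 0 479198 0) (P.cons (P.lf 44418 0 0) (P.cons (P.lf 2970 0 0) P.nil))) (P.cons (P.cons (P.lf 0 1152 0) (P.cons (P.lf 3582 0 0) P.nil)) (P.cons (P.cons (P.lf 634 0 0) P.nil) P.nil)))))) 3078)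
 EL.nil)
noncomputable def S219_227_364_512_38 : EL := (EL.cons 14 (TM.mk (P.cons (P.cons (P.lf 0 260642542 0) (P.cons (P.lf 269804806 0 0) (P.cons (P.lf 0 51783766 0) (P.cons (P.lf 0 15349148 0) (P.cons (P.lf 2800000 0 0) (P.cons (P.lf 208066 0 0) P.nil)))))) (P.cons (P.cons (P.lf 39066800 0 0) (P.cons (P.lf 0 27751422 0) (P.cons (P.lf 2042664 0 0) (P.cons (P.lf 1139696 0 0) (P.cons (P.lf 0 156318 0) P.nil))))) (P.cons (P.cons (P.lf 1496202 0 0) (P.cons (P.lf 0 2387334 0) (P.cons (P.lf 520776 0 0) (P.cons (P.lf 144180 0 0) P.nil)))) (P.cons (P.cons (P.lf 0 355364 0) (P.cons (P.lf 179754 0 0) (P.cons (P.lf 11442 0 0) P.nil))) (P.cons (P.cons (P.lf 0 788 0) (P.cons (P.lf 8920 0 0) P.nil)) (P.cons (P.cons (P.lf 1226 0 0) P.nil) P.nil)))))) 132676)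
 EL.nil)
noncomputable def S219_227_364_512_39 : EL := (EL.cons 14 (TM.mk (P.cons (P.lf 547950246 0 0) (P.cons (P.lf 0 127430410 0) (P.cons (P.lf 6452510 0 0) (P.cons (P.lf 144570 0 0) (P.cons (P.lf 0 3014 0) (P.cons (P.lf 0 84 0) P.nil)))))) 60)
 EL.nil)
noncomputable def S219_227_364_512_40 : EL := (EL.cons 14 (TM.mk (P.cons (P.cons (P.lf 189924516 0 0) (P.cons (P.lf 0 98300428 0) (P.cons (P.lf 0 6572136 0) (P.lf 2190712 0 0)))) (P.cons (P.cons (P.lf 0 47359962 0) (P.cons (P.lf 19889412 0 0) (P.cons (P.lf 1329758 0 0) (P.lf 0 443252 0)))) (P.cons (P.cons (P.lf 2118516 0 0) (P.cons (P.lf 0 331108 0) (P.cons (P.lf 0 22136 0) (P.lf 7378 0 0)))) (P.cons (P.cons (P.lf 225008 0 0) (P.cons (P.lf 0 87492 0) (P.cons (P.lf 0 5848 0) P.nil))) (P.cons (P.cons (P.lf 0 13902 0) (P.cons (P.lf 122 0 0) P.nil)) (P.cons (P.cons (P.lf 0 330 0) P.nil) P.nil)))))) 2868)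
 EL.nil)
noncomputable def S219_227_364_512_41 : EL := (EL.cons 14 (TM.mk (P.cons (P.cons (P.lf 65829556 0 0) (P.cons (P.lf 0 68143638 0) (P.cons (P.lf 13078840 0 0) (P.cons (P.lf 3876680 0 0) (P.cons (P.lf 0 707186 0) (P.cons (P.lf 0 52550 0) P.nil)))))) (P.cons (P.cons (P.lf 0 17521568 0) (P.cons (P.lf 14932764 0 0) (P.cons (P.lf 0 2036704 0) (P.cons (P.lf 0 738626 0) (P.cons (P.lf 121712 0 0) P.nil))))) (P.cons (P.cons (P.lf 711990 0 0) (P.cons (P.lf 0 152588 0) (P.cons (P.lf 0 82952 0) (P.cons (P.lf 0 6326 0) P.nil)))) (P.cons (P.cons (P.lf 144308 0 0) (P.cons (P.lf 0 123702 0) (P.cons (P.lf 13252 0 0) P.nil))) (P.cons (P.cons (P.lf 0 10180 0) (P.cons (P.lf 2684 0 0) P.nil)) (P.cons (P.cons (P.lf 0 426 0) P.nil) P.nil)))))) 61370)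
 EL.nil)
noncomputable def S219_227_364_512_42 : EL := (EL.cons 14 (TM.mk (P.cons (P.lf 0 138393840 0) (P.cons (P.lf 48276966 0 0) (P.cons (P.lf 0 5251334 0) (P.cons (P.lf 120686 0 0) (P.cons (P.lf 7352 0 0) (P.cons (P.lf 0 70 0) P.nil)))))) 42)
 EL.nil)
noncomputable def S219_227_364_512_43 : EL := (EL.cons 14 (TM.mk (P.cons (P.cons (P.lf 0 47968558 0) (P.cons (P.lf 24827388 0 0) (P.cons (P.lf 1659900 0 0) (P.lf 0 553300 0)))) (P.cons (P.cons (P.lf 17539280 0 0) (P.cons (P.lf 0 7910306 0) (P.cons (P.lf 0 528864 0) (P.lf 176288 0 0)))) (P.cons (P.cons (P.lf 0 1884088 0) (P.cons (P.lf 646080 0 0) (P.cons (P.lf 43194 0 0) (P.lf 0 14398 0)))) (P.cons (P.cons (P.lf 0 6510 0) (P.cons (P.lf 17512 0 0) (P.cons (P.lf 1170 0 0) P.nil))) (P.cons (P.cons (P.lf 10930 0 0) (P.cons (P.lf 0 2816 0) P.nil)) (P.cons (P.cons (P.lf 0 284 0) P.nil) P.nil)))))) 2004)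
 EL.nil)
noncomputable def S219_227_364_512_44 : EL := (EL.cons 14 (TM.mk (P.cons (P.cons (P.lf 0 16626336 0) (P.cons (P.lf 17210794 0 0) (P.cons (P.lf 0 3303276 0) (P.cons (P.lf 0 979118 0) (P.cons (P.lf 178610 0 0) (P.cons (P.lf 13272 0 0) P.nil)))))) (P.cons (P.cons (P.lf 6358656 0 0) (P.cons (P.lf 0 5772772 0) (P.cons (P.lf 898504 0 0) (P.cons (P.lf 300402 0 0) (P.cons (P.lf 0 51508 0) P.nil))))) (P.cons (P.cons (P.lf 0 679894 0) (P.cons (P.lf 462070 0 0) (P.cons (P.lf 0 35980 0) (P.cons (P.lf 0 19238 0) P.nil)))) (P.cons (P.cons (P.lf 0 19904 0) (P.cons (P.lf 30576 0 0) (P.cons (P.lf 0 6332 0) P.nil))) (P.cons (P.cons (P.lf 7094 0 0) (P.cons (P.lf 0 4452 0) P.nil)) (P.cons (P.cons (P.lf 0 162 0) P.nil) P.nil)))))) 27300)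
 EL.nil)
noncomputable def S219_227_364_512_45 : EL := (EL.cons 14 (TM.mk (P.cons (P.cons (P.lf 357692284 0 0) (P.cons (P.lf 0 555399152 0) (P.cons (P.lf 250328746 0 0) (P.cons (P.lf 1221154 0 0) (P.cons (P.lf 0 21475028 0) (P.cons (P.lf 1794088 0 0) P.nil)))))) (P.cons (P.cons (P.lf 0 18031624 0) (P.cons (P.lf 1878300 0 0) (P.cons (P.lf 12672468 0 0) (P.cons (P.lf 0 2861188 0) (P.cons (P.lf 0 1405134 0) P.nil))))) (P.cons (P.cons (P.lf 0 4557006 0) (P.cons (P.lf 6203652 0 0) (P.cons (P.lf 0 1708910 0) (P.cons (P.lf 0 353088 0) P.nil)))) (P.cons (P.cons (P.lf 231918 0 0) (P.cons (P.lf 0 7806 0) (P.cons (P.lf 0 104314 0) P.nil))) (P.cons (P.cons (P.lf 23964 0 0) (P.cons (P.lf 0 28930 0) P.nil)) (P.cons (P.cons (P.lf 0 1200 0) P.nil) P.nil)))))) 1293276)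
 EL.nil)
noncomputable def S219_227_364_512_46 : EL := (EL.cons 15 (TM.mk (P.lf 4294967296 0 0) 0)
 EL.nil)
noncomputable def S219_227_364_512_47 : EL := (EL.cons 15 (TM.mk (P.cons (P.cons (P.lf 1488674561 0 0) (P.cons (P.lf 0 770502676 0) (P.cons (P.lf 0 51514012 0) (P.lf 17171336 0 0)))) (P.cons (P.cons (P.lf 0 25015189 0) (P.cons (P.lf 0 23288780 0) (P.cons (P.lf 0 1557032 0) (P.lf 519008 0 0)))) (P.cons (P.cons (P.lf 0 6742263 0) (P.cons (P.lf 1061916 0 0) (P.cons (P.lf 70996 0 0) (P.lf 0 23664 0)))) (P.cons (P.cons (P.lf 97506 0 0) (P.cons (P.lf 38692 0 0) (P.cons (P.lf 2584 0 0) P.nil))) (P.cons (P.cons (P.lf 7892 0 0) (P.cons (P.lf 0 644 0) P.nil)) (P.cons (P.cons (P.lf 0 33 0) P.nil) P.nil)))))) 1389)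
 EL.nil)
noncomputable def S219_227_364_512_48 : EL := (EL.cons 15 (TM.mk (P.cons (P.cons (P.lf 515988084 0 0) (P.cons (P.lf 0 534126410 0) (P.cons (P.lf 102515140 0 0) (P.cons (P.lf 30386361 0 0) (P.cons (P.lf 0 5543098 0) (P.cons (P.lf 0 411907 0) P.nil)))))) (P.cons (P.cons (P.lf 0 17340982 0) (P.cons (P.lf 0 7168922 0) (P.cons (P.lf 7876561 0 0) (P.cons (P.lf 1277069 0 0) (P.cons (P.lf 0 335084 0) P.nil))))) (P.cons (P.cons (P.lf 0 4528162 0) (P.cons (P.lf 3426499 0 0) (P.cons (P.lf 0 25641 0) (P.cons (P.lf 0 110422 0) P.nil)))) (P.cons (P.cons (P.lf 146130 0 0) (P.cons (P.lf 52585 0 0) (P.cons (P.lf 0 21884 0) P.nil))) (P.cons (P.cons (P.lf 14919 0 0) (P.cons (P.lf 0 8120 0) P.nil)) (P.cons (P.cons (P.lf 0 420 0) P.nil) P.nil)))))) 135072)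
 EL.nil)
noncomputable def S219_227_364_512 : SL := (SL.cons S219_227_364_512_0 (SL.cons S219_227_364_512_1 (SL.cons S219_227_364_512_2 (SL.cons S219_227_364_512_3 (SL.cons S219_227_364_512_4 (SL.cons S219_227_364_512_5 (SL.cons S219_227_364_512_6 (SL.cons S219_227_364_512_7 (SL.cons S219_227_364_512_8 (SL.cons S219_227_364_512_9 (SL.cons S219_227_364_512_10 (SL.cons S219_227_364_512_11 (SL.cons S219_227_364_512_12 (SL.cons S219_227_364_512_13 (SL.cons S219_227_364_512_14 (SL.cons S219_227_364_512_15 (SL.cons S219_227_364_512_16 (SL.cons S219_227_364_512_17 (SL.cons S219_227_364_512_18 (SL.cons S219_227_364_512_19 (SL.cons S219_227_364_512_20 (SL.cons S219_227_364_512_21 (SL.cons S219_227_364_512_22 (SL.cons S219_227_364_512_23 (SL.cons S219_227_364_512_24 (SL.cons S219_227_364_512_25 (SL.cons S219_227_364_512_26 (SL.cons S219_227_364_512_27 (SL.cons S219_227_364_512_28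 (SL.cons S219_227_364_512_29 (SL.cons S219_227_364_512_30 (SL.cons S219_227_364_512_31 (SL.cons S219_227_364_512_32 (SL.cons S219_227_364_512_33 (SL.cons S219_227_364_512_34 (SL.cons S219_227_364_512_35 (SL.cons S219_227_364_512_36 (SL.cons S219_227_364_512_37 (SL.cons S219_227_364_512_38 (SL.cons S219_227_364_512_39 (SL.cons S219_227_364_512_40 (SL.cons S219_227_364_512_41 (SL.cons S219_227_364_512_42 (SL.cons S219_227_364_512_43 (SL.cons S219_227_364_512_44 (SL.cons S219_227_364_512_45 (SL.cons S219_227_364_512_46 (SL.cons S219_227_364_512_47 (SL.cons S219_227_364_512_48 SL.nil)))))))))))))))))))))))))))))))))))))))))))))))))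
noncomputable def S219_227_438_512_0 : EL := (EL.cons 0 (TM.mk (P.cons (P.lf 7974119968 0 0) (P.cons (P.lf 111999383 0 0) (P.cons (P.lf 0 5671151 0) (P.cons (P.lf 0 127063 0) (P.cons (P.lf 2649 0 0) (P.cons (P.lf 73 0 0) P.nil)))))) 59)
 (EL.cons 1 (TM.mk (P.cons (P.lf 0 975579558 0) (P.cons (P.lf 103610482 0 0) (P.cons (P.lf 2541390 0 0) (P.cons (P.lf 0 79128 0) (P.cons (P.lf 0 1965 0) (P.cons (P.lf 24 0 0) P.nil)))))) 82)
 (EL.cons 5 (TM.mk (P.cons (P.lf 4466201750 0 0) (P.cons (P.lf 0 39822002 0) (P.cons (P.lf 2016406 0 0) (P.cons (P.lf 45176 0 0) (P.cons (P.lf 0 938 0) (P.cons (P.lf 0 26 0) P.nil)))))) 113)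
 (EL.cons 9 (TM.mk (P.lf 6442450944 0 0) 2)
 EL.nil))))
noncomputable def S219_227_438_512_1 : EL := (EL.cons 0 (TM.mk (P.cons (P.cons (P.lf 2440321592 0 0) (P.cons (P.lf 0 615037241 0) (P.cons (P.lf 0 9789130 0) (P.lf 3263047 0 0)))) (P.cons (P.cons (P.lf 52011086 0 0) (P.cons (P.lf 0 60789378 0) (P.cons (P.lf 0 967529 0) (P.lf 322500 0 0)))) (P.cons (P.cons (P.lf 0 33893626 0) (P.cons (P.lf 1708946 0 0) (P.cons (P.lf 27193 0 0) (P.lf 0 9059 0)))) (P.cons (P.cons (P.lf 0 48780 0) (P.cons (P.lf 201502 0 0) (P.cons (P.lf 3195 0 0) P.nil))) (P.cons (P.cons (P.lf 83386 0 0) (P.cons (P.lf 0 886 0) P.nil)) (P.cons (P.cons (P.lf 606 0 0) P.nil) P.nil)))))) 3002)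
 (EL.cons 1 (TM.mk (P.cons (P.cons (P.lf 132580698 0 0) (P.cons (P.lf 217795799 0 0) (P.cons (P.lf 3466500 0 0) (P.lf 0 1155498 0)))) (P.cons (P.cons (P.lf 177279930 0 0) (P.cons (P.lf 0 13529561 0) (P.cons (P.lf 0 215341 0) (P.lf 71781 0 0)))) (P.cons (P.cons (P.lf 1716802 0 0) (P.cons (P.lf 0 2009629 0) (P.cons (P.lf 0 31977 0) (P.lf 10653 0 0)))) (P.cons (P.cons (P.lf 0 956612 0) (P.cons (P.lf 19938 0 0) (P.cons (P.lf 321 0 0) P.nil))) (P.cons (P.cons (P.lf 0 7086 0) (P.cons (P.lf 4467 0 0) P.nil)) (P.cons (P.cons (P.lf 1676 0 0) P.nil) P.nil)))))) 1702)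
 (EL.cons 5 (TM.mk (P.cons (P.cons (P.lf 989905043 0 0) (P.cons (P.lf 0 469087556 0) (P.cons (P.lf 0 7466146 0) (P.lf 2488714 0 0)))) (P.cons (P.cons (P.lf 0 81365573 0) (P.cons (P.lf 825924 0 0) (P.cons (P.lf 13138 0 0) (P.lf 0 4378 0)))) (P.cons (P.cons (P.lf 1516983 0 0) (P.cons (P.lf 340274 0 0) (P.cons (P.lf 5422 0 0) (P.lf 0 1812 0)))) (P.cons (P.cons (P.lf 216909 0 0) (P.cons (P.lf 0 37100 0) (P.cons (P.lf 0 586 0) P.nil))) (P.cons (P.cons (P.lf 0 16778 0) (P.cons (P.lf 0 270 0) P.nil)) (P.cons (P.cons (P.lf 0 307 0) P.nil) P.nil)))))) 2612)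
 (EL.cons 9 (TM.mk (P.cons (P.cons (P.lf 1639036699 0 0) (P.cons (P.lf 0 606853638 0) (P.cons (P.lf 0 9658872 0) (P.lf 3219624 0 0)))) (P.cons (P.cons (P.lf 0 55475947 0) (P.cons (P.lf 0 18342414 0) (P.cons (P.lf 0 291936 0) (P.lf 97308 0 0)))) (P.cons (P.cons (P.lf 0 9294766 0) (P.cons (P.lf 836370 0 0) (P.cons (P.lf 13308 0 0) (P.lf 0 4434 0)))) (P.cons (P.cons (P.lf 176085 0 0) (P.cons (P.lf 30474 0 0) (P.cons (P.lf 480 0 0) P.nil))) (P.cons (P.cons (P.lf 11340 0 0) (P.cons (P.lf 0 504 0) P.nil)) (P.cons (P.cons (P.lf 0 79 0) P.nil) P.nil)))))) 710)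
 (EL.cons 2 (TM.mk (P.cons (P.cons (P.lf 689106650 0 0) (P.cons (P.lf 25544241 0 0) (P.cons (P.lf 0 12657262 0) (P.cons (P.lf 0 114854 0) (P.lf 28712 0 0))))) (P.cons (P.cons (P.lf 0 66243054 0) (P.cons (P.lf 0 2455537 0) (P.cons (P.lf 1216726 0 0) (P.cons (P.lf 11039 0 0) (P.lf 0 2759 0))))) (P.cons (P.cons (P.lf 0 2919012 0) (P.cons (P.lf 0 108202 0) (P.cons (P.lf 53614 0 0) (P.cons (P.lf 483 0 0) P.nil)))) (P.cons (P.cons (P.lf 74877 0 0) (P.cons (P.lf 2773 0 0) (P.cons (P.lf 0 1375 0) P.nil))) (P.cons (P.cons (P.lf 3476 0 0) (P.cons (P.lf 126 0 0) P.nil)) (P.cons (P.cons (P.lf 0 33 0) P.nil) P.nil)))))) 397)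
 (EL.cons 6 (TM.mk (P.cons (P.cons (P.lf 1395935832 0 0) (P.cons (P.lf 51745437 0 0) (P.cons (P.lf 0 25640049 0) (P.cons (P.lf 0 232665 0) (P.lf 58164 0 0))))) (P.cons (P.cons (P.lf 42192774 0 0) (P.cons (P.lf 1564026 0 0) (P.cons (P.lf 0 774981 0) (P.cons (P.lf 0 7032 0) (P.lf 1755 0 0))))) (P.cons (P.cons (P.lf 0 1923900 0) (P.cons (P.lf 0 71316 0) (P.cons (P.lf 35334 0 0) (P.cons (P.lf 318 0 0) P.nil)))) (P.cons (P.cons (P.lf 0 70104 0) (P.cons (P.lf 0 2598 0) (P.cons (P.lf 1287 0 0) P.nil))) (P.cons (P.cons (P.lf 1167 0 0) (P.cons (P.lf 42 0 0) P.nil)) (P.cons (P.cons (P.lf 57 0 0) P.nil) P.nil)))))) 390)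
 EL.nil))))))
noncomputable def S219_227_438_512_2 : EL := (EL.cons 0 (TM.mk (P.cons (P.cons (P.lf 725565544 0 0) (P.cons (P.lf 0 390489770 0) (P.cons (P.lf 38899458 0 0) (P.cons (P.lf 3507842 0 0) (P.cons (P.lf 0 467276 0) (P.cons (P.lf 0 7630 0) P.nil)))))) (P.cons (P.cons (P.lf 12126524 0 0) (P.cons (P.lf 0 40049131 0) (P.cons (P.lf 9046100 0 0) (P.cons (P.lf 520711 0 0) (P.cons (P.lf 0 100286 0) P.nil))))) (P.cons (P.cons (P.lf 0 19062796 0) (P.cons (P.lf 7037524 0 0) (P.cons (P.lf 97139 0 0) (P.cons (P.lf 0 37802 0) P.nil)))) (P.cons (P.cons (P.lf 290472 0 0) (P.cons (P.lf 379405 0 0) (P.cons (P.lf 0 44246 0) P.nil))) (P.cons (P.cons (P.lf 123700 0 0) (P.cons (P.lf 0 28639 0) P.nil)) (P.cons (P.cons (P.lf 0 1928 0) P.nil) P.nil)))))) 27879)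
 (EL.cons 1 (TM.mk (P.cons (P.cons (P.lf 130605064 0 0) (P.cons (P.lf 39083785 0 0) (P.cons (P.lf 0 31752726 0) (P.cons (P.lf 0 1237930 0) (P.cons (P.lf 335318 0 0) (P.cons (P.lf 5463 0 0) P.nil)))))) (P.cons (P.cons (P.lf 76940245 0 0) (P.cons (P.lf 0 39652845 0) (P.cons (P.lf 281505 0 0) (P.cons (P.lf 239427 0 0) (P.cons (P.lf 0 9448 0) P.nil))))) (P.cons (P.cons (P.lf 0 2916482 0) (P.cons (P.lf 0 2235196 0) (P.cons (P.lf 382532 0 0) (P.cons (P.lf 25158 0 0) P.nil)))) (P.cons (P.cons (P.lf 0 898153 0) (P.cons (P.lf 272256 0 0) (P.cons (P.lf 9999 0 0) P.nil))) (P.cons (P.cons (P.lf 17954 0 0) (P.cons (P.lf 14279 0 0) P.nil)) (P.cons (P.cons (P.lf 3913 0 0) P.nil) P.nil)))))) 14518)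
 (EL.cons 5 (TM.mk (P.cons (P.cons (P.lf 214610475 0 0) (P.cons (P.lf 0 211111766 0) (P.cons (P.lf 45384120 0 0) (P.cons (P.lf 2671696 0 0) (P.cons (P.lf 0 504867 0) (P.cons (P.lf 0 8230 0) P.nil)))))) (P.cons (P.cons (P.lf 0 36302810 0) (P.cons (P.lf 15506945 0 0) (P.cons (P.lf 720097 0 0) (P.cons (P.lf 0 67191 0) (P.cons (P.lf 0 4916 0) P.nil))))) (P.cons (P.cons (P.lf 1959280 0 0) (P.cons (P.lf 322636 0 0) (P.cons (P.lf 0 108965 0) (P.cons (P.lf 0 5351 0) P.nil)))) (P.cons (P.cons (P.lf 179690 0 0) (P.cons (P.lf 0 111255 0) (P.cons (P.lf 4189 0 0) P.nil))) (P.cons (P.cons (P.lf 0 25670 0) (P.cons (P.lf 2997 0 0) P.nil)) (P.cons (P.cons (P.lf 0 168 0) P.nil) P.nil)))))) 16223)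
 (EL.cons 9 (TM.mk (P.cons (P.cons (P.lf 416990571 0 0) (P.cons (P.lf 0 308781670 0) (P.cons (P.lf 52248568 0 0) (P.cons (P.lf 3457876 0 0) (P.cons (P.lf 0 592069 0) (P.cons (P.lf 0 9654 0) P.nil)))))) (P.cons (P.cons (P.lf 0 28227490 0) (P.cons (P.lf 1118173 0 0) (P.cons (P.lf 3473367 0 0) (P.cons (P.lf 104062 0 0) (P.cons (P.lf 0 35788 0) P.nil))))) (P.cons (P.cons (P.lf 0 4251696 0) (P.cons (P.lf 2492518 0 0) (P.cons (P.lf 0 65671 0) (P.cons (P.lf 0 16573 0) P.nil)))) (P.cons (P.cons (P.lf 249670 0 0) (P.cons (P.lf 20854 0 0) (P.cons (P.lf 0 10173 0) P.nil))) (P.cons (P.cons (P.lf 16146 0 0) (P.cons (P.lf 0 6333 0) P.nil)) (P.cons (P.cons (P.lf 0 742 0) P.nil) P.nil)))))) 6919)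
 (EL.cons 2 (TM.mk (P.cons (P.cons (P.lf 350633970 0 0) (P.cons (P.lf 0 116824764 0) (P.cons (P.lf 0 13318942 0) (P.cons (P.lf 2938252 0 0) (P.cons (P.lf 99731 0 0) (P.cons (P.lf 0 17713 0) P.nil)))))) (P.cons (P.cons (P.lf 0 45573845 0) (P.cons (P.lf 6866375 0 0) (P.cons (P.lf 1290408 0 0) (P.cons (P.lf 0 189894 0) (P.cons (P.lf 0 7503 0) P.nil))))) (P.cons (P.cons (P.lf 0 2332822 0) (P.cons (P.lf 1019565 0 0) (P.cons (P.lf 101446 0 0) (P.cons (P.lf 0 25138 0) P.nil)))) (P.cons (P.cons (P.lf 317176 0 0) (P.cons (P.lf 3588 0 0) (P.cons (P.lf 0 6255 0) P.nil))) (P.cons (P.cons (P.lf 7706 0 0) (P.cons (P.lf 0 2283 0) P.nil)) (P.cons (P.cons (P.lf 0 697 0) P.nil) P.nil)))))) 5388)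
 (EL.cons 6 (TM.mk (P.cons (P.cons (P.lf 710285592 0 0) (P.cons (P.lf 0 236654052 0) (P.cons (P.lf 0 26980428 0) (P.cons (P.lf 5952078 0 0) (P.cons (P.lf 202026 0 0) (P.cons (P.lf 0 35886 0) P.nil)))))) (P.cons (P.cons (P.lf 0 2572110 0) (P.cons (P.lf 0 15992916 0) (P.cons (P.lf 0 795084 0) (P.cons (P.lf 367386 0 0) (P.cons (P.lf 10314 0 0) P.nil))))) (P.cons (P.cons (P.lf 0 5733504 0) (P.cons (P.lf 272100 0 0) (P.cons (P.lf 130986 0 0) (P.cons (P.lf 0 10230 0) P.nil)))) (P.cons (P.cons (P.lf 0 47976 0) (P.cons (P.lf 46542 0 0) (P.cons (P.lf 3432 0 0) P.nil))) (P.cons (P.cons (P.lf 14568 0 0) (P.cons (P.lf 396 0 0) P.nil)) (P.cons (P.cons (P.lf 216 0 0) P.nil) P.nil)))))) 6126)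
 EL.nil))))))
noncomputable def S219_227_438_512_3 : EL := (EL.cons 0 (TM.mk (P.cons (P.lf 481596895 0 0) (P.cons (P.lf 0 111999383 0) (P.cons (P.lf 5671151 0 0) (P.cons (P.lf 127063 0 0) (P.cons (P.lf 0 2649 0) (P.cons (P.lf 0 73 0) P.nil)))))) 59)
 (EL.cons 1 (TM.mk (P.cons (P.lf 975579558 0 0) (P.cons (P.lf 0 103610482 0) (P.cons (P.lf 0 2541390 0) (P.cons (P.lf 79128 0 0) (P.cons (P.lf 1965 0 0) (P.cons (P.lf 0 24 0) P.nil)))))) 82)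
 (EL.cons 5 (TM.mk (P.cons (P.lf 1976249194 0 0) (P.cons (P.lf 39822002 0 0) (P.cons (P.lf 0 2016406 0) (P.cons (P.lf 0 45176 0) (P.cons (P.lf 938 0 0) (P.cons (P.lf 26 0 0) P.nil)))))) 106)
 EL.nil)))
noncomputable def S219_227_438_512_4 : EL := (EL.cons 0 (TM.mk (P.cons (P.cons (P.lf 122524018 0 0) (P.cons (P.lf 0 45364540 0) (P.cons (P.lf 0 722035 0) (P.lf 240677 0 0)))) (P.cons (P.cons (P.lf 0 32641015 0) (P.cons (P.lf 9178739 0 0) (P.cons (P.lf 146091 0 0) (P.lf 0 48696 0)))) (P.cons (P.cons (P.lf 1712416 0 0) (P.cons (P.lf 0 152801 0) (P.cons (P.lf 0 2431 0) (P.lf 810 0 0)))) (P.cons (P.cons (P.lf 158240 0 0) (P.cons (P.lf 0 40376 0) (P.cons (P.lf 0 641 0) P.nil))) (P.cons (P.cons (P.lf 0 12162 0) (P.cons (P.lf 56 0 0) P.nil)) (P.cons (P.cons (P.lf 0 226 0) P.nil) P.nil)))))) 486)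
 (EL.cons 1 (TM.mk (P.cons (P.cons (P.lf 248199125 0 0) (P.cons (P.lf 0 91895771 0) (P.cons (P.lf 0 1462640 0) (P.lf 487545 0 0)))) (P.cons (P.cons (P.lf 0 34760461 0) (P.cons (P.lf 6982111 0 0) (P.cons (P.lf 111129 0 0) (P.lf 0 37042 0)))) (P.cons (P.cons (P.lf 0 1161873 0) (P.cons (P.lf 661029 0 0) (P.cons (P.lf 10518 0 0) (P.lf 0 3504 0)))) (P.cons (P.cons (P.lf 218161 0 0) (P.cons (P.lf 0 9052 0) (P.cons (P.lf 0 144 0) P.nil))) (P.cons (P.cons (P.lf 2370 0 0) (P.cons (P.lf 0 1305 0) P.nil)) (P.cons (P.cons (P.lf 0 399 0) P.nil) P.nil)))))) 442)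
 (EL.cons 5 (TM.mk (P.cons (P.cons (P.lf 502781468 0 0) (P.cons (P.lf 0 186154930 0) (P.cons (P.lf 0 2962898 0) (P.lf 987632 0 0)))) (P.cons (P.cons (P.lf 0 6886286 0) (P.cons (P.lf 0 9377688 0) (P.cons (P.lf 0 149254 0) (P.lf 49750 0 0)))) (P.cons (P.cons (P.lf 0 3707114 0) (P.cons (P.lf 333118 0 0) (P.cons (P.lf 5300 0 0) (P.lf 0 1764 0)))) (P.cons (P.cons (P.lf 2430 0 0) (P.cons (P.lf 24512 0 0) (P.cons (P.lf 388 0 0) P.nil))) (P.cons (P.cons (P.lf 8102 0 0) (P.cons (P.lf 0 186 0) P.nil)) (P.cons (P.cons (P.lf 54 0 0) P.nil) P.nil)))))) 432)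
 EL.nil)))
noncomputable def S219_227_438_512_5 : EL := (EL.cons 0 (TM.mk (P.cons (P.cons (P.lf 31171577 0 0) (P.cons (P.lf 0 23082563 0) (P.cons (P.lf 3905771 0 0) (P.cons (P.lf 258488 0 0) (P.cons (P.lf 0 44258 0) (P.cons (P.lf 0 720 0) P.nil)))))) (P.cons (P.cons (P.lf 0 9359319 0) (P.cons (P.lf 5451630 0 0) (P.cons (P.lf 0 648671 0) (P.cons (P.lf 0 52333 0) (P.cons (P.lf 7616 0 0) P.nil))))) (P.cons (P.cons (P.lf 539961 0 0) (P.cons (P.lf 0 104927 0) (P.cons (P.lf 0 19297 0) (P.cons (P.lf 0 3 0) P.nil)))) (P.cons (P.cons (P.lf 75953 0 0) (P.cons (P.lf 0 46877 0) (P.cons (P.lf 4468 0 0) P.nil))) (P.cons (P.cons (P.lf 0 7604 0) (P.cons (P.lf 1506 0 0) P.nil)) (P.cons (P.cons (P.lf 0 193 0) P.nil) P.nil)))))) 3099)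
 (EL.cons 1 (TM.mk (P.cons (P.cons (P.lf 63144830 0 0) (P.cons (P.lf 0 46758768 0) (P.cons (P.lf 7911991 0 0) (P.cons (P.lf 523625 0 0) (P.cons (P.lf 0 89655 0) (P.cons (P.lf 0 1460 0) P.nil)))))) (P.cons (P.cons (P.lf 0 10980720 0) (P.cons (P.lf 5135293 0 0) (P.cons (P.lf 0 314311 0) (P.cons (P.lf 0 39851 0) (P.cons (P.lf 4100 0 0) P.nil))))) (P.cons (P.cons (P.lf 0 354356 0) (P.cons (P.lf 481263 0 0) (P.cons (P.lf 0 86415 0) (P.cons (P.lf 0 5546 0) P.nil)))) (P.cons (P.cons (P.lf 122441 0 0) (P.cons (P.lf 0 41160 0) (P.cons (P.lf 0 1211 0) P.nil))) (P.cons (P.cons (P.lf 0 110 0) (P.cons (P.lf 0 2356 0) P.nil)) (P.cons (P.cons (P.lf 0 530 0) P.nil) P.nil)))))) 3155)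
 (EL.cons 5 (TM.mk (P.cons (P.cons (P.lf 127913628 0 0) (P.cons (P.lf 0 94720088 0) (P.cons (P.lf 16027468 0 0) (P.cons (P.lf 1060716 0 0) (P.cons (P.lf 0 181618 0) (P.cons (P.lf 0 2960 0) P.nil)))))) (P.cons (P.cons (P.lf 0 6081404 0) (P.cons (P.lf 0 1565632 0) (P.cons (P.lf 1388426 0 0) (P.cons (P.lf 53294 0 0) (P.cons (P.lf 0 14636 0) P.nil))))) (P.cons (P.cons (P.lf 0 1609216 0) (P.cons (P.lf 868146 0 0) (P.cons (P.lf 0 15026 0) (P.cons (P.lf 0 5522 0) P.nil)))) (P.cons (P.cons (P.lf 56216 0 0) (P.cons (P.lf 23618 0 0) (P.cons (P.lf 0 4978 0) P.nil))) (P.cons (P.cons (P.lf 8084 0 0) (P.cons (P.lf 0 2646 0) P.nil)) (P.cons (P.cons (P.lf 0 178 0) P.nil) P.nil)))))) 3124)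
 EL.nil)))
noncomputable def S219_227_438_512_6 : EL := (EL.cons 12 (TM.mk (P.lf 8589934592 0 0) 0)
 (EL.cons 3 (TM.mk (P.cons (P.lf 0 1016966793 0) (P.cons (P.lf 118252065 0 0) (P.cons (P.lf 887366 0 0) (P.cons (P.lf 0 30975 0) (P.cons (P.lf 0 416 0) (P.cons (P.lf 3 0 0) P.nil)))))) 44)
 (EL.cons 7 (TM.mk (P.cons (P.lf 0 2060088064 0) (P.cons (P.lf 0 20755690 0) (P.cons (P.lf 1155533 0 0) (P.cons (P.lf 11905 0 0) (P.cons (P.lf 0 285 0) (P.cons (P.lf 0 5 0) P.nil)))))) 48)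
 EL.nil)))
noncomputable def S219_227_438_512_7 : EL := (EL.cons 12 (TM.mk (P.cons (P.cons (P.lf 2185382266 0 0) (P.cons (P.lf 0 809138184 0) (P.cons (P.lf 0 12878496 0) (P.lf 4292832 0 0)))) (P.cons (P.cons (P.lf 0 73967930 0) (P.cons (P.lf 0 24456552 0) (P.cons (P.lf 0 389248 0) (P.lf 129744 0 0)))) (P.cons (P.cons (P.lf 0 12393022 0) (P.cons (P.lf 1115160 0 0) (P.cons (P.lf 17744 0 0) (P.lf 0 5912 0)))) (P.cons (P.cons (P.lf 234780 0 0) (P.cons (P.lf 40632 0 0) (P.cons (P.lf 640 0 0) P.nil))) (P.cons (P.cons (P.lf 15120 0 0) (P.cons (P.lf 0 672 0) P.nil)) (P.cons (P.cons (P.lf 0 106 0) P.nil) P.nil)))))) 922)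
 (EL.cons 3 (TM.mk (P.cons (P.cons (P.lf 0 1127906997 0) (P.cons (P.lf 0 191588574 0) (P.cons (P.lf 0 3049380 0) (P.lf 1016460 0 0)))) (P.cons (P.cons (P.lf 0 256882699 0) (P.cons (P.lf 16486914 0 0) (P.cons (P.lf 262410 0 0) (P.lf 0 87470 0)))) (P.cons (P.cons (P.lf 7724430 0 0) (P.cons (P.lf 1104574 0 0) (P.cons (P.lf 17578 0 0) (P.lf 0 5856 0)))) (P.cons (P.cons (P.lf 631144 0 0) (P.cons (P.lf 0 21864 0) (P.cons (P.lf 0 348 0) P.nil))) (P.cons (P.cons (P.lf 0 4877 0) (P.cons (P.lf 0 1762 0) P.nil)) (P.cons (P.cons (P.lf 0 703 0) P.nil) P.nil)))))) 1478)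
 (EL.cons 7 (TM.mk (P.cons (P.cons (P.lf 0 371552244 0) (P.cons (P.lf 244493885 0 0) (P.cons (P.lf 3891446 0 0) (P.lf 0 1297149 0)))) (P.cons (P.cons (P.lf 45088245 0 0) (P.cons (P.lf 0 2893792 0) (P.cons (P.lf 0 46054 0) (P.lf 15350 0 0)))) (P.cons (P.cons (P.lf 0 4204339 0) (P.cons (P.lf 0 11058 0) (P.cons (P.lf 0 178 0) (P.lf 61 0 0)))) (P.cons (P.cons (P.lf 17874 0 0) (P.cons (P.lf 19240 0 0) (P.cons (P.lf 304 0 0) P.nil))) (P.cons (P.cons (P.lf 10195 0 0) (P.cons (P.lf 0 110 0) P.nil)) (P.cons (P.cons (P.lf 4 0 0) P.nil) P.nil)))))) 1635)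
 (EL.cons 10 (TM.mk (P.cons (P.cons (P.lf 0 2910311874 0) (P.cons (P.lf 0 107881293 0) (P.cons (P.lf 53455566 0 0) (P.cons (P.lf 485076 0 0) (P.lf 0 121269 0))))) (P.cons (P.cons (P.lf 0 58643637 0) (P.cons (P.lf 0 2173839 0) (P.cons (P.lf 1077144 0 0) (P.cons (P.lf 9774 0 0) (P.lf 0 2442 0))))) (P.cons (P.cons (P.lf 2969448 0 0) (P.cons (P.lf 110073 0 0) (P.cons (P.lf 0 54540 0) (P.cons (P.lf 0 492 0) P.nil)))) (P.cons (P.cons (P.lf 66528 0 0) (P.cons (P.lf 2466 0 0) (P.cons (P.lf 0 1221 0) P.nil))) (P.cons (P.cons (P.lf 0 1380 0) (P.cons (P.lf 0 51 0) P.nil)) (P.cons (P.cons (P.lf 0 36 0) P.nil) P.nil)))))) 438)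
 EL.nil))))
noncomputable def S219_227_438_512_8 : EL := (EL.cons 12 (TM.mk (P.cons (P.cons (P.lf 555987428 0 0) (P.cons (P.lf 0 411708894 0) (P.cons (P.lf 69664758 0 0) (P.cons (P.lf 4610502 0 0) (P.cons (P.lf 0 789426 0) (P.cons (P.lf 0 12872 0) P.nil)))))) (P.cons (P.cons (P.lf 0 37636654 0) (P.cons (P.lf 1490898 0 0) (P.cons (P.lf 4631156 0 0) (P.cons (P.lf 138750 0 0) (P.cons (P.lf 0 47718 0) P.nil))))) (P.cons (P.cons (P.lf 0 5668928 0) (P.cons (P.lf 3323358 0 0) (P.cons (P.lf 0 87562 0) (P.cons (P.lf 0 22098 0) P.nil)))) (P.cons (P.cons (P.lf 332894 0 0) (P.cons (P.lf 27806 0 0) (P.cons (P.lf 0 13564 0) P.nil))) (P.cons (P.cons (P.lf 21528 0 0) (P.cons (P.lf 0 8444 0) P.nil)) (P.cons (P.cons (P.lf 0 990 0) P.nil) P.nil)))))) 9196)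
 (EL.cons 3 (TM.mk (P.cons (P.cons (P.lf 0 508082462 0) (P.cons (P.lf 66261551 0 0) (P.cons (P.lf 46171875 0 0) (P.cons (P.lf 1084649 0 0) (P.cons (P.lf 0 467300 0) (P.cons (P.lf 0 7615 0) P.nil)))))) (P.cons (P.cons (P.lf 0 123392994 0) (P.cons (P.lf 72349965 0 0) (P.cons (P.lf 0 1367278 0) (P.cons (P.lf 0 464026 0) (P.cons (P.lf 26084 0 0) P.nil))))) (P.cons (P.cons (P.lf 11398488 0 0) (P.cons (P.lf 961055 0 0) (P.cons (P.lf 0 424352 0) (P.cons (P.lf 0 19088 0) P.nil)))) (P.cons (P.cons (P.lf 991024 0 0) (P.cons (P.lf 0 372544 0) (P.cons (P.lf 0 5553 0) P.nil))) (P.cons (P.cons (P.lf 0 55210 0) (P.cons (P.lf 0 8142 0) P.nil)) (P.cons (P.cons (P.lf 0 3017 0) P.nil) P.nil)))))) 18774)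
 (EL.cons 7 (TM.mk (P.cons (P.cons (P.lf 0 55714550 0) (P.cons (P.lf 95663463 0 0) (P.cons (P.lf 0 26259155 0) (P.cons (P.lf 0 1391905 0) (P.cons (P.lf 287748 0 0) (P.cons (P.lf 4689 0 0) P.nil)))))) (P.cons (P.cons (P.lf 21658031 0 0) (P.cons (P.lf 0 12698916 0) (P.cons (P.lf 239984 0 0) (P.cons (P.lf 81440 0 0) (P.cons (P.lf 0 4577 0) P.nil))))) (P.cons (P.cons (P.lf 0 3368960 0) (P.cons (P.lf 633589 0 0) (P.cons (P.lf 59314 0 0) (P.cons (P.lf 0 1790 0) P.nil)))) (P.cons (P.cons (P.lf 1521 0 0) (P.cons (P.lf 75526 0 0) (P.cons (P.lf 0 5218 0) P.nil))) (P.cons (P.cons (P.lf 24964 0 0) (P.cons (P.lf 0 4702 0) P.nil)) (P.cons (P.cons (P.lf 0 509 0) P.nil) P.nil)))))) 8114)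
 (EL.cons 10 (TM.mk (P.cons (P.cons (P.lf 0 1480836408 0) (P.cons (P.lf 493387362 0 0) (P.cons (P.lf 56250054 0 0) (P.cons (P.lf 0 12409170 0) (P.cons (P.lf 0 421200 0) (P.cons (P.lf 74820 0 0) P.nil)))))) (P.cons (P.cons (P.lf 20282100 0 0) (P.cons (P.lf 28371828 0 0) (P.cons (P.lf 1090902 0 0) (P.cons (P.lf 0 640926 0) (P.cons (P.lf 0 17262 0) P.nil))))) (P.cons (P.cons (P.lf 10918518 0 0) (P.cons (P.lf 0 576396 0) (P.cons (P.lf 0 252528 0) (P.cons (P.lf 20826 0 0) P.nil)))) (P.cons (P.cons (P.lf 0 7158 0) (P.cons (P.lf 0 72462 0) (P.cons (P.lf 0 3684 0) P.nil))) (P.cons (P.cons (P.lf 0 23862 0) (P.cons (P.lf 0 330 0) P.nil)) (P.cons (P.cons (P.lf 0 156 0) P.nil) P.nil)))))) 10200)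
 EL.nil))))
noncomputable def S219_227_438_512_9 : EL := (EL.cons 3 (TM.mk (P.cons (P.lf 0 1016966793 0) (P.cons (P.lf 118252065 0 0) (P.cons (P.lf 887366 0 0) (P.cons (P.lf 0 30975 0) (P.cons (P.lf 0 416 0) (P.cons (P.lf 3 0 0) P.nil)))))) 44)
 (EL.cons 7 (TM.mk (P.cons (P.lf 0 2060088064 0) (P.cons (P.lf 0 20755690 0) (P.cons (P.lf 1155533 0 0) (P.cons (P.lf 11905 0 0) (P.cons (P.lf 0 285 0) (P.cons (P.lf 0 5 0) P.nil)))))) 48)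
 EL.nil))
noncomputable def S219_227_438_512_10 : EL := (EL.cons 3 (TM.mk (P.cons (P.cons (P.lf 0 258728535 0) (P.cons (P.lf 95794287 0 0) (P.cons (P.lf 1524690 0 0) (P.lf 0 508230 0)))) (P.cons (P.cons (P.lf 38841842 0 0) (P.cons (P.lf 0 8243457 0) (P.cons (P.lf 0 131205 0) (P.lf 43735 0 0)))) (P.cons (P.cons (P.lf 674703 0 0) (P.cons (P.lf 0 552287 0) (P.cons (P.lf 0 8789 0) (P.lf 2928 0 0)))) (P.cons (P.cons (P.lf 0 213923 0) (P.cons (P.lf 10932 0 0) (P.cons (P.lf 174 0 0) P.nil))) (P.cons (P.cons (P.lf 322 0 0) (P.cons (P.lf 881 0 0) P.nil)) (P.cons (P.cons (P.lf 293 0 0) P.nil) P.nil)))))) 319)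
 (EL.cons 7 (TM.mk (P.cons (P.cons (P.lf 0 524111082 0) (P.cons (P.lf 194052224 0 0) (P.cons (P.lf 3088595 0 0) (P.lf 0 1029531 0)))) (P.cons (P.cons (P.lf 12458922 0 0) (P.cons (P.lf 7820417 0 0) (P.cons (P.lf 124469 0 0) (P.lf 0 41488 0)))) (P.cons (P.cons (P.lf 3444875 0 0) (P.cons (P.lf 0 317196 0) (P.cons (P.lf 0 5047 0) (P.lf 1681 0 0)))) (P.cons (P.cons (P.lf 0 33282 0) (P.cons (P.lf 0 16850 0) (P.cons (P.lf 0 266 0) P.nil))) (P.cons (P.cons (P.lf 0 6035 0) (P.cons (P.lf 205 0 0) P.nil)) (P.cons (P.cons (P.lf 4 0 0) P.nil) P.nil)))))) 317)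
 EL.nil))
noncomputable def S219_227_438_512_11 : EL := (EL.cons 3 (TM.mk (P.cons (P.cons (P.lf 0 65823638 0) (P.cons (P.lf 48742427 0 0) (P.cons (P.lf 0 8247645 0) (P.cons (P.lf 0 545839 0) (P.cons (P.lf 93460 0 0) (P.cons (P.lf 1523 0 0) P.nil)))))) (P.cons (P.cons (P.lf 12109740 0 0) (P.cons (P.lf 0 5844237 0) (P.cons (P.lf 410744 0 0) (P.cons (P.lf 47042 0 0) (P.cons (P.lf 0 5218 0) P.nil))))) (P.cons (P.cons (P.lf 210462 0 0) (P.cons (P.lf 0 415459 0) (P.cons (P.lf 81316 0 0) (P.cons (P.lf 5002 0 0) P.nil)))) (P.cons (P.cons (P.lf 0 123344 0) (P.cons (P.lf 44096 0 0) (P.cons (P.lf 627 0 0) P.nil))) (P.cons (P.cons (P.lf 1556 0 0) (P.cons (P.lf 1740 0 0) P.nil)) (P.cons (P.cons (P.lf 469 0 0) P.nil) P.nil)))))) 2894)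
 (EL.cons 7 (TM.mk (P.cons (P.cons (P.lf 0 133340138 0) (P.cons (P.lf 98738421 0 0) (P.cons (P.lf 0 16707407 0) (P.cons (P.lf 0 1105717 0) (P.cons (P.lf 189324 0 0) (P.cons (P.lf 3087 0 0) P.nil)))))) (P.cons (P.cons (P.lf 7682819 0 0) (P.cons (P.lf 637248 0 0) (P.cons (P.lf 0 1279000 0) (P.cons (P.lf 0 44416 0) (P.cons (P.lf 13351 0 0) P.nil))))) (P.cons (P.cons (P.lf 1525288 0 0) (P.cons (P.lf 0 856013 0) (P.cons (P.lf 19180 0 0) (P.cons (P.lf 5584 0 0) P.nil)))) (P.cons (P.cons (P.lf 0 70431 0) (P.cons (P.lf 0 15068 0) (P.cons (P.lf 4184 0 0) P.nil))) (P.cons (P.cons (P.lf 0 6800 0) (P.cons (P.lf 2420 0 0) P.nil)) (P.cons (P.cons (P.lf 223 0 0) P.nil) P.nil)))))) 2692)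
 EL.nil))
noncomputable def S219_227_438_512_12 : EL := (EL.cons 4 (TM.mk (P.cons (P.lf 1016966793 0 0) (P.cons (P.lf 0 118252065 0) (P.cons (P.lf 0 887366 0) (P.cons (P.lf 30975 0 0) (P.cons (P.lf 416 0 0) (P.cons (P.lf 0 3 0) P.nil)))))) 44)
 (EL.cons 8 (TM.mk (P.cons (P.lf 2060088064 0 0) (P.cons (P.lf 20755690 0 0) (P.cons (P.lf 0 1155533 0) (P.cons (P.lf 0 11905 0) (P.cons (P.lf 285 0 0) (P.cons (P.lf 5 0 0) P.nil)))))) 48)
 EL.nil))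
noncomputable def S219_227_438_512_13 : EL := (EL.cons 4 (TM.mk (P.cons (P.cons (P.lf 258728535 0 0) (P.cons (P.lf 0 95794287 0) (P.cons (P.lf 0 1524690 0) (P.lf 508230 0 0)))) (P.cons (P.cons (P.lf 0 38841842 0) (P.cons (P.lf 8243457 0 0) (P.cons (P.lf 131205 0 0) (P.lf 0 43735 0)))) (P.cons (P.cons (P.lf 0 674703 0) (P.cons (P.lf 552287 0 0) (P.cons (P.lf 8789 0 0) (P.lf 0 2928 0)))) (P.cons (P.cons (P.lf 213923 0 0) (P.cons (P.lf 0 10932 0) (P.cons (P.lf 0 174 0) P.nil))) (P.cons (P.cons (P.lf 0 322 0) (P.cons (P.lf 0 881 0) P.nil)) (P.cons (P.cons (P.lf 0 293 0) P.nil) P.nil)))))) 319)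
 (EL.cons 8 (TM.mk (P.cons (P.cons (P.lf 524111082 0 0) (P.cons (P.lf 0 194052224 0) (P.cons (P.lf 0 3088595 0) (P.lf 1029531 0 0)))) (P.cons (P.cons (P.lf 0 12458922 0) (P.cons (P.lf 0 7820417 0) (P.cons (P.lf 0 124469 0) (P.lf 41488 0 0)))) (P.cons (P.cons (P.lf 0 3444875 0) (P.cons (P.lf 317196 0 0) (P.cons (P.lf 5047 0 0) (P.lf 0 1681 0)))) (P.cons (P.cons (P.lf 33282 0 0) (P.cons (P.lf 16850 0 0) (P.cons (P.lf 266 0 0) P.nil))) (P.cons (P.cons (P.lf 6035 0 0) (P.cons (P.lf 0 205 0) P.nil)) (P.cons (P.cons (P.lf 0 4 0) P.nil) P.nil)))))) 317)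
 EL.nil))
noncomputable def S219_227_438_512_14 : EL := (EL.cons 4 (TM.mk (P.cons (P.cons (P.lf 65823638 0 0) (P.cons (P.lf 0 48742427 0) (P.cons (P.lf 8247645 0 0) (P.cons (P.lf 545839 0 0) (P.cons (P.lf 0 93460 0) (P.cons (P.lf 0 1523 0) P.nil)))))) (P.cons (P.cons (P.lf 0 12109740 0) (P.cons (P.lf 5844237 0 0) (P.cons (P.lf 0 410744 0) (P.cons (P.lf 0 47042 0) (P.cons (P.lf 5218 0 0) P.nil))))) (P.cons (P.cons (P.lf 0 210462 0) (P.cons (P.lf 415459 0 0) (P.cons (P.lf 0 81316 0) (P.cons (P.lf 0 5002 0) P.nil)))) (P.cons (P.cons (P.lf 123344 0 0) (P.cons (P.lf 0 44096 0) (P.cons (P.lf 0 627 0) P.nil))) (P.cons (P.cons (P.lf 0 1556 0) (P.cons (P.lf 0 1740 0) P.nil)) (P.cons (P.cons (P.lf 0 469 0) P.nil) P.nil)))))) 2894)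
 (EL.cons 8 (TM.mk (P.cons (P.cons (P.lf 133340138 0 0) (P.cons (P.lf 0 98738421 0) (P.cons (P.lf 16707407 0 0) (P.cons (P.lf 1105717 0 0) (P.cons (P.lf 0 189324 0) (P.cons (P.lf 0 3087 0) P.nil)))))) (P.cons (P.cons (P.lf 0 7682819 0) (P.cons (P.lf 0 637248 0) (P.cons (P.lf 1279000 0 0) (P.cons (P.lf 44416 0 0) (P.cons (P.lf 0 13351 0) P.nil))))) (P.cons (P.cons (P.lf 0 1525288 0) (P.cons (P.lf 856013 0 0) (P.cons (P.lf 0 19180 0) (P.cons (P.lf 0 5584 0) P.nil)))) (P.cons (P.cons (P.lf 70431 0 0) (P.cons (P.lf 15068 0 0) (P.cons (P.lf 0 4184 0) P.nil))) (P.cons (P.cons (P.lf 6800 0 0) (P.cons (P.lf 0 2420 0) P.nil)) (P.cons (P.cons (P.lf 0 223 0) P.nil) P.nil)))))) 2692)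
 EL.nil))
noncomputable def S219_227_438_512_15 : EL := (EL.cons 4 (TM.mk (P.cons (P.lf 0 256851677 0) (P.cons (P.lf 59733004 0 0) (P.cons (P.lf 0 3024614 0) (P.cons (P.lf 0 67767 0) (P.cons (P.lf 1412 0 0) (P.cons (P.lf 39 0 0) P.nil)))))) 35)
 (EL.cons 8 (TM.mk (P.cons (P.lf 0 520309098 0) (P.cons (P.lf 55258924 0 0) (P.cons (P.lf 1355408 0 0) (P.cons (P.lf 0 42202 0) (P.cons (P.lf 0 1048 0) (P.cons (P.lf 13 0 0) P.nil)))))) 40)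
 EL.nil))
noncomputable def S219_227_438_512_16 : EL := (EL.cons 4 (TM.mk (P.cons (P.cons (P.lf 0 65346143 0) (P.cons (P.lf 24194421 0 0) (P.cons (P.lf 385085 0 0) (P.lf 0 128361 0)))) (P.cons (P.cons (P.lf 17408541 0 0) (P.cons (P.lf 0 4895327 0) (P.cons (P.lf 0 77915 0) (P.lf 25971 0 0)))) (P.cons (P.cons (P.lf 0 913289 0) (P.cons (P.lf 81494 0 0) (P.cons (P.lf 1296 0 0) (P.lf 0 432 0)))) (P.cons (P.cons (P.lf 0 84394 0) (P.cons (P.lf 21534 0 0) (P.cons (P.lf 342 0 0) P.nil))) (P.cons (P.cons (P.lf 6486 0 0) (P.cons (P.lf 0 30 0) P.nil)) (P.cons (P.cons (P.lf 120 0 0) P.nil) P.nil)))))) 268)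
 (EL.cons 8 (TM.mk (P.cons (P.cons (P.lf 0 132372867 0) (P.cons (P.lf 49011078 0 0) (P.cons (P.lf 780075 0 0) (P.lf 0 260024 0)))) (P.cons (P.cons (P.lf 18538913 0 0) (P.cons (P.lf 0 3723793 0) (P.cons (P.lf 0 59269 0) (P.lf 19756 0 0)))) (P.cons (P.cons (P.lf 619666 0 0) (P.cons (P.lf 0 352549 0) (P.cons (P.lf 0 5610 0) (P.lf 1869 0 0)))) (P.cons (P.cons (P.lf 0 116353 0) (P.cons (P.lf 4828 0 0) (P.cons (P.lf 77 0 0) P.nil))) (P.cons (P.cons (P.lf 0 1264 0) (P.cons (P.lf 696 0 0) P.nil)) (P.cons (P.cons (P.lf 213 0 0) P.nil) P.nil)))))) 226)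
 EL.nil))
noncomputable def S219_227_438_512_17 : EL := (EL.cons 4 (TM.mk (P.cons (P.cons (P.lf 0 16624841 0) (P.cons (P.lf 12310700 0 0) (P.cons (P.lf 0 2083078 0) (P.cons (P.lf 0 137860 0) (P.cons (P.lf 23604 0 0) (P.cons (P.lf 384 0 0) P.nil)))))) (P.cons (P.cons (P.lf 4991637 0 0) (P.cons (P.lf 0 2907536 0) (P.cons (P.lf 345958 0 0) (P.cons (P.lf 27911 0 0) (P.cons (P.lf 0 4062 0) P.nil))))) (P.cons (P.cons (P.lf 0 287979 0) (P.cons (P.lf 55961 0 0) (P.cons (P.lf 10291 0 0) (P.cons (P.lf 1 0 0) P.nil)))) (P.cons (P.cons (P.lf 0 40508 0) (P.cons (P.lf 25001 0 0) (P.cons (P.lf 0 2383 0) P.nil))) (P.cons (P.cons (P.lf 4055 0 0) (P.cons (P.lf 0 803 0) P.nil)) (P.cons (P.cons (P.lf 103 0 0) P.nil) P.nil)))))) 1663)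
 (EL.cons 8 (TM.mk (P.cons (P.cons (P.lf 0 33677243 0) (P.cons (P.lf 24938010 0 0) (P.cons (P.lf 0 4219729 0) (P.cons (P.lf 0 279267 0) (P.cons (P.lf 47816 0 0) (P.cons (P.lf 779 0 0) P.nil)))))) (P.cons (P.cons (P.lf 5856384 0 0) (P.cons (P.lf 0 2738823 0) (P.cons (P.lf 167633 0 0) (P.cons (P.lf 21254 0 0) (P.cons (P.lf 0 2187 0) P.nil))))) (P.cons (P.cons (P.lf 188990 0 0) (P.cons (P.lf 0 256674 0) (P.cons (P.lf 46088 0 0) (P.cons (P.lf 2958 0 0) P.nil)))) (P.cons (P.cons (P.lf 0 65302 0) (P.cons (P.lf 21952 0 0) (P.cons (P.lf 646 0 0) P.nil))) (P.cons (P.cons (P.lf 59 0 0) (P.cons (P.lf 1257 0 0) P.nil)) (P.cons (P.cons (P.lf 283 0 0) P.nil) P.nil)))))) 1671)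
 EL.nil))
noncomputable def S219_227_438_512_18 : EL := (EL.cons 4 (TM.mk (P.cons (P.lf 64872112 0 0) (P.cons (P.lf 0 22629827 0) (P.cons (P.lf 2461562 0 0) (P.cons (P.lf 0 56571 0) (P.cons (P.lf 0 3446 0) (P.cons (P.lf 32 0 0) P.nil)))))) 26)
 (EL.cons 8 (TM.mk (P.cons (P.lf 131412614 0 0) (P.cons (P.lf 0 29237100 0) (P.cons (P.lf 1165859 0 0) (P.cons (P.lf 66645 0 0) (P.cons (P.lf 0 1046 0) (P.cons (P.lf 0 59 0) P.nil)))))) 26)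
 EL.nil))
noncomputable def S219_227_438_512_19 : EL := (EL.cons 4 (TM.mk (P.cons (P.cons (P.lf 16504242 0 0) (P.cons (P.lf 0 6110698 0) (P.cons (P.lf 0 97259 0) (P.lf 32419 0 0)))) (P.cons (P.cons (P.lf 0 6315912 0) (P.cons (P.lf 1946941 0 0) (P.cons (P.lf 30988 0 0) (P.lf 0 10329 0)))) (P.cons (P.cons (P.lf 727522 0 0) (P.cons (P.lf 0 159017 0) (P.cons (P.lf 0 2530 0) (P.lf 842 0 0)))) (P.cons (P.cons (P.lf 0 1166 0) (P.cons (P.lf 0 4309 0) (P.cons (P.lf 0 68 0) P.nil))) (P.cons (P.cons (P.lf 0 4444 0) (P.cons (P.lf 692 0 0) P.nil)) (P.cons (P.cons (P.lf 146 0 0) P.nil) P.nil)))))) 199)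
 (EL.cons 8 (TM.mk (P.cons (P.cons (P.lf 33432943 0 0) (P.cons (P.lf 0 12378553 0) (P.cons (P.lf 0 197020 0) (P.lf 65673 0 0)))) (P.cons (P.cons (P.lf 0 8569862 0) (P.cons (P.lf 2379873 0 0) (P.cons (P.lf 37878 0 0) (P.lf 0 12626 0)))) (P.cons (P.cons (P.lf 358775 0 0) (P.cons (P.lf 0 9517 0) (P.cons (P.lf 0 151 0) (P.lf 50 0 0)))) (P.cons (P.cons (P.lf 52689 0 0) (P.cons (P.lf 0 12771 0) (P.cons (P.lf 0 202 0) P.nil))) (P.cons (P.cons (P.lf 0 3089 0) (P.cons (P.lf 0 88 0) P.nil)) (P.cons (P.cons (P.lf 0 123 0) P.nil) P.nil)))))) 171)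
 EL.nil))
noncomputable def S219_227_438_512_20 : EL := (EL.cons 4 (TM.mk (P.cons (P.cons (P.lf 4198876 0 0) (P.cons (P.lf 0 3109269 0) (P.cons (P.lf 526115 0 0) (P.cons (P.lf 34818 0 0) (P.cons (P.lf 0 5961 0) (P.cons (P.lf 0 96 0) P.nil)))))) (P.cons (P.cons (P.lf 0 1748961 0) (P.cons (P.lf 1095888 0 0) (P.cons (P.lf 0 148553 0) (P.cons (P.lf 0 11098 0) (P.cons (P.lf 1718 0 0) P.nil))))) (P.cons (P.cons (P.lf 215665 0 0) (P.cons (P.lf 0 96810 0) (P.cons (P.lf 7100 0 0) (P.cons (P.lf 788 0 0) P.nil)))) (P.cons (P.cons (P.lf 3000 0 0) (P.cons (P.lf 0 5406 0) (P.cons (P.lf 996 0 0) P.nil))) (P.cons (P.cons (P.lf 0 2313 0) (P.cons (P.lf 970 0 0) P.nil)) (P.cons (P.cons (P.lf 85 0 0) P.nil) P.nil)))))) 886)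
 (EL.cons 8 (TM.mk (P.cons (P.cons (P.lf 8505741 0 0) (P.cons (P.lf 0 6298504 0) (P.cons (P.lf 1065761 0 0) (P.cons (P.lf 70533 0 0) (P.cons (P.lf 0 12076 0) (P.cons (P.lf 0 196 0) P.nil)))))) (P.cons (P.cons (P.lf 0 2468166 0) (P.cons (P.lf 1424119 0 0) (P.cons (P.lf 0 166264 0) (P.cons (P.lf 0 13569 0) (P.cons (P.lf 1956 0 0) P.nil))))) (P.cons (P.cons (P.lf 116836 0 0) (P.cons (P.lf 0 10110 0) (P.cons (P.lf 0 7646 0) (P.cons (P.lf 0 184 0) P.nil)))) (P.cons (P.cons (P.lf 23593 0 0) (P.cons (P.lf 0 13877 0) (P.cons (P.lf 1259 0 0) P.nil))) (P.cons (P.cons (P.lf 0 1932 0) (P.cons (P.lf 288 0 0) P.nil)) (P.cons (P.cons (P.lf 0 86 0) P.nil) P.nil)))))) 941)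
 EL.nil))
noncomputable def S219_227_438_512_21 : EL := (EL.cons 4 (TM.mk (P.cons (P.cons (P.lf 869178462 0 0) (P.cons (P.lf 287382861 0 0) (P.cons (P.lf 4574070 0 0) (P.lf 0 1524690 0)))) (P.cons (P.cons (P.lf 295724541 0 0) (P.cons (P.lf 0 24730371 0) (P.cons (P.lf 0 393615 0) (P.lf 131205 0 0)))) (P.cons (P.cons (P.lf 0 7049727 0) (P.cons (P.lf 0 1656861 0) (P.cons (P.lf 0 26367 0) (P.lf 8784 0 0)))) (P.cons (P.cons (P.lf 0 845067 0) (P.cons (P.lf 32796 0 0) (P.cons (P.lf 522 0 0) P.nil))) (P.cons (P.cons (P.lf 5199 0 0) (P.cons (P.lf 2643 0 0) P.nil)) (P.cons (P.cons (P.lf 996 0 0) P.nil) P.nil)))))) 1140)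
 (EL.cons 8 (TM.mk (P.cons (P.cons (P.lf 0 152558838 0) (P.cons (P.lf 0 50441661 0) (P.cons (P.lf 0 802851 0) (P.lf 267618 0 0)))) (P.cons (P.cons (P.lf 0 32629323 0) (P.cons (P.lf 10714209 0 0) (P.cons (P.lf 170523 0 0) (P.lf 0 56838 0)))) (P.cons (P.cons (P.lf 7649214 0 0) (P.cons (P.lf 0 306138 0) (P.cons (P.lf 0 4869 0) (P.lf 1620 0 0)))) (P.cons (P.cons (P.lf 0 51156 0) (P.cons (P.lf 0 36090 0) (P.cons (P.lf 0 570 0) P.nil))) (P.cons (P.cons (P.lf 0 16230 0) (P.cons (P.lf 315 0 0) P.nil)) (P.cons (P.cons (P.lf 0 0 0) P.nil) P.nil)))))) 1299)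
 (EL.cons 11 (TM.mk (P.cons (P.cons (P.lf 2910311874 0 0) (P.cons (P.lf 107881293 0 0) (P.cons (P.lf 0 53455566 0) (P.cons (P.lf 0 485076 0) (P.lf 121269 0 0))))) (P.cons (P.cons (P.lf 58643637 0 0) (P.cons (P.lf 2173839 0 0) (P.cons (P.lf 0 1077144 0) (P.cons (P.lf 0 9774 0) (P.lf 2442 0 0))))) (P.cons (P.cons (P.lf 0 2969448 0) (P.cons (P.lf 0 110073 0) (P.cons (P.lf 54540 0 0) (P.cons (P.lf 492 0 0) P.nil)))) (P.cons (P.cons (P.lf 0 66528 0) (P.cons (P.lf 0 2466 0) (P.cons (P.lf 1221 0 0) P.nil))) (P.cons (P.cons (P.lf 1380 0 0) (P.cons (P.lf 51 0 0) P.nil)) (P.cons (P.cons (P.lf 36 0 0) P.nil) P.nil)))))) 438)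
 EL.nil)))
noncomputable def S219_227_438_512_22 : EL := (EL.cons 4 (TM.mk (P.cons (P.cons (P.lf 221129412 0 0) (P.cons (P.lf 0 8759562 0) (P.cons (P.lf 0 27209760 0) (P.cons (P.lf 0 815244 0) (P.cons (P.lf 280380 0 0) (P.cons (P.lf 4569 0 0) P.nil)))))) (P.cons (P.cons (P.lf 67751367 0 0) (P.cons (P.lf 0 39097101 0) (P.cons (P.lf 889011 0 0) (P.cons (P.lf 255534 0 0) (P.cons (P.lf 0 15651 0) P.nil))))) (P.cons (P.cons (P.lf 0 5594013 0) (P.cons (P.lf 0 688257 0) (P.cons (P.lf 252834 0 0) (P.cons (P.lf 12045 0 0) P.nil)))) (P.cons (P.cons (P.lf 0 557184 0) (P.cons (P.lf 208320 0 0) (P.cons (P.lf 3090 0 0) P.nil))) (P.cons (P.cons (P.lf 28383 0 0) (P.cons (P.lf 4941 0 0) P.nil)) (P.cons (P.cons (P.lf 1743 0 0) P.nil) P.nil)))))) 7929)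
 (EL.cons 8 (TM.mk (P.cons (P.cons (P.lf 0 38812794 0) (P.cons (P.lf 1537479 0 0) (P.cons (P.lf 4775874 0 0) (P.cons (P.lf 143094 0 0) (P.cons (P.lf 0 49212 0) (P.cons (P.lf 0 801 0) P.nil)))))) (P.cons (P.cons (P.lf 0 6987606 0) (P.cons (P.lf 6668082 0 0) (P.cons (P.lf 0 759492 0) (P.cons (P.lf 0 62928 0) (P.cons (P.lf 8964 0 0) P.nil))))) (P.cons (P.cons (P.lf 2447124 0 0) (P.cons (P.lf 0 744801 0) (P.cons (P.lf 0 20067 0) (P.cons (P.lf 3687 0 0) P.nil)))) (P.cons (P.cons (P.lf 0 35976 0) (P.cons (P.lf 0 45297 0) (P.cons (P.lf 4701 0 0) P.nil))) (P.cons (P.cons (P.lf 0 15882 0) (P.cons (P.lf 3561 0 0) P.nil)) (P.cons (P.cons (P.lf 366 0 0) P.nil) P.nil)))))) 2700)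
 (EL.cons 11 (TM.mk (P.cons (P.cons (P.lf 740418204 0 0) (P.cons (P.lf 0 246693681 0) (P.cons (P.lf 0 28125027 0) (P.cons (P.lf 6204585 0 0) (P.cons (P.lf 210600 0 0) (P.cons (P.lf 0 37410 0) P.nil)))))) (P.cons (P.cons (P.lf 0 10141050 0) (P.cons (P.lf 0 14185914 0) (P.cons (P.lf 0 545451 0) (P.cons (P.lf 320463 0 0) (P.cons (P.lf 8631 0 0) P.nil))))) (P.cons (P.cons (P.lf 0 5459259 0) (P.cons (P.lf 288198 0 0) (P.cons (P.lf 126264 0 0) (P.cons (P.lf 0 10413 0) P.nil)))) (P.cons (P.cons (P.lf 3579 0 0) (P.cons (P.lf 36231 0 0) (P.cons (P.lf 1842 0 0) P.nil))) (P.cons (P.cons (P.lf 11931 0 0) (P.cons (P.lf 165 0 0) P.nil)) (P.cons (P.cons (P.lf 78 0 0) P.nil) P.nil)))))) 5100)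
 EL.nil)))
noncomputable def S219_227_438_512_23 : EL := (EL.cons 4 (TM.mk (P.cons (P.cons (P.lf 0 219525303 0) (P.cons (P.lf 0 72583263 0) (P.cons (P.lf 0 1155255 0) (P.lf 385083 0 0)))) (P.cons (P.cons (P.lf 0 49163868 0) (P.cons (P.lf 14685984 0 0) (P.cons (P.lf 233745 0 0) (P.lf 0 77913 0)))) (P.cons (P.cons (P.lf 10656975 0 0) (P.cons (P.lf 0 244485 0) (P.cons (P.lf 0 3891 0) (P.lf 1296 0 0)))) (P.cons (P.cons (P.lf 64881 0 0) (P.cons (P.lf 0 64602 0) (P.cons (P.lf 0 1026 0) P.nil))) (P.cons (P.cons (P.lf 0 30048 0) (P.cons (P.lf 90 0 0) P.nil)) (P.cons (P.cons (P.lf 0 258 0) P.nil) P.nil)))))) 858)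
 (EL.cons 8 (TM.mk (P.cons (P.cons (P.lf 38531241 0 0) (P.cons (P.lf 12739869 0 0) (P.cons (P.lf 202773 0 0) (P.lf 0 67590 0)))) (P.cons (P.cons (P.lf 3760689 0 0) (P.cons (P.lf 0 4187430 0) (P.cons (P.lf 0 66645 0) (P.lf 22212 0 0)))) (P.cons (P.cons (P.lf 0 2923818 0) (P.cons (P.lf 380859 0 0) (P.cons (P.lf 6060 0 0) (P.lf 0 2019 0)))) (P.cons (P.cons (P.lf 231546 0 0) (P.cons (P.lf 2871 0 0) (P.cons (P.lf 42 0 0) P.nil))) (P.cons (P.cons (P.lf 4548 0 0) (P.cons (P.lf 0 1284 0) P.nil)) (P.cons (P.cons (P.lf 0 543 0) P.nil) P.nil)))))) 534)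
 (EL.cons 11 (TM.mk (P.cons (P.cons (P.lf 0 735047094 0) (P.cons (P.lf 0 27247191 0) (P.cons (P.lf 13501080 0 0) (P.cons (P.lf 122511 0 0) (P.lf 0 30627 0))))) (P.cons (P.cons (P.lf 70659258 0 0) (P.cons (P.lf 2619240 0 0) (P.cons (P.lf 0 1297842 0) (P.cons (P.lf 0 11775 0) (P.lf 2943 0 0))))) (P.cons (P.cons (P.lf 3113613 0 0) (P.cons (P.lf 115416 0 0) (P.cons (P.lf 0 57189 0) (P.cons (P.lf 0 516 0) P.nil)))) (P.cons (P.cons (P.lf 0 79869 0) (P.cons (P.lf 0 2958 0) (P.cons (P.lf 1467 0 0) P.nil))) (P.cons (P.cons (P.lf 0 3708 0) (P.cons (P.lf 0 135 0) P.nil)) (P.cons (P.cons (P.lf 36 0 0) P.nil) P.nil)))))) 402)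
 EL.nil)))
noncomputable def S219_227_438_512_24 : EL := (EL.cons 4 (TM.mk (P.cons (P.cons (P.lf 0 55849866 0) (P.cons (P.lf 2212371 0 0) (P.cons (P.lf 6872271 0 0) (P.cons (P.lf 205902 0 0) (P.cons (P.lf 0 70815 0) (P.cons (P.lf 0 1152 0) P.nil)))))) (P.cons (P.cons (P.lf 0 10617543 0) (P.cons (P.lf 9617361 0 0) (P.cons (P.lf 0 1023636 0) (P.cons (P.lf 0 88479 0) (P.cons (P.lf 12186 0 0) P.nil))))) (P.cons (P.cons (P.lf 3451329 0 0) (P.cons (P.lf 0 976311 0) (P.cons (P.lf 0 43743 0) (P.cons (P.lf 4281 0 0) P.nil)))) (P.cons (P.cons (P.lf 0 10329 0) (P.cons (P.lf 0 81375 0) (P.cons (P.lf 7047 0 0) P.nil))) (P.cons (P.cons (P.lf 0 25308 0) (P.cons (P.lf 5019 0 0) P.nil)) (P.cons (P.cons (P.lf 306 0 0) P.nil) P.nil)))))) 4194)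
 (EL.cons 8 (TM.mk (P.cons (P.cons (P.lf 9802809 0 0) (P.cons (P.lf 0 388314 0) (P.cons (P.lf 0 1206225 0) (P.cons (P.lf 0 36138 0) (P.cons (P.lf 12429 0 0) (P.cons (P.lf 201 0 0) P.nil)))))) (P.cons (P.cons (P.lf 624972 0 0) (P.cons (P.lf 0 1638978 0) (P.cons (P.lf 332079 0 0) (P.cons (P.lf 20094 0 0) (P.cons (P.lf 0 3708 0) P.nil))))) (P.cons (P.cons (P.lf 0 831828 0) (P.cons (P.lf 384279 0 0) (P.cons (P.lf 0 16182 0) (P.cons (P.lf 0 2748 0) P.nil)))) (P.cons (P.cons (P.lf 79710 0 0) (P.cons (P.lf 0 8973 0) (P.cons (P.lf 0 1980 0) P.nil))) (P.cons (P.cons (P.lf 3552 0 0) (P.cons (P.lf 0 2445 0) P.nil)) (P.cons (P.cons (P.lf 0 585 0) P.nil) P.nil)))))) 1347)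
 (EL.cons 11 (TM.mk (P.cons (P.cons (P.lf 0 187004784 0) (P.cons (P.lf 62306541 0 0) (P.cons (P.lf 7103436 0 0) (P.cons (P.lf 0 1567068 0) (P.cons (P.lf 0 53190 0) (P.cons (P.lf 9447 0 0) P.nil)))))) (P.cons (P.cons (P.lf 24306051 0 0) (P.cons (P.lf 0 3662067 0) (P.cons (P.lf 0 688218 0) (P.cons (P.lf 101277 0 0) (P.cons (P.lf 4002 0 0) P.nil))))) (P.cons (P.cons (P.lf 1244172 0 0) (P.cons (P.lf 0 543768 0) (P.cons (P.lf 0 54105 0) (P.cons (P.lf 13407 0 0) P.nil)))) (P.cons (P.cons (P.lf 0 169161 0) (P.cons (P.lf 0 1914 0) (P.cons (P.lf 3336 0 0) P.nil))) (P.cons (P.cons (P.lf 0 4110 0) (P.cons (P.lf 1218 0 0) P.nil)) (P.cons (P.cons (P.lf 372 0 0) P.nil) P.nil)))))) 2862)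
 EL.nil)))
noncomputable def S219_227_438_512_25 : EL := (EL.cons 4 (TM.mk (P.cons (P.cons (P.lf 55444722 0 0) (P.cons (P.lf 18332094 0 0) (P.cons (P.lf 291777 0 0) (P.lf 0 97257 0)))) (P.cons (P.cons (P.lf 5970075 0 0) (P.cons (P.lf 0 5840826 0) (P.cons (P.lf 0 92964 0) (P.lf 30987 0 0)))) (P.cons (P.cons (P.lf 0 4183827 0) (P.cons (P.lf 477054 0 0) (P.cons (P.lf 7593 0 0) (P.lf 0 2529 0)))) (P.cons (P.cons (P.lf 287442 0 0) (P.cons (P.lf 12930 0 0) (P.cons (P.lf 204 0 0) P.nil))) (P.cons (P.cons (P.lf 12243 0 0) (P.cons (P.lf 0 2079 0) P.nil)) (P.cons (P.cons (P.lf 0 879 0) P.nil) P.nil)))))) 603)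
 (EL.cons 8 (TM.mk (P.cons (P.cons (P.lf 0 9731697 0) (P.cons (P.lf 0 3217662 0) (P.cons (P.lf 0 51213 0) (P.lf 17070 0 0)))) (P.cons (P.cons (P.lf 181767 0 0) (P.cons (P.lf 1431750 0 0) (P.cons (P.lf 22785 0 0) (P.lf 0 7593 0)))) (P.cons (P.cons (P.lf 857394 0 0) (P.cons (P.lf 0 216360 0) (P.cons (P.lf 0 3441 0) (P.lf 1146 0 0)))) (P.cons (P.cons (P.lf 0 143814 0) (P.cons (P.lf 9438 0 0) (P.cons (P.lf 150 0 0) P.nil))) (P.cons (P.cons (P.lf 4971 0 0) (P.cons (P.lf 522 0 0) P.nil)) (P.cons (P.cons (P.lf 342 0 0) P.nil) P.nil)))))) 309)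
 (EL.cons 11 (TM.mk (P.cons (P.cons (P.lf 185648223 0 0) (P.cons (P.lf 6881724 0 0) (P.cons (P.lf 0 3409920 0) (P.cons (P.lf 0 30942 0) (P.lf 7734 0 0))))) (P.cons (P.cons (P.lf 0 39433179 0) (P.cons (P.lf 0 1461732 0) (P.cons (P.lf 724293 0 0) (P.cons (P.lf 6570 0 0) (P.lf 0 1641 0))))) (P.cons (P.cons (P.lf 1126749 0 0) (P.cons (P.lf 41766 0 0) (P.cons (P.lf 0 20694 0) (P.cons (P.lf 0 186 0) P.nil)))) (P.cons (P.cons (P.lf 132837 0 0) (P.cons (P.lf 4923 0 0) (P.cons (P.lf 0 2439 0) P.nil))) (P.cons (P.cons (P.lf 0 1188 0) (P.cons (P.lf 0 42 0) P.nil)) (P.cons (P.cons (P.lf 0 165 0) P.nil) P.nil)))))) 384)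
 EL.nil)))
noncomputable def S219_227_438_512_26 : EL := (EL.cons 4 (TM.mk (P.cons (P.cons (P.lf 14105799 0 0) (P.cons (P.lf 0 558768 0) (P.cons (P.lf 0 1735704 0) (P.cons (P.lf 0 52002 0) (P.cons (P.lf 17883 0 0) (P.cons (P.lf 291 0 0) P.nil)))))) (P.cons (P.cons (P.lf 1041423 0 0) (P.cons (P.lf 0 2364048 0) (P.cons (P.lf 460362 0 0) (P.cons (P.lf 28392 0 0) (P.cons (P.lf 0 5157 0) P.nil))))) (P.cons (P.cons (P.lf 0 1195815 0) (P.cons (P.lf 529515 0 0) (P.cons (P.lf 0 17499 0) (P.cons (P.lf 0 3633 0) P.nil)))) (P.cons (P.cons (P.lf 102057 0 0) (P.cons (P.lf 0 6015 0) (P.cons (P.lf 0 3342 0) P.nil))) (P.cons (P.cons (P.lf 6936 0 0) (P.cons (P.lf 0 3945 0) P.nil)) (P.cons (P.cons (P.lf 0 846 0) P.nil) P.nil)))))) 1779)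
 (EL.cons 8 (TM.mk (P.cons (P.cons (P.lf 0 2475858 0) (P.cons (P.lf 98073 0 0) (P.cons (P.lf 304650 0 0) (P.cons (P.lf 9126 0 0) (P.cons (P.lf 0 3138 0) (P.cons (P.lf 0 51 0) P.nil)))))) (P.cons (P.cons (P.lf 130044 0 0) (P.cons (P.lf 402546 0 0) (P.cons (P.lf 0 119295 0) (P.cons (P.lf 0 6135 0) (P.cons (P.lf 1299 0 0) P.nil))))) (P.cons (P.cons (P.lf 230604 0 0) (P.cons (P.lf 0 145275 0) (P.cons (P.lf 13572 0 0) (P.cons (P.lf 1275 0 0) P.nil)))) (P.cons (P.cons (P.lf 0 44499 0) (P.cons (P.lf 13194 0 0) (P.cons (P.lf 105 0 0) P.nil))) (P.cons (P.cons (P.lf 1254 0 0) (P.cons (P.lf 450 0 0) P.nil)) (P.cons (P.cons (P.lf 276 0 0) P.nil) P.nil)))))) 705)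
 (EL.cons 11 (TM.mk (P.cons (P.cons (P.lf 47231130 0 0) (P.cons (P.lf 0 15736539 0) (P.cons (P.lf 0 1794087 0) (P.cons (P.lf 395787 0 0) (P.cons (P.lf 13434 0 0) (P.cons (P.lf 0 2385 0) P.nil)))))) (P.cons (P.cons (P.lf 0 11630889 0) (P.cons (P.lf 2754747 0 0) (P.cons (P.lf 382434 0 0) (P.cons (P.lf 0 71601 0) (P.cons (P.lf 0 2571 0) P.nil))))) (P.cons (P.cons (P.lf 358374 0 0) (P.cons (P.lf 43521 0 0) (P.cons (P.lf 0 4980 0) (P.cons (P.lf 0 756 0) P.nil)))) (P.cons (P.cons (P.lf 86058 0 0) (P.cons (P.lf 0 16770 0) (P.cons (P.lf 0 2637 0) P.nil))) (P.cons (P.cons (P.lf 0 3822 0) (P.cons (P.lf 0 462 0) P.nil)) (P.cons (P.cons (P.lf 0 264 0) P.nil) P.nil)))))) 1674)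
 EL.nil)))
noncomputable def S219_227_438_512_27 : EL := (EL.cons 13 (TM.mk (P.lf 0 4294967296 0) 0)
 EL.nil)
noncomputable def S219_227_438_512_28 : EL := (EL.cons 13 (TM.mk (P.cons (P.cons (P.lf 0 1092691133 0) (P.cons (P.lf 404569092 0 0) (P.cons (P.lf 6439248 0 0) (P.lf 0 2146416 0)))) (P.cons (P.cons (P.lf 36983965 0 0) (P.cons (P.lf 12228276 0 0) (P.cons (P.lf 194624 0 0) (P.lf 0 64872 0)))) (P.cons (P.cons (P.lf 6196511 0 0) (P.cons (P.lf 0 557580 0) (P.cons (P.lf 0 8872 0) (P.lf 2956 0 0)))) (P.cons (P.cons (P.lf 0 117390 0) (P.cons (P.lf 0 20316 0) (P.cons (P.lf 0 320 0) P.nil))) (P.cons (P.cons (P.lf 0 7560 0) (P.cons (P.lf 336 0 0) P.nil)) (P.cons (P.cons (P.lf 53 0 0) P.nil) P.nil)))))) 461)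
 EL.nil)
noncomputable def S219_227_438_512_29 : EL := (EL.cons 13 (TM.mk (P.cons (P.cons (P.lf 0 277993714 0) (P.cons (P.lf 205854447 0 0) (P.cons (P.lf 0 34832379 0) (P.cons (P.lf 0 2305251 0) (P.cons (P.lf 394713 0 0) (P.cons (P.lf 6436 0 0) P.nil)))))) (P.cons (P.cons (P.lf 18818327 0 0) (P.cons (P.lf 0 745449 0) (P.cons (P.lf 0 2315578 0) (P.cons (P.lf 0 69375 0) (P.cons (P.lf 23859 0 0) P.nil))))) (P.cons (P.cons (P.lf 2834464 0 0) (P.cons (P.lf 0 1661679 0) (P.cons (P.lf 43781 0 0) (P.cons (P.lf 11049 0 0) P.nil)))) (P.cons (P.cons (P.lf 0 166447 0) (P.cons (P.lf 0 13903 0) (P.cons (P.lf 6782 0 0) P.nil))) (P.cons (P.cons (P.lf 0 10764 0) (P.cons (P.lf 4222 0 0) P.nil)) (P.cons (P.cons (P.lf 495 0 0) P.nil) P.nil)))))) 4598)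
 EL.nil)
noncomputable def S219_227_438_512_30 : EL := (EL.cons 13 (TM.mk (P.cons (P.lf 1084764580 0 0) (P.cons (P.lf 0 126135536 0) (P.cons (P.lf 0 946524 0) (P.cons (P.lf 33040 0 0) (P.cons (P.lf 444 0 0) (P.cons (P.lf 0 4 0) P.nil)))))) 40)
 EL.nil)
noncomputable def S219_227_438_512_31 : EL := (EL.cons 13 (TM.mk (P.cons (P.cons (P.lf 275977104 0 0) (P.cons (P.lf 0 102180573 0) (P.cons (P.lf 0 1626337 0) (P.lf 542112 0 0)))) (P.cons (P.cons (P.lf 0 41431299 0) (P.cons (P.lf 8793021 0 0) (P.cons (P.lf 139953 0 0) (P.lf 0 46651 0)))) (P.cons (P.cons (P.lf 0 719684 0) (P.cons (P.lf 589107 0 0) (P.cons (P.lf 9375 0 0) (P.lf 0 3124 0)))) (P.cons (P.cons (P.lf 228185 0 0) (P.cons (P.lf 0 11661 0) (P.cons (P.lf 0 186 0) P.nil))) (P.cons (P.cons (P.lf 0 344 0) (P.cons (P.lf 0 940 0) P.nil)) (P.cons (P.cons (P.lf 0 313 0) P.nil) P.nil)))))) 321)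
 EL.nil)
noncomputable def S219_227_438_512_32 : EL := (EL.cons 13 (TM.mk (P.cons (P.cons (P.lf 70211881 0 0) (P.cons (P.lf 0 51991923 0) (P.cons (P.lf 8797489 0 0) (P.cons (P.lf 582229 0 0) (P.cons (P.lf 0 99691 0) (P.cons (P.lf 0 1625 0) P.nil)))))) (P.cons (P.cons (P.lf 0 12917057 0) (P.cons (P.lf 6233853 0 0) (P.cons (P.lf 0 438127 0) (P.cons (P.lf 0 50179 0) (P.cons (P.lf 5566 0 0) P.nil))))) (P.cons (P.cons (P.lf 0 224493 0) (P.cons (P.lf 443157 0 0) (P.cons (P.lf 0 86738 0) (P.cons (P.lf 0 5336 0) P.nil)))) (P.cons (P.cons (P.lf 131567 0 0) (P.cons (P.lf 0 47036 0) (P.cons (P.lf 0 669 0) P.nil))) (P.cons (P.cons (P.lf 0 1660 0) (P.cons (P.lf 0 1856 0) P.nil)) (P.cons (P.cons (P.lf 0 501 0) P.nil) P.nil)))))) 3064)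
 EL.nil)
noncomputable def S219_227_438_512_33 : EL := (EL.cons 14 (TM.mk (P.lf 8589934592 0 0) 0)
 EL.nil)
noncomputable def S219_227_438_512_34 : EL := (EL.cons 14 (TM.mk (P.cons (P.cons (P.lf 2185382266 0 0) (P.cons (P.lf 0 809138184 0) (P.cons (P.lf 0 12878496 0) (P.lf 4292832 0 0)))) (P.cons (P.cons (P.lf 0 73967930 0) (P.cons (P.lf 0 24456552 0) (P.cons (P.lf 0 389248 0) (P.lf 129744 0 0)))) (P.cons (P.cons (P.lf 0 12393022 0) (P.cons (P.lf 1115160 0 0) (P.cons (P.lf 17744 0 0) (P.lf 0 5912 0)))) (P.cons (P.cons (P.lf 234780 0 0) (P.cons (P.lf 40632 0 0) (P.cons (P.lf 640 0 0) P.nil))) (P.cons (P.cons (P.lf 15120 0 0) (P.cons (P.lf 0 672 0) P.nil)) (P.cons (P.cons (P.lf 0 106 0) P.nil) P.nil)))))) 922)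
 EL.nil)
noncomputable def S219_227_438_512_35 : EL := (EL.cons 14 (TM.mk (P.cons (P.cons (P.lf 555987428 0 0) (P.cons (P.lf 0 411708894 0) (P.cons (P.lf 69664758 0 0) (P.cons (P.lf 4610502 0 0) (P.cons (P.lf 0 789426 0) (P.cons (P.lf 0 12872 0) P.nil)))))) (P.cons (P.cons (P.lf 0 37636654 0) (P.cons (P.lf 1490898 0 0) (P.cons (P.lf 4631156 0 0) (P.cons (P.lf 138750 0 0) (P.cons (P.lf 0 47718 0) P.nil))))) (P.cons (P.cons (P.lf 0 5668928 0) (P.cons (P.lf 3323358 0 0) (P.cons (P.lf 0 87562 0) (P.cons (P.lf 0 22098 0) P.nil)))) (P.cons (P.cons (P.lf 332894 0 0) (P.cons (P.lf 27806 0 0) (P.cons (P.lf 0 13564 0) P.nil))) (P.cons (P.cons (P.lf 21528 0 0) (P.cons (P.lf 0 8444 0) P.nil)) (P.cons (P.cons (P.lf 0 990 0) P.nil) P.nil)))))) 9196)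
 EL.nil)
noncomputable def S219_227_438_512_36 : EL := (EL.cons 14 (TM.mk (P.cons (P.lf 0 2169529160 0) (P.cons (P.lf 252271072 0 0) (P.cons (P.lf 1893048 0 0) (P.cons (P.lf 0 66080 0) (P.cons (P.lf 0 888 0) (P.cons (P.lf 8 0 0) P.nil)))))) 80)
 EL.nil)
noncomputable def S219_227_438_512_37 : EL := (EL.cons 14 (TM.mk (P.cons (P.cons (P.lf 0 551954208 0) (P.cons (P.lf 204361146 0 0) (P.cons (P.lf 3252674 0 0) (P.lf 0 1084224 0)))) (P.cons (P.cons (P.lf 82862598 0 0) (P.cons (P.lf 0 17586042 0) (P.cons (P.lf 0 279906 0) (P.lf 93302 0 0)))) (P.cons (P.cons (P.lf 1439368 0 0) (P.cons (P.lf 0 1178214 0) (P.cons (P.lf 0 18750 0) (P.lf 6248 0 0)))) (P.cons (P.cons (P.lf 0 456370 0) (P.cons (P.lf 23322 0 0) (P.cons (P.lf 372 0 0) P.nil))) (P.cons (P.cons (P.lf 688 0 0) (P.cons (P.lf 1880 0 0) P.nil)) (P.cons (P.cons (P.lf 626 0 0) P.nil) P.nil)))))) 642)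
 EL.nil)
noncomputable def S219_227_438_512_38 : EL := (EL.cons 14 (TM.mk (P.cons (P.cons (P.lf 0 140423762 0) (P.cons (P.lf 103983846 0 0) (P.cons (P.lf 0 17594978 0) (P.cons (P.lf 0 1164458 0) (P.cons (P.lf 199382 0 0) (P.cons (P.lf 3250 0 0) P.nil)))))) (P.cons (P.cons (P.lf 25834114 0 0) (P.cons (P.lf 0 12467706 0) (P.cons (P.lf 876254 0 0) (P.cons (P.lf 100358 0 0) (P.cons (P.lf 0 11132 0) P.nil))))) (P.cons (P.cons (P.lf 448986 0 0) (P.cons (P.lf 0 886314 0) (P.cons (P.lf 173476 0 0) (P.cons (P.lf 10672 0 0) P.nil)))) (P.cons (P.cons (P.lf 0 263134 0) (P.cons (P.lf 94072 0 0) (P.cons (P.lf 1338 0 0) P.nil))) (P.cons (P.cons (P.lf 3320 0 0) (P.cons (P.lf 3712 0 0) P.nil)) (P.cons (P.cons (P.lf 1002 0 0) P.nil) P.nil)))))) 6128)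
 EL.nil)
noncomputable def S219_227_438_512_39 : EL := (EL.cons 14 (TM.mk (P.cons (P.lf 547950246 0 0) (P.cons (P.lf 0 127430410 0) (P.cons (P.lf 6452510 0 0) (P.cons (P.lf 144570 0 0) (P.cons (P.lf 0 3014 0) (P.cons (P.lf 0 84 0) P.nil)))))) 60)
 EL.nil)
noncomputable def S219_227_438_512_40 : EL := (EL.cons 14 (TM.mk (P.cons (P.cons (P.lf 139405106 0 0) (P.cons (P.lf 0 51614766 0) (P.cons (P.lf 0 821516 0) (P.lf 273838 0 0)))) (P.cons (P.cons (P.lf 0 37138222 0) (P.cons (P.lf 10443366 0 0) (P.cons (P.lf 166220 0 0) (P.lf 0 55406 0)))) (P.cons (P.cons (P.lf 1948350 0 0) (P.cons (P.lf 0 173854 0) (P.cons (P.lf 0 2766 0) (P.lf 922 0 0)))) (P.cons (P.cons (P.lf 180042 0 0) (P.cons (P.lf 0 45940 0) (P.cons (P.lf 0 730 0) P.nil))) (P.cons (P.cons (P.lf 0 13838 0) (P.cons (P.lf 64 0 0) P.nil)) (P.cons (P.cons (P.lf 0 258 0) P.nil) P.nil)))))) 532)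
 EL.nil)
noncomputable def S219_227_438_512_41 : EL := (EL.cons 14 (TM.mk (P.cons (P.cons (P.lf 35466328 0 0) (P.cons (P.lf 0 26262828 0) (P.cons (P.lf 4443900 0 0) (P.cons (P.lf 294102 0 0) (P.cons (P.lf 0 50356 0) (P.cons (P.lf 0 820 0) P.nil)))))) (P.cons (P.cons (P.lf 0 10648826 0) (P.cons (P.lf 6202744 0 0) (P.cons (P.lf 0 738044 0) (P.cons (P.lf 0 59544 0) (P.cons (P.lf 8666 0 0) P.nil))))) (P.cons (P.cons (P.lf 614356 0 0) (P.cons (P.lf 0 119384 0) (P.cons (P.lf 0 21956 0) (P.cons (P.lf 0 4 0) P.nil)))) (P.cons (P.cons (P.lf 86418 0 0) (P.cons (P.lf 0 53336 0) (P.cons (P.lf 5084 0 0) P.nil))) (P.cons (P.cons (P.lf 0 8652 0) (P.cons (P.lf 1714 0 0) P.nil)) (P.cons (P.cons (P.lf 0 220 0) P.nil) P.nil)))))) 3502)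
 EL.nil)
noncomputable def S219_227_438_512_42 : EL := (EL.cons 14 (TM.mk (P.cons (P.lf 0 138393840 0) (P.cons (P.lf 48276966 0 0) (P.cons (P.lf 0 5251334 0) (P.cons (P.lf 120686 0 0) (P.cons (P.lf 7352 0 0) (P.cons (P.lf 0 70 0) P.nil)))))) 42)
 EL.nil)
noncomputable def S219_227_438_512_43 : EL := (EL.cons 14 (TM.mk (P.cons (P.cons (P.lf 0 35209050 0) (P.cons (P.lf 13036156 0 0) (P.cons (P.lf 207486 0 0) (P.lf 0 69162 0)))) (P.cons (P.cons (P.lf 13473946 0 0) (P.cons (P.lf 0 4153476 0) (P.cons (P.lf 0 66108 0) (P.lf 22036 0 0)))) (P.cons (P.cons (P.lf 0 1552048 0) (P.cons (P.lf 339238 0 0) (P.cons (P.lf 5398 0 0) (P.lf 0 1798 0)))) (P.cons (P.cons (P.lf 2488 0 0) (P.cons (P.lf 9194 0 0) (P.cons (P.lf 146 0 0) P.nil))) (P.cons (P.cons (P.lf 9482 0 0) (P.cons (P.lf 0 1478 0) P.nil)) (P.cons (P.cons (P.lf 0 312 0) P.nil) P.nil)))))) 386)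
 EL.nil)
noncomputable def S219_227_438_512_44 : EL := (EL.cons 14 (TM.mk (P.cons (P.cons (P.lf 0 8957604 0) (P.cons (P.lf 6633108 0 0) (P.cons (P.lf 0 1122380 0) (P.cons (P.lf 0 74280 0) (P.cons (P.lf 12718 0 0) (P.cons (P.lf 206 0 0) P.nil)))))) (P.cons (P.cons (P.lf 3731118 0 0) (P.cons (P.lf 0 2337896 0) (P.cons (P.lf 316914 0 0) (P.cons (P.lf 23676 0 0) (P.cons (P.lf 0 3666 0) P.nil))))) (P.cons (P.cons (P.lf 0 460086 0) (P.cons (P.lf 206528 0 0) (P.cons (P.lf 0 15148 0) (P.cons (P.lf 0 1682 0) P.nil)))) (P.cons (P.cons (P.lf 0 6402 0) (P.cons (P.lf 11534 0 0) (P.cons (P.lf 0 2126 0) P.nil))) (P.cons (P.cons (P.lf 4936 0 0) (P.cons (P.lf 0 2070 0) P.nil)) (P.cons (P.cons (P.lf 0 182 0) P.nil) P.nil)))))) 1844)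
 EL.nil)
noncomputable def S219_227_438_512_45 : EL := (EL.cons 14 (TM.mk (P.cons (P.cons (P.lf 141449862 0 0) (P.cons (P.lf 0 157115512 0) (P.cons (P.lf 55671346 0 0) (P.cons (P.lf 0 4494068 0) (P.cons (P.lf 0 945326 0) (P.cons (P.lf 98988 0 0) P.nil)))))) (P.cons (P.cons (P.lf 0 14362822 0) (P.cons (P.lf 5886790 0 0) (P.cons (P.lf 1641316 0 0) (P.cons (P.lf 0 632970 0) (P.cons (P.lf 0 47112 0) P.nil))))) (P.cons (P.cons (P.lf 0 1920296 0) (P.cons (P.lf 2139976 0 0) (P.cons (P.lf 0 522050 0) (P.cons (P.lf 0 19046 0) P.nil)))) (P.cons (P.cons (P.lf 203002 0 0) (P.cons (P.lf 0 52420 0) (P.cons (P.lf 0 21586 0) P.nil))) (P.cons (P.cons (P.lf 10738 0 0) (P.cons (P.lf 0 11798 0) P.nil)) (P.cons (P.cons (P.lf 0 1144 0) P.nil) P.nil)))))) 33640)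
 EL.nil)
noncomputable def S219_227_438_512_46 : EL := (EL.cons 15 (TM.mk (P.lf 4294967296 0 0) 0)
 EL.nil)
noncomputable def S219_227_438_512_47 : EL := (EL.cons 15 (TM.mk (P.cons (P.cons (P.lf 1092691133 0 0) (P.cons (P.lf 0 404569092 0) (P.cons (P.lf 0 6439248 0) (P.lf 2146416 0 0)))) (P.cons (P.cons (P.lf 0 36983965 0) (P.cons (P.lf 0 12228276 0) (P.cons (P.lf 0 194624 0) (P.lf 64872 0 0)))) (P.cons (P.cons (P.lf 0 6196511 0) (P.cons (P.lf 557580 0 0) (P.cons (P.lf 8872 0 0) (P.lf 0 2956 0)))) (P.cons (P.cons (P.lf 117390 0 0) (P.cons (P.lf 20316 0 0) (P.cons (P.lf 320 0 0) P.nil))) (P.cons (P.cons (P.lf 7560 0 0) (P.cons (P.lf 0 336 0) P.nil)) (P.cons (P.cons (P.lf 0 53 0) P.nil) P.nil)))))) 461)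
 EL.nil)
noncomputable def S219_227_438_512_48 : EL := (EL.cons 15 (TM.mk (P.cons (P.cons (P.lf 277993714 0 0) (P.cons (P.lf 0 205854447 0) (P.cons (P.lf 34832379 0 0) (P.cons (P.lf 2305251 0 0) (P.cons (P.lf 0 394713 0) (P.cons (P.lf 0 6436 0) P.nil)))))) (P.cons (P.cons (P.lf 0 18818327 0) (P.cons (P.lf 745449 0 0) (P.cons (P.lf 2315578 0 0) (P.cons (P.lf 69375 0 0) (P.cons (P.lf 0 23859 0) P.nil))))) (P.cons (P.cons (P.lf 0 2834464 0) (P.cons (P.lf 1661679 0 0) (P.cons (P.lf 0 43781 0) (P.cons (P.lf 0 11049 0) P.nil)))) (P.cons (P.cons (P.lf 166447 0 0) (P.cons (P.lf 13903 0 0) (P.cons (P.lf 0 6782 0) P.nil))) (P.cons (P.cons (P.lf 10764 0 0) (P.cons (P.lf 0 4222 0) P.nil)) (P.cons (P.cons (P.lf 0 495 0) P.nil) P.nil)))))) 4598)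
 EL.nil)
noncomputable def S219_227_438_512 : SL := (SL.cons S219_227_438_512_0 (SL.cons S219_227_438_512_1 (SL.cons S219_227_438_512_2 (SL.cons S219_227_438_512_3 (SL.cons S219_227_438_512_4 (SL.cons S219_227_438_512_5 (SL.cons S219_227_438_512_6 (SL.cons S219_227_438_512_7 (SL.cons S219_227_438_512_8 (SL.cons S219_227_438_512_9 (SL.cons S219_227_438_512_10 (SL.cons S219_227_438_512_11 (SL.cons S219_227_438_512_12 (SL.cons S219_227_438_512_13 (SL.cons S219_227_438_512_14 (SL.cons S219_227_438_512_15 (SL.cons S219_227_438_512_16 (SL.cons S219_227_438_512_17 (SL.cons S219_227_438_512_18 (SL.cons S219_227_438_512_19 (SL.cons S219_227_438_512_20 (SL.cons S219_227_438_512_21 (SL.cons S219_227_438_512_22 (SL.cons S219_227_438_512_23 (SL.cons S219_227_438_512_24 (SL.cons S219_227_438_512_25 (SL.cons S219_227_438_512_26 (SL.cons S219_227_438_512_27 (SL.cons S219_227_438_512_28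 (SL.cons S219_227_438_512_29 (SL.cons S219_227_438_512_30 (SL.cons S219_227_438_512_31 (SL.cons S219_227_438_512_32 (SL.cons S219_227_438_512_33 (SL.cons S219_227_438_512_34 (SL.cons S219_227_438_512_35 (SL.cons S219_227_438_512_36 (SL.cons S219_227_438_512_37 (SL.cons S219_227_438_512_38 (SL.cons S219_227_438_512_39 (SL.cons S219_227_438_512_40 (SL.cons S219_227_438_512_41 (SL.cons S219_227_438_512_42 (SL.cons S219_227_438_512_43 (SL.cons S219_227_438_512_44 (SL.cons S219_227_438_512_45 (SL.cons S219_227_438_512_46 (SL.cons S219_227_438_512_47 (SL.cons S219_227_438_512_48 SL.nil)))))))))))))))))))))))))))))))))))))))))))))))))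
noncomputable def S219_227_660_734_0 : EL := (EL.cons 0 (TM.mk (P.cons (P.lf 7974119968 0 0) (P.cons (P.lf 111999383 0 0) (P.cons (P.lf 0 5671151 0) (P.cons (P.lf 0 127063 0) (P.cons (P.lf 2649 0 0) (P.cons (P.lf 73 0 0) P.nil)))))) 59)
 (EL.cons 1 (TM.mk (P.cons (P.lf 0 975579558 0) (P.cons (P.lf 103610482 0 0) (P.cons (P.lf 2541390 0 0) (P.cons (P.lf 0 79128 0) (P.cons (P.lf 0 1965 0) (P.cons (P.lf 24 0 0) P.nil)))))) 82)
 (EL.cons 5 (TM.mk (P.cons (P.lf 4466201750 0 0) (P.cons (P.lf 0 39822002 0) (P.cons (P.lf 2016406 0 0) (P.cons (P.lf 45176 0 0) (P.cons (P.lf 0 938 0) (P.cons (P.lf 0 26 0) P.nil)))))) 113)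
 (EL.cons 9 (TM.mk (P.lf 6442450944 0 0) 2)
 EL.nil))))
noncomputable def S219_227_660_734_1 : EL := (EL.cons 0 (TM.mk (P.cons (P.cons (P.lf 0 897493150 0) (P.cons (P.lf 0 380098101 0) (P.cons (P.lf 48945654 0 0) (P.lf 3263047 0 0)))) (P.cons (P.cons (P.lf 0 277893639 0) (P.cons (P.lf 0 37568337 0) (P.cons (P.lf 4837706 0 0) (P.lf 322500 0 0)))) (P.cons (P.cons (P.lf 0 24619119 0) (P.cons (P.lf 1056138 0 0) (P.cons (P.lf 0 135994 0) (P.lf 0 9059 0)))) (P.cons (P.cons (P.lf 1044796 0 0) (P.cons (P.lf 124521 0 0) (P.cons (P.lf 0 16022 0) P.nil))) (P.cons (P.cons (P.lf 78548 0 0) (P.cons (P.lf 0 544 0) P.nil)) (P.cons (P.cons (P.lf 0 962 0) P.nil) P.nil)))))) 3650)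
 (EL.cons 1 (TM.mk (P.cons (P.cons (P.lf 1314561229 0 0) (P.cons (P.lf 134599604 0 0) (P.cons (P.lf 0 17332532 0) (P.lf 0 1155498 0)))) (P.cons (P.cons (P.lf 103854831 0 0) (P.cons (P.lf 0 8361379 0) (P.cons (P.lf 1076703 0 0) (P.lf 71781 0 0)))) (P.cons (P.cons (P.lf 0 9189530 0) (P.cons (P.lf 0 1241967 0) (P.cons (P.lf 159921 0 0) (P.lf 10653 0 0)))) (P.cons (P.cons (P.lf 0 848392 0) (P.cons (P.lf 12323 0 0) (P.cons (P.lf 0 1589 0) P.nil))) (P.cons (P.cons (P.lf 17183 0 0) (P.cons (P.lf 2757 0 0) P.nil)) (P.cons (P.cons (P.lf 1723 0 0) P.nil) P.nil)))))) 2145)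
 (EL.cons 5 (TM.mk (P.cons (P.cons (P.lf 0 1555838951 0) (P.cons (P.lf 0 289899988 0) (P.cons (P.lf 37330744 0 0) (P.lf 2488714 0 0)))) (P.cons (P.cons (P.lf 0 76883249 0) (P.cons (P.lf 510424 0 0) (P.cons (P.lf 0 65722 0) (P.lf 0 4378 0)))) (P.cons (P.cons (P.lf 3363605 0 0) (P.cons (P.lf 210298 0 0) (P.cons (P.lf 0 27084 0) (P.lf 0 1812 0)))) (P.cons (P.cons (P.lf 15533 0 0) (P.cons (P.lf 0 22930 0) (P.cons (P.lf 2950 0 0) P.nil))) (P.cons (P.cons (P.lf 0 18196 0) (P.cons (P.lf 0 168 0) P.nil)) (P.cons (P.cons (P.lf 92 0 0) P.nil) P.nil)))))) 3292)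
 (EL.cons 9 (TM.mk (P.cons (P.cons (P.lf 0 1654365549 0) (P.cons (P.lf 0 375040566 0) (P.cons (P.lf 48294384 0 0) (P.lf 3219624 0 0)))) (P.cons (P.cons (P.lf 0 155020471 0) (P.cons (P.lf 0 11335764 0) (P.cons (P.lf 1459716 0 0) (P.lf 97308 0 0)))) (P.cons (P.cons (P.lf 0 4755754 0) (P.cons (P.lf 516882 0 0) (P.cons (P.lf 0 66558 0) (P.lf 0 4434 0)))) (P.cons (P.cons (P.lf 341475 0 0) (P.cons (P.lf 18828 0 0) (P.cons (P.lf 0 2418 0) P.nil))) (P.cons (P.cons (P.lf 8586 0 0) (P.cons (P.lf 0 312 0) P.nil)) (P.cons (P.cons (P.lf 0 205 0) P.nil) P.nil)))))) 908)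
 (EL.cons 2 (TM.mk (P.cons (P.cons (P.lf 399115155 0 0) (P.cons (P.lf 0 113938357 0) (P.cons (P.lf 0 8522403 0) (P.cons (P.lf 574284 0 0) (P.lf 28712 0 0))))) (P.cons (P.cons (P.lf 0 38366493 0) (P.cons (P.lf 10952766 0 0) (P.cons (P.lf 819247 0 0) (P.cons (P.lf 0 55203 0) (P.lf 0 2759 0))))) (P.cons (P.cons (P.lf 0 1690627 0) (P.cons (P.lf 482633 0 0) (P.cons (P.lf 36098 0 0) (P.cons (P.lf 0 2430 0) P.nil)))) (P.cons (P.cons (P.lf 43365 0 0) (P.cons (P.lf 0 12380 0) (P.cons (P.lf 0 925 0) P.nil))) (P.cons (P.cons (P.lf 2010 0 0) (P.cons (P.lf 0 573 0) P.nil)) (P.cons (P.cons (P.lf 0 16 0) P.nil) P.nil)))))) 456)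
 (EL.cons 6 (TM.mk (P.cons (P.cons (P.lf 808494804 0 0) (P.cons (P.lf 0 230806995 0) (P.cons (P.lf 0 17263992 0) (P.cons (P.lf 1163340 0 0) (P.lf 58164 0 0))))) (P.cons (P.cons (P.lf 24437109 0 0) (P.cons (P.lf 0 6976239 0) (P.cons (P.lf 0 521808 0) (P.cons (P.lf 35160 0 0) (P.lf 1755 0 0))))) (P.cons (P.cons (P.lf 0 1114278 0) (P.cons (P.lf 318099 0 0) (P.cons (P.lf 23790 0 0) (P.cons (P.lf 0 1602 0) P.nil)))) (P.cons (P.cons (P.lf 0 40599 0) (P.cons (P.lf 11589 0 0) (P.cons (P.lf 864 0 0) P.nil))) (P.cons (P.cons (P.lf 675 0 0) (P.cons (P.lf 0 192 0) P.nil)) (P.cons (P.cons (P.lf 33 0 0) P.nil) P.nil)))))) 402)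
 EL.nil))))))
noncomputable def S219_227_660_734_2 : EL := (EL.cons 0 (TM.mk (P.cons (P.cons (P.lf 0 64890797 0) (P.cons (P.lf 61297378 0 0) (P.cons (P.lf 9337477 0 0) (P.cons (P.lf 0 4963890 0) (P.cons (P.lf 0 10126 0) (P.cons (P.lf 38102 0 0) P.nil)))))) (P.cons (P.cons (P.lf 79983298 0 0) (P.cons (P.lf 40205247 0 0) (P.cons (P.lf 0 1478812 0) (P.cons (P.lf 0 1297648 0) (P.cons (P.lf 0 2169 0) P.nil))))) (P.cons (P.cons (P.lf 18692255 0 0) (P.cons (P.lf 4249558 0 0) (P.cons (P.lf 0 552881 0) (P.cons (P.lf 0 35011 0) P.nil)))) (P.cons (P.cons (P.lf 868268 0 0) (P.cons (P.lf 0 102875 0) (P.cons (P.lf 0 5959 0) P.nil))) (P.cons (P.cons (P.lf 0 58770 0) (P.cons (P.lf 0 23849 0) P.nil)) (P.cons (P.cons (P.lf 0 6678 0) P.nil) P.nil)))))) 40194)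
 (EL.cons 1 (TM.mk (P.cons (P.cons (P.lf 0 610804393 0) (P.cons (P.lf 0 193012077 0) (P.cons (P.lf 12489331 0 0) (P.cons (P.lf 4841481 0 0) (P.cons (P.lf 7260 0 0) (P.cons (P.lf 0 27337 0) P.nil)))))) (P.cons (P.cons (P.lf 0 111376926 0) (P.cons (P.lf 0 18383940 0) (P.cons (P.lf 2715877 0 0) (P.cons (P.lf 68042 0 0) (P.cons (P.lf 0 205 0) P.nil))))) (P.cons (P.cons (P.lf 0 2732466 0) (P.cons (P.lf 1423282 0 0) (P.cons (P.lf 0 23578 0) (P.cons (P.lf 0 53336 0) P.nil)))) (P.cons (P.cons (P.lf 746625 0 0) (P.cons (P.lf 206334 0 0) (P.cons (P.lf 0 24390 0) P.nil))) (P.cons (P.cons (P.lf 55261 0 0) (P.cons (P.lf 0 324 0) P.nil)) (P.cons (P.cons (P.lf 0 1012 0) P.nil) P.nil)))))) 20287)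
 (EL.cons 5 (TM.mk (P.cons (P.cons (P.lf 504542568 0 0) (P.cons (P.lf 196501625 0 0) (P.cons (P.lf 0 6686626 0) (P.cons (P.lf 0 6481593 0) (P.cons (P.lf 0 10931 0) (P.cons (P.lf 41156 0 0) P.nil)))))) (P.cons (P.cons (P.lf 61792761 0 0) (P.cons (P.lf 12758118 0 0) (P.cons (P.lf 0 1462111 0) (P.cons (P.lf 0 156080 0) (P.cons (P.lf 0 124 0) P.nil))))) (P.cons (P.cons (P.lf 349513 0 0) (P.cons (P.lf 0 566009 0) (P.cons (P.lf 29293 0 0) (P.cons (P.lf 16078 0 0) P.nil)))) (P.cons (P.cons (P.lf 0 248091 0) (P.cons (P.lf 0 28669 0) (P.cons (P.lf 5963 0 0) P.nil))) (P.cons (P.cons (P.lf 1243 0 0) (P.cons (P.lf 4266 0 0) P.nil)) (P.cons (P.cons (P.lf 1450 0 0) P.nil) P.nil)))))) 24531)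
 (EL.cons 9 (TM.mk (P.cons (P.cons (P.lf 424826730 0 0) (P.cons (P.lf 192614331 0 0) (P.cons (P.lf 0 2970562 0) (P.cons (P.lf 0 7276357 0) (P.cons (P.lf 0 12825 0) (P.cons (P.lf 48270 0 0) P.nil)))))) (P.cons (P.cons (P.lf 79615825 0 0) (P.cons (P.lf 23870562 0 0) (P.cons (P.lf 0 1754037 0) (P.cons (P.lf 0 544822 0) (P.cons (P.lf 0 774 0) P.nil))))) (P.cons (P.cons (P.lf 6172627 0 0) (P.cons (P.lf 833770 0 0) (P.cons (P.lf 0 147598 0) (P.cons (P.lf 3202 0 0) P.nil)))) (P.cons (P.cons (P.lf 53493 0 0) (P.cons (P.lf 0 57565 0) (P.cons (P.lf 3397 0 0) P.nil))) (P.cons (P.cons (P.lf 0 17331 0) (P.cons (P.lf 0 3709 0) P.nil)) (P.cons (P.cons (P.lf 0 811 0) P.nil) P.nil)))))) 10967)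
 (EL.cons 2 (TM.mk (P.cons (P.cons (P.lf 0 204978622 0) (P.cons (P.lf 12048615 0 0) (P.cons (P.lf 23626316 0 0) (P.cons (P.lf 0 612005 0) (P.cons (P.lf 0 323263 0) (P.cons (P.lf 0 3251 0) P.nil)))))) (P.cons (P.cons (P.lf 497070 0 0) (P.cons (P.lf 2920505 0 0) (P.cons (P.lf 0 1279209 0) (P.cons (P.lf 21605 0 0) (P.cons (P.lf 20368 0 0) P.nil))))) (P.cons (P.cons (P.lf 2125406 0 0) (P.cons (P.lf 0 210858 0) (P.cons (P.lf 0 209379 0) (P.cons (P.lf 5760 0 0) P.nil)))) (P.cons (P.cons (P.lf 158040 0 0) (P.cons (P.lf 0 48037 0) (P.cons (P.lf 0 2160 0) P.nil))) (P.cons (P.cons (P.lf 0 3628 0) (P.cons (P.lf 112 0 0) P.nil)) (P.cons (P.cons (P.lf 0 455 0) P.nil) P.nil)))))) 8982)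
 (EL.cons 6 (TM.mk (P.cons (P.cons (P.lf 0 415228908 0) (P.cons (P.lf 24407100 0 0) (P.cons (P.lf 47860260 0 0) (P.cons (P.lf 0 1239750 0) (P.cons (P.lf 0 654834 0) (P.cons (P.lf 0 6582 0) P.nil)))))) (P.cons (P.cons (P.lf 0 51459030 0) (P.cons (P.lf 9000066 0 0) (P.cons (P.lf 3456018 0 0) (P.cons (P.lf 0 112866 0) (P.cons (P.lf 0 41478 0) P.nil))))) (P.cons (P.cons (P.lf 0 1797396 0) (P.cons (P.lf 686580 0 0) (P.cons (P.lf 0 33474 0) (P.cons (P.lf 0 1398 0) P.nil)))) (P.cons (P.cons (P.lf 124098 0 0) (P.cons (P.lf 0 18132 0) (P.cons (P.lf 0 9810 0) P.nil))) (P.cons (P.cons (P.lf 7992 0 0) (P.cons (P.lf 0 2328 0) P.nil)) (P.cons (P.cons (P.lf 0 90 0) P.nil) P.nil)))))) 9720)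
 EL.nil))))))
noncomputable def S219_227_660_734_3 : EL := (EL.cons 0 (TM.mk (P.cons (P.lf 481596895 0 0) (P.cons (P.lf 0 111999383 0) (P.cons (P.lf 5671151 0 0) (P.cons (P.lf 127063 0 0) (P.cons (P.lf 0 2649 0) (P.cons (P.lf 0 73 0) P.nil)))))) 59)
 (EL.cons 1 (TM.mk (P.cons (P.lf 975579558 0 0) (P.cons (P.lf 0 103610482 0) (P.cons (P.lf 0 2541390 0) (P.cons (P.lf 79128 0 0) (P.cons (P.lf 1965 0 0) (P.cons (P.lf 0 24 0) P.nil)))))) 82)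
 (EL.cons 5 (TM.mk (P.cons (P.lf 1976249194 0 0) (P.cons (P.lf 39822002 0 0) (P.cons (P.lf 0 2016406 0) (P.cons (P.lf 0 45176 0) (P.cons (P.lf 938 0 0) (P.cons (P.lf 26 0 0) P.nil)))))) 106)
 EL.nil)))
noncomputable def S219_227_660_734_4 : EL := (EL.cons 0 (TM.mk (P.cons (P.cons (P.lf 0 123669907 0) (P.cons (P.lf 0 28035660 0) (P.cons (P.lf 3610181 0 0) (P.lf 240677 0 0)))) (P.cons (P.cons (P.lf 17172119 0 0) (P.cons (P.lf 5672536 0 0) (P.cons (P.lf 0 730458 0) (P.lf 0 48696 0)))) (P.cons (P.cons (P.lf 883154 0 0) (P.cons (P.lf 0 94433 0) (P.cons (P.lf 12158 0 0) (P.lf 810 0 0)))) (P.cons (P.cons (P.lf 0 60885 0) (P.cons (P.lf 0 24952 0) (P.cons (P.lf 3213 0 0) P.nil))) (P.cons (P.cons (P.lf 0 11856 0) (P.cons (P.lf 33 0 0) P.nil)) (P.cons (P.cons (P.lf 124 0 0) P.nil) P.nil)))))) 604)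
 (EL.cons 1 (TM.mk (P.cons (P.cons (P.lf 0 250520371 0) (P.cons (P.lf 0 56792345 0) (P.cons (P.lf 7313210 0 0) (P.lf 487545 0 0)))) (P.cons (P.cons (P.lf 3131540 0 0) (P.cons (P.lf 4315001 0 0) (P.cons (P.lf 0 555646 0) (P.lf 0 37042 0)))) (P.cons (P.cons (P.lf 2425554 0 0) (P.cons (P.lf 408521 0 0) (P.cons (P.lf 0 52603 0) (P.lf 0 3504 0)))) (P.cons (P.cons (P.lf 169023 0 0) (P.cons (P.lf 0 5595 0) (P.cons (P.lf 720 0 0) P.nil))) (P.cons (P.cons (P.lf 0 4723 0) (P.cons (P.lf 0 806 0) P.nil)) (P.cons (P.cons (P.lf 0 401 0) P.nil) P.nil)))))) 545)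
 (EL.cons 5 (TM.mk (P.cons (P.cons (P.lf 0 507483658 0) (P.cons (P.lf 0 115045286 0) (P.cons (P.lf 14814506 0 0) (P.lf 987632 0 0)))) (P.cons (P.cons (P.lf 0 57779132 0) (P.cons (P.lf 0 5795488 0) (P.cons (P.lf 746290 0 0) (P.lf 49750 0 0)))) (P.cons (P.cons (P.lf 0 1899262 0) (P.cons (P.lf 205868 0 0) (P.cons (P.lf 0 26508 0) (P.lf 0 1764 0)))) (P.cons (P.cons (P.lf 135472 0 0) (P.cons (P.lf 15148 0 0) (P.cons (P.lf 0 1948 0) P.nil))) (P.cons (P.cons (P.lf 7078 0 0) (P.cons (P.lf 0 114 0) P.nil)) (P.cons (P.cons (P.lf 0 112 0) P.nil) P.nil)))))) 530)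
 EL.nil)))
noncomputable def S219_227_660_734_5 : EL := (EL.cons 0 (TM.mk (P.cons (P.cons (P.lf 31757359 0 0) (P.cons (P.lf 14398628 0 0) (P.cons (P.lf 0 222059 0) (P.cons (P.lf 0 543933 0) (P.cons (P.lf 0 958 0) (P.cons (P.lf 3607 0 0) P.nil)))))) (P.cons (P.cons (P.lf 0 1433863 0) (P.cons (P.lf 0 1564108 0) (P.cons (P.lf 0 79477 0) (P.cons (P.lf 85768 0 0) (P.cons (P.lf 163 0 0) P.nil))))) (P.cons (P.cons (P.lf 0 548695 0) (P.cons (P.lf 0 183097 0) (P.cons (P.lf 16843 0 0) (P.cons (P.lf 3304 0 0) P.nil)))) (P.cons (P.cons (P.lf 0 24846 0) (P.cons (P.lf 6013 0 0) (P.cons (P.lf 1216 0 0) P.nil))) (P.cons (P.cons (P.lf 4601 0 0) (P.cons (P.lf 1847 0 0) P.nil)) (P.cons (P.cons (P.lf 370 0 0) P.nil) P.nil)))))) 3103)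
 (EL.cons 1 (TM.mk (P.cons (P.cons (P.lf 64331458 0 0) (P.cons (P.lf 29167563 0 0) (P.cons (P.lf 0 449831 0) (P.cons (P.lf 0 1101856 0) (P.cons (P.lf 0 1940 0) (P.cons (P.lf 7308 0 0) P.nil)))))) (P.cons (P.cons (P.lf 5223952 0 0) (P.cons (P.lf 517001 0 0) (P.cons (P.lf 0 217837 0) (P.cons (P.lf 34518 0 0) (P.cons (P.lf 88 0 0) P.nil))))) (P.cons (P.cons (P.lf 0 513281 0) (P.cons (P.lf 0 333620 0) (P.cons (P.lf 7029 0 0) (P.cons (P.lf 12116 0 0) P.nil)))) (P.cons (P.cons (P.lf 0 117358 0) (P.cons (P.lf 0 29175 0) (P.cons (P.lf 3541 0 0) P.nil))) (P.cons (P.cons (P.lf 0 4811 0) (P.cons (P.lf 386 0 0) P.nil)) (P.cons (P.cons (P.lf 232 0 0) P.nil) P.nil)))))) 3494)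
 (EL.cons 5 (TM.mk (P.cons (P.cons (P.lf 130317402 0 0) (P.cons (P.lf 59085262 0 0) (P.cons (P.lf 0 911232 0) (P.cons (P.lf 0 2232052 0) (P.cons (P.lf 0 3934 0) (P.cons (P.lf 14806 0 0) P.nil)))))) (P.cons (P.cons (P.lf 27048424 0 0) (P.cons (P.lf 8512980 0 0) (P.cons (P.lf 0 556418 0) (P.cons (P.lf 0 212102 0) (P.cons (P.lf 0 314 0) P.nil))))) (P.cons (P.cons (P.lf 2252634 0 0) (P.cons (P.lf 343024 0 0) (P.cons (P.lf 0 55188 0) (P.cons (P.lf 0 108 0) P.nil)))) (P.cons (P.cons (P.lf 26664 0 0) (P.cons (P.lf 0 21324 0) (P.cons (P.lf 698 0 0) P.nil))) (P.cons (P.cons (P.lf 0 7414 0) (P.cons (P.lf 0 1892 0) P.nil)) (P.cons (P.cons (P.lf 0 402 0) P.nil) P.nil)))))) 4228)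
 EL.nil)))
noncomputable def S219_227_660_734_6 : EL := (EL.cons 12 (TM.mk (P.lf 8589934592 0 0) 0)
 (EL.cons 3 (TM.mk (P.cons (P.lf 0 1016966793 0) (P.cons (P.lf 118252065 0 0) (P.cons (P.lf 887366 0 0) (P.cons (P.lf 0 30975 0) (P.cons (P.lf 0 416 0) (P.cons (P.lf 3 0 0) P.nil)))))) 44)
 (EL.cons 7 (TM.mk (P.cons (P.lf 0 2060088064 0) (P.cons (P.lf 0 20755690 0) (P.cons (P.lf 1155533 0 0) (P.cons (P.lf 11905 0 0) (P.cons (P.lf 0 285 0) (P.cons (P.lf 0 5 0) P.nil)))))) 48)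
 EL.nil)))
noncomputable def S219_227_660_734_7 : EL := (EL.cons 12 (TM.mk (P.cons (P.cons (P.lf 0 2205820732 0) (P.cons (P.lf 0 500054088 0) (P.cons (P.lf 64392512 0 0) (P.lf 4292832 0 0)))) (P.cons (P.cons (P.lf 0 206693962 0) (P.cons (P.lf 0 15114352 0) (P.cons (P.lf 1946288 0 0) (P.lf 129744 0 0)))) (P.cons (P.cons (P.lf 0 6341006 0) (P.cons (P.lf 689176 0 0) (P.cons (P.lf 0 88744 0) (P.lf 0 5912 0)))) (P.cons (P.cons (P.lf 455300 0 0) (P.cons (P.lf 25104 0 0) (P.cons (P.lf 0 3224 0) P.nil))) (P.cons (P.cons (P.lf 11448 0 0) (P.cons (P.lf 0 416 0) P.nil)) (P.cons (P.cons (P.lf 0 274 0) P.nil) P.nil)))))) 1186)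
 (EL.cons 3 (TM.mk (P.cons (P.cons (P.lf 0 2167660577 0) (P.cons (P.lf 0 118403322 0) (P.cons (P.lf 15246924 0 0) (P.lf 1016460 0 0)))) (P.cons (P.cons (P.lf 0 167408011 0) (P.cons (P.lf 10189048 0 0) (P.cons (P.lf 0 1312054 0) (P.lf 0 87470 0)))) (P.cons (P.cons (P.lf 13718987 0 0) (P.cons (P.lf 682636 0 0) (P.cons (P.lf 0 87900 0) (P.lf 0 5856 0)))) (P.cons (P.cons (P.lf 512485 0 0) (P.cons (P.lf 0 13512 0) (P.cons (P.lf 1740 0 0) P.nil))) (P.cons (P.cons (P.lf 0 14451 0) (P.cons (P.lf 0 1088 0) P.nil)) (P.cons (P.cons (P.lf 0 653 0) P.nil) P.nil)))))) 1806)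
 (EL.cons 7 (TM.mk (P.cons (P.cons (P.lf 955319096 0 0) (P.cons (P.lf 151099242 0 0) (P.cons (P.lf 0 19457220 0) (P.lf 0 1297149 0)))) (P.cons (P.cons (P.lf 29383584 0 0) (P.cons (P.lf 0 1788389 0) (P.cons (P.lf 230291 0 0) (P.lf 15350 0 0)))) (P.cons (P.cons (P.lf 0 4264336 0) (P.cons (P.lf 0 6837 0) (P.cons (P.lf 882 0 0) (P.lf 61 0 0)))) (P.cons (P.cons (P.lf 122297 0 0) (P.cons (P.lf 11890 0 0) (P.cons (P.lf 0 1527 0) P.nil))) (P.cons (P.cons (P.lf 9576 0 0) (P.cons (P.lf 0 71 0) P.nil)) (P.cons (P.cons (P.lf 0 139 0) P.nil) P.nil)))))) 2074)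
 (EL.cons 10 (TM.mk (P.cons (P.cons (P.lf 0 1685587530 0) (P.cons (P.lf 481197147 0 0) (P.cons (P.lf 35992773 0 0) (P.cons (P.lf 0 2425386 0) (P.lf 0 121269 0))))) (P.cons (P.cons (P.lf 0 33965082 0) (P.cons (P.lf 9696261 0 0) (P.cons (P.lf 725262 0 0) (P.cons (P.lf 0 48870 0) (P.lf 0 2442 0))))) (P.cons (P.cons (P.lf 1719837 0 0) (P.cons (P.lf 0 490974 0) (P.cons (P.lf 0 36723 0) (P.cons (P.lf 2472 0 0) P.nil)))) (P.cons (P.cons (P.lf 38529 0 0) (P.cons (P.lf 0 10998 0) (P.cons (P.lf 0 822 0) P.nil))) (P.cons (P.cons (P.lf 0 798 0) (P.cons (P.lf 228 0 0) P.nil)) (P.cons (P.cons (P.lf 0 21 0) P.nil) P.nil)))))) 435)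
 EL.nil))))
noncomputable def S219_227_660_734_8 : EL := (EL.cons 12 (TM.mk (P.cons (P.cons (P.lf 566435640 0 0) (P.cons (P.lf 256819108 0 0) (P.cons (P.lf 0 3960750 0) (P.cons (P.lf 0 9701810 0) (P.cons (P.lf 0 17100 0) (P.cons (P.lf 64360 0 0) P.nil)))))) (P.cons (P.cons (P.lf 106154434 0 0) (P.cons (P.lf 31827416 0 0) (P.cons (P.lf 0 2338716 0) (P.cons (P.lf 0 726430 0) (P.cons (P.lf 0 1032 0) P.nil))))) (P.cons (P.cons (P.lf 8230170 0 0) (P.cons (P.lf 1111694 0 0) (P.cons (P.lf 0 196798 0) (P.cons (P.lf 4270 0 0) P.nil)))) (P.cons (P.cons (P.lf 71324 0 0) (P.cons (P.lf 0 76754 0) (P.cons (P.lf 4530 0 0) P.nil))) (P.cons (P.cons (P.lf 0 23108 0) (P.cons (P.lf 0 4946 0) P.nil)) (P.cons (P.cons (P.lf 0 1082 0) P.nil) P.nil)))))) 14594)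
 (EL.cons 3 (TM.mk (P.cons (P.cons (P.lf 1180333495 0 0) (P.cons (P.lf 343591038 0 0) (P.cons (P.lf 0 27012777 0) (P.cons (P.lf 0 7387557 0) (P.cons (P.lf 0 10120 0) (P.cons (P.lf 38095 0 0) P.nil)))))) (P.cons (P.cons (P.lf 195065763 0 0) (P.cons (P.lf 27816949 0 0) (P.cons (P.lf 0 4544038 0) (P.cons (P.lf 8965 0 0) (P.cons (P.lf 566 0 0) P.nil))))) (P.cons (P.cons (P.lf 3665415 0 0) (P.cons (P.lf 0 2355166 0) (P.cons (P.lf 135355 0 0) (P.cons (P.lf 63457 0 0) P.nil)))) (P.cons (P.cons (P.lf 0 1019832 0) (P.cons (P.lf 0 227738 0) (P.cons (P.lf 29462 0 0) P.nil))) (P.cons (P.cons (P.lf 0 65180 0) (P.cons (P.lf 2758 0 0) P.nil)) (P.cons (P.cons (P.lf 1638 0 0) P.nil) P.nil)))))) 27693)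
 (EL.cons 7 (TM.mk (P.cons (P.cons (P.lf 0 354789428 0) (P.cons (P.lf 0 127235907 0) (P.cons (P.lf 5773500 0 0) (P.cons (P.lf 3825016 0 0) (P.cons (P.lf 6231 0 0) (P.cons (P.lf 0 23457 0) P.nil)))))) (P.cons (P.cons (P.lf 0 34238086 0) (P.cons (P.lf 0 4882458 0) (P.cons (P.lf 797572 0 0) (P.cons (P.lf 0 1572 0) (P.cons (P.lf 0 96 0) P.nil))))) (P.cons (P.cons (P.lf 1519704 0 0) (P.cons (P.lf 721843 0 0) (P.cons (P.lf 0 74147 0) (P.cons (P.lf 0 11037 0) P.nil)))) (P.cons (P.cons (P.lf 222226 0 0) (P.cons (P.lf 3588 0 0) (P.cons (P.lf 0 2910 0) P.nil))) (P.cons (P.cons (P.lf 0 5449 0) (P.cons (P.lf 0 4018 0) P.nil)) (P.cons (P.cons (P.lf 0 1336 0) P.nil) P.nil)))))) 12791)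
 (EL.cons 10 (TM.mk (P.cons (P.cons (P.lf 865688526 0 0) (P.cons (P.lf 0 50885064 0) (P.cons (P.lf 0 99781296 0) (P.cons (P.lf 2584692 0 0) (P.cons (P.lf 1365240 0 0) (P.cons (P.lf 13728 0 0) P.nil)))))) (P.cons (P.cons (P.lf 98562246 0 0) (P.cons (P.lf 0 18251082 0) (P.cons (P.lf 0 6199968 0) (P.cons (P.lf 209274 0 0) (P.cons (P.lf 72726 0 0) P.nil))))) (P.cons (P.cons (P.lf 3239844 0 0) (P.cons (P.lf 0 1276086 0) (P.cons (P.lf 76290 0 0) (P.cons (P.lf 2262 0 0) P.nil)))) (P.cons (P.cons (P.lf 0 231090 0) (P.cons (P.lf 40128 0 0) (P.cons (P.lf 15630 0 0) P.nil))) (P.cons (P.cons (P.lf 0 12072 0) (P.cons (P.lf 3642 0 0) P.nil)) (P.cons (P.cons (P.lf 186 0 0) P.nil) P.nil)))))) 17586)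
 EL.nil))))
noncomputable def S219_227_660_734_9 : EL := (EL.cons 3 (TM.mk (P.cons (P.lf 0 1016966793 0) (P.cons (P.lf 118252065 0 0) (P.cons (P.lf 887366 0 0) (P.cons (P.lf 0 30975 0) (P.cons (P.lf 0 416 0) (P.cons (P.lf 3 0 0) P.nil)))))) 44)
 (EL.cons 7 (TM.mk (P.cons (P.lf 0 2060088064 0) (P.cons (P.lf 0 20755690 0) (P.cons (P.lf 1155533 0 0) (P.cons (P.lf 11905 0 0) (P.cons (P.lf 0 285 0) (P.cons (P.lf 0 5 0) P.nil)))))) 48)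
 EL.nil))
noncomputable def S219_227_660_734_10 : EL := (EL.cons 3 (TM.mk (P.cons (P.cons (P.lf 261148255 0 0) (P.cons (P.lf 59201661 0 0) (P.cons (P.lf 0 7623462 0) (P.lf 0 508230 0)))) (P.cons (P.cons (P.lf 0 5895499 0) (P.cons (P.lf 0 5094524 0) (P.cons (P.lf 656027 0 0) (P.lf 43735 0 0)))) (P.cons (P.cons (P.lf 0 2322574 0) (P.cons (P.lf 0 341318 0) (P.cons (P.lf 43950 0 0) (P.lf 2928 0 0)))) (P.cons (P.cons (P.lf 0 154592 0) (P.cons (P.lf 6756 0 0) (P.cons (P.lf 0 870 0) P.nil))) (P.cons (P.cons (P.lf 5109 0 0) (P.cons (P.lf 544 0 0) P.nil)) (P.cons (P.cons (P.lf 268 0 0) P.nil) P.nil)))))) 401)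
 (EL.cons 7 (TM.mk (P.cons (P.cons (P.lf 529012754 0 0) (P.cons (P.lf 119925879 0 0) (P.cons (P.lf 0 15442986 0) (P.lf 0 1029531 0)))) (P.cons (P.cons (P.lf 54900429 0 0) (P.cons (P.lf 4833082 0 0) (P.cons (P.lf 0 622360 0) (P.lf 0 41488 0)))) (P.cons (P.cons (P.lf 1723436 0 0) (P.cons (P.lf 0 196029 0) (P.cons (P.lf 25242 0 0) (P.lf 1681 0 0)))) (P.cons (P.cons (P.lf 0 124732 0) (P.cons (P.lf 0 10412 0) (P.cons (P.lf 1338 0 0) P.nil))) (P.cons (P.cons (P.lf 0 4911 0) (P.cons (P.lf 127 0 0) P.nil)) (P.cons (P.cons (P.lf 98 0 0) P.nil) P.nil)))))) 396)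
 EL.nil))
noncomputable def S219_227_660_734_11 : EL := (EL.cons 3 (TM.mk (P.cons (P.cons (P.lf 0 67060607 0) (P.cons (P.lf 0 30404946 0) (P.cons (P.lf 468915 0 0) (P.cons (P.lf 1148601 0 0) (P.cons (P.lf 2024 0 0) (P.cons (P.lf 0 7619 0) P.nil)))))) (P.cons (P.cons (P.lf 0 4769925 0) (P.cons (P.lf 0 232601 0) (P.cons (P.lf 222356 0 0) (P.cons (P.lf 0 47555 0) (P.cons (P.lf 0 112 0) P.nil))))) (P.cons (P.cons (P.lf 545499 0 0) (P.cons (P.lf 333062 0 0) (P.cons (P.lf 0 9305 0) (P.cons (P.lf 0 11507 0) P.nil)))) (P.cons (P.cons (P.lf 113778 0 0) (P.cons (P.lf 26752 0 0) (P.cons (P.lf 0 3472 0) P.nil))) (P.cons (P.cons (P.lf 4156 0 0) (P.cons (P.lf 0 482 0) P.nil)) (P.cons (P.cons (P.lf 0 216 0) P.nil) P.nil)))))) 3251)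
 (EL.cons 7 (TM.mk (P.cons (P.cons (P.lf 0 135845888 0) (P.cons (P.lf 0 61591851 0) (P.cons (P.lf 949890 0 0) (P.cons (P.lf 2326744 0 0) (P.cons (P.lf 4101 0 0) (P.cons (P.lf 0 15435 0) P.nil)))))) (P.cons (P.cons (P.lf 0 26827240 0) (P.cons (P.lf 0 8253582 0) (P.cons (P.lf 570454 0 0) (P.cons (P.lf 197658 0 0) (P.cons (P.lf 288 0 0) P.nil))))) (P.cons (P.cons (P.lf 0 2154108 0) (P.cons (P.lf 0 308969 0) (P.cons (P.lf 52315 0 0) (P.cons (P.lf 0 573 0) P.nil)))) (P.cons (P.cons (P.lf 0 21926 0) (P.cons (P.lf 20358 0 0) (P.cons (P.lf 0 930 0) P.nil))) (P.cons (P.cons (P.lf 6605 0 0) (P.cons (P.lf 1556 0 0) P.nil)) (P.cons (P.cons (P.lf 332 0 0) P.nil) P.nil)))))) 3931)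
 EL.nil))
noncomputable def S219_227_660_734_12 : EL := (EL.cons 4 (TM.mk (P.cons (P.lf 1016966793 0 0) (P.cons (P.lf 0 118252065 0) (P.cons (P.lf 0 887366 0) (P.cons (P.lf 30975 0 0) (P.cons (P.lf 416 0 0) (P.cons (P.lf 0 3 0) P.nil)))))) 44)
 (EL.cons 8 (TM.mk (P.cons (P.lf 2060088064 0 0) (P.cons (P.lf 20755690 0 0) (P.cons (P.lf 0 1155533 0) (P.cons (P.lf 0 11905 0) (P.cons (P.lf 285 0 0) (P.cons (P.lf 5 0 0) P.nil)))))) 48)
 EL.nil))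
noncomputable def S219_227_660_734_13 : EL := (EL.cons 4 (TM.mk (P.cons (P.cons (P.lf 0 261148255 0) (P.cons (P.lf 0 59201661 0) (P.cons (P.lf 7623462 0 0) (P.lf 508230 0 0)))) (P.cons (P.cons (P.lf 5895499 0 0) (P.cons (P.lf 5094524 0 0) (P.cons (P.lf 0 656027 0) (P.lf 0 43735 0)))) (P.cons (P.cons (P.lf 2322574 0 0) (P.cons (P.lf 341318 0 0) (P.cons (P.lf 0 43950 0) (P.lf 0 2928 0)))) (P.cons (P.cons (P.lf 154592 0 0) (P.cons (P.lf 0 6756 0) (P.cons (P.lf 870 0 0) P.nil))) (P.cons (P.cons (P.lf 0 5109 0) (P.cons (P.lf 0 544 0) P.nil)) (P.cons (P.cons (P.lf 0 268 0) P.nil) P.nil)))))) 401)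
 (EL.cons 8 (TM.mk (P.cons (P.cons (P.lf 0 529012754 0) (P.cons (P.lf 0 119925879 0) (P.cons (P.lf 15442986 0 0) (P.lf 1029531 0 0)))) (P.cons (P.cons (P.lf 0 54900429 0) (P.cons (P.lf 0 4833082 0) (P.cons (P.lf 622360 0 0) (P.lf 41488 0 0)))) (P.cons (P.cons (P.lf 0 1723436 0) (P.cons (P.lf 196029 0 0) (P.cons (P.lf 0 25242 0) (P.lf 0 1681 0)))) (P.cons (P.cons (P.lf 124732 0 0) (P.cons (P.lf 10412 0 0) (P.cons (P.lf 0 1338 0) P.nil))) (P.cons (P.cons (P.lf 4911 0 0) (P.cons (P.lf 0 127 0) P.nil)) (P.cons (P.cons (P.lf 0 98 0) P.nil) P.nil)))))) 396)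
 EL.nil))
noncomputable def S219_227_660_734_14 : EL := (EL.cons 4 (TM.mk (P.cons (P.cons (P.lf 67060607 0 0) (P.cons (P.lf 30404946 0 0) (P.cons (P.lf 0 468915 0) (P.cons (P.lf 0 1148601 0) (P.cons (P.lf 0 2024 0) (P.cons (P.lf 7619 0 0) P.nil)))))) (P.cons (P.cons (P.lf 4769925 0 0) (P.cons (P.lf 232601 0 0) (P.cons (P.lf 0 222356 0) (P.cons (P.lf 47555 0 0) (P.cons (P.lf 112 0 0) P.nil))))) (P.cons (P.cons (P.lf 0 545499 0) (P.cons (P.lf 0 333062 0) (P.cons (P.lf 9305 0 0) (P.cons (P.lf 11507 0 0) P.nil)))) (P.cons (P.cons (P.lf 0 113778 0) (P.cons (P.lf 0 26752 0) (P.cons (P.lf 3472 0 0) P.nil))) (P.cons (P.cons (P.lf 0 4156 0) (P.cons (P.lf 482 0 0) P.nil)) (P.cons (P.cons (P.lf 216 0 0) P.nil) P.nil)))))) 3251)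
 (EL.cons 8 (TM.mk (P.cons (P.cons (P.lf 135845888 0 0) (P.cons (P.lf 61591851 0 0) (P.cons (P.lf 0 949890 0) (P.cons (P.lf 0 2326744 0) (P.cons (P.lf 0 4101 0) (P.cons (P.lf 15435 0 0) P.nil)))))) (P.cons (P.cons (P.lf 26827240 0 0) (P.cons (P.lf 8253582 0 0) (P.cons (P.lf 0 570454 0) (P.cons (P.lf 0 197658 0) (P.cons (P.lf 0 288 0) P.nil))))) (P.cons (P.cons (P.lf 2154108 0 0) (P.cons (P.lf 308969 0 0) (P.cons (P.lf 0 52315 0) (P.cons (P.lf 573 0 0) P.nil)))) (P.cons (P.cons (P.lf 21926 0 0) (P.cons (P.lf 0 20358 0) (P.cons (P.lf 930 0 0) P.nil))) (P.cons (P.cons (P.lf 0 6605 0) (P.cons (P.lf 0 1556 0) P.nil)) (P.cons (P.cons (P.lf 0 332 0) P.nil) P.nil)))))) 3931)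
 EL.nil))
noncomputable def S219_227_660_734_15 : EL := (EL.cons 4 (TM.mk (P.cons (P.lf 0 256851677 0) (P.cons (P.lf 59733004 0 0) (P.cons (P.lf 0 3024614 0) (P.cons (P.lf 0 67767 0) (P.cons (P.lf 1412 0 0) (P.cons (P.lf 39 0 0) P.nil)))))) 35)
 (EL.cons 8 (TM.mk (P.cons (P.lf 0 520309098 0) (P.cons (P.lf 55258924 0 0) (P.cons (P.lf 1355408 0 0) (P.cons (P.lf 0 42202 0) (P.cons (P.lf 0 1048 0) (P.cons (P.lf 13 0 0) P.nil)))))) 40)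
 EL.nil))
noncomputable def S219_227_660_734_16 : EL := (EL.cons 4 (TM.mk (P.cons (P.cons (P.lf 65957283 0 0) (P.cons (P.lf 14952352 0 0) (P.cons (P.lf 0 1925430 0) (P.lf 0 128361 0)))) (P.cons (P.cons (P.lf 0 9158463 0) (P.cons (P.lf 0 3025352 0) (P.cons (P.lf 389578 0 0) (P.lf 25971 0 0)))) (P.cons (P.cons (P.lf 0 471015 0) (P.cons (P.lf 50364 0 0) (P.cons (P.lf 0 6484 0) (P.lf 0 432 0)))) (P.cons (P.cons (P.lf 32472 0 0) (P.cons (P.lf 13307 0 0) (P.cons (P.lf 0 1713 0) P.nil))) (P.cons (P.cons (P.lf 6323 0 0) (P.cons (P.lf 0 17 0) P.nil)) (P.cons (P.cons (P.lf 0 66 0) P.nil) P.nil)))))) 331)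
 (EL.cons 8 (TM.mk (P.cons (P.cons (P.lf 133610865 0 0) (P.cons (P.lf 30289251 0 0) (P.cons (P.lf 0 3900379 0) (P.lf 0 260024 0)))) (P.cons (P.cons (P.lf 0 1670155 0) (P.cons (P.lf 0 2301334 0) (P.cons (P.lf 296345 0 0) (P.lf 19756 0 0)))) (P.cons (P.cons (P.lf 0 1293629 0) (P.cons (P.lf 0 217878 0) (P.cons (P.lf 28055 0 0) (P.lf 1869 0 0)))) (P.cons (P.cons (P.lf 0 90146 0) (P.cons (P.lf 2984 0 0) (P.cons (P.lf 0 384 0) P.nil))) (P.cons (P.cons (P.lf 2519 0 0) (P.cons (P.lf 430 0 0) P.nil)) (P.cons (P.cons (P.lf 214 0 0) P.nil) P.nil)))))) 281)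
 EL.nil))
noncomputable def S219_227_660_734_17 : EL := (EL.cons 4 (TM.mk (P.cons (P.cons (P.lf 0 16937258 0) (P.cons (P.lf 0 7679268 0) (P.cons (P.lf 118431 0 0) (P.cons (P.lf 290098 0 0) (P.cons (P.lf 510 0 0) (P.cons (P.lf 0 1923 0) P.nil)))))) (P.cons (P.cons (P.lf 764727 0 0) (P.cons (P.lf 834191 0 0) (P.cons (P.lf 42388 0 0) (P.cons (P.lf 0 45743 0) (P.cons (P.lf 0 87 0) P.nil))))) (P.cons (P.cons (P.lf 292637 0 0) (P.cons (P.lf 97651 0 0) (P.cons (P.lf 0 8983 0) (P.cons (P.lf 0 1762 0) P.nil)))) (P.cons (P.cons (P.lf 13251 0 0) (P.cons (P.lf 0 3207 0) (P.cons (P.lf 0 648 0) P.nil))) (P.cons (P.cons (P.lf 0 2454 0) (P.cons (P.lf 0 985 0) P.nil)) (P.cons (P.cons (P.lf 0 197 0) P.nil) P.nil)))))) 1665)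
 (EL.cons 8 (TM.mk (P.cons (P.cons (P.lf 0 34310111 0) (P.cons (P.lf 0 15556034 0) (P.cons (P.lf 239910 0 0) (P.cons (P.lf 587657 0 0) (P.cons (P.lf 1035 0 0) (P.cons (P.lf 0 3898 0) P.nil)))))) (P.cons (P.cons (P.lf 0 2786108 0) (P.cons (P.lf 0 275734 0) (P.cons (P.lf 116180 0 0) (P.cons (P.lf 0 18410 0) (P.cons (P.lf 0 47 0) P.nil))))) (P.cons (P.cons (P.lf 273750 0 0) (P.cons (P.lf 177931 0 0) (P.cons (P.lf 0 3749 0) (P.cons (P.lf 0 6462 0) P.nil)))) (P.cons (P.cons (P.lf 62591 0 0) (P.cons (P.lf 15560 0 0) (P.cons (P.lf 0 1889 0) P.nil))) (P.cons (P.cons (P.lf 2566 0 0) (P.cons (P.lf 0 206 0) P.nil)) (P.cons (P.cons (P.lf 0 124 0) P.nil) P.nil)))))) 1852)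
 EL.nil))
noncomputable def S219_227_660_734_18 : EL := (EL.cons 4 (TM.mk (P.cons (P.lf 64872112 0 0) (P.cons (P.lf 0 22629827 0) (P.cons (P.lf 2461562 0 0) (P.cons (P.lf 0 56571 0) (P.cons (P.lf 0 3446 0) (P.cons (P.lf 32 0 0) P.nil)))))) 26)
 (EL.cons 8 (TM.mk (P.cons (P.lf 131412614 0 0) (P.cons (P.lf 0 29237100 0) (P.cons (P.lf 1165859 0 0) (P.cons (P.lf 66645 0 0) (P.cons (P.lf 0 1046 0) (P.cons (P.lf 0 59 0) P.nil)))))) 26)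
 EL.nil))
noncomputable def S219_227_660_734_19 : EL := (EL.cons 4 (TM.mk (P.cons (P.cons (P.lf 0 16658595 0) (P.cons (P.lf 0 3776461 0) (P.cons (P.lf 486299 0 0) (P.lf 32419 0 0)))) (P.cons (P.cons (P.lf 4250168 0 0) (P.cons (P.lf 1203225 0 0) (P.cons (P.lf 0 154940 0) (P.lf 0 10329 0)))) (P.cons (P.cons (P.lf 0 135468 0) (P.cons (P.lf 0 98274 0) (P.cons (P.lf 12654 0 0) (P.lf 842 0 0)))) (P.cons (P.cons (P.lf 0 24559 0) (P.cons (P.lf 0 2663 0) (P.cons (P.lf 342 0 0) P.nil))) (P.cons (P.cons (P.lf 0 683 0) (P.cons (P.lf 427 0 0) P.nil)) (P.cons (P.cons (P.lf 213 0 0) P.nil) P.nil)))))) 248)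
 (EL.cons 8 (TM.mk (P.cons (P.cons (P.lf 0 33745619 0) (P.cons (P.lf 0 7650048 0) (P.cons (P.lf 985104 0 0) (P.lf 65673 0 0)))) (P.cons (P.cons (P.lf 4345738 0 0) (P.cons (P.lf 1470781 0 0) (P.cons (P.lf 0 189394 0) (P.lf 0 12626 0)))) (P.cons (P.cons (P.lf 307122 0 0) (P.cons (P.lf 0 5881 0) (P.cons (P.lf 757 0 0) (P.lf 50 0 0)))) (P.cons (P.cons (P.lf 0 16619 0) (P.cons (P.lf 0 7892 0) (P.cons (P.lf 1016 0 0) P.nil))) (P.cons (P.cons (P.lf 0 3569 0) (P.cons (P.lf 0 55 0) P.nil)) (P.cons (P.cons (P.lf 9 0 0) P.nil) P.nil)))))) 211)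
 EL.nil))
noncomputable def S219_227_660_734_20 : EL := (EL.cons 4 (TM.mk (P.cons (P.cons (P.lf 4277782 0 0) (P.cons (P.lf 1939525 0 0) (P.cons (P.lf 0 29911 0) (P.cons (P.lf 0 73268 0) (P.cons (P.lf 0 128 0) (P.cons (P.lf 485 0 0) P.nil)))))) (P.cons (P.cons (P.lf 0 690560 0) (P.cons (P.lf 0 436215 0) (P.cons (P.lf 0 7227 0) (P.cons (P.lf 20072 0 0) (P.cons (P.lf 36 0 0) P.nil))))) (P.cons (P.cons (P.lf 0 55184 0) (P.cons (P.lf 0 1857 0) (P.cons (P.lf 3540 0 0) (P.cons (P.lf 0 833 0) P.nil)))) (P.cons (P.cons (P.lf 5545 0 0) (P.cons (P.lf 3920 0 0) (P.cons (P.lf 0 90 0) P.nil))) (P.cons (P.cons (P.lf 1069 0 0) (P.cons (P.lf 170 0 0) P.nil)) (P.cons (P.cons (P.lf 0 20 0) P.nil) P.nil)))))) 848)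
 (EL.cons 8 (TM.mk (P.cons (P.cons (P.lf 8665582 0 0) (P.cons (P.lf 3928932 0 0) (P.cons (P.lf 0 60592 0) (P.cons (P.lf 0 148422 0) (P.cons (P.lf 0 261 0) (P.cons (P.lf 984 0 0) P.nil)))))) (P.cons (P.cons (P.lf 0 303949 0) (P.cons (P.lf 0 387211 0) (P.cons (P.lf 0 22297 0) (P.cons (P.lf 21908 0 0) (P.cons (P.lf 41 0 0) P.nil))))) (P.cons (P.cons (P.lf 0 158524 0) (P.cons (P.lf 0 56465 0) (P.cons (P.lf 4411 0 0) (P.cons (P.lf 1220 0 0) P.nil)))) (P.cons (P.cons (P.lf 0 8118 0) (P.cons (P.lf 1354 0 0) (P.cons (P.lf 390 0 0) P.nil))) (P.cons (P.cons (P.lf 1274 0 0) (P.cons (P.lf 551 0 0) P.nil)) (P.cons (P.cons (P.lf 118 0 0) P.nil) P.nil)))))) 921)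
 EL.nil))
noncomputable def S219_227_660_734_21 : EL := (EL.cons 4 (TM.mk (P.cons (P.cons (P.lf 2428808832 0 0) (P.cons (P.lf 177604983 0 0) (P.cons (P.lf 0 22870386 0) (P.lf 0 1524690 0)))) (P.cons (P.cons (P.lf 161512512 0 0) (P.cons (P.lf 0 15283572 0) (P.cons (P.lf 1968081 0 0) (P.lf 131205 0 0)))) (P.cons (P.cons (P.lf 0 16041561 0) (P.cons (P.lf 0 1023954 0) (P.cons (P.lf 131850 0 0) (P.lf 8784 0 0)))) (P.cons (P.cons (P.lf 0 667077 0) (P.cons (P.lf 20268 0 0) (P.cons (P.lf 0 2610 0) P.nil))) (P.cons (P.cons (P.lf 19560 0 0) (P.cons (P.lf 1632 0 0) P.nil)) (P.cons (P.cons (P.lf 921 0 0) P.nil) P.nil)))))) 1386)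
 (EL.cons 8 (TM.mk (P.cons (P.cons (P.lf 0 426306342 0) (P.cons (P.lf 0 31173363 0) (P.cons (P.lf 4014234 0 0) (P.lf 267618 0 0)))) (P.cons (P.cons (P.lf 25516845 0 0) (P.cons (P.lf 6621471 0 0) (P.cons (P.lf 0 852651 0) (P.lf 0 56838 0)))) (P.cons (P.cons (P.lf 5987772 0 0) (P.cons (P.lf 0 189192 0) (P.cons (P.lf 24360 0 0) (P.lf 1620 0 0)))) (P.cons (P.cons (P.lf 0 247029 0) (P.cons (P.lf 0 22302 0) (P.cons (P.lf 2865 0 0) P.nil))) (P.cons (P.cons (P.lf 0 14487 0) (P.cons (P.lf 198 0 0) P.nil)) (P.cons (P.cons (P.lf 237 0 0) P.nil) P.nil)))))) 1659)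
 (EL.cons 11 (TM.mk (P.cons (P.cons (P.lf 1685587530 0 0) (P.cons (P.lf 0 481197147 0) (P.cons (P.lf 0 35992773 0) (P.cons (P.lf 2425386 0 0) (P.lf 121269 0 0))))) (P.cons (P.cons (P.lf 33965082 0 0) (P.cons (P.lf 0 9696261 0) (P.cons (P.lf 0 725262 0) (P.cons (P.lf 48870 0 0) (P.lf 2442 0 0))))) (P.cons (P.cons (P.lf 0 1719837 0) (P.cons (P.lf 490974 0 0) (P.cons (P.lf 36723 0 0) (P.cons (P.lf 0 2472 0) P.nil)))) (P.cons (P.cons (P.lf 0 38529 0) (P.cons (P.lf 10998 0 0) (P.cons (P.lf 822 0 0) P.nil))) (P.cons (P.cons (P.lf 798 0 0) (P.cons (P.lf 0 228 0) P.nil)) (P.cons (P.cons (P.lf 21 0 0) P.nil) P.nil)))))) 435)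
 EL.nil)))
noncomputable def S219_227_660_734_22 : EL := (EL.cons 4 (TM.mk (P.cons (P.cons (P.lf 0 623697051 0) (P.cons (P.lf 0 186997992 0) (P.cons (P.lf 13740846 0 0) (P.cons (P.lf 4268079 0 0) (P.cons (P.lf 6072 0 0) (P.cons (P.lf 0 22857 0) P.nil)))))) (P.cons (P.cons (P.lf 0 99917844 0) (P.cons (P.lf 0 14024775 0) (P.cons (P.lf 2383197 0 0) (P.cons (P.lf 0 28260 0) (P.cons (P.lf 0 339 0) P.nil))))) (P.cons (P.cons (P.lf 0 1559958 0) (P.cons (P.lf 1344114 0 0) (P.cons (P.lf 0 72330 0) (P.cons (P.lf 0 37482 0) P.nil)))) (P.cons (P.cons (P.lf 566805 0 0) (P.cons (P.lf 127245 0 0) (P.cons (P.lf 0 16467 0) P.nil))) (P.cons (P.cons (P.lf 34668 0 0) (P.cons (P.lf 0 1620 0) P.nil)) (P.cons (P.cons (P.lf 0 927 0) P.nil) P.nil)))))) 12210)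
 (EL.cons 8 (TM.mk (P.cons (P.cons (P.lf 109471770 0 0) (P.cons (P.lf 32822028 0 0) (P.cons (P.lf 0 2411805 0) (P.cons (P.lf 0 749136 0) (P.cons (P.lf 0 1065 0) (P.cons (P.lf 4011 0 0) P.nil)))))) (P.cons (P.cons (P.lf 3705423 0 0) (P.cons (P.lf 0 1685562 0) (P.cons (P.lf 0 113559 0) (P.cons (P.lf 99615 0 0) (P.cons (P.lf 192 0 0) P.nil))))) (P.cons (P.cons (P.lf 0 1836906 0) (P.cons (P.lf 0 515406 0) (P.cons (P.lf 63231 0 0) (P.cons (P.lf 5232 0 0) P.nil)))) (P.cons (P.cons (P.lf 0 122076 0) (P.cons (P.lf 8385 0 0) (P.cons (P.lf 990 0 0) P.nil))) (P.cons (P.cons (P.lf 6027 0 0) (P.cons (P.lf 2787 0 0) P.nil)) (P.cons (P.cons (P.lf 834 0 0) P.nil) P.nil)))))) 4419)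
 (EL.cons 11 (TM.mk (P.cons (P.cons (P.lf 0 432844263 0) (P.cons (P.lf 25442532 0 0) (P.cons (P.lf 49890648 0 0) (P.cons (P.lf 0 1292346 0) (P.cons (P.lf 0 682620 0) (P.cons (P.lf 0 6864 0) P.nil)))))) (P.cons (P.cons (P.lf 0 49281123 0) (P.cons (P.lf 9125541 0 0) (P.cons (P.lf 3099984 0 0) (P.cons (P.lf 0 104637 0) (P.cons (P.lf 0 36363 0) P.nil))))) (P.cons (P.cons (P.lf 0 1619922 0) (P.cons (P.lf 638043 0 0) (P.cons (P.lf 0 38145 0) (P.cons (P.lf 0 1131 0) P.nil)))) (P.cons (P.cons (P.lf 115545 0 0) (P.cons (P.lf 0 20064 0) (P.cons (P.lf 0 7815 0) P.nil))) (P.cons (P.cons (P.lf 6036 0 0) (P.cons (P.lf 0 1821 0) P.nil)) (P.cons (P.cons (P.lf 0 93 0) P.nil) P.nil)))))) 8793)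
 EL.nil)))
noncomputable def S219_227_660_734_23 : EL := (EL.cons 4 (TM.mk (P.cons (P.cons (P.lf 0 613435587 0) (P.cons (P.lf 0 44857056 0) (P.cons (P.lf 5776290 0 0) (P.lf 385083 0 0)))) (P.cons (P.cons (P.lf 30537147 0 0) (P.cons (P.lf 9076059 0 0) (P.cons (P.lf 0 1168731 0) (P.lf 0 77913 0)))) (P.cons (P.cons (P.lf 9330153 0 0) (P.cons (P.lf 0 151092 0) (P.cons (P.lf 19455 0 0) (P.lf 1296 0 0)))) (P.cons (P.cons (P.lf 0 285720 0) (P.cons (P.lf 0 39924 0) (P.cons (P.lf 5139 0 0) P.nil))) (P.cons (P.cons (P.lf 0 29559 0) (P.cons (P.lf 54 0 0) P.nil)) (P.cons (P.cons (P.lf 303 0 0) P.nil) P.nil)))))) 1002)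
 (EL.cons 8 (TM.mk (P.cons (P.cons (P.lf 107670672 0 0) (P.cons (P.lf 7873344 0 0) (P.cons (P.lf 0 1013859 0) (P.lf 0 67590 0)))) (P.cons (P.cons (P.lf 0 18964554 0) (P.cons (P.lf 0 2587866 0) (P.cons (P.lf 333240 0 0) (P.lf 22212 0 0)))) (P.cons (P.cons (P.lf 0 856875 0) (P.cons (P.lf 235374 0 0) (P.cons (P.lf 0 30306 0) (P.lf 0 2019 0)))) (P.cons (P.cons (P.lf 247143 0 0) (P.cons (P.lf 1773 0 0) (P.cons (P.lf 0 225 0) P.nil))) (P.cons (P.cons (P.lf 0 2427 0) (P.cons (P.lf 0 792 0) P.nil)) (P.cons (P.cons (P.lf 0 588 0) P.nil) P.nil)))))) 714)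
 (EL.cons 11 (TM.mk (P.cons (P.cons (P.lf 0 425722833 0) (P.cons (P.lf 121534248 0 0) (P.cons (P.lf 9090564 0 0) (P.cons (P.lf 0 612570 0) (P.lf 0 30627 0))))) (P.cons (P.cons (P.lf 40924260 0 0) (P.cons (P.lf 0 11682951 0) (P.cons (P.lf 0 873864 0) (P.cons (P.lf 58884 0 0) (P.lf 2943 0 0))))) (P.cons (P.cons (P.lf 1803336 0 0) (P.cons (P.lf 0 514809 0) (P.cons (P.lf 0 38505 0) (P.cons (P.lf 2592 0 0) P.nil)))) (P.cons (P.cons (P.lf 0 46257 0) (P.cons (P.lf 13206 0 0) (P.cons (P.lf 987 0 0) P.nil))) (P.cons (P.cons (P.lf 0 2145 0) (P.cons (P.lf 612 0 0) P.nil)) (P.cons (P.cons (P.lf 18 0 0) P.nil) P.nil)))))) 465)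
 EL.nil)))
noncomputable def S219_227_660_734_24 : EL := (EL.cons 4 (TM.mk (P.cons (P.cons (P.lf 157524939 0 0) (P.cons (P.lf 47229414 0 0) (P.cons (P.lf 0 3470475 0) (P.cons (P.lf 0 1077972 0) (P.cons (P.lf 0 1533 0) (P.cons (P.lf 5772 0 0) P.nil)))))) (P.cons (P.cons (P.lf 6919023 0 0) (P.cons (P.lf 0 1949607 0) (P.cons (P.lf 0 198369 0) (P.cons (P.lf 132480 0 0) (P.cons (P.lf 264 0 0) P.nil))))) (P.cons (P.cons (P.lf 0 2677863 0) (P.cons (P.lf 0 792570 0) (P.cons (P.lf 91284 0 0) (P.cons (P.lf 9576 0 0) P.nil)))) (P.cons (P.cons (P.lf 0 206190 0) (P.cons (P.lf 5682 0 0) (P.cons (P.lf 2454 0 0) P.nil))) (P.cons (P.cons (P.lf 8379 0 0) (P.cons (P.lf 4569 0 0) P.nil)) (P.cons (P.cons (P.lf 1398 0 0) P.nil) P.nil)))))) 6060)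
 (EL.cons 8 (TM.mk (P.cons (P.cons (P.lf 0 27648894 0) (P.cons (P.lf 0 8289741 0) (P.cons (P.lf 609138 0 0) (P.cons (P.lf 189204 0 0) (P.cons (P.lf 267 0 0) (P.cons (P.lf 0 1011 0) P.nil)))))) (P.cons (P.cons (P.lf 2279124 0 0) (P.cons (P.lf 1389639 0 0) (P.cons (P.lf 0 42147 0) (P.cons (P.lf 0 47160 0) (P.cons (P.lf 0 78 0) P.nil))))) (P.cons (P.cons (P.lf 596886 0 0) (P.cons (P.lf 87903 0 0) (P.cons (P.lf 0 19836 0) (P.cons (P.lf 1437 0 0) P.nil)))) (P.cons (P.cons (P.lf 0 23139 0) (P.cons (P.lf 0 17877 0) (P.cons (P.lf 1599 0 0) P.nil))) (P.cons (P.cons (P.lf 0 5550 0) (P.cons (P.lf 0 561 0) P.nil)) (P.cons (P.cons (P.lf 0 45 0) P.nil) P.nil)))))) 2022)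
 (EL.cons 11 (TM.mk (P.cons (P.cons (P.lf 109321932 0 0) (P.cons (P.lf 0 6425928 0) (P.cons (P.lf 0 12600702 0) (P.cons (P.lf 326403 0 0) (P.cons (P.lf 172407 0 0) (P.cons (P.lf 1734 0 0) P.nil)))))) (P.cons (P.cons (P.lf 0 265104 0) (P.cons (P.lf 0 1557603 0) (P.cons (P.lf 682245 0 0) (P.cons (P.lf 0 11523 0) (P.cons (P.lf 0 10863 0) P.nil))))) (P.cons (P.cons (P.lf 0 1133550 0) (P.cons (P.lf 112458 0 0) (P.cons (P.lf 111669 0 0) (P.cons (P.lf 0 3072 0) P.nil)))) (P.cons (P.cons (P.lf 0 84288 0) (P.cons (P.lf 25620 0 0) (P.cons (P.lf 1152 0 0) P.nil))) (P.cons (P.cons (P.lf 1935 0 0) (P.cons (P.lf 0 60 0) P.nil)) (P.cons (P.cons (P.lf 243 0 0) P.nil) P.nil)))))) 4779)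
 EL.nil)))
noncomputable def S219_227_660_734_25 : EL := (EL.cons 4 (TM.mk (P.cons (P.cons (P.lf 154933239 0 0) (P.cons (P.lf 11329386 0 0) (P.cons (P.lf 0 1458897 0) (P.lf 0 97257 0)))) (P.cons (P.cons (P.lf 0 25728168 0) (P.cons (P.lf 0 3609678 0) (P.cons (P.lf 464820 0 0) (P.lf 30987 0 0)))) (P.cons (P.cons (P.lf 0 1594851 0) (P.cons (P.lf 294822 0 0) (P.cons (P.lf 0 37965 0) (P.lf 0 2529 0)))) (P.cons (P.cons (P.lf 357621 0 0) (P.cons (P.lf 7989 0 0) (P.cons (P.lf 0 1029 0) P.nil))) (P.cons (P.cons (P.lf 957 0 0) (P.cons (P.lf 0 1284 0) P.nil)) (P.cons (P.cons (P.lf 0 1080 0) P.nil) P.nil)))))) 747)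
 (EL.cons 8 (TM.mk (P.cons (P.cons (P.lf 0 27193998 0) (P.cons (P.lf 0 1988541 0) (P.cons (P.lf 256065 0 0) (P.lf 17070 0 0)))) (P.cons (P.cons (P.lf 7951905 0 0) (P.cons (P.lf 884832 0 0) (P.cons (P.lf 0 113940 0) (P.lf 0 7593 0)))) (P.cons (P.cons (P.lf 0 316806 0) (P.cons (P.lf 0 133713 0) (P.cons (P.lf 17217 0 0) (P.lf 1146 0 0)))) (P.cons (P.cons (P.lf 0 92592 0) (P.cons (P.lf 5832 0 0) (P.cons (P.lf 0 750 0) P.nil))) (P.cons (P.cons (P.lf 7815 0 0) (P.cons (P.lf 321 0 0) P.nil)) (P.cons (P.cons (P.lf 138 0 0) P.nil) P.nil)))))) 390)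
 (EL.cons 11 (TM.mk (P.cons (P.cons (P.lf 107523297 0 0) (P.cons (P.lf 0 30695469 0) (P.cons (P.lf 0 2295969 0) (P.cons (P.lf 154713 0 0) (P.lf 7734 0 0))))) (P.cons (P.cons (P.lf 0 22838814 0) (P.cons (P.lf 6519963 0 0) (P.cons (P.lf 487683 0 0) (P.cons (P.lf 0 32862 0) (P.lf 0 1641 0))))) (P.cons (P.cons (P.lf 652587 0 0) (P.cons (P.lf 0 186297 0) (P.cons (P.lf 0 13935 0) (P.cons (P.lf 939 0 0) P.nil)))) (P.cons (P.cons (P.lf 76938 0 0) (P.cons (P.lf 0 21963 0) (P.cons (P.lf 0 1641 0) P.nil))) (P.cons (P.cons (P.lf 0 687 0) (P.cons (P.lf 195 0 0) P.nil)) (P.cons (P.cons (P.lf 0 96 0) P.nil) P.nil)))))) 459)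
 EL.nil)))
noncomputable def S219_227_660_734_26 : EL := (EL.cons 4 (TM.mk (P.cons (P.cons (P.lf 0 39785511 0) (P.cons (P.lf 0 11928564 0) (P.cons (P.lf 876525 0 0) (P.cons (P.lf 272259 0 0) (P.cons (P.lf 387 0 0) (P.cons (P.lf 0 1458 0) P.nil)))))) (P.cons (P.cons (P.lf 2878713 0 0) (P.cons (P.lf 1879449 0 0) (P.cons (P.lf 0 51819 0) (P.cons (P.lf 0 65118 0) (P.cons (P.lf 0 111 0) P.nil))))) (P.cons (P.cons (P.lf 914253 0 0) (P.cons (P.lf 153327 0 0) (P.cons (P.lf 0 29646 0) (P.cons (P.lf 1233 0 0) P.nil)))) (P.cons (P.cons (P.lf 0 26253 0) (P.cons (P.lf 0 25503 0) (P.cons (P.lf 2043 0 0) P.nil))) (P.cons (P.cons (P.lf 0 8829 0) (P.cons (P.lf 0 1152 0) P.nil)) (P.cons (P.cons (P.lf 0 132 0) P.nil) P.nil)))))) 2640)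
 (EL.cons 8 (TM.mk (P.cons (P.cons (P.lf 6983181 0 0) (P.cons (P.lf 2093709 0 0) (P.cons (P.lf 0 153846 0) (P.cons (P.lf 0 47787 0) (P.cons (P.lf 0 66 0) (P.cons (P.lf 255 0 0) P.nil)))))) (P.cons (P.cons (P.lf 0 1387629 0) (P.cons (P.lf 0 594429 0) (P.cons (P.lf 28533 0 0) (P.cons (P.lf 17466 0 0) (P.cons (P.lf 27 0 0) P.nil))))) (P.cons (P.cons (P.lf 0 89913 0) (P.cons (P.lf 16782 0 0) (P.cons (P.lf 3906 0 0) (P.cons (P.lf 0 1704 0) P.nil)))) (P.cons (P.cons (P.lf 24087 0 0) (P.cons (P.lf 7467 0 0) (P.cons (P.lf 0 999 0) P.nil))) (P.cons (P.cons (P.lf 837 0 0) (P.cons (P.lf 0 372 0) P.nil)) (P.cons (P.cons (P.lf 0 159 0) P.nil) P.nil)))))) 867)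
 (EL.cons 11 (TM.mk (P.cons (P.cons (P.lf 0 27611049 0) (P.cons (P.lf 1622973 0 0) (P.cons (P.lf 3182514 0 0) (P.cons (P.lf 0 82437 0) (P.cons (P.lf 0 43542 0) (P.cons (P.lf 0 435 0) P.nil)))))) (P.cons (P.cons (P.lf 3277545 0 0) (P.cons (P.lf 204678 0 0) (P.cons (P.lf 0 542370 0) (P.cons (P.lf 12495 0 0) (P.cons (P.lf 7806 0 0) P.nil))))) (P.cons (P.cons (P.lf 302601 0 0) (P.cons (P.lf 0 75561 0) (P.cons (P.lf 0 10944 0) (P.cons (P.lf 507 0 0) P.nil)))) (P.cons (P.cons (P.lf 0 12900 0) (P.cons (P.lf 0 3459 0) (P.cons (P.lf 3234 0 0) P.nil))) (P.cons (P.cons (P.lf 0 3222 0) (P.cons (P.lf 804 0 0) P.nil)) (P.cons (P.cons (P.lf 0 12 0) P.nil) P.nil)))))) 2148)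
 EL.nil)))
noncomputable def S219_227_660_734_27 : EL := (EL.cons 13 (TM.mk (P.lf 0 4294967296 0) 0)
 EL.nil)
noncomputable def S219_227_660_734_28 : EL := (EL.cons 13 (TM.mk (P.cons (P.cons (P.lf 1102910366 0 0) (P.cons (P.lf 250027044 0 0) (P.cons (P.lf 0 32196256 0) (P.lf 0 2146416 0)))) (P.cons (P.cons (P.lf 103346981 0 0) (P.cons (P.lf 7557176 0 0) (P.cons (P.lf 0 973144 0) (P.lf 0 64872 0)))) (P.cons (P.cons (P.lf 3170503 0 0) (P.cons (P.lf 0 344588 0) (P.cons (P.lf 44372 0 0) (P.lf 2956 0 0)))) (P.cons (P.cons (P.lf 0 227650 0) (P.cons (P.lf 0 12552 0) (P.cons (P.lf 1612 0 0) P.nil))) (P.cons (P.cons (P.lf 0 5724 0) (P.cons (P.lf 208 0 0) P.nil)) (P.cons (P.cons (P.lf 137 0 0) P.nil) P.nil)))))) 593)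
 EL.nil)
noncomputable def S219_227_660_734_29 : EL := (EL.cons 13 (TM.mk (P.cons (P.cons (P.lf 0 283217820 0) (P.cons (P.lf 0 128409554 0) (P.cons (P.lf 1980375 0 0) (P.cons (P.lf 4850905 0 0) (P.cons (P.lf 8550 0 0) (P.cons (P.lf 0 32180 0) P.nil)))))) (P.cons (P.cons (P.lf 0 53077217 0) (P.cons (P.lf 0 15913708 0) (P.cons (P.lf 1169358 0 0) (P.cons (P.lf 363215 0 0) (P.cons (P.lf 516 0 0) P.nil))))) (P.cons (P.cons (P.lf 0 4115085 0) (P.cons (P.lf 0 555847 0) (P.cons (P.lf 98399 0 0) (P.cons (P.lf 0 2135 0) P.nil)))) (P.cons (P.cons (P.lf 0 35662 0) (P.cons (P.lf 38377 0 0) (P.cons (P.lf 0 2265 0) P.nil))) (P.cons (P.cons (P.lf 11554 0 0) (P.cons (P.lf 2473 0 0) P.nil)) (P.cons (P.cons (P.lf 541 0 0) P.nil) P.nil)))))) 7297)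
 EL.nil)
noncomputable def S219_227_660_734_30 : EL := (EL.cons 13 (TM.mk (P.cons (P.lf 1084764580 0 0) (P.cons (P.lf 0 126135536 0) (P.cons (P.lf 0 946524 0) (P.cons (P.lf 33040 0 0) (P.cons (P.lf 444 0 0) (P.cons (P.lf 0 4 0) P.nil)))))) 40)
 EL.nil)
noncomputable def S219_227_660_734_31 : EL := (EL.cons 13 (TM.mk (P.cons (P.cons (P.lf 0 278558139 0) (P.cons (P.lf 0 63148439 0) (P.cons (P.lf 8131693 0 0) (P.lf 542112 0 0)))) (P.cons (P.cons (P.lf 6288533 0 0) (P.cons (P.lf 5434159 0 0) (P.cons (P.lf 0 699763 0) (P.lf 0 46651 0)))) (P.cons (P.cons (P.lf 2477413 0 0) (P.cons (P.lf 364073 0 0) (P.cons (P.lf 0 46881 0) (P.lf 0 3124 0)))) (P.cons (P.cons (P.lf 164899 0 0) (P.cons (P.lf 0 7207 0) (P.cons (P.lf 929 0 0) P.nil))) (P.cons (P.cons (P.lf 0 5450 0) (P.cons (P.lf 0 581 0) P.nil)) (P.cons (P.cons (P.lf 0 286 0) P.nil) P.nil)))))) 408)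
 EL.nil)
noncomputable def S219_227_660_734_32 : EL := (EL.cons 13 (TM.mk (P.cons (P.cons (P.lf 71531315 0 0) (P.cons (P.lf 32431943 0 0) (P.cons (P.lf 0 500176 0) (P.cons (P.lf 0 1225175 0) (P.cons (P.lf 0 2159 0) (P.cons (P.lf 8127 0 0) P.nil)))))) (P.cons (P.cons (P.lf 5087920 0 0) (P.cons (P.lf 248108 0 0) (P.cons (P.lf 0 237180 0) (P.cons (P.lf 50726 0 0) (P.cons (P.lf 120 0 0) P.nil))))) (P.cons (P.cons (P.lf 0 581866 0) (P.cons (P.lf 0 355267 0) (P.cons (P.lf 9926 0 0) (P.cons (P.lf 12275 0 0) P.nil)))) (P.cons (P.cons (P.lf 0 121364 0) (P.cons (P.lf 0 28536 0) (P.cons (P.lf 3704 0 0) P.nil))) (P.cons (P.cons (P.lf 0 4434 0) (P.cons (P.lf 515 0 0) P.nil)) (P.cons (P.cons (P.lf 231 0 0) P.nil) P.nil)))))) 3445)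
 EL.nil)
noncomputable def S219_227_660_734_33 : EL := (EL.cons 14 (TM.mk (P.lf 8589934592 0 0) 0)
 EL.nil)
noncomputable def S219_227_660_734_34 : EL := (EL.cons 14 (TM.mk (P.cons (P.cons (P.lf 0 2205820732 0) (P.cons (P.lf 0 500054088 0) (P.cons (P.lf 64392512 0 0) (P.lf 4292832 0 0)))) (P.cons (P.cons (P.lf 0 206693962 0) (P.cons (P.lf 0 15114352 0) (P.cons (P.lf 1946288 0 0) (P.lf 129744 0 0)))) (P.cons (P.cons (P.lf 0 6341006 0) (P.cons (P.lf 689176 0 0) (P.cons (P.lf 0 88744 0) (P.lf 0 5912 0)))) (P.cons (P.cons (P.lf 455300 0 0) (P.cons (P.lf 25104 0 0) (P.cons (P.lf 0 3224 0) P.nil))) (P.cons (P.cons (P.lf 11448 0 0) (P.cons (P.lf 0 416 0) P.nil)) (P.cons (P.cons (P.lf 0 274 0) P.nil) P.nil)))))) 1186)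
 EL.nil)
noncomputable def S219_227_660_734_35 : EL := (EL.cons 14 (TM.mk (P.cons (P.cons (P.lf 566435640 0 0) (P.cons (P.lf 256819108 0 0) (P.cons (P.lf 0 3960750 0) (P.cons (P.lf 0 9701810 0) (P.cons (P.lf 0 17100 0) (P.cons (P.lf 64360 0 0) P.nil)))))) (P.cons (P.cons (P.lf 106154434 0 0) (P.cons (P.lf 31827416 0 0) (P.cons (P.lf 0 2338716 0) (P.cons (P.lf 0 726430 0) (P.cons (P.lf 0 1032 0) P.nil))))) (P.cons (P.cons (P.lf 8230170 0 0) (P.cons (P.lf 1111694 0 0) (P.cons (P.lf 0 196798 0) (P.cons (P.lf 4270 0 0) P.nil)))) (P.cons (P.cons (P.lf 71324 0 0) (P.cons (P.lf 0 76754 0) (P.cons (P.lf 4530 0 0) P.nil))) (P.cons (P.cons (P.lf 0 23108 0) (P.cons (P.lf 0 4946 0) P.nil)) (P.cons (P.cons (P.lf 0 1082 0) P.nil) P.nil)))))) 14594)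
 EL.nil)
noncomputable def S219_227_660_734_36 : EL := (EL.cons 14 (TM.mk (P.cons (P.lf 0 2169529160 0) (P.cons (P.lf 252271072 0 0) (P.cons (P.lf 1893048 0 0) (P.cons (P.lf 0 66080 0) (P.cons (P.lf 0 888 0) (P.cons (P.lf 8 0 0) P.nil)))))) 80)
 EL.nil)
noncomputable def S219_227_660_734_37 : EL := (EL.cons 14 (TM.mk (P.cons (P.cons (P.lf 557116278 0 0) (P.cons (P.lf 126296878 0 0) (P.cons (P.lf 0 16263386 0) (P.lf 0 1084224 0)))) (P.cons (P.cons (P.lf 0 12577066 0) (P.cons (P.lf 0 10868318 0) (P.cons (P.lf 1399526 0 0) (P.lf 93302 0 0)))) (P.cons (P.cons (P.lf 0 4954826 0) (P.cons (P.lf 0 728146 0) (P.cons (P.lf 93762 0 0) (P.lf 6248 0 0)))) (P.cons (P.cons (P.lf 0 329798 0) (P.cons (P.lf 14414 0 0) (P.cons (P.lf 0 1858 0) P.nil))) (P.cons (P.cons (P.lf 10900 0 0) (P.cons (P.lf 1162 0 0) P.nil)) (P.cons (P.cons (P.lf 572 0 0) P.nil) P.nil)))))) 816)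
 EL.nil)
noncomputable def S219_227_660_734_38 : EL := (EL.cons 14 (TM.mk (P.cons (P.cons (P.lf 0 143062630 0) (P.cons (P.lf 0 64863886 0) (P.cons (P.lf 1000352 0 0) (P.cons (P.lf 2450350 0 0) (P.cons (P.lf 4318 0 0) (P.cons (P.lf 0 16254 0) P.nil)))))) (P.cons (P.cons (P.lf 0 10175840 0) (P.cons (P.lf 0 496216 0) (P.cons (P.lf 474360 0 0) (P.cons (P.lf 0 101452 0) (P.cons (P.lf 0 240 0) P.nil))))) (P.cons (P.cons (P.lf 1163732 0 0) (P.cons (P.lf 710534 0 0) (P.cons (P.lf 0 19852 0) (P.cons (P.lf 0 24550 0) P.nil)))) (P.cons (P.cons (P.lf 242728 0 0) (P.cons (P.lf 57072 0 0) (P.cons (P.lf 0 7408 0) P.nil))) (P.cons (P.cons (P.lf 8868 0 0) (P.cons (P.lf 0 1030 0) P.nil)) (P.cons (P.cons (P.lf 0 462 0) P.nil) P.nil)))))) 6890)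
 EL.nil)
noncomputable def S219_227_660_734_39 : EL := (EL.cons 14 (TM.mk (P.cons (P.lf 547950246 0 0) (P.cons (P.lf 0 127430410 0) (P.cons (P.lf 6452510 0 0) (P.cons (P.lf 144570 0 0) (P.cons (P.lf 0 3014 0) (P.cons (P.lf 0 84 0) P.nil)))))) 60)
 EL.nil)
noncomputable def S219_227_660_734_40 : EL := (EL.cons 14 (TM.mk (P.cons (P.cons (P.lf 0 140708872 0) (P.cons (P.lf 0 31898352 0) (P.cons (P.lf 4107584 0 0) (P.lf 273838 0 0)))) (P.cons (P.cons (P.lf 19538056 0 0) (P.cons (P.lf 6454086 0 0) (P.cons (P.lf 0 831100 0) (P.lf 0 55406 0)))) (P.cons (P.cons (P.lf 1004834 0 0) (P.cons (P.lf 0 107444 0) (P.cons (P.lf 13834 0 0) (P.lf 922 0 0)))) (P.cons (P.cons (P.lf 0 69274 0) (P.cons (P.lf 0 28390 0) (P.cons (P.lf 3656 0 0) P.nil))) (P.cons (P.cons (P.lf 0 13490 0) (P.cons (P.lf 38 0 0) P.nil)) (P.cons (P.cons (P.lf 142 0 0) P.nil) P.nil)))))) 666)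
 EL.nil)
noncomputable def S219_227_660_734_41 : EL := (EL.cons 14 (TM.mk (P.cons (P.cons (P.lf 36132818 0 0) (P.cons (P.lf 16382440 0 0) (P.cons (P.lf 0 252654 0) (P.cons (P.lf 0 618876 0) (P.cons (P.lf 0 1090 0) (P.cons (P.lf 4104 0 0) P.nil)))))) (P.cons (P.cons (P.lf 0 1631418 0) (P.cons (P.lf 0 1779608 0) (P.cons (P.lf 0 90428 0) (P.cons (P.lf 97586 0 0) (P.cons (P.lf 186 0 0) P.nil))))) (P.cons (P.cons (P.lf 0 624294 0) (P.cons (P.lf 0 208324 0) (P.cons (P.lf 19164 0 0) (P.cons (P.lf 3760 0 0) P.nil)))) (P.cons (P.cons (P.lf 0 28270 0) (P.cons (P.lf 6842 0 0) (P.cons (P.lf 1384 0 0) P.nil))) (P.cons (P.cons (P.lf 5236 0 0) (P.cons (P.lf 2102 0 0) P.nil)) (P.cons (P.cons (P.lf 422 0 0) P.nil) P.nil)))))) 3506)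
 EL.nil)
noncomputable def S219_227_660_734_42 : EL := (EL.cons 14 (TM.mk (P.cons (P.lf 0 138393840 0) (P.cons (P.lf 48276966 0 0) (P.cons (P.lf 0 5251334 0) (P.cons (P.lf 120686 0 0) (P.cons (P.lf 7352 0 0) (P.cons (P.lf 0 70 0) P.nil)))))) 42)
 EL.nil)
noncomputable def S219_227_660_734_43 : EL := (EL.cons 14 (TM.mk (P.cons (P.cons (P.lf 35538338 0 0) (P.cons (P.lf 8056452 0 0) (P.cons (P.lf 0 1037438 0) (P.lf 0 69162 0)))) (P.cons (P.cons (P.lf 0 9067026 0) (P.cons (P.lf 0 2566882 0) (P.cons (P.lf 330540 0 0) (P.lf 22036 0 0)))) (P.cons (P.cons (P.lf 289000 0 0) (P.cons (P.lf 209652 0 0) (P.cons (P.lf 0 26996 0) (P.lf 0 1798 0)))) (P.cons (P.cons (P.lf 52394 0 0) (P.cons (P.lf 5682 0 0) (P.cons (P.lf 0 730 0) P.nil))) (P.cons (P.cons (P.lf 1458 0 0) (P.cons (P.lf 0 912 0) P.nil)) (P.cons (P.cons (P.lf 0 456 0) P.nil) P.nil)))))) 490)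
 EL.nil)
noncomputable def S219_227_660_734_44 : EL := (EL.cons 14 (TM.mk (P.cons (P.cons (P.lf 0 9125936 0) (P.cons (P.lf 0 4137654 0) (P.cons (P.lf 63812 0 0) (P.cons (P.lf 156306 0 0) (P.cons (P.lf 274 0 0) (P.cons (P.lf 0 1036 0) P.nil)))))) (P.cons (P.cons (P.lf 1473196 0 0) (P.cons (P.lf 930592 0 0) (P.cons (P.lf 15418 0 0) (P.cons (P.lf 0 42822 0) (P.cons (P.lf 0 78 0) P.nil))))) (P.cons (P.cons (P.lf 117726 0 0) (P.cons (P.lf 3962 0 0) (P.cons (P.lf 0 7552 0) (P.cons (P.lf 1778 0 0) P.nil)))) (P.cons (P.cons (P.lf 0 11830 0) (P.cons (P.lf 0 8364 0) (P.cons (P.lf 194 0 0) P.nil))) (P.cons (P.cons (P.lf 0 2282 0) (P.cons (P.lf 0 364 0) P.nil)) (P.cons (P.cons (P.lf 44 0 0) P.nil) P.nil)))))) 1764)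
 EL.nil)
noncomputable def S219_227_660_734_45 : EL := (EL.cons 14 (TM.mk (P.cons (P.cons (P.lf 0 145455760 0) (P.cons (P.lf 0 98923380 0) (P.cons (P.lf 0 9687212 0) (P.cons (P.lf 4930174 0 0) (P.cons (P.lf 667826 0 0) (P.cons (P.lf 0 90238 0) P.nil)))))) (P.cons (P.cons (P.lf 0 40889306 0) (P.cons (P.lf 0 21529010 0) (P.cons (P.lf 0 684712 0) (P.cons (P.lf 921486 0 0) (P.cons (P.lf 61390 0 0) P.nil))))) (P.cons (P.cons (P.lf 0 5085898 0) (P.cons (P.lf 0 1861344 0) (P.cons (P.lf 89516 0 0) (P.cons (P.lf 57016 0 0) P.nil)))) (P.cons (P.cons (P.lf 0 264690 0) (P.cons (P.lf 0 25382 0) (P.cons (P.lf 11994 0 0) P.nil))) (P.cons (P.cons (P.lf 4522 0 0) (P.cons (P.lf 6488 0 0) P.nil)) (P.cons (P.cons (P.lf 1340 0 0) P.nil) P.nil)))))) 37628)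
 EL.nil)
noncomputable def S219_227_660_734_46 : EL := (EL.cons 15 (TM.mk (P.lf 4294967296 0 0) 0)
 EL.nil)
noncomputable def S219_227_660_734_47 : EL := (EL.cons 15 (TM.mk (P.cons (P.cons (P.lf 0 1102910366 0) (P.cons (P.lf 0 250027044 0) (P.cons (P.lf 32196256 0 0) (P.lf 2146416 0 0)))) (P.cons (P.cons (P.lf 0 103346981 0) (P.cons (P.lf 0 7557176 0) (P.cons (P.lf 973144 0 0) (P.lf 64872 0 0)))) (P.cons (P.cons (P.lf 0 3170503 0) (P.cons (P.lf 344588 0 0) (P.cons (P.lf 0 44372 0) (P.lf 0 2956 0)))) (P.cons (P.cons (P.lf 227650 0 0) (P.cons (P.lf 12552 0 0) (P.cons (P.lf 0 1612 0) P.nil))) (P.cons (P.cons (P.lf 5724 0 0) (P.cons (P.lf 0 208 0) P.nil)) (P.cons (P.cons (P.lf 0 137 0) P.nil) P.nil)))))) 593)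
 EL.nil)
noncomputable def S219_227_660_734_48 : EL := (EL.cons 15 (TM.mk (P.cons (P.cons (P.lf 283217820 0 0) (P.cons (P.lf 128409554 0 0) (P.cons (P.lf 0 1980375 0) (P.cons (P.lf 0 4850905 0) (P.cons (P.lf 0 8550 0) (P.cons (P.lf 32180 0 0) P.nil)))))) (P.cons (P.cons (P.lf 53077217 0 0) (P.cons (P.lf 15913708 0 0) (P.cons (P.lf 0 1169358 0) (P.cons (P.lf 0 363215 0) (P.cons (P.lf 0 516 0) P.nil))))) (P.cons (P.cons (P.lf 4115085 0 0) (P.cons (P.lf 555847 0 0) (P.cons (P.lf 0 98399 0) (P.cons (P.lf 2135 0 0) P.nil)))) (P.cons (P.cons (P.lf 35662 0 0) (P.cons (P.lf 0 38377 0) (P.cons (P.lf 2265 0 0) P.nil))) (P.cons (P.cons (P.lf 0 11554 0) (P.cons (P.lf 0 2473 0) P.nil)) (P.cons (P.cons (P.lf 0 541 0) P.nil) P.nil)))))) 7297)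
 EL.nil)
noncomputable def S219_227_660_734 : SL := (SL.cons S219_227_660_734_0 (SL.cons S219_227_660_734_1 (SL.cons S219_227_660_734_2 (SL.cons S219_227_660_734_3 (SL.cons S219_227_660_734_4 (SL.cons S219_227_660_734_5 (SL.cons S219_227_660_734_6 (SL.cons S219_227_660_734_7 (SL.cons S219_227_660_734_8 (SL.cons S219_227_660_734_9 (SL.cons S219_227_660_734_10 (SL.cons S219_227_660_734_11 (SL.cons S219_227_660_734_12 (SL.cons S219_227_660_734_13 (SL.cons S219_227_660_734_14 (SL.cons S219_227_660_734_15 (SL.cons S219_227_660_734_16 (SL.cons S219_227_660_734_17 (SL.cons S219_227_660_734_18 (SL.cons S219_227_660_734_19 (SL.cons S219_227_660_734_20 (SL.cons S219_227_660_734_21 (SL.cons S219_227_660_734_22 (SL.cons S219_227_660_734_23 (SL.cons S219_227_660_734_24 (SL.cons S219_227_660_734_25 (SL.cons S219_227_660_734_26 (SL.cons S219_227_660_734_27 (SL.cons S219_227_660_734_28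 (SL.cons S219_227_660_734_29 (SL.cons S219_227_660_734_30 (SL.cons S219_227_660_734_31 (SL.cons S219_227_660_734_32 (SL.cons S219_227_660_734_33 (SL.cons S219_227_660_734_34 (SL.cons S219_227_660_734_35 (SL.cons S219_227_660_734_36 (SL.cons S219_227_660_734_37 (SL.cons S219_227_660_734_38 (SL.cons S219_227_660_734_39 (SL.cons S219_227_660_734_40 (SL.cons S219_227_660_734_41 (SL.cons S219_227_660_734_42 (SL.cons S219_227_660_734_43 (SL.cons S219_227_660_734_44 (SL.cons S219_227_660_734_45 (SL.cons S219_227_660_734_46 (SL.cons S219_227_660_734_47 (SL.cons S219_227_660_734_48 SL.nil)))))))))))))))))))))))))))))))))))))))))))))))))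
noncomputable def S219_227_660_808_0 : EL := (EL.cons 0 (TM.mk (P.cons (P.lf 7974119968 0 0) (P.cons (P.lf 111999383 0 0) (P.cons (P.lf 0 5671151 0) (P.cons (P.lf 0 127063 0) (P.cons (P.lf 2649 0 0) (P.cons (P.lf 73 0 0) P.nil)))))) 59)
 (EL.cons 1 (TM.mk (P.cons (P.lf 0 975579558 0) (P.cons (P.lf 103610482 0 0) (P.cons (P.lf 2541390 0 0) (P.cons (P.lf 0 79128 0) (P.cons (P.lf 0 1965 0) (P.cons (P.lf 24 0 0) P.nil)))))) 82)
 (EL.cons 5 (TM.mk (P.cons (P.lf 4466201750 0 0) (P.cons (P.lf 0 39822002 0) (P.cons (P.lf 2016406 0 0) (P.cons (P.lf 45176 0 0) (P.cons (P.lf 0 938 0) (P.cons (P.lf 0 26 0) P.nil)))))) 113)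
 (EL.cons 9 (TM.mk (P.lf 6442450944 0 0) 2)
 EL.nil))))
noncomputable def S219_227_660_808_1 : EL := (EL.cons 0 (TM.mk (P.cons (P.cons (P.lf 0 1225382557 0) (P.cons (P.lf 0 544835331 0) (P.cons (P.lf 234939138 0 0) (P.lf 26104347 0 0)))) (P.cons (P.cons (P.lf 0 310301750 0) (P.cons (P.lf 0 53850716 0) (P.cons (P.lf 23221033 0 0) (P.lf 2580102 0 0)))) (P.cons (P.cons (P.lf 0 23708042 0) (P.cons (P.lf 1513882 0 0) (P.cons (P.lf 0 652794 0) (P.lf 0 72529 0)))) (P.cons (P.cons (P.lf 1152222 0 0) (P.cons (P.lf 178500 0 0) (P.cons (P.lf 0 76966 0) P.nil))) (P.cons (P.cons (P.lf 78074 0 0) (P.cons (P.lf 0 778 0) P.nil)) (P.cons (P.cons (P.lf 0 1113 0) P.nil) P.nil)))))) 15010)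
 (EL.cons 1 (TM.mk (P.cons (P.cons (P.lf 1430672796 0 0) (P.cons (P.lf 192936033 0 0) (P.cons (P.lf 0 83196189 0) (P.lf 0 9244015 0)))) (P.cons (P.cons (P.lf 96641932 0 0) (P.cons (P.lf 0 11985260 0) (P.cons (P.lf 5168182 0 0) (P.lf 574241 0 0)))) (P.cons (P.cons (P.lf 0 10260910 0) (P.cons (P.lf 0 1780248 0) (P.cons (P.lf 767657 0 0) (P.lf 85290 0 0)))) (P.cons (P.cons (P.lf 0 837761 0) (P.cons (P.lf 17664 0 0) (P.cons (P.lf 0 7614 0) P.nil))) (P.cons (P.cons (P.lf 19569 0 0) (P.cons (P.lf 3954 0 0) P.nil)) (P.cons (P.cons (P.lf 1731 0 0) P.nil) P.nil)))))) 8312)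
 (EL.cons 5 (TM.mk (P.cons (P.cons (P.lf 0 1805919483 0) (P.cons (P.lf 0 415544708 0) (P.cons (P.lf 179187564 0 0) (P.lf 19909728 0 0)))) (P.cons (P.cons (P.lf 0 76442933 0) (P.cons (P.lf 731652 0 0) (P.cons (P.lf 0 315492 0) (P.lf 0 35050 0)))) (P.cons (P.cons (P.lf 3545015 0 0) (P.cons (P.lf 301430 0 0) (P.cons (P.lf 0 129980 0) (P.lf 0 14448 0)))) (P.cons (P.cons (P.lf 0 4245 0) (P.cons (P.lf 0 32862 0) (P.cons (P.lf 14168 0 0) P.nil))) (P.cons (P.cons (P.lf 0 18334 0) (P.cons (P.lf 0 238 0) P.nil)) (P.cons (P.cons (P.lf 132 0 0) P.nil) P.nil)))))) 9824)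
 (EL.cons 9 (TM.mk (P.cons (P.cons (P.lf 0 1977892107 0) (P.cons (P.lf 0 537585822 0) (P.cons (P.lf 231813066 0 0) (P.lf 25757004 0 0)))) (P.cons (P.cons (P.lf 0 164799205 0) (P.cons (P.lf 0 16248762 0) (P.cons (P.lf 7006650 0 0) (P.lf 778512 0 0)))) (P.cons (P.cons (P.lf 0 4309864 0) (P.cons (P.lf 740904 0 0) (P.cons (P.lf 0 319482 0) (P.lf 0 35496 0)))) (P.cons (P.cons (P.lf 357723 0 0) (P.cons (P.lf 26994 0 0) (P.cons (P.lf 0 11640 0) P.nil))) (P.cons (P.cons (P.lf 8316 0 0) (P.cons (P.lf 0 444 0) P.nil)) (P.cons (P.cons (P.lf 0 217 0) P.nil) P.nil)))))) 2426)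
 (EL.cons 2 (TM.mk (P.cons (P.cons (P.lf 277257391 0 0) (P.cons (P.lf 0 258290910 0) (P.cons (P.lf 0 26509047 0) (P.cons (P.lf 5513144 0 0) (P.lf 459427 0 0))))) (P.cons (P.cons (P.lf 0 26652442 0) (P.cons (P.lf 24829216 0 0) (P.cons (P.lf 2548285 0 0) (P.cons (P.lf 0 529970 0) (P.lf 0 44164 0))))) (P.cons (P.cons (P.lf 0 1174443 0) (P.cons (P.lf 1094101 0 0) (P.cons (P.lf 112289 0 0) (P.cons (P.lf 0 23352 0) P.nil)))) (P.cons (P.cons (P.lf 30124 0 0) (P.cons (P.lf 0 28063 0) (P.cons (P.lf 0 2880 0) P.nil))) (P.cons (P.cons (P.lf 1397 0 0) (P.cons (P.lf 0 1302 0) P.nil)) (P.cons (P.cons (P.lf 0 11 0) P.nil) P.nil)))))) 3443)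
 (EL.cons 6 (TM.mk (P.cons (P.cons (P.lf 561645324 0 0) (P.cons (P.lf 0 523224579 0) (P.cons (P.lf 0 53699862 0) (P.cons (P.lf 11168076 0 0) (P.lf 930672 0 0))))) (P.cons (P.cons (P.lf 16975977 0 0) (P.cons (P.lf 0 15814692 0) (P.cons (P.lf 0 1623099 0) (P.cons (P.lf 337557 0 0) (P.lf 28128 0 0))))) (P.cons (P.cons (P.lf 0 774066 0) (P.cons (P.lf 721113 0 0) (P.cons (P.lf 74007 0 0) (P.cons (P.lf 0 15390 0) P.nil)))) (P.cons (P.cons (P.lf 0 28203 0) (P.cons (P.lf 26274 0 0) (P.cons (P.lf 2694 0 0) P.nil))) (P.cons (P.cons (P.lf 468 0 0) (P.cons (P.lf 0 435 0) P.nil)) (P.cons (P.cons (P.lf 21 0 0) P.nil) P.nil)))))) 2598)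
 EL.nil))))))
noncomputable def S219_227_660_808_2 : EL := (EL.cons 0 (TM.mk (P.cons (P.cons (P.lf 809414 0 0) (P.cons (P.lf 130476589 0 0) (P.cons (P.lf 0 20859580 0) (P.cons (P.lf 0 36784129 0) (P.cons (P.lf 3190509 0 0) (P.cons (P.lf 1462902 0 0) P.nil)))))) (P.cons (P.cons (P.lf 117418378 0 0) (P.cons (P.lf 66776967 0 0) (P.cons (P.lf 0 21195885 0) (P.cons (P.lf 0 9753060 0) (P.cons (P.lf 684807 0 0) P.nil))))) (P.cons (P.cons (P.lf 22353895 0 0) (P.cons (P.lf 6077318 0 0) (P.cons (P.lf 0 2632262 0) (P.cons (P.lf 0 281116 0) P.nil)))) (P.cons (P.cons (P.lf 765215 0 0) (P.cons (P.lf 0 194969 0) (P.cons (P.lf 44594 0 0) P.nil))) (P.cons (P.cons (P.lf 0 79601 0) (P.cons (P.lf 0 35057 0) P.nil)) (P.cons (P.cons (P.lf 0 6796 0) P.nil) P.nil)))))) 854522)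
 (EL.cons 1 (TM.mk (P.cons (P.cons (P.lf 0 786506647 0) (P.cons (P.lf 0 307244155 0) (P.cons (P.lf 107081223 0 0) (P.cons (P.lf 36631419 0 0) (P.cons (P.lf 0 2289531 0) (P.cons (P.lf 0 1049787 0) P.nil)))))) (P.cons (P.cons (P.lf 0 126976349 0) (P.cons (P.lf 0 25489662 0) (P.cons (P.lf 11707605 0 0) (P.cons (P.lf 603609 0 0) (P.cons (P.lf 64539 0 0) P.nil))))) (P.cons (P.cons (P.lf 0 1385842 0) (P.cons (P.lf 2435064 0 0) (P.cons (P.lf 0 721911 0) (P.cons (P.lf 0 399628 0) P.nil)))) (P.cons (P.cons (P.lf 926236 0 0) (P.cons (P.lf 301126 0 0) (P.cons (P.lf 0 125391 0) P.nil))) (P.cons (P.cons (P.lf 54583 0 0) (P.cons (P.lf 0 1755 0) P.nil)) (P.cons (P.cons (P.lf 0 1599 0) P.nil) P.nil)))))) 414572)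
 (EL.cons 5 (TM.mk (P.cons (P.cons (P.lf 687907564 0 0) (P.cons (P.lf 327707651 0 0) (P.cons (P.lf 0 103059506 0) (P.cons (P.lf 0 48690390 0) (P.cons (P.lf 3447175 0 0) (P.cons (P.lf 1580573 0 0) P.nil)))))) (P.cons (P.cons (P.lf 72932978 0 0) (P.cons (P.lf 18734597 0 0) (P.cons (P.lf 0 7707181 0) (P.cons (P.lf 0 1217932 0) (P.cons (P.lf 33475 0 0) P.nil))))) (P.cons (P.cons (P.lf 0 171187 0) (P.cons (P.lf 0 919106 0) (P.cons (P.lf 306781 0 0) (P.cons (P.lf 121246 0 0) P.nil)))) (P.cons (P.cons (P.lf 0 271123 0) (P.cons (P.lf 0 35451 0) (P.cons (P.lf 19977 0 0) P.nil))) (P.cons (P.cons (P.lf 5035 0 0) (P.cons (P.lf 6471 0 0) P.nil)) (P.cons (P.cons (P.lf 1542 0 0) P.nil) P.nil)))))) 564992)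
 (EL.cons 9 (TM.mk (P.cons (P.cons (P.lf 607231194 0 0) (P.cons (P.lf 330087651 0 0) (P.cons (P.lf 0 97479042 0) (P.cons (P.lf 0 54502236 0) (P.cons (P.lf 4042575 0 0) (P.cons (P.lf 1853583 0 0) P.nil)))))) (P.cons (P.cons (P.lf 101189764 0 0) (P.cons (P.lf 37480149 0 0) (P.cons (P.lf 0 13450129 0) (P.cons (P.lf 0 4134418 0) (P.cons (P.lf 244377 0 0) P.nil))))) (P.cons (P.cons (P.lf 6861933 0 0) (P.cons (P.lf 1095631 0 0) (P.cons (P.lf 0 555117 0) (P.cons (P.lf 18796 0 0) P.nil)))) (P.cons (P.cons (P.lf 844 0 0) (P.cons (P.lf 0 92439 0) (P.cons (P.lf 31617 0 0) P.nil))) (P.cons (P.cons (P.lf 0 20523 0) (P.cons (P.lf 0 5290 0) P.nil)) (P.cons (P.cons (P.lf 0 769 0) P.nil) P.nil)))))) 295846)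
 (EL.cons 2 (TM.mk (P.cons (P.cons (P.lf 0 170241170 0) (P.cons (P.lf 112324303 0 0) (P.cons (P.lf 79335472 0 0) (P.cons (P.lf 0 15331865 0) (P.cons (P.lf 0 5175180 0) (P.cons (P.lf 108106 0 0) P.nil)))))) (P.cons (P.cons (P.lf 2180491 0 0) (P.cons (P.lf 1018091 0 0) (P.cons (P.lf 0 4364246 0) (P.cons (P.lf 830683 0 0) (P.cons (P.lf 326081 0 0) P.nil))))) (P.cons (P.cons (P.lf 1713718 0 0) (P.cons (P.lf 0 1202270 0) (P.cons (P.lf 0 701083 0) (P.cons (P.lf 135855 0 0) P.nil)))) (P.cons (P.cons (P.lf 108033 0 0) (P.cons (P.lf 0 103550 0) (P.cons (P.lf 0 6361 0) P.nil))) (P.cons (P.cons (P.lf 0 3071 0) (P.cons (P.lf 1940 0 0) P.nil)) (P.cons (P.cons (P.lf 0 320 0) P.nil) P.nil)))))) 230551)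
 (EL.cons 6 (TM.mk (P.cons (P.cons (P.lf 0 344860626 0) (P.cons (P.lf 227537376 0 0) (P.cons (P.lf 160711308 0 0) (P.cons (P.lf 0 31058040 0) (P.cons (P.lf 0 10483458 0) (P.cons (P.lf 218994 0 0) P.nil)))))) (P.cons (P.cons (P.lf 0 39157566 0) (P.cons (P.lf 30812700 0 0) (P.cons (P.lf 11465826 0 0) (P.cons (P.lf 0 2241576 0) (P.cons (P.lf 0 664068 0) P.nil))))) (P.cons (P.cons (P.lf 0 1144656 0) (P.cons (P.lf 1239090 0 0) (P.cons (P.lf 0 125952 0) (P.cons (P.lf 21834 0 0) P.nil)))) (P.cons (P.cons (P.lf 96576 0 0) (P.cons (P.lf 0 72744 0) (P.cons (P.lf 0 32700 0) P.nil))) (P.cons (P.cons (P.lf 5520 0 0) (P.cons (P.lf 0 5190 0) P.nil)) (P.cons (P.cons (P.lf 0 78 0) P.nil) P.nil)))))) 311460)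
 EL.nil))))))
noncomputable def S219_227_660_808_3 : EL := (EL.cons 0 (TM.mk (P.cons (P.lf 481596895 0 0) (P.cons (P.lf 0 111999383 0) (P.cons (P.lf 5671151 0 0) (P.cons (P.lf 127063 0 0) (P.cons (P.lf 0 2649 0) (P.cons (P.lf 0 73 0) P.nil)))))) 59)
 (EL.cons 1 (TM.mk (P.cons (P.lf 975579558 0 0) (P.cons (P.lf 0 103610482 0) (P.cons (P.lf 0 2541390 0) (P.cons (P.lf 79128 0 0) (P.cons (P.lf 1965 0 0) (P.cons (P.lf 0 24 0) P.nil)))))) 82)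
 (EL.cons 5 (TM.mk (P.cons (P.lf 1976249194 0 0) (P.cons (P.lf 39822002 0 0) (P.cons (P.lf 0 2016406 0) (P.cons (P.lf 0 45176 0) (P.cons (P.lf 938 0 0) (P.cons (P.lf 26 0 0) P.nil)))))) 106)
 EL.nil)))
noncomputable def S219_227_660_808_4 : EL := (EL.cons 0 (TM.mk (P.cons (P.cons (P.lf 0 147854707 0) (P.cons (P.lf 0 40186515 0) (P.cons (P.lf 17328877 0 0) (P.lf 1925430 0 0)))) (P.cons (P.cons (P.lf 22065500 0 0) (P.cons (P.lf 8131055 0 0) (P.cons (P.lf 0 3506201 0) (P.lf 0 389576 0)))) (P.cons (P.cons (P.lf 801692 0 0) (P.cons (P.lf 0 135360 0) (P.cons (P.lf 58368 0 0) (P.lf 6484 0 0)))) (P.cons (P.cons (P.lf 0 82411 0) (P.cons (P.lf 0 35767 0) (P.cons (P.lf 15423 0 0) P.nil))) (P.cons (P.cons (P.lf 0 11826 0) (P.cons (P.lf 49 0 0) P.nil)) (P.cons (P.cons (P.lf 158 0 0) P.nil) P.nil)))))) 2991)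
 (EL.cons 1 (TM.mk (P.cons (P.cons (P.lf 0 299511958 0) (P.cons (P.lf 0 81406554 0) (P.cons (P.lf 35103423 0 0) (P.lf 3900378 0 0)))) (P.cons (P.cons (P.lf 6853854 0 0) (P.cons (P.lf 6185154 0 0) (P.cons (P.lf 0 2667108 0) (P.lf 0 296343 0)))) (P.cons (P.cons (P.lf 2777964 0 0) (P.cons (P.lf 585579 0 0) (P.cons (P.lf 0 252506 0) (P.lf 0 28055 0)))) (P.cons (P.cons (P.lf 164197 0 0) (P.cons (P.lf 0 8019 0) (P.cons (P.lf 3457 0 0) P.nil))) (P.cons (P.cons (P.lf 0 5420 0) (P.cons (P.lf 0 1155 0) P.nil)) (P.cons (P.cons (P.lf 0 403 0) P.nil) P.nil)))))) 2355)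
 (EL.cons 5 (TM.mk (P.cons (P.cons (P.lf 0 606726804 0) (P.cons (P.lf 0 164906734 0) (P.cons (P.lf 71109642 0 0) (P.lf 7901070 0 0)))) (P.cons (P.cons (P.lf 0 62778578 0) (P.cons (P.lf 0 8307294 0) (P.cons (P.lf 3582198 0 0) (P.lf 398020 0 0)))) (P.cons (P.cons (P.lf 0 1721668 0) (P.cons (P.lf 295096 0 0) (P.cons (P.lf 0 127246 0) (P.lf 0 14136 0)))) (P.cons (P.cons (P.lf 148542 0 0) (P.cons (P.lf 21714 0 0) (P.cons (P.lf 0 9362 0) P.nil))) (P.cons (P.cons (P.lf 6976 0 0) (P.cons (P.lf 0 164 0) P.nil)) (P.cons (P.cons (P.lf 0 128 0) P.nil) P.nil)))))) 1824)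
 EL.nil)))
noncomputable def S219_227_660_808_5 : EL := (EL.cons 0 (TM.mk (P.cons (P.cons (P.lf 45392763 0 0) (P.cons (P.lf 24675264 0 0) (P.cons (P.lf 0 7286916 0) (P.cons (P.lf 0 4074241 0) (P.cons (P.lf 302196 0 0) (P.cons (P.lf 138561 0 0) P.nil)))))) (P.cons (P.cons (P.lf 0 2992158 0) (P.cons (P.lf 0 2936659 0) (P.cons (P.lf 689185 0 0) (P.cons (P.lf 638435 0 0) (P.cons (P.lf 0 52010 0) P.nil))))) (P.cons (P.cons (P.lf 0 711653 0) (P.cons (P.lf 0 279105 0) (P.cons (P.lf 106518 0 0) (P.cons (P.lf 25301 0 0) P.nil)))) (P.cons (P.cons (P.lf 0 18175 0) (P.cons (P.lf 13545 0 0) (P.cons (P.lf 0 1747 0) P.nil))) (P.cons (P.cons (P.lf 6236 0 0) (P.cons (P.lf 2779 0 0) P.nil)) (P.cons (P.cons (P.lf 386 0 0) P.nil) P.nil)))))) 76407)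
 (EL.cons 1 (TM.mk (P.cons (P.cons (P.lf 91952943 0 0) (P.cons (P.lf 49985131 0 0) (P.cons (P.lf 0 14761237 0) (P.cons (P.lf 0 8253264 0) (P.cons (P.lf 612165 0 0) (P.cons (P.lf 280685 0 0) P.nil)))))) (P.cons (P.cons (P.lf 5557378 0 0) (P.cons (P.lf 366991 0 0) (P.cons (P.lf 0 469048 0) (P.cons (P.lf 250455 0 0) (P.cons (P.lf 0 28006 0) P.nil))))) (P.cons (P.cons (P.lf 0 827816 0) (P.cons (P.lf 0 567071 0) (P.cons (P.lf 170701 0 0) (P.cons (P.lf 90836 0 0) P.nil)))) (P.cons (P.cons (P.lf 0 142685 0) (P.cons (P.lf 0 42346 0) (P.cons (P.lf 17821 0 0) P.nil))) (P.cons (P.cons (P.lf 0 4398 0) (P.cons (P.lf 813 0 0) P.nil)) (P.cons (P.cons (P.lf 324 0 0) P.nil) P.nil)))))) 95990)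
 (EL.cons 5 (TM.mk (P.cons (P.cons (P.lf 186270746 0 0) (P.cons (P.lf 101255788 0 0) (P.cons (P.lf 0 29902108 0) (P.cons (P.lf 0 16718790 0) (P.cons (P.lf 1240076 0 0) (P.cons (P.lf 568594 0 0) P.nil)))))) (P.cons (P.cons (P.lf 34793798 0 0) (P.cons (P.lf 13537528 0 0) (P.cons (P.lf 0 4728420 0) (P.cons (P.lf 0 1605138 0) (P.cons (P.lf 99950 0 0) P.nil))))) (P.cons (P.cons (P.lf 2540344 0 0) (P.cons (P.lf 464446 0 0) (P.cons (P.lf 0 222910 0) (P.cons (P.lf 0 2730 0) P.nil)))) (P.cons (P.cons (P.lf 6744 0 0) (P.cons (P.lf 0 35628 0) (P.cons (P.lf 11160 0 0) P.nil))) (P.cons (P.cons (P.lf 0 9058 0) (P.cons (P.lf 0 2750 0) P.nil)) (P.cons (P.cons (P.lf 0 392 0) P.nil) P.nil)))))) 110494)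
 EL.nil)))
noncomputable def S219_227_660_808_6 : EL := (EL.cons 12 (TM.mk (P.lf 8589934592 0 0) 0)
 (EL.cons 3 (TM.mk (P.cons (P.lf 0 1016966793 0) (P.cons (P.lf 118252065 0 0) (P.cons (P.lf 887366 0 0) (P.cons (P.lf 0 30975 0) (P.cons (P.lf 0 416 0) (P.cons (P.lf 3 0 0) P.nil)))))) 44)
 (EL.cons 7 (TM.mk (P.cons (P.lf 0 2060088064 0) (P.cons (P.lf 0 20755690 0) (P.cons (P.lf 1155533 0 0) (P.cons (P.lf 11905 0 0) (P.cons (P.lf 0 285 0) (P.cons (P.lf 0 5 0) P.nil)))))) 48)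
 EL.nil)))
noncomputable def S219_227_660_808_7 : EL := (EL.cons 12 (TM.mk (P.cons (P.cons (P.lf 0 2637189476 0) (P.cons (P.lf 0 716781096 0) (P.cons (P.lf 309084088 0 0) (P.lf 34342672 0 0)))) (P.cons (P.cons (P.lf 0 219732274 0) (P.cons (P.lf 0 21665016 0) (P.cons (P.lf 9342200 0 0) (P.lf 1038016 0 0)))) (P.cons (P.cons (P.lf 0 5746486 0) (P.cons (P.lf 987872 0 0) (P.cons (P.lf 0 425976 0) (P.lf 0 47328 0)))) (P.cons (P.cons (P.lf 476964 0 0) (P.cons (P.lf 35992 0 0) (P.cons (P.lf 0 15520 0) P.nil))) (P.cons (P.cons (P.lf 11088 0 0) (P.cons (P.lf 0 592 0) P.nil)) (P.cons (P.cons (P.lf 0 290 0) P.nil) P.nil)))))) 3210)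
 (EL.cons 3 (TM.mk (P.cons (P.cons (P.lf 0 2269800516 0) (P.cons (P.lf 0 169720168 0) (P.cons (P.lf 73185248 0 0) (P.lf 8131692 0 0)))) (P.cons (P.cons (P.lf 0 158618487 0) (P.cons (P.lf 14605054 0 0) (P.cons (P.lf 0 6297864 0) (P.lf 0 699762 0)))) (P.cons (P.cons (P.lf 14307861 0 0) (P.cons (P.lf 978496 0 0) (P.cons (P.lf 0 421936 0) (P.lf 0 46880 0)))) (P.cons (P.cons (P.lf 500828 0 0) (P.cons (P.lf 0 19368 0) (P.cons (P.lf 8350 0 0) P.nil))) (P.cons (P.cons (P.lf 0 15391 0) (P.cons (P.lf 0 1560 0) P.nil)) (P.cons (P.cons (P.lf 0 649 0) P.nil) P.nil)))))) 7022)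
 (EL.cons 7 (TM.mk (P.cons (P.cons (P.lf 1085663971 0 0) (P.cons (P.lf 216586731 0 0) (P.cons (P.lf 0 93394644 0) (P.lf 0 10377185 0)))) (P.cons (P.cons (P.lf 27840842 0 0) (P.cons (P.lf 0 2563488 0) (P.cons (P.lf 1105404 0 0) (P.lf 122819 0 0)))) (P.cons (P.cons (P.lf 0 4270232 0) (P.cons (P.lf 0 9794 0) (P.cons (P.lf 4225 0 0) (P.lf 469 0 0)))) (P.cons (P.cons (P.lf 132555 0 0) (P.cons (P.lf 17042 0 0) (P.cons (P.lf 0 7349 0) P.nil))) (P.cons (P.cons (P.lf 9515 0 0) (P.cons (P.lf 0 98 0) P.nil)) (P.cons (P.cons (P.lf 0 154 0) P.nil) P.nil)))))) 6226)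
 (EL.cons 10 (TM.mk (P.cons (P.cons (P.lf 0 1170944265 0) (P.cons (P.lf 1090842909 0 0) (P.cons (P.lf 111955968 0 0) (P.cons (P.lf 0 23283726 0) (P.lf 0 1940310 0))))) (P.cons (P.cons (P.lf 0 23594871 0) (P.cons (P.lf 21980805 0 0) (P.cons (P.lf 2255943 0 0) (P.cons (P.lf 0 469173 0) (P.lf 0 39096 0))))) (P.cons (P.cons (P.lf 1194735 0 0) (P.cons (P.lf 0 1113006 0) (P.cons (P.lf 0 114228 0) (P.cons (P.lf 23754 0 0) P.nil)))) (P.cons (P.cons (P.lf 26766 0 0) (P.cons (P.lf 0 24936 0) (P.cons (P.lf 0 2559 0) P.nil))) (P.cons (P.cons (P.lf 0 555 0) (P.cons (P.lf 516 0 0) P.nil)) (P.cons (P.cons (P.lf 0 15 0) P.nil) P.nil)))))) 2874)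
 EL.nil))))
noncomputable def S219_227_660_808_8 : EL := (EL.cons 12 (TM.mk (P.cons (P.cons (P.lf 809641592 0 0) (P.cons (P.lf 440116868 0 0) (P.cons (P.lf 0 129972056 0) (P.cons (P.lf 0 72669648 0) (P.cons (P.lf 5390100 0 0) (P.cons (P.lf 2471444 0 0) P.nil)))))) (P.cons (P.cons (P.lf 134919686 0 0) (P.cons (P.lf 49973532 0 0) (P.cons (P.lf 0 17933506 0) (P.cons (P.lf 0 5512558 0) (P.cons (P.lf 325836 0 0) P.nil))))) (P.cons (P.cons (P.lf 9149244 0 0) (P.cons (P.lf 1460842 0 0) (P.cons (P.lf 0 740156 0) (P.cons (P.lf 25062 0 0) P.nil)))) (P.cons (P.cons (P.lf 1126 0 0) (P.cons (P.lf 0 123252 0) (P.cons (P.lf 42156 0 0) P.nil))) (P.cons (P.cons (P.lf 0 27364 0) (P.cons (P.lf 0 7054 0) P.nil)) (P.cons (P.cons (P.lf 0 1026 0) P.nil) P.nil)))))) 394432)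
 (EL.cons 3 (TM.mk (P.cons (P.cons (P.lf 1489553445 0 0) (P.cons (P.lf 535120829 0 0) (P.cons (P.lf 0 195344680 0) (P.cons (P.lf 0 56173360 0) (P.cons (P.lf 3190680 0 0) (P.cons (P.lf 1462976 0 0) P.nil)))))) (P.cons (P.cons (P.lf 218346003 0 0) (P.cons (P.lf 37493892 0 0) (P.cons (P.lf 0 18144417 0) (P.cons (P.lf 0 91734 0) (P.cons (P.lf 0 178131 0) P.nil))))) (P.cons (P.cons (P.lf 1508781 0 0) (P.cons (P.lf 0 3791176 0) (P.cons (P.lf 1289781 0 0) (P.cons (P.lf 479181 0 0) P.nil)))) (P.cons (P.cons (P.lf 0 1216189 0) (P.cons (P.lf 0 326091 0) (P.cons (P.lf 140907 0 0) P.nil))) (P.cons (P.cons (P.lf 0 62464 0) (P.cons (P.lf 5046 0 0) P.nil)) (P.cons (P.cons (P.lf 2143 0 0) P.nil) P.nil)))))) 601084)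
 (EL.cons 7 (TM.mk (P.cons (P.cons (P.lf 0 472444830 0) (P.cons (P.lf 0 208621816 0) (P.cons (P.lf 68158518 0 0) (P.cons (P.lf 28797721 0 0) (P.cons (P.lf 0 1964721 0) (P.cons (P.lf 0 900852 0) P.nil)))))) (P.cons (P.cons (P.lf 0 38324256 0) (P.cons (P.lf 0 6580964 0) (P.cons (P.lf 3184728 0 0) (P.cons (P.lf 16105 0 0) (P.cons (P.lf 31263 0 0) P.nil))))) (P.cons (P.cons (P.lf 2156390 0 0) (P.cons (P.lf 1081196 0 0) (P.cons (P.lf 0 427586 0) (P.cons (P.lf 0 85122 0) P.nil)))) (P.cons (P.cons (P.lf 223497 0 0) (P.cons (P.lf 0 923 0) (P.cons (P.lf 0 4644 0) P.nil))) (P.cons (P.cons (P.lf 0 8964 0) (P.cons (P.lf 0 5920 0) P.nil)) (P.cons (P.cons (P.lf 0 1366 0) P.nil) P.nil)))))) 260841)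
 (EL.cons 10 (TM.mk (P.cons (P.cons (P.lf 718981464 0 0) (P.cons (P.lf 0 474380496 0) (P.cons (P.lf 0 335058408 0) (P.cons (P.lf 64751250 0 0) (P.cons (P.lf 21856410 0 0) (P.cons (P.lf 0 456576 0) P.nil)))))) (P.cons (P.cons (P.lf 74393670 0 0) (P.cons (P.lf 0 59460300 0) (P.cons (P.lf 0 20528730 0) (P.cons (P.lf 4020972 0 0) (P.cons (P.lf 1164282 0 0) P.nil))))) (P.cons (P.cons (P.lf 2040204 0 0) (P.cons (P.lf 0 2250336 0) (P.cons (P.lf 281490 0 0) (P.cons (P.lf 0 49716 0) P.nil)))) (P.cons (P.cons (P.lf 0 176022 0) (P.cons (P.lf 138246 0 0) (P.cons (P.lf 51894 0 0) P.nil))) (P.cons (P.cons (P.lf 0 8268 0) (P.cons (P.lf 7896 0 0) P.nil)) (P.cons (P.cons (P.lf 150 0 0) P.nil) P.nil)))))) 608652)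
 EL.nil))))
noncomputable def S219_227_660_808_9 : EL := (EL.cons 3 (TM.mk (P.cons (P.lf 0 1016966793 0) (P.cons (P.lf 118252065 0 0) (P.cons (P.lf 887366 0 0) (P.cons (P.lf 0 30975 0) (P.cons (P.lf 0 416 0) (P.cons (P.lf 3 0 0) P.nil)))))) 44)
 (EL.cons 7 (TM.mk (P.cons (P.lf 0 2060088064 0) (P.cons (P.lf 0 20755690 0) (P.cons (P.lf 1155533 0 0) (P.cons (P.lf 11905 0 0) (P.cons (P.lf 0 285 0) (P.cons (P.lf 0 5 0) P.nil)))))) 48)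
 EL.nil))
noncomputable def S219_227_660_808_10 : EL := (EL.cons 3 (TM.mk (P.cons (P.cons (P.lf 312218223 0 0) (P.cons (P.lf 84860084 0 0) (P.cons (P.lf 0 36592624 0) (P.lf 0 4065846 0)))) (P.cons (P.cons (P.lf 0 10290261 0) (P.cons (P.lf 0 7302527 0) (P.cons (P.lf 3148932 0 0) (P.lf 349881 0 0)))) (P.cons (P.cons (P.lf 0 2617011 0) (P.cons (P.lf 0 489248 0) (P.cons (P.lf 210968 0 0) (P.lf 23440 0 0)))) (P.cons (P.cons (P.lf 0 148765 0) (P.cons (P.lf 9684 0 0) (P.cons (P.lf 0 4175 0) P.nil))) (P.cons (P.cons (P.lf 5579 0 0) (P.cons (P.lf 780 0 0) P.nil)) (P.cons (P.cons (P.lf 266 0 0) P.nil) P.nil)))))) 1705)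
 (EL.cons 7 (TM.mk (P.cons (P.cons (P.lf 632466115 0 0) (P.cons (P.lf 171902610 0 0) (P.cons (P.lf 0 74126343 0) (P.lf 0 8236259 0)))) (P.cons (P.cons (P.lf 59069660 0 0) (P.cons (P.lf 6927774 0 0) (P.cons (P.lf 0 2987334 0) (P.lf 0 331924 0)))) (P.cons (P.cons (P.lf 1554331 0 0) (P.cons (P.lf 0 280991 0) (P.cons (P.lf 121165 0 0) (P.lf 13462 0 0)))) (P.cons (P.cons (P.lf 0 133716 0) (P.cons (P.lf 0 14926 0) (P.cons (P.lf 6436 0 0) P.nil))) (P.cons (P.cons (P.lf 0 4801 0) (P.cons (P.lf 181 0 0) P.nil)) (P.cons (P.cons (P.lf 107 0 0) P.nil) P.nil)))))) 1263)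
 EL.nil))
noncomputable def S219_227_660_808_11 : EL := (EL.cons 3 (TM.mk (P.cons (P.cons (P.lf 0 95853885 0) (P.cons (P.lf 0 52105663 0) (P.cons (P.lf 15387458 0 0) (P.cons (P.lf 8603396 0 0) (P.cons (P.lf 0 638136 0) (P.cons (P.lf 0 292594 0) P.nil)))))) (P.cons (P.cons (P.lf 0 4827399 0) (P.cons (P.lf 142410 0 0) (P.cons (P.lf 333915 0 0) (P.cons (P.lf 0 347760 0) (P.cons (P.lf 35625 0 0) P.nil))))) (P.cons (P.cons (P.lf 857805 0 0) (P.cons (P.lf 560468 0 0) (P.cons (P.lf 0 172677 0) (P.cons (P.lf 0 86361 0) P.nil)))) (P.cons (P.cons (P.lf 136835 0 0) (P.cons (P.lf 38277 0 0) (P.cons (P.lf 0 16563 0) P.nil))) (P.cons (P.cons (P.lf 3674 0 0) (P.cons (P.lf 0 912 0) P.nil)) (P.cons (P.cons (P.lf 0 293 0) P.nil) P.nil)))))) 93678)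
 (EL.cons 7 (TM.mk (P.cons (P.cons (P.lf 0 194172954 0) (P.cons (P.lf 0 105551386 0) (P.cons (P.lf 31170654 0 0) (P.cons (P.lf 17428057 0 0) (P.cons (P.lf 0 1292685 0) (P.cons (P.lf 0 592716 0) P.nil)))))) (P.cons (P.cons (P.lf 0 34313544 0) (P.cons (P.lf 0 13048388 0) (P.cons (P.lf 4614966 0 0) (P.cons (P.lf 1497643 0 0) (P.cons (P.lf 0 91167 0) P.nil))))) (P.cons (P.cons (P.lf 0 2411314 0) (P.cons (P.lf 0 411892 0) (P.cons (P.lf 203356 0 0) (P.cons (P.lf 0 2466 0) P.nil)))) (P.cons (P.cons (P.lf 0 3105 0) (P.cons (P.lf 33361 0 0) (P.cons (P.lf 0 10914 0) P.nil))) (P.cons (P.cons (P.lf 7950 0 0) (P.cons (P.lf 2240 0 0) P.nil)) (P.cons (P.cons (P.lf 320 0 0) P.nil) P.nil)))))) 104705)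
 EL.nil))
noncomputable def S219_227_660_808_12 : EL := (EL.cons 4 (TM.mk (P.cons (P.lf 1016966793 0 0) (P.cons (P.lf 0 118252065 0) (P.cons (P.lf 0 887366 0) (P.cons (P.lf 30975 0 0) (P.cons (P.lf 416 0 0) (P.cons (P.lf 0 3 0) P.nil)))))) 44)
 (EL.cons 8 (TM.mk (P.cons (P.lf 2060088064 0 0) (P.cons (P.lf 20755690 0 0) (P.cons (P.lf 0 1155533 0) (P.cons (P.lf 0 11905 0) (P.cons (P.lf 285 0 0) (P.cons (P.lf 5 0 0) P.nil)))))) 48)
 EL.nil))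
noncomputable def S219_227_660_808_13 : EL := (EL.cons 4 (TM.mk (P.cons (P.cons (P.lf 0 312218223 0) (P.cons (P.lf 0 84860084 0) (P.cons (P.lf 36592624 0 0) (P.lf 4065846 0 0)))) (P.cons (P.cons (P.lf 10290261 0 0) (P.cons (P.lf 7302527 0 0) (P.cons (P.lf 0 3148932 0) (P.lf 0 349881 0)))) (P.cons (P.cons (P.lf 2617011 0 0) (P.cons (P.lf 489248 0 0) (P.cons (P.lf 0 210968 0) (P.lf 0 23440 0)))) (P.cons (P.cons (P.lf 148765 0 0) (P.cons (P.lf 0 9684 0) (P.cons (P.lf 4175 0 0) P.nil))) (P.cons (P.cons (P.lf 0 5579 0) (P.cons (P.lf 0 780 0) P.nil)) (P.cons (P.cons (P.lf 0 266 0) P.nil) P.nil)))))) 1705)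
 (EL.cons 8 (TM.mk (P.cons (P.cons (P.lf 0 632466115 0) (P.cons (P.lf 0 171902610 0) (P.cons (P.lf 74126343 0 0) (P.lf 8236259 0 0)))) (P.cons (P.cons (P.lf 0 59069660 0) (P.cons (P.lf 0 6927774 0) (P.cons (P.lf 2987334 0 0) (P.lf 331924 0 0)))) (P.cons (P.cons (P.lf 0 1554331 0) (P.cons (P.lf 280991 0 0) (P.cons (P.lf 0 121165 0) (P.lf 0 13462 0)))) (P.cons (P.cons (P.lf 133716 0 0) (P.cons (P.lf 14926 0 0) (P.cons (P.lf 0 6436 0) P.nil))) (P.cons (P.cons (P.lf 4801 0 0) (P.cons (P.lf 0 181 0) P.nil)) (P.cons (P.cons (P.lf 0 107 0) P.nil) P.nil)))))) 1263)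
 EL.nil))
noncomputable def S219_227_660_808_14 : EL := (EL.cons 4 (TM.mk (P.cons (P.cons (P.lf 95853885 0 0) (P.cons (P.lf 52105663 0 0) (P.cons (P.lf 0 15387458 0) (P.cons (P.lf 0 8603396 0) (P.cons (P.lf 638136 0 0) (P.cons (P.lf 292594 0 0) P.nil)))))) (P.cons (P.cons (P.lf 4827399 0 0) (P.cons (P.lf 0 142410 0) (P.cons (P.lf 0 333915 0) (P.cons (P.lf 347760 0 0) (P.cons (P.lf 0 35625 0) P.nil))))) (P.cons (P.cons (P.lf 0 857805 0) (P.cons (P.lf 0 560468 0) (P.cons (P.lf 172677 0 0) (P.cons (P.lf 86361 0 0) P.nil)))) (P.cons (P.cons (P.lf 0 136835 0) (P.cons (P.lf 0 38277 0) (P.cons (P.lf 16563 0 0) P.nil))) (P.cons (P.cons (P.lf 0 3674 0) (P.cons (P.lf 912 0 0) P.nil)) (P.cons (P.cons (P.lf 293 0 0) P.nil) P.nil)))))) 93678)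
 (EL.cons 8 (TM.mk (P.cons (P.cons (P.lf 194172954 0 0) (P.cons (P.lf 105551386 0 0) (P.cons (P.lf 0 31170654 0) (P.cons (P.lf 0 17428057 0) (P.cons (P.lf 1292685 0 0) (P.cons (P.lf 592716 0 0) P.nil)))))) (P.cons (P.cons (P.lf 34313544 0 0) (P.cons (P.lf 13048388 0 0) (P.cons (P.lf 0 4614966 0) (P.cons (P.lf 0 1497643 0) (P.cons (P.lf 91167 0 0) P.nil))))) (P.cons (P.cons (P.lf 2411314 0 0) (P.cons (P.lf 411892 0 0) (P.cons (P.lf 0 203356 0) (P.cons (P.lf 2466 0 0) P.nil)))) (P.cons (P.cons (P.lf 3105 0 0) (P.cons (P.lf 0 33361 0) (P.cons (P.lf 10914 0 0) P.nil))) (P.cons (P.cons (P.lf 0 7950 0) (P.cons (P.lf 0 2240 0) P.nil)) (P.cons (P.cons (P.lf 0 320 0) P.nil) P.nil)))))) 104705)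
 EL.nil))
noncomputable def S219_227_660_808_15 : EL := (EL.cons 4 (TM.mk (P.cons (P.lf 0 256851677 0) (P.cons (P.lf 59733004 0 0) (P.cons (P.lf 0 3024614 0) (P.cons (P.lf 0 67767 0) (P.cons (P.lf 1412 0 0) (P.cons (P.lf 39 0 0) P.nil)))))) 35)
 (EL.cons 8 (TM.mk (P.cons (P.lf 0 520309098 0) (P.cons (P.lf 55258924 0 0) (P.cons (P.lf 1355408 0 0) (P.cons (P.lf 0 42202 0) (P.cons (P.lf 0 1048 0) (P.cons (P.lf 13 0 0) P.nil)))))) 40)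
 EL.nil))
noncomputable def S219_227_660_808_16 : EL := (EL.cons 4 (TM.mk (P.cons (P.cons (P.lf 78855843 0 0) (P.cons (P.lf 21432808 0 0) (P.cons (P.lf 0 9242068 0) (P.lf 0 1026896 0)))) (P.cons (P.cons (P.lf 0 11768266 0) (P.cons (P.lf 0 4336562 0) (P.cons (P.lf 1869974 0 0) (P.lf 207774 0 0)))) (P.cons (P.cons (P.lf 0 427569 0) (P.cons (P.lf 72192 0 0) (P.cons (P.lf 0 31129 0) (P.lf 0 3458 0)))) (P.cons (P.cons (P.lf 43952 0 0) (P.cons (P.lf 19076 0 0) (P.cons (P.lf 0 8225 0) P.nil))) (P.cons (P.cons (P.lf 6307 0 0) (P.cons (P.lf 0 26 0) P.nil)) (P.cons (P.cons (P.lf 0 84 0) P.nil) P.nil)))))) 1604)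
 (EL.cons 8 (TM.mk (P.cons (P.cons (P.lf 159739711 0 0) (P.cons (P.lf 43416829 0 0) (P.cons (P.lf 0 18721826 0) (P.lf 0 2080202 0)))) (P.cons (P.cons (P.lf 0 3655389 0) (P.cons (P.lf 0 3298749 0) (P.cons (P.lf 1422458 0 0) (P.lf 158050 0 0)))) (P.cons (P.cons (P.lf 0 1481581 0) (P.cons (P.lf 0 312309 0) (P.cons (P.lf 134670 0 0) (P.lf 14963 0 0)))) (P.cons (P.cons (P.lf 0 87572 0) (P.cons (P.lf 4277 0 0) (P.cons (P.lf 0 1844 0) P.nil))) (P.cons (P.cons (P.lf 2891 0 0) (P.cons (P.lf 616 0 0) P.nil)) (P.cons (P.cons (P.lf 215 0 0) P.nil) P.nil)))))) 1246)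
 EL.nil))
noncomputable def S219_227_660_808_17 : EL := (EL.cons 4 (TM.mk (P.cons (P.cons (P.lf 0 24209474 0) (P.cons (P.lf 0 13160141 0) (P.cons (P.lf 3886355 0 0) (P.cons (P.lf 2172929 0 0) (P.cons (P.lf 0 161171 0) (P.cons (P.lf 0 73899 0) P.nil)))))) (P.cons (P.cons (P.lf 1595818 0 0) (P.cons (P.lf 1566218 0 0) (P.cons (P.lf 0 367565 0) (P.cons (P.lf 0 340499 0) (P.cons (P.lf 27738 0 0) P.nil))))) (P.cons (P.cons (P.lf 379548 0 0) (P.cons (P.lf 148856 0 0) (P.cons (P.lf 0 56809 0) (P.cons (P.lf 0 13494 0) P.nil)))) (P.cons (P.cons (P.lf 9693 0 0) (P.cons (P.lf 0 7224 0) (P.cons (P.lf 931 0 0) P.nil))) (P.cons (P.cons (P.lf 0 3326 0) (P.cons (P.lf 0 1482 0) P.nil)) (P.cons (P.cons (P.lf 0 206 0) P.nil) P.nil)))))) 40761)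
 (EL.cons 8 (TM.mk (P.cons (P.cons (P.lf 0 49041570 0) (P.cons (P.lf 0 26658737 0) (P.cons (P.lf 7872660 0 0) (P.cons (P.lf 4401741 0 0) (P.cons (P.lf 0 326488 0) (P.cons (P.lf 0 149699 0) P.nil)))))) (P.cons (P.cons (P.lf 0 2963935 0) (P.cons (P.lf 0 195729 0) (P.cons (P.lf 250159 0 0) (P.cons (P.lf 0 133576 0) (P.cons (P.lf 14937 0 0) P.nil))))) (P.cons (P.cons (P.lf 441502 0 0) (P.cons (P.lf 302438 0 0) (P.cons (P.lf 0 91041 0) (P.cons (P.lf 0 48446 0) P.nil)))) (P.cons (P.cons (P.lf 76099 0 0) (P.cons (P.lf 22585 0 0) (P.cons (P.lf 0 9505 0) P.nil))) (P.cons (P.cons (P.lf 2346 0 0) (P.cons (P.lf 0 434 0) P.nil)) (P.cons (P.cons (P.lf 0 173 0) P.nil) P.nil)))))) 51183)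
 EL.nil))
noncomputable def S219_227_660_808_18 : EL := (EL.cons 4 (TM.mk (P.cons (P.lf 64872112 0 0) (P.cons (P.lf 0 22629827 0) (P.cons (P.lf 2461562 0 0) (P.cons (P.lf 0 56571 0) (P.cons (P.lf 0 3446 0) (P.cons (P.lf 32 0 0) P.nil)))))) 26)
 (EL.cons 8 (TM.mk (P.cons (P.lf 131412614 0 0) (P.cons (P.lf 0 29237100 0) (P.cons (P.lf 1165859 0 0) (P.cons (P.lf 66645 0 0) (P.cons (P.lf 0 1046 0) (P.cons (P.lf 0 59 0) P.nil)))))) 26)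
 EL.nil))
noncomputable def S219_227_660_808_19 : EL := (EL.cons 4 (TM.mk (P.cons (P.cons (P.lf 0 19916339 0) (P.cons (P.lf 0 5413207 0) (P.cons (P.lf 2334236 0 0) (P.lf 259359 0 0)))) (P.cons (P.cons (P.lf 5288124 0 0) (P.cons (P.lf 1724713 0 0) (P.cons (P.lf 0 743715 0) (P.lf 0 82635 0)))) (P.cons (P.cons (P.lf 0 220245 0) (P.cons (P.lf 0 140866 0) (P.cons (P.lf 60743 0 0) (P.lf 6749 0 0)))) (P.cons (P.cons (P.lf 0 26857 0) (P.cons (P.lf 0 3818 0) (P.cons (P.lf 1646 0 0) P.nil))) (P.cons (P.cons (P.lf 0 314 0) (P.cons (P.lf 613 0 0) P.nil)) (P.cons (P.cons (P.lf 220 0 0) P.nil) P.nil)))))) 1164)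
 (EL.cons 8 (TM.mk (P.cons (P.cons (P.lf 0 40344889 0) (P.cons (P.lf 0 10965633 0) (P.cons (P.lf 4728504 0 0) (P.lf 525389 0 0)))) (P.cons (P.cons (P.lf 5614498 0 0) (P.cons (P.lf 2108228 0 0) (P.cons (P.lf 0 909091 0) (P.lf 0 101009 0)))) (P.cons (P.cons (P.lf 302048 0 0) (P.cons (P.lf 0 8430 0) (P.cons (P.lf 3635 0 0) (P.lf 403 0 0)))) (P.cons (P.cons (P.lf 0 23427 0) (P.cons (P.lf 0 11313 0) (P.cons (P.lf 4878 0 0) P.nil))) (P.cons (P.cons (P.lf 0 3616 0) (P.cons (P.lf 0 78 0) P.nil)) (P.cons (P.cons (P.lf 22 0 0) P.nil) P.nil)))))) 991)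
 EL.nil))
noncomputable def S219_227_660_808_20 : EL := (EL.cons 4 (TM.mk (P.cons (P.cons (P.lf 6114500 0 0) (P.cons (P.lf 3323809 0 0) (P.cons (P.lf 0 981562 0) (P.cons (P.lf 0 548808 0) (P.cons (P.lf 40706 0 0) (P.cons (P.lf 18663 0 0) P.nil)))))) (P.cons (P.cons (P.lf 0 1114038 0) (P.cons (P.lf 0 782063 0) (P.cons (P.lf 206970 0 0) (P.cons (P.lf 149813 0 0) (P.cons (P.lf 0 11738 0) P.nil))))) (P.cons (P.cons (P.lf 0 54330 0) (P.cons (P.lf 5500 0 0) (P.cons (P.lf 4410 0 0) (P.cons (P.lf 0 6112 0) P.nil)))) (P.cons (P.cons (P.lf 9235 0 0) (P.cons (P.lf 6642 0 0) (P.cons (P.lf 0 2014 0) P.nil))) (P.cons (P.cons (P.lf 1198 0 0) (P.cons (P.lf 183 0 0) P.nil)) (P.cons (P.cons (P.lf 0 45 0) P.nil) P.nil)))))) 16775)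
 (EL.cons 8 (TM.mk (P.cons (P.cons (P.lf 12386254 0 0) (P.cons (P.lf 6733102 0 0) (P.cons (P.lf 0 1988369 0) (P.cons (P.lf 0 1111732 0) (P.cons (P.lf 82459 0 0) (P.cons (P.lf 37809 0 0) P.nil)))))) (P.cons (P.cons (P.lf 0 691672 0) (P.cons (P.lf 0 733484 0) (P.cons (P.lf 168023 0 0) (P.cons (P.lf 163008 0 0) (P.cons (P.lf 0 13361 0) P.nil))))) (P.cons (P.cons (P.lf 0 209361 0) (P.cons (P.lf 0 88009 0) (P.cons (P.lf 32075 0 0) (P.cons (P.lf 9282 0 0) P.nil)))) (P.cons (P.cons (P.lf 0 6529 0) (P.cons (P.lf 3339 0 0) (P.cons (P.lf 0 277 0) P.nil))) (P.cons (P.cons (P.lf 1767 0 0) (P.cons (P.lf 843 0 0) P.nil)) (P.cons (P.cons (P.lf 126 0 0) P.nil) P.nil)))))) 21902)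
 EL.nil))
noncomputable def S219_227_660_808_21 : EL := (EL.cons 4 (TM.mk (P.cons (P.cons (P.lf 2582018739 0 0) (P.cons (P.lf 254580252 0 0) (P.cons (P.lf 0 109777872 0) (P.lf 0 12197538 0)))) (P.cons (P.cons (P.lf 148328226 0 0) (P.cons (P.lf 0 21907581 0) (P.cons (P.lf 9446796 0 0) (P.lf 1049643 0 0)))) (P.cons (P.cons (P.lf 0 16924872 0) (P.cons (P.lf 0 1467744 0) (P.cons (P.lf 632904 0 0) (P.lf 70320 0 0)))) (P.cons (P.cons (P.lf 0 649593 0) (P.cons (P.lf 29052 0 0) (P.cons (P.lf 0 12525 0) P.nil))) (P.cons (P.cons (P.lf 20970 0 0) (P.cons (P.lf 2340 0 0) P.nil)) (P.cons (P.cons (P.lf 915 0 0) P.nil) P.nil)))))) 5298)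
 (EL.cons 8 (TM.mk (P.cons (P.cons (P.lf 0 453197856 0) (P.cons (P.lf 0 44684121 0) (P.cons (P.lf 19268301 0 0) (P.lf 2140926 0 0)))) (P.cons (P.cons (P.lf 31228818 0 0) (P.cons (P.lf 9491262 0 0) (P.cons (P.lf 0 4092738 0) (P.lf 0 454743 0)))) (P.cons (P.cons (P.lf 5824563 0 0) (P.cons (P.lf 0 271197 0) (P.cons (P.lf 116940 0 0) (P.lf 12993 0 0)))) (P.cons (P.cons (P.lf 0 266271 0) (P.cons (P.lf 0 31968 0) (P.cons (P.lf 13785 0 0) P.nil))) (P.cons (P.cons (P.lf 0 14316 0) (P.cons (P.lf 279 0 0) P.nil)) (P.cons (P.cons (P.lf 261 0 0) P.nil) P.nil)))))) 4944)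
 (EL.cons 11 (TM.mk (P.cons (P.cons (P.lf 1170944265 0 0) (P.cons (P.lf 0 1090842909 0) (P.cons (P.lf 0 111955968 0) (P.cons (P.lf 23283726 0 0) (P.lf 1940310 0 0))))) (P.cons (P.cons (P.lf 23594871 0 0) (P.cons (P.lf 0 21980805 0) (P.cons (P.lf 0 2255943 0) (P.cons (P.lf 469173 0 0) (P.lf 39096 0 0))))) (P.cons (P.cons (P.lf 0 1194735 0) (P.cons (P.lf 1113006 0 0) (P.cons (P.lf 114228 0 0) (P.cons (P.lf 0 23754 0) P.nil)))) (P.cons (P.cons (P.lf 0 26766 0) (P.cons (P.lf 24936 0 0) (P.cons (P.lf 2559 0 0) P.nil))) (P.cons (P.cons (P.lf 555 0 0) (P.cons (P.lf 0 516 0) P.nil)) (P.cons (P.cons (P.lf 15 0 0) P.nil) P.nil)))))) 2874)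
 EL.nil)))
noncomputable def S219_227_660_808_22 : EL := (EL.cons 4 (TM.mk (P.cons (P.cons (P.lf 0 792703665 0) (P.cons (P.lf 0 293613246 0) (P.cons (P.lf 105366069 0 0) (P.cons (P.lf 32388378 0 0) (P.cons (P.lf 0 1914408 0) (P.cons (P.lf 0 877785 0) P.nil)))))) (P.cons (P.cons (P.lf 0 111586701 0) (P.cons (P.lf 0 18675741 0) (P.cons (P.lf 9239166 0 0) (P.cons (P.lf 0 128013 0) (P.cons (P.lf 106878 0 0) P.nil))))) (P.cons (P.cons (P.lf 0 325488 0) (P.cons (P.lf 2175822 0 0) (P.cons (P.lf 0 731229 0) (P.cons (P.lf 0 282771 0) P.nil)))) (P.cons (P.cons (P.lf 676512 0 0) (P.cons (P.lf 182184 0 0) (P.cons (P.lf 0 78735 0) P.nil))) (P.cons (P.cons (P.lf 33069 0 0) (P.cons (P.lf 0 2979 0) P.nil)) (P.cons (P.cons (P.lf 0 1218 0) P.nil) P.nil)))))) 253692)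
 (EL.cons 8 (TM.mk (P.cons (P.cons (P.lf 139135938 0 0) (P.cons (P.lf 51535215 0 0) (P.cons (P.lf 0 18493932 0) (P.cons (P.lf 0 5684832 0) (P.cons (P.lf 336018 0 0) (P.cons (P.lf 154068 0 0) P.nil)))))) (P.cons (P.cons (P.lf 2005356 0 0) (P.cons (P.lf 0 3233712 0) (P.cons (P.lf 715119 0 0) (P.cons (P.lf 740769 0 0) (P.cons (P.lf 0 61215 0) P.nil))))) (P.cons (P.cons (P.lf 0 2283852 0) (P.cons (P.lf 0 746544 0) (P.cons (P.lf 315471 0 0) (P.cons (P.lf 41328 0 0) P.nil)))) (P.cons (P.cons (P.lf 0 113301 0) (P.cons (P.lf 17142 0 0) (P.cons (P.lf 0 3135 0) P.nil))) (P.cons (P.cons (P.lf 8457 0 0) (P.cons (P.lf 4080 0 0) P.nil)) (P.cons (P.cons (P.lf 843 0 0) P.nil) P.nil)))))) 78057)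
 (EL.cons 11 (TM.mk (P.cons (P.cons (P.lf 0 359490732 0) (P.cons (P.lf 237190248 0 0) (P.cons (P.lf 167529204 0 0) (P.cons (P.lf 0 32375625 0) (P.cons (P.lf 0 10928205 0) (P.cons (P.lf 228288 0 0) P.nil)))))) (P.cons (P.cons (P.lf 0 37196835 0) (P.cons (P.lf 29730150 0 0) (P.cons (P.lf 10264365 0 0) (P.cons (P.lf 0 2010486 0) (P.cons (P.lf 0 582141 0) P.nil))))) (P.cons (P.cons (P.lf 0 1020102 0) (P.cons (P.lf 1125168 0 0) (P.cons (P.lf 0 140745 0) (P.cons (P.lf 24858 0 0) P.nil)))) (P.cons (P.cons (P.lf 88011 0 0) (P.cons (P.lf 0 69123 0) (P.cons (P.lf 0 25947 0) P.nil))) (P.cons (P.cons (P.lf 4134 0 0) (P.cons (P.lf 0 3948 0) P.nil)) (P.cons (P.cons (P.lf 0 75 0) P.nil) P.nil)))))) 304326)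
 EL.nil)))
noncomputable def S219_227_660_808_23 : EL := (EL.cons 4 (TM.mk (P.cons (P.cons (P.lf 0 652131267 0) (P.cons (P.lf 0 64298424 0) (P.cons (P.lf 27726204 0 0) (P.lf 3080688 0 0)))) (P.cons (P.cons (P.lf 38366556 0 0) (P.cons (P.lf 13009686 0 0) (P.cons (P.lf 0 5609922 0) (P.lf 0 623322 0)))) (P.cons (P.cons (P.lf 9199815 0 0) (P.cons (P.lf 0 216579 0) (P.cons (P.lf 93390 0 0) (P.lf 10377 0 0)))) (P.cons (P.cons (P.lf 0 320160 0) (P.cons (P.lf 0 57228 0) (P.cons (P.lf 24675 0 0) P.nil))) (P.cons (P.cons (P.lf 0 29511 0) (P.cons (P.lf 78 0 0) P.nil)) (P.cons (P.cons (P.lf 357 0 0) P.nil) P.nil)))))) 4725)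
 (EL.cons 8 (TM.mk (P.cons (P.cons (P.lf 114462567 0 0) (P.cons (P.lf 11285709 0 0) (P.cons (P.lf 0 4866525 0) (P.lf 0 540726 0)))) (P.cons (P.cons (P.lf 0 21196962 0) (P.cons (P.lf 0 3709467 0) (P.cons (P.lf 1599561 0 0) (P.lf 177726 0 0)))) (P.cons (P.cons (P.lf 0 653829 0) (P.cons (P.lf 337389 0 0) (P.cons (P.lf 0 145485 0) (P.lf 0 16164 0)))) (P.cons (P.cons (P.lf 248676 0 0) (P.cons (P.lf 2544 0 0) (P.cons (P.lf 0 1095 0) P.nil))) (P.cons (P.cons (P.lf 0 3111 0) (P.cons (P.lf 0 1137 0) P.nil)) (P.cons (P.cons (P.lf 0 591 0) P.nil) P.nil)))))) 2463)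
 (EL.cons 11 (TM.mk (P.cons (P.cons (P.lf 0 295741218 0) (P.cons (P.lf 275510304 0 0) (P.cons (P.lf 28276317 0 0) (P.cons (P.lf 0 5880687 0) (P.lf 0 490056 0))))) (P.cons (P.cons (P.lf 28429272 0 0) (P.cons (P.lf 0 26484498 0) (P.cons (P.lf 0 2718171 0) (P.cons (P.lf 565302 0 0) (P.lf 47109 0 0))))) (P.cons (P.cons (P.lf 1252740 0 0) (P.cons (P.lf 0 1167042 0) (P.cons (P.lf 0 119775 0) (P.cons (P.lf 24909 0 0) P.nil)))) (P.cons (P.cons (P.lf 0 32133 0) (P.cons (P.lf 29934 0 0) (P.cons (P.lf 3072 0 0) P.nil))) (P.cons (P.cons (P.lf 0 1491 0) (P.cons (P.lf 1389 0 0) P.nil)) (P.cons (P.cons (P.lf 12 0 0) P.nil) P.nil)))))) 3651)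
 EL.nil)))
noncomputable def S219_227_660_808_24 : EL := (EL.cons 4 (TM.mk (P.cons (P.cons (P.lf 200210337 0 0) (P.cons (P.lf 74156850 0 0) (P.cons (P.lf 0 26611932 0) (P.cons (P.lf 0 8180217 0) (P.cons (P.lf 483513 0 0) (P.cons (P.lf 221697 0 0) P.nil)))))) (P.cons (P.cons (P.lf 4902759 0 0) (P.cons (P.lf 0 3906030 0) (P.cons (P.lf 760908 0 0) (P.cons (P.lf 983520 0 0) (P.cons (P.lf 0 83214 0) P.nil))))) (P.cons (P.cons (P.lf 0 3369588 0) (P.cons (P.lf 0 1162719 0) (P.cons (P.lf 479241 0 0) (P.cons (P.lf 74796 0 0) P.nil)))) (P.cons (P.cons (P.lf 0 198915 0) (P.cons (P.lf 16026 0 0) (P.cons (P.lf 0 360 0) P.nil))) (P.cons (P.cons (P.lf 12381 0 0) (P.cons (P.lf 6756 0 0) P.nil)) (P.cons (P.cons (P.lf 1440 0 0) P.nil) P.nil)))))) 103959)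
 (EL.cons 8 (TM.mk (P.cons (P.cons (P.lf 0 35141067 0) (P.cons (P.lf 0 13016064 0) (P.cons (P.lf 4670946 0 0) (P.cons (P.lf 1435797 0 0) (P.cons (P.lf 0 84867 0) (P.cons (P.lf 0 38910 0) P.nil)))))) (P.cons (P.cons (P.lf 3579687 0 0) (P.cons (P.lf 2330223 0 0) (P.cons (P.lf 0 723747 0) (P.cons (P.lf 0 354045 0) (P.cons (P.lf 25329 0 0) P.nil))))) (P.cons (P.cons (P.lf 666381 0 0) (P.cons (P.lf 104940 0 0) (P.cons (P.lf 0 62751 0) (P.cons (P.lf 10062 0 0) P.nil)))) (P.cons (P.cons (P.lf 0 39084 0) (P.cons (P.lf 0 27363 0) (P.cons (P.lf 10356 0 0) P.nil))) (P.cons (P.cons (P.lf 0 5994 0) (P.cons (P.lf 0 672 0) P.nil)) (P.cons (P.cons (P.lf 27 0 0) P.nil) P.nil)))))) 30285)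
 (EL.cons 11 (TM.mk (P.cons (P.cons (P.lf 90795291 0 0) (P.cons (P.lf 0 59906295 0) (P.cons (P.lf 0 42312252 0) (P.cons (P.lf 8176995 0 0) (P.cons (P.lf 2760096 0 0) (P.cons (P.lf 0 57657 0) P.nil)))))) (P.cons (P.cons (P.lf 0 1162929 0) (P.cons (P.lf 0 542982 0) (P.cons (P.lf 2327598 0 0) (P.cons (P.lf 0 443031 0) (P.cons (P.lf 0 173910 0) P.nil))))) (P.cons (P.cons (P.lf 0 913983 0) (P.cons (P.lf 641211 0 0) (P.cons (P.lf 373911 0 0) (P.cons (P.lf 0 72456 0) P.nil)))) (P.cons (P.cons (P.lf 0 57618 0) (P.cons (P.lf 55227 0 0) (P.cons (P.lf 3393 0 0) P.nil))) (P.cons (P.cons (P.lf 1638 0 0) (P.cons (P.lf 0 1035 0) P.nil)) (P.cons (P.cons (P.lf 171 0 0) P.nil) P.nil)))))) 122949)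
 EL.nil)))
noncomputable def S219_227_660_808_25 : EL := (EL.cons 4 (TM.mk (P.cons (P.cons (P.lf 164706468 0 0) (P.cons (P.lf 16239624 0 0) (P.cons (P.lf 0 7002708 0) (P.lf 0 778077 0)))) (P.cons (P.cons (P.lf 0 28842036 0) (P.cons (P.lf 0 5174139 0) (P.cons (P.lf 2231145 0 0) (P.lf 247905 0 0)))) (P.cons (P.cons (P.lf 0 1340523 0) (P.cons (P.lf 422601 0 0) (P.cons (P.lf 0 182229 0) (P.lf 0 20247 0)))) (P.cons (P.cons (P.lf 364515 0 0) (P.cons (P.lf 11454 0 0) (P.cons (P.lf 0 4938 0) P.nil))) (P.cons (P.cons (P.lf 0 147 0) (P.cons (P.lf 0 1842 0) P.nil)) (P.cons (P.cons (P.lf 0 1101 0) P.nil) P.nil)))))) 3639)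
 (EL.cons 8 (TM.mk (P.cons (P.cons (P.lf 0 28909401 0) (P.cons (P.lf 0 2850390 0) (P.cons (P.lf 1229121 0 0) (P.lf 136569 0 0)))) (P.cons (P.cons (P.lf 8715201 0 0) (P.cons (P.lf 1268328 0 0) (P.cons (P.lf 0 546915 0) (P.lf 0 60768 0)))) (P.cons (P.cons (P.lf 0 432156 0) (P.cons (P.lf 0 191664 0) (P.cons (P.lf 82647 0 0) (P.lf 9183 0 0)))) (P.cons (P.cons (P.lf 0 87561 0) (P.cons (P.lf 8361 0 0) (P.cons (P.lf 0 3603 0) P.nil))) (P.cons (P.cons (P.lf 8094 0 0) (P.cons (P.lf 462 0 0) P.nil)) (P.cons (P.cons (P.lf 120 0 0) P.nil) P.nil)))))) 1482)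
 (EL.cons 11 (TM.mk (P.cons (P.cons (P.lf 74694303 0 0) (P.cons (P.lf 0 69584655 0) (P.cons (P.lf 0 7141647 0) (P.cons (P.lf 1485264 0 0) (P.lf 123771 0 0))))) (P.cons (P.cons (P.lf 0 15865671 0) (P.cons (P.lf 14780340 0 0) (P.cons (P.lf 1516944 0 0) (P.cons (P.lf 0 315480 0) (P.lf 0 26289 0))))) (P.cons (P.cons (P.lf 453339 0 0) (P.cons (P.lf 0 422328 0) (P.cons (P.lf 0 43344 0) (P.cons (P.lf 9012 0 0) P.nil)))) (P.cons (P.cons (P.lf 53445 0 0) (P.cons (P.lf 0 49791 0) (P.cons (P.lf 0 5109 0) P.nil))) (P.cons (P.cons (P.lf 0 477 0) (P.cons (P.lf 444 0 0) P.nil)) (P.cons (P.cons (P.lf 0 66 0) P.nil) P.nil)))))) 3813)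
 EL.nil)))
noncomputable def S219_227_660_808_26 : EL := (EL.cons 4 (TM.mk (P.cons (P.cons (P.lf 0 50566410 0) (P.cons (P.lf 0 18729528 0) (P.cons (P.lf 6721278 0 0) (P.cons (P.lf 2066046 0 0) (P.cons (P.lf 0 122118 0) (P.cons (P.lf 0 55992 0) P.nil)))))) (P.cons (P.cons (P.lf 4641546 0 0) (P.cons (P.lf 3164385 0 0) (P.cons (P.lf 0 973722 0) (P.cons (P.lf 0 488640 0) (P.cons (P.lf 35217 0 0) P.nil))))) (P.cons (P.cons (P.lf 1039152 0 0) (P.cons (P.lf 195291 0 0) (P.cons (P.lf 0 104559 0) (P.cons (P.lf 8187 0 0) P.nil)))) (P.cons (P.cons (P.lf 0 49176 0) (P.cons (P.lf 0 39624 0) (P.cons (P.lf 14538 0 0) P.nil))) (P.cons (P.cons (P.lf 0 9768 0) (P.cons (P.lf 0 1470 0) P.nil)) (P.cons (P.cons (P.lf 0 18 0) P.nil) P.nil)))))) 40779)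
 (EL.cons 8 (TM.mk (P.cons (P.cons (P.lf 8875452 0 0) (P.cons (P.lf 3287421 0 0) (P.cons (P.lf 0 1179723 0) (P.cons (P.lf 0 362634 0) (P.cons (P.lf 21432 0 0) (P.cons (P.lf 9828 0 0) P.nil)))))) (P.cons (P.cons (P.lf 0 1936137 0) (P.cons (P.lf 0 970794 0) (P.cons (P.lf 319971 0 0) (P.cons (P.lf 131586 0 0) (P.cons (P.lf 0 8889 0) P.nil))))) (P.cons (P.cons (P.lf 0 70920 0) (P.cons (P.lf 39060 0 0) (P.cons (P.lf 0 4374 0) (P.cons (P.lf 0 12621 0) P.nil)))) (P.cons (P.cons (P.lf 30501 0 0) (P.cons (P.lf 10605 0 0) (P.cons (P.lf 0 4653 0) P.nil))) (P.cons (P.cons (P.lf 489 0 0) (P.cons (P.lf 0 627 0) P.nil)) (P.cons (P.cons (P.lf 0 195 0) P.nil) P.nil)))))) 11571)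
 (EL.cons 11 (TM.mk (P.cons (P.cons (P.lf 0 22931841 0) (P.cons (P.lf 15130317 0 0) (P.cons (P.lf 10686654 0 0) (P.cons (P.lf 0 2065233 0) (P.cons (P.lf 0 697107 0) (P.cons (P.lf 14562 0 0) P.nil)))))) (P.cons (P.cons (P.lf 2960211 0 0) (P.cons (P.lf 0 1622199 0) (P.cons (P.lf 0 1830507 0) (P.cons (P.lf 352038 0 0) (P.cons (P.lf 124983 0 0) P.nil))))) (P.cons (P.cons (P.lf 216696 0 0) (P.cons (P.lf 0 191097 0) (P.cons (P.lf 0 35403 0) (P.cons (P.lf 7089 0 0) P.nil)))) (P.cons (P.cons (P.lf 0 13242 0) (P.cons (P.lf 5223 0 0) (P.cons (P.lf 10962 0 0) P.nil))) (P.cons (P.cons (P.lf 0 2307 0) (P.cons (P.lf 2034 0 0) P.nil)) (P.cons (P.cons (P.lf 0 0 0) P.nil) P.nil)))))) 47220)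
 EL.nil)))
noncomputable def S219_227_660_808_27 : EL := (EL.cons 13 (TM.mk (P.lf 0 4294967296 0) 0)
 EL.nil)
noncomputable def S219_227_660_808_28 : EL := (EL.cons 13 (TM.mk (P.cons (P.cons (P.lf 1318594738 0 0) (P.cons (P.lf 358390548 0 0) (P.cons (P.lf 0 154542044 0) (P.lf 0 17171336 0)))) (P.cons (P.cons (P.lf 109866137 0 0) (P.cons (P.lf 10832508 0 0) (P.cons (P.lf 0 4671100 0) (P.lf 0 519008 0)))) (P.cons (P.cons (P.lf 2873243 0 0) (P.cons (P.lf 0 493936 0) (P.cons (P.lf 212988 0 0) (P.lf 23664 0 0)))) (P.cons (P.cons (P.lf 0 238482 0) (P.cons (P.lf 0 17996 0) (P.cons (P.lf 7760 0 0) P.nil))) (P.cons (P.cons (P.lf 0 5544 0) (P.cons (P.lf 296 0 0) P.nil)) (P.cons (P.cons (P.lf 145 0 0) P.nil) P.nil)))))) 1605)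
 EL.nil)
noncomputable def S219_227_660_808_29 : EL := (EL.cons 13 (TM.mk (P.cons (P.cons (P.lf 0 404820796 0) (P.cons (P.lf 0 220058434 0) (P.cons (P.lf 64986028 0 0) (P.cons (P.lf 36334824 0 0) (P.cons (P.lf 0 2695050 0) (P.cons (P.lf 0 1235722 0) P.nil)))))) (P.cons (P.cons (P.lf 0 67459843 0) (P.cons (P.lf 0 24986766 0) (P.cons (P.lf 8966753 0 0) (P.cons (P.lf 2756279 0 0) (P.cons (P.lf 0 162918 0) P.nil))))) (P.cons (P.cons (P.lf 0 4574622 0) (P.cons (P.lf 0 730421 0) (P.cons (P.lf 370078 0 0) (P.cons (P.lf 0 12531 0) P.nil)))) (P.cons (P.cons (P.lf 0 563 0) (P.cons (P.lf 61626 0 0) (P.cons (P.lf 0 21078 0) P.nil))) (P.cons (P.cons (P.lf 13682 0 0) (P.cons (P.lf 3527 0 0) P.nil)) (P.cons (P.cons (P.lf 513 0 0) P.nil) P.nil)))))) 197216)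
 EL.nil)
noncomputable def S219_227_660_808_30 : EL := (EL.cons 13 (TM.mk (P.cons (P.lf 1084764580 0 0) (P.cons (P.lf 0 126135536 0) (P.cons (P.lf 0 946524 0) (P.cons (P.lf 33040 0 0) (P.cons (P.lf 444 0 0) (P.cons (P.lf 0 4 0) P.nil)))))) 40)
 EL.nil)
noncomputable def S219_227_660_808_31 : EL := (EL.cons 13 (TM.mk (P.cons (P.cons (P.lf 0 333032772 0) (P.cons (P.lf 0 90517423 0) (P.cons (P.lf 39032133 0 0) (P.lf 4336903 0 0)))) (P.cons (P.cons (P.lf 10976279 0 0) (P.cons (P.lf 7789363 0 0) (P.cons (P.lf 0 3358861 0) (P.lf 0 373207 0)))) (P.cons (P.cons (P.lf 2791479 0 0) (P.cons (P.lf 521865 0 0) (P.cons (P.lf 0 225033 0) (P.lf 0 25003 0)))) (P.cons (P.cons (P.lf 158683 0 0) (P.cons (P.lf 0 10330 0) (P.cons (P.lf 4454 0 0) P.nil))) (P.cons (P.cons (P.lf 0 5951 0) (P.cons (P.lf 0 832 0) P.nil)) (P.cons (P.cons (P.lf 0 284 0) P.nil) P.nil)))))) 1799)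
 EL.nil)
noncomputable def S219_227_660_808_32 : EL := (EL.cons 13 (TM.mk (P.cons (P.cons (P.lf 102244145 0 0) (P.cons (P.lf 55579374 0 0) (P.cons (P.lf 0 16413289 0) (P.cons (P.lf 0 9176956 0) (P.cons (P.lf 680679 0 0) (P.cons (P.lf 312101 0 0) P.nil)))))) (P.cons (P.cons (P.lf 5149226 0 0) (P.cons (P.lf 0 151905 0) (P.cons (P.lf 0 356177 0) (P.cons (P.lf 370945 0 0) (P.cons (P.lf 0 38001 0) P.nil))))) (P.cons (P.cons (P.lf 0 914993 0) (P.cons (P.lf 0 597833 0) (P.cons (P.lf 184189 0 0) (P.cons (P.lf 92119 0 0) P.nil)))) (P.cons (P.cons (P.lf 0 145958 0) (P.cons (P.lf 0 40829 0) (P.cons (P.lf 17668 0 0) P.nil))) (P.cons (P.cons (P.lf 0 3919 0) (P.cons (P.lf 973 0 0) P.nil)) (P.cons (P.cons (P.lf 313 0 0) P.nil) P.nil)))))) 99900)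
 EL.nil)
noncomputable def S219_227_660_808_33 : EL := (EL.cons 14 (TM.mk (P.lf 8589934592 0 0) 0)
 EL.nil)
noncomputable def S219_227_660_808_34 : EL := (EL.cons 14 (TM.mk (P.cons (P.cons (P.lf 0 2637189476 0) (P.cons (P.lf 0 716781096 0) (P.cons (P.lf 309084088 0 0) (P.lf 34342672 0 0)))) (P.cons (P.cons (P.lf 0 219732274 0) (P.cons (P.lf 0 21665016 0) (P.cons (P.lf 9342200 0 0) (P.lf 1038016 0 0)))) (P.cons (P.cons (P.lf 0 5746486 0) (P.cons (P.lf 987872 0 0) (P.cons (P.lf 0 425976 0) (P.lf 0 47328 0)))) (P.cons (P.cons (P.lf 476964 0 0) (P.cons (P.lf 35992 0 0) (P.cons (P.lf 0 15520 0) P.nil))) (P.cons (P.cons (P.lf 11088 0 0) (P.cons (P.lf 0 592 0) P.nil)) (P.cons (P.cons (P.lf 0 290 0) P.nil) P.nil)))))) 3210)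
 EL.nil)
noncomputable def S219_227_660_808_35 : EL := (EL.cons 14 (TM.mk (P.cons (P.cons (P.lf 809641592 0 0) (P.cons (P.lf 440116868 0 0) (P.cons (P.lf 0 129972056 0) (P.cons (P.lf 0 72669648 0) (P.cons (P.lf 5390100 0 0) (P.cons (P.lf 2471444 0 0) P.nil)))))) (P.cons (P.cons (P.lf 134919686 0 0) (P.cons (P.lf 49973532 0 0) (P.cons (P.lf 0 17933506 0) (P.cons (P.lf 0 5512558 0) (P.cons (P.lf 325836 0 0) P.nil))))) (P.cons (P.cons (P.lf 9149244 0 0) (P.cons (P.lf 1460842 0 0) (P.cons (P.lf 0 740156 0) (P.cons (P.lf 25062 0 0) P.nil)))) (P.cons (P.cons (P.lf 1126 0 0) (P.cons (P.lf 0 123252 0) (P.cons (P.lf 42156 0 0) P.nil))) (P.cons (P.cons (P.lf 0 27364 0) (P.cons (P.lf 0 7054 0) P.nil)) (P.cons (P.cons (P.lf 0 1026 0) P.nil) P.nil)))))) 394432)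
 EL.nil)
noncomputable def S219_227_660_808_36 : EL := (EL.cons 14 (TM.mk (P.cons (P.lf 0 2169529160 0) (P.cons (P.lf 252271072 0 0) (P.cons (P.lf 1893048 0 0) (P.cons (P.lf 0 66080 0) (P.cons (P.lf 0 888 0) (P.cons (P.lf 8 0 0) P.nil)))))) 80)
 EL.nil)
noncomputable def S219_227_660_808_37 : EL := (EL.cons 14 (TM.mk (P.cons (P.cons (P.lf 666065544 0 0) (P.cons (P.lf 181034846 0 0) (P.cons (P.lf 0 78064266 0) (P.lf 0 8673806 0)))) (P.cons (P.cons (P.lf 0 21952558 0) (P.cons (P.lf 0 15578726 0) (P.cons (P.lf 6717722 0 0) (P.lf 746414 0 0)))) (P.cons (P.cons (P.lf 0 5582958 0) (P.cons (P.lf 0 1043730 0) (P.cons (P.lf 450066 0 0) (P.lf 50006 0 0)))) (P.cons (P.cons (P.lf 0 317366 0) (P.cons (P.lf 20660 0 0) (P.cons (P.lf 0 8908 0) P.nil))) (P.cons (P.cons (P.lf 11902 0 0) (P.cons (P.lf 1664 0 0) P.nil)) (P.cons (P.cons (P.lf 568 0 0) P.nil) P.nil)))))) 3598)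
 EL.nil)
noncomputable def S219_227_660_808_38 : EL := (EL.cons 14 (TM.mk (P.cons (P.cons (P.lf 0 204488290 0) (P.cons (P.lf 0 111158748 0) (P.cons (P.lf 32826578 0 0) (P.cons (P.lf 18353912 0 0) (P.cons (P.lf 0 1361358 0) (P.cons (P.lf 0 624202 0) P.nil)))))) (P.cons (P.cons (P.lf 0 10298452 0) (P.cons (P.lf 303810 0 0) (P.cons (P.lf 712354 0 0) (P.cons (P.lf 0 741890 0) (P.cons (P.lf 76002 0 0) P.nil))))) (P.cons (P.cons (P.lf 1829986 0 0) (P.cons (P.lf 1195666 0 0) (P.cons (P.lf 0 368378 0) (P.cons (P.lf 0 184238 0) P.nil)))) (P.cons (P.cons (P.lf 291916 0 0) (P.cons (P.lf 81658 0 0) (P.cons (P.lf 0 35336 0) P.nil))) (P.cons (P.cons (P.lf 7838 0 0) (P.cons (P.lf 0 1946 0) P.nil)) (P.cons (P.cons (P.lf 0 626 0) P.nil) P.nil)))))) 199800)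
 EL.nil)
noncomputable def S219_227_660_808_39 : EL := (EL.cons 14 (TM.mk (P.cons (P.lf 547950246 0 0) (P.cons (P.lf 0 127430410 0) (P.cons (P.lf 6452510 0 0) (P.cons (P.lf 144570 0 0) (P.cons (P.lf 0 3014 0) (P.cons (P.lf 0 84 0) P.nil)))))) 60)
 EL.nil)
noncomputable def S219_227_660_808_40 : EL := (EL.cons 14 (TM.mk (P.cons (P.cons (P.lf 0 168225800 0) (P.cons (P.lf 0 45723324 0) (P.cons (P.lf 19716412 0 0) (P.lf 2190712 0 0)))) (P.cons (P.cons (P.lf 25105636 0 0) (P.cons (P.lf 9251334 0 0) (P.cons (P.lf 0 3989278 0) (P.lf 0 443252 0)))) (P.cons (P.cons (P.lf 912148 0 0) (P.cons (P.lf 0 154010 0) (P.cons (P.lf 66410 0 0) (P.lf 7378 0 0)))) (P.cons (P.cons (P.lf 0 93766 0) (P.cons (P.lf 0 40696 0) (P.cons (P.lf 17548 0 0) P.nil))) (P.cons (P.cons (P.lf 0 13456 0) (P.cons (P.lf 56 0 0) P.nil)) (P.cons (P.cons (P.lf 180 0 0) P.nil) P.nil)))))) 3382)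
 EL.nil)
noncomputable def S219_227_660_808_41 : EL := (EL.cons 14 (TM.mk (P.cons (P.cons (P.lf 51646878 0 0) (P.cons (P.lf 28074968 0 0) (P.cons (P.lf 0 8290892 0) (P.cons (P.lf 0 4635582 0) (P.cons (P.lf 343832 0 0) (P.cons (P.lf 157652 0 0) P.nil)))))) (P.cons (P.cons (P.lf 0 3404412 0) (P.cons (P.lf 0 3341266 0) (P.cons (P.lf 784140 0 0) (P.cons (P.lf 726398 0 0) (P.cons (P.lf 0 59176 0) P.nil))))) (P.cons (P.cons (P.lf 0 809704 0) (P.cons (P.lf 0 317560 0) (P.cons (P.lf 121194 0 0) (P.cons (P.lf 28788 0 0) P.nil)))) (P.cons (P.cons (P.lf 0 20680 0) (P.cons (P.lf 15412 0 0) (P.cons (P.lf 0 1988 0) P.nil))) (P.cons (P.cons (P.lf 7096 0 0) (P.cons (P.lf 3162 0 0) P.nil)) (P.cons (P.cons (P.lf 440 0 0) P.nil) P.nil)))))) 86910)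
 EL.nil)
noncomputable def S219_227_660_808_42 : EL := (EL.cons 14 (TM.mk (P.cons (P.lf 0 138393840 0) (P.cons (P.lf 48276966 0 0) (P.cons (P.lf 0 5251334 0) (P.cons (P.lf 120686 0 0) (P.cons (P.lf 7352 0 0) (P.cons (P.lf 0 70 0) P.nil)))))) 42)
 EL.nil)
noncomputable def S219_227_660_808_43 : EL := (EL.cons 14 (TM.mk (P.cons (P.cons (P.lf 42488190 0 0) (P.cons (P.lf 11548176 0 0) (P.cons (P.lf 0 4979704 0) (P.lf 0 553300 0)))) (P.cons (P.cons (P.lf 0 11281332 0) (P.cons (P.lf 0 3679388 0) (P.cons (P.lf 1586594 0 0) (P.lf 176288 0 0)))) (P.cons (P.cons (P.lf 469856 0 0) (P.cons (P.lf 300516 0 0) (P.cons (P.lf 0 129586 0) (P.lf 0 14398 0)))) (P.cons (P.cons (P.lf 57296 0 0) (P.cons (P.lf 8146 0 0) (P.cons (P.lf 0 3512 0) P.nil))) (P.cons (P.cons (P.lf 670 0 0) (P.cons (P.lf 0 1308 0) P.nil)) (P.cons (P.cons (P.lf 0 470 0) P.nil) P.nil)))))) 2444)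
 EL.nil)
noncomputable def S219_227_660_808_44 : EL := (EL.cons 14 (TM.mk (P.cons (P.cons (P.lf 0 13044268 0) (P.cons (P.lf 0 7090794 0) (P.cons (P.lf 2094000 0 0) (P.cons (P.lf 1170792 0 0) (P.cons (P.lf 0 86840 0) (P.cons (P.lf 0 39816 0) P.nil)))))) (P.cons (P.cons (P.lf 2376616 0 0) (P.cons (P.lf 1668402 0 0) (P.cons (P.lf 0 441536 0) (P.cons (P.lf 0 319602 0) (P.cons (P.lf 25042 0 0) P.nil))))) (P.cons (P.cons (P.lf 115904 0 0) (P.cons (P.lf 0 11734 0) (P.cons (P.lf 0 9408 0) (P.cons (P.lf 13040 0 0) P.nil)))) (P.cons (P.cons (P.lf 0 19702 0) (P.cons (P.lf 0 14170 0) (P.cons (P.lf 4298 0 0) P.nil))) (P.cons (P.cons (P.lf 0 2556 0) (P.cons (P.lf 0 392 0) P.nil)) (P.cons (P.cons (P.lf 98 0 0) P.nil) P.nil)))))) 35740)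
 EL.nil)
noncomputable def S219_227_660_808_45 : EL := (EL.cons 14 (TM.mk (P.cons (P.cons (P.lf 0 248567466 0) (P.cons (P.lf 0 202679932 0) (P.cons (P.lf 32310002 0 0) (P.cons (P.lf 52228978 0 0) (P.cons (P.lf 1491978 0 0) (P.cons (P.lf 0 4342966 0) P.nil)))))) (P.cons (P.cons (P.lf 0 62132388 0) (P.cons (P.lf 0 39900924 0) (P.cons (P.lf 9285664 0 0) (P.cons (P.lf 8289628 0 0) (P.cons (P.lf 0 128300 0) P.nil))))) (P.cons (P.cons (P.lf 0 6801808 0) (P.cons (P.lf 0 3031880 0) (P.cons (P.lf 1011396 0 0) (P.cons (P.lf 407488 0 0) P.nil)))) (P.cons (P.cons (P.lf 0 279686 0) (P.cons (P.lf 0 12782 0) (P.cons (P.lf 26800 0 0) P.nil))) (P.cons (P.cons (P.lf 10788 0 0) (P.cons (P.lf 11526 0 0) P.nil)) (P.cons (P.cons (P.lf 1668 0 0) P.nil) P.nil)))))) 1689554)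
 EL.nil)
noncomputable def S219_227_660_808_46 : EL := (EL.cons 15 (TM.mk (P.lf 4294967296 0 0) 0)
 EL.nil)
noncomputable def S219_227_660_808_47 : EL := (EL.cons 15 (TM.mk (P.cons (P.cons (P.lf 0 1318594738 0) (P.cons (P.lf 0 358390548 0) (P.cons (P.lf 154542044 0 0) (P.lf 17171336 0 0)))) (P.cons (P.cons (P.lf 0 109866137 0) (P.cons (P.lf 0 10832508 0) (P.cons (P.lf 4671100 0 0) (P.lf 519008 0 0)))) (P.cons (P.cons (P.lf 0 2873243 0) (P.cons (P.lf 493936 0 0) (P.cons (P.lf 0 212988 0) (P.lf 0 23664 0)))) (P.cons (P.cons (P.lf 238482 0 0) (P.cons (P.lf 17996 0 0) (P.cons (P.lf 0 7760 0) P.nil))) (P.cons (P.cons (P.lf 5544 0 0) (P.cons (P.lf 0 296 0) P.nil)) (P.cons (P.cons (P.lf 0 145 0) P.nil) P.nil)))))) 1605)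
 EL.nil)
noncomputable def S219_227_660_808_48 : EL := (EL.cons 15 (TM.mk (P.cons (P.cons (P.lf 404820796 0 0) (P.cons (P.lf 220058434 0 0) (P.cons (P.lf 0 64986028 0) (P.cons (P.lf 0 36334824 0) (P.cons (P.lf 2695050 0 0) (P.cons (P.lf 1235722 0 0) P.nil)))))) (P.cons (P.cons (P.lf 67459843 0 0) (P.cons (P.lf 24986766 0 0) (P.cons (P.lf 0 8966753 0) (P.cons (P.lf 0 2756279 0) (P.cons (P.lf 162918 0 0) P.nil))))) (P.cons (P.cons (P.lf 4574622 0 0) (P.cons (P.lf 730421 0 0) (P.cons (P.lf 0 370078 0) (P.cons (P.lf 12531 0 0) P.nil)))) (P.cons (P.cons (P.lf 563 0 0) (P.cons (P.lf 0 61626 0) (P.cons (P.lf 21078 0 0) P.nil))) (P.cons (P.cons (P.lf 0 13682 0) (P.cons (P.lf 0 3527 0) P.nil)) (P.cons (P.cons (P.lf 0 513 0) P.nil) P.nil)))))) 197216)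
 EL.nil)
noncomputable def S219_227_660_808 : SL := (SL.cons S219_227_660_808_0 (SL.cons S219_227_660_808_1 (SL.cons S219_227_660_808_2 (SL.cons S219_227_660_808_3 (SL.cons S219_227_660_808_4 (SL.cons S219_227_660_808_5 (SL.cons S219_227_660_808_6 (SL.cons S219_227_660_808_7 (SL.cons S219_227_660_808_8 (SL.cons S219_227_660_808_9 (SL.cons S219_227_660_808_10 (SL.cons S219_227_660_808_11 (SL.cons S219_227_660_808_12 (SL.cons S219_227_660_808_13 (SL.cons S219_227_660_808_14 (SL.cons S219_227_660_808_15 (SL.cons S219_227_660_808_16 (SL.cons S219_227_660_808_17 (SL.cons S219_227_660_808_18 (SL.cons S219_227_660_808_19 (SL.cons S219_227_660_808_20 (SL.cons S219_227_660_808_21 (SL.cons S219_227_660_808_22 (SL.cons S219_227_660_808_23 (SL.cons S219_227_660_808_24 (SL.cons S219_227_660_808_25 (SL.cons S219_227_660_808_26 (SL.cons S219_227_660_808_27 (SL.cons S219_227_660_808_28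 (SL.cons S219_227_660_808_29 (SL.cons S219_227_660_808_30 (SL.cons S219_227_660_808_31 (SL.cons S219_227_660_808_32 (SL.cons S219_227_660_808_33 (SL.cons S219_227_660_808_34 (SL.cons S219_227_660_808_35 (SL.cons S219_227_660_808_36 (SL.cons S219_227_660_808_37 (SL.cons S219_227_660_808_38 (SL.cons S219_227_660_808_39 (SL.cons S219_227_660_808_40 (SL.cons S219_227_660_808_41 (SL.cons S219_227_660_808_42 (SL.cons S219_227_660_808_43 (SL.cons S219_227_660_808_44 (SL.cons S219_227_660_808_45 (SL.cons S219_227_660_808_46 (SL.cons S219_227_660_808_47 (SL.cons S219_227_660_808_48 SL.nil)))))))))))))))))))))))))))))))))))))))))))))))))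
theorem S212_227_660_808_ok : band (seq (shp 5 212 227 660 808) S212_227_660_808) (sok S212_227_660_808) = true := by decide +kernel

theorem S219_227_216_364_ok : band (seq (shp 5 219 227 216 364) S219_227_216_364) (sok S219_227_216_364) = true := by decide +kernel

theorem S219_227_364_512_ok : band (seq (shp 5 219 227 364 512) S219_227_364_512) (sok S219_227_364_512) = true := by decide +kernel

theorem S219_227_438_512_ok : band (seq (shp 5 219 227 438 512) S219_227_438_512) (sok S219_227_438_512) = true := by decide +kernel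

theorem S219_227_660_734_ok : band (seq (shp 5 219 227 660 734) S219_227_660_734) (sok S219_227_660_734) = true := by decide +kernel

theorem S219_227_660_808_ok : band (seq (shp 5 219 227 660 808) S219_227_660_808) (sok S219_227_660_808) = true := by decide +kernel

end Vale.Agent.P098.Ck
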