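import Vale.Agent.P098.CkDefs

namespace Vale.Agent.P098.Ck

noncomputable def S227_241_364_438_0 : EL := (EL.cons 0 (TM.mk (P.cons (P.lf 8236751121 0 0) (P.cons (P.lf 136792680 0 0) (P.cons (P.lf 0 20162540 0) (P.cons (P.lf 0 495075 0) (P.cons (P.lf 33925 0 0) (P.cons (P.lf 991 0 0) P.nil)))))) 101)
 (EL.cons 1 (TM.mk (P.cons (P.lf 0 673184881 0) (P.cons (P.lf 202366545 0 0) (P.cons (P.lf 5530590 0 0) (P.cons (P.lf 0 526580 0) (P.cons (P.lf 0 13798 0) (P.cons (P.lf 714 0 0) P.nil)))))) 98)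
 (EL.cons 5 (TM.mk (P.cons (P.lf 4372821786 0 0) (P.cons (P.lf 0 48637396 0) (P.cons (P.lf 7168902 0 0) (P.cons (P.lf 176026 0 0) (P.cons (P.lf 0 12058 0) (P.cons (P.lf 0 354 0) P.nil)))))) 135)
 (EL.cons 9 (TM.mk (P.lf 6442450944 0 0) 2)
 EL.nil))))
noncomputable def S227_241_364_438_1 : EL := (EL.cons 0 (TM.mk (P.cons (P.cons (P.lf 3780028214 0 0) (P.cons (P.lf 0 667758897 0) (P.cons (P.lf 0 36537084 0) (P.lf 4059675 0 0)))) (P.cons (P.cons (P.lf 0 69165490 0) (P.cons (P.lf 0 71742878 0) (P.cons (P.lf 0 3925466 0) (P.lf 436159 0 0)))) (P.cons (P.cons (P.lf 0 112283792 0) (P.cons (P.lf 8737002 0 0) (P.cons (P.lf 478050 0 0) (P.lf 0 53109 0)))) (P.cons (P.cons (P.lf 2952795 0 0) (P.cons (P.lf 791880 0 0) (P.cons (P.lf 43320 0 0) P.nil))) (P.cons (P.cons (P.lf 836070 0 0) (P.cons (P.lf 0 40193 0) P.nil)) (P.cons (P.cons (P.lf 0 10453 0) P.nil) P.nil)))))) 18833)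
 (EL.cons 1 (TM.mk (P.cons (P.cons (P.lf 298553093 0 0) (P.cons (P.lf 144916757 0 0) (P.cons (P.lf 7929261 0 0) (P.lf 0 881026 0)))) (P.cons (P.cons (P.lf 367367430 0 0) (P.cons (P.lf 0 36285888 0) (P.cons (P.lf 0 1985419 0) (P.lf 220599 0 0)))) (P.cons (P.cons (P.lf 0 9249091 0) (P.cons (P.lf 0 4395480 0) (P.cons (P.lf 0 240495 0) (P.lf 26715 0 0)))) (P.cons (P.cons (P.lf 0 5522470 0) (P.cons (P.lf 316374 0 0) (P.cons (P.lf 17303 0 0) P.nil))) (P.cons (P.cons (P.lf 88973 0 0) (P.cons (P.lf 32658 0 0) P.nil)) (P.cons (P.cons (P.lf 30724 0 0) P.nil) P.nil)))))) 10433)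
 (EL.cons 5 (TM.mk (P.cons (P.cons (P.lf 1661828787 0 0) (P.cons (P.lf 0 405806594 0) (P.cons (P.lf 0 22204108 0) (P.lf 2467122 0 0)))) (P.cons (P.cons (P.lf 0 127880405 0) (P.cons (P.lf 2834132 0 0) (P.cons (P.lf 155066 0 0) (P.lf 0 17224 0)))) (P.cons (P.cons (P.lf 7447495 0 0) (P.cons (P.lf 102394 0 0) (P.cons (P.lf 5608 0 0) (P.lf 0 630 0)))) (P.cons (P.cons (P.lf 457042 0 0) (P.cons (P.lf 0 159700 0) (P.cons (P.lf 0 8736 0) P.nil))) (P.cons (P.cons (P.lf 0 180909 0) (P.cons (P.lf 6498 0 0) P.nil)) (P.cons (P.cons (P.lf 577 0 0) P.nil) P.nil)))))) 11006)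
 (EL.cons 9 (TM.mk (P.cons (P.cons (P.lf 2652210705 0 0) (P.cons (P.lf 0 567557628 0) (P.cons (P.lf 0 31054470 0) (P.lf 3450492 0 0)))) (P.cons (P.cons (P.lf 0 134534631 0) (P.cons (P.lf 0 20006862 0) (P.cons (P.lf 0 1094688 0) (P.lf 121632 0 0)))) (P.cons (P.cons (P.lf 0 28654959 0) (P.cons (P.lf 2831358 0 0) (P.cons (P.lf 154920 0 0) (P.lf 0 17208 0)))) (P.cons (P.cons (P.lf 1329628 0 0) (P.cons (P.lf 107514 0 0) (P.cons (P.lf 5880 0 0) P.nil))) (P.cons (P.cons (P.lf 102652 0 0) (P.cons (P.lf 0 6864 0) P.nil)) (P.cons (P.cons (P.lf 0 2758 0) P.nil) P.nil)))))) 2356)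
 (EL.cons 2 (TM.mk (P.cons (P.cons (P.lf 415758200 0 0) (P.cons (P.lf 52167661 0 0) (P.cons (P.lf 0 7964651 0) (P.cons (P.lf 0 243317 0) (P.lf 20275 0 0))))) (P.cons (P.cons (P.lf 0 120096070 0) (P.cons (P.lf 0 15069169 0) (P.cons (P.lf 2300670 0 0) (P.cons (P.lf 70284 0 0) (P.lf 0 5855 0))))) (P.cons (P.cons (P.lf 0 5633015 0) (P.cons (P.lf 0 706806 0) (P.cons (P.lf 107910 0 0) (P.cons (P.lf 3296 0 0) P.nil)))) (P.cons (P.cons (P.lf 501283 0 0) (P.cons (P.lf 62898 0 0) (P.cons (P.lf 0 9601 0) P.nil))) (P.cons (P.cons (P.lf 21805 0 0) (P.cons (P.lf 2733 0 0) P.nil)) (P.cons (P.cons (P.lf 0 1035 0) P.nil) P.nil)))))) 1534)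
 (EL.cons 6 (TM.mk (P.cons (P.cons (P.lf 1278200562 0 0) (P.cons (P.lf 160383456 0 0) (P.cons (P.lf 0 24486402 0) (P.cons (P.lf 0 748056 0) (P.lf 62337 0 0))))) (P.cons (P.cons (P.lf 45057597 0 0) (P.cons (P.lf 5653644 0 0) (P.cons (P.lf 0 863163 0) (P.cons (P.lf 0 26367 0) (P.lf 2196 0 0))))) (P.cons (P.cons (P.lf 0 6376536 0) (P.cons (P.lf 0 800100 0) (P.cons (P.lf 122151 0 0) (P.cons (P.lf 3729 0 0) P.nil)))) (P.cons (P.cons (P.lf 0 242142 0) (P.cons (P.lf 0 30381 0) (P.cons (P.lf 4638 0 0) P.nil))) (P.cons (P.cons (P.lf 15471 0 0) (P.cons (P.lf 1938 0 0) P.nil)) (P.cons (P.cons (P.lf 678 0 0) P.nil) P.nil)))))) 1254)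
 EL.nil))))))
noncomputable def S227_241_364_438_2 : EL := (EL.cons 0 (TM.mk (P.cons (P.cons (P.lf 1716353855 0 0) (P.cons (P.lf 0 618366966 0) (P.cons (P.lf 19894524 0 0) (P.cons (P.lf 9639070 0 0) (P.cons (P.lf 0 492450 0) (P.cons (P.lf 0 35756 0) P.nil)))))) (P.cons (P.cons (P.lf 0 96383750 0) (P.cons (P.lf 0 41795047 0) (P.cons (P.lf 8932663 0 0) (P.cons (P.lf 1481858 0 0) (P.cons (P.lf 0 102817 0) P.nil))))) (P.cons (P.cons (P.lf 0 90845172 0) (P.cons (P.lf 27546110 0 0) (P.cons (P.lf 466467 0 0) (P.cons (P.lf 0 281343 0) P.nil)))) (P.cons (P.cons (P.lf 6545072 0 0) (P.cons (P.lf 814428 0 0) (P.cons (P.lf 0 163717 0) P.nil))) (P.cons (P.cons (P.lf 1327827 0 0) (P.cons (P.lf 0 360074 0) P.nil)) (P.cons (P.cons (P.lf 0 95394 0) P.nil) P.nil)))))) 186347)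
 (EL.cons 1 (TM.mk (P.cons (P.cons (P.lf 359905206 0 0) (P.cons (P.lf 17885631 0 0) (P.cons (P.lf 0 19330109 0) (P.cons (P.lf 0 2331156 0) (P.cons (P.lf 186129 0 0) (P.cons (P.lf 13508 0 0) P.nil)))))) (P.cons (P.cons (P.lf 244133295 0 0) (P.cons (P.lf 0 87076289 0) (P.cons (P.lf 0 473430 0) (P.cons (P.lf 998954 0 0) (P.cons (P.lf 0 39329 0) P.nil))))) (P.cons (P.cons (P.lf 0 25243845 0) (P.cons (P.lf 0 2749864 0) (P.cons (P.lf 777452 0 0) (P.cons (P.lf 118251 0 0) P.nil)))) (P.cons (P.cons (P.lf 0 6228770 0) (P.cons (P.lf 1878543 0 0) (P.cons (P.lf 58234 0 0) P.nil))) (P.cons (P.cons (P.lf 502821 0 0) (P.cons (P.lf 53325 0 0) P.nil)) (P.cons (P.cons (P.lf 67476 0 0) P.nil) P.nil)))))) 99877)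
 (EL.cons 5 (TM.mk (P.cons (P.cons (P.lf 627176419 0 0) (P.cons (P.lf 0 309744191 0) (P.cons (P.lf 20614876 0 0) (P.cons (P.lf 5993678 0 0) (P.cons (P.lf 0 344262 0) (P.cons (P.lf 0 24980 0) P.nil)))))) (P.cons (P.cons (P.lf 0 91269216 0) (P.cons (P.lf 23055951 0 0) (P.cons (P.lf 1267457 0 0) (P.cons (P.lf 0 139512 0) (P.cons (P.lf 0 61 0) P.nil))))) (P.cons (P.cons (P.lf 8745548 0 0) (P.cons (P.lf 0 483146 0) (P.cons (P.lf 0 151351 0) (P.cons (P.lf 0 10746 0) P.nil)))) (P.cons (P.cons (P.lf 269952 0 0) (P.cons (P.lf 0 387058 0) (P.cons (P.lf 11467 0 0) P.nil))) (P.cons (P.cons (P.lf 0 294800 0) (P.cons (P.lf 58113 0 0) P.nil)) (P.cons (P.cons (P.lf 13068 0 0) P.nil) P.nil)))))) 97583)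
 (EL.cons 9 (TM.mk (P.cons (P.cons (P.lf 1091854897 0 0) (P.cons (P.lf 0 467301165 0) (P.cons (P.lf 24431022 0 0) (P.cons (P.lf 8312560 0 0) (P.cons (P.lf 0 458260 0) (P.cons (P.lf 0 33264 0) P.nil)))))) (P.cons (P.cons (P.lf 0 110769702 0) (P.cons (P.lf 7231329 0 0) (P.cons (P.lf 3920745 0 0) (P.cons (P.lf 341790 0 0) (P.cons (P.lf 0 32307 0) P.nil))))) (P.cons (P.cons (P.lf 0 20783767 0) (P.cons (P.lf 8215603 0 0) (P.cons (P.lf 12789 0 0) (P.cons (P.lf 0 97734 0) P.nil)))) (P.cons (P.cons (P.lf 2291530 0 0) (P.cons (P.lf 0 86026 0) (P.cons (P.lf 0 41236 0) P.nil))) (P.cons (P.cons (P.lf 156439 0 0) (P.cons (P.lf 0 61672 0) P.nil)) (P.cons (P.cons (P.lf 0 18385 0) P.nil) P.nil)))))) 35747)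
 (EL.cons 2 (TM.mk (P.cons (P.cons (P.lf 342316411 0 0) (P.cons (P.lf 0 30301228 0) (P.cons (P.lf 0 19757458 0) (P.cons (P.lf 1145396 0 0) (P.cons (P.lf 192228 0 0) (P.cons (P.lf 0 9753 0) P.nil)))))) (P.cons (P.cons (P.lf 0 116245805 0) (P.cons (P.lf 3991786 0 0) (P.cons (P.lf 5574487 0 0) (P.cons (P.lf 0 273256 0) (P.cons (P.lf 0 50186 0) P.nil))))) (P.cons (P.cons (P.lf 0 3320595 0) (P.cons (P.lf 1687190 0 0) (P.cons (P.lf 442704 0 0) (P.cons (P.lf 0 36703 0) P.nil)))) (P.cons (P.cons (P.lf 1887941 0 0) (P.cons (P.lf 91867 0 0) (P.cons (P.lf 0 62296 0) P.nil))) (P.cons (P.cons (P.lf 10800 0 0) (P.cons (P.lf 0 15440 0) P.nil)) (P.cons (P.cons (P.lf 0 12729 0) P.nil) P.nil)))))) 29918)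
 (EL.cons 6 (TM.mk (P.cons (P.cons (P.lf 1052412270 0 0) (P.cons (P.lf 0 93157632 0) (P.cons (P.lf 0 60742032 0) (P.cons (P.lf 3521400 0 0) (P.cons (P.lf 590982 0 0) (P.cons (P.lf 0 29994 0) P.nil)))))) (P.cons (P.cons (P.lf 0 16285722 0) (P.cons (P.lf 0 17921136 0) (P.cons (P.lf 0 2549040 0) (P.cons (P.lf 301212 0 0) (P.cons (P.lf 37248 0 0) P.nil))))) (P.cons (P.cons (P.lf 0 18502434 0) (P.cons (P.lf 0 354456 0) (P.cons (P.lf 708912 0 0) (P.cons (P.lf 0 25302 0) P.nil)))) (P.cons (P.cons (P.lf 193728 0 0) (P.cons (P.lf 188838 0 0) (P.cons (P.lf 25932 0 0) P.nil))) (P.cons (P.cons (P.lf 138906 0 0) (P.cons (P.lf 9378 0 0) P.nil)) (P.cons (P.cons (P.lf 0 222 0) P.nil) P.nil)))))) 26940)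
 EL.nil))))))
noncomputable def S227_241_364_438_3 : EL := (EL.cons 0 (TM.mk (P.cons (P.lf 218965742 0 0) (P.cons (P.lf 0 136792680 0) (P.cons (P.lf 20162540 0 0) (P.cons (P.lf 495075 0 0) (P.cons (P.lf 0 33925 0) (P.cons (P.lf 0 991 0) P.nil)))))) 101)
 (EL.cons 1 (TM.mk (P.cons (P.lf 673184881 0 0) (P.cons (P.lf 0 202366545 0) (P.cons (P.lf 0 5530590 0) (P.cons (P.lf 526580 0 0) (P.cons (P.lf 13798 0 0) (P.cons (P.lf 0 714 0) P.nil)))))) 98)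
 (EL.cons 5 (TM.mk (P.cons (P.lf 2069629158 0 0) (P.cons (P.lf 48637396 0 0) (P.cons (P.lf 0 7168902 0) (P.cons (P.lf 0 176026 0) (P.cons (P.lf 12058 0 0) (P.cons (P.lf 354 0 0) P.nil)))))) 128)
 EL.nil)))
noncomputable def S227_241_364_438_4 : EL := (EL.cons 0 (TM.mk (P.cons (P.cons (P.lf 90143221 0 0) (P.cons (P.lf 0 19290123 0) (P.cons (P.lf 0 1055476 0) (P.lf 117274 0 0)))) (P.cons (P.cons (P.lf 0 60886995 0) (P.cons (P.lf 11370969 0 0) (P.cons (P.lf 622172 0 0) (P.lf 0 69129 0)))) (P.cons (P.cons (P.lf 10183111 0 0) (P.cons (P.lf 0 1255211 0) (P.cons (P.lf 0 68679 0) (P.lf 7630 0 0)))) (P.cons (P.cons (P.lf 436389 0 0) (P.cons (P.lf 0 162692 0) (P.cons (P.lf 0 8901 0) P.nil))) (P.cons (P.cons (P.lf 0 138726 0) (P.cons (P.lf 7795 0 0) P.nil)) (P.cons (P.cons (P.lf 0 12 0) P.nil) P.nil)))))) 3858)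
 (EL.cons 1 (TM.mk (P.cons (P.cons (P.lf 277134922 0 0) (P.cons (P.lf 0 59305256 0) (P.cons (P.lf 0 3244944 0) (P.lf 360547 0 0)))) (P.cons (P.cons (P.lf 0 97367506 0) (P.cons (P.lf 15737233 0 0) (P.cons (P.lf 861078 0 0) (P.lf 0 95673 0)))) (P.cons (P.cons (P.lf 0 1045110 0) (P.cons (P.lf 1411522 0 0) (P.cons (P.lf 77231 0 0) (P.lf 0 8580 0)))) (P.cons (P.cons (P.lf 1371301 0 0) (P.cons (P.lf 0 106916 0) (P.cons (P.lf 0 5848 0) P.nil))) (P.cons (P.cons (P.lf 0 11754 0) (P.cons (P.lf 0 9375 0) P.nil)) (P.cons (P.cons (P.lf 0 7576 0) P.nil) P.nil)))))) 2919)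
 (EL.cons 5 (TM.mk (P.cons (P.cons (P.lf 852019308 0 0) (P.cons (P.lf 0 182327164 0) (P.cons (P.lf 0 9976208 0) (P.lf 1108464 0 0)))) (P.cons (P.cons (P.lf 0 23196166 0) (P.cons (P.lf 0 10711964 0) (P.cons (P.lf 0 586112 0) (P.lf 65122 0 0)))) (P.cons (P.cons (P.lf 0 13172314 0) (P.cons (P.lf 1390082 0 0) (P.cons (P.lf 76058 0 0) (P.lf 0 8448 0)))) (P.cons (P.cons (P.lf 288048 0 0) (P.cons (P.lf 93682 0 0) (P.cons (P.lf 5124 0 0) P.nil))) (P.cons (P.cons (P.lf 83540 0 0) (P.cons (P.lf 0 5058 0) P.nil)) (P.cons (P.cons (P.lf 0 912 0) P.nil) P.nil)))))) 2182)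
 EL.nil)))
noncomputable def S227_241_364_438_5 : EL := (EL.cons 0 (TM.mk (P.cons (P.cons (P.lf 37109916 0 0) (P.cons (P.lf 0 15882611 0) (P.cons (P.lf 830358 0 0) (P.cons (P.lf 282526 0 0) (P.cons (P.lf 0 15574 0) (P.cons (P.lf 0 1130 0) P.nil)))))) (P.cons (P.cons (P.lf 0 26948209 0) (P.cons (P.lf 10167990 0 0) (P.cons (P.lf 0 385484 0) (P.cons (P.lf 0 164882 0) (P.cons (P.lf 8630 0 0) P.nil))))) (P.cons (P.cons (P.lf 5062686 0 0) (P.cons (P.lf 0 1336793 0) (P.cons (P.lf 0 6352 0) (P.cons (P.lf 15435 0 0) P.nil)))) (P.cons (P.cons (P.lf 256420 0 0) (P.cons (P.lf 0 190643 0) (P.cons (P.lf 12473 0 0) P.nil))) (P.cons (P.cons (P.lf 0 122646 0) (P.cons (P.lf 28457 0 0) P.nil)) (P.cons (P.cons (P.lf 2042 0 0) P.nil) P.nil)))))) 14763)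
 (EL.cons 1 (TM.mk (P.cons (P.cons (P.lf 114090151 0 0) (P.cons (P.lf 0 48829252 0) (P.cons (P.lf 2552846 0 0) (P.cons (P.lf 868595 0 0) (P.cons (P.lf 0 47883 0) (P.cons (P.lf 0 3474 0) P.nil)))))) (P.cons (P.cons (P.lf 0 45871267 0) (P.cons (P.lf 15434208 0 0) (P.cons (P.lf 0 357725 0) (P.cons (P.lf 0 225393 0) (P.cons (P.lf 11017 0 0) P.nil))))) (P.cons (P.cons (P.lf 370380 0 0) (P.cons (P.lf 1032476 0 0) (P.cons (P.lf 0 142792 0) (P.cons (P.lf 0 28083 0) P.nil)))) (P.cons (P.cons (P.lf 1076628 0 0) (P.cons (P.lf 0 311454 0) (P.cons (P.lf 0 6076 0) P.nil))) (P.cons (P.cons (P.lf 0 44505 0) (P.cons (P.lf 0 11203 0) P.nil)) (P.cons (P.cons (P.lf 0 10858 0) P.nil) P.nil)))))) 17915)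
 (EL.cons 5 (TM.mk (P.cons (P.cons (P.lf 350756994 0 0) (P.cons (P.lf 0 150119902 0) (P.cons (P.lf 7848434 0 0) (P.cons (P.lf 2670398 0 0) (P.cons (P.lf 0 147214 0) (P.cons (P.lf 0 10684 0) P.nil)))))) (P.cons (P.cons (P.lf 0 27341646 0) (P.cons (P.lf 0 1204842 0) (P.cons (P.lf 1443976 0 0) (P.cons (P.lf 172554 0 0) (P.cons (P.lf 0 13838 0) P.nil))))) (P.cons (P.cons (P.lf 0 8727988 0) (P.cons (P.lf 3213838 0 0) (P.cons (P.lf 6520 0 0) (P.cons (P.lf 0 38064 0) P.nil)))) (P.cons (P.cons (P.lf 672670 0 0) (P.cons (P.lf 39108 0 0) (P.cons (P.lf 0 18180 0) P.nil))) (P.cons (P.cons (P.lf 95752 0 0) (P.cons (P.lf 0 30674 0) P.nil)) (P.cons (P.cons (P.lf 0 6854 0) P.nil) P.nil)))))) 16272)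
 EL.nil)))
noncomputable def S227_241_364_438_6 : EL := (EL.cons 12 (TM.mk (P.lf 8589934592 0 0) 0)
 (EL.cons 3 (TM.mk (P.cons (P.lf 0 685729796 0) (P.cons (P.lf 214195188 0 0) (P.cons (P.lf 1881828 0 0) (P.cons (P.lf 0 187398 0) (P.cons (P.lf 0 2831 0) (P.cons (P.lf 153 0 0) P.nil)))))) 44)
 (EL.cons 7 (TM.mk (P.cons (P.lf 0 2108197044 0) (P.cons (P.lf 0 24771881 0) (P.cons (P.lf 3796786 0 0) (P.cons (P.lf 45040 0 0) (P.cons (P.lf 0 3252 0) (P.cons (P.lf 0 61 0) P.nil)))))) 51)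
 EL.nil)))
noncomputable def S227_241_364_438_7 : EL := (EL.cons 12 (TM.mk (P.cons (P.cons (P.lf 3536280940 0 0) (P.cons (P.lf 0 756743504 0) (P.cons (P.lf 0 41405960 0) (P.lf 4600656 0 0)))) (P.cons (P.cons (P.lf 0 179379508 0) (P.cons (P.lf 0 26675816 0) (P.cons (P.lf 0 1459584 0) (P.lf 162176 0 0)))) (P.cons (P.cons (P.lf 0 38206612 0) (P.cons (P.lf 3775144 0 0) (P.cons (P.lf 206560 0 0) (P.lf 0 22944 0)))) (P.cons (P.cons (P.lf 1772838 0 0) (P.cons (P.lf 143352 0 0) (P.cons (P.lf 7840 0 0) P.nil))) (P.cons (P.cons (P.lf 136870 0 0) (P.cons (P.lf 0 9152 0) P.nil)) (P.cons (P.cons (P.lf 0 3678 0) P.nil) P.nil)))))) 3116)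
 (EL.cons 3 (TM.mk (P.cons (P.cons (P.lf 0 1500975150 0) (P.cons (P.lf 0 120820840 0) (P.cons (P.lf 0 6610830 0) (P.lf 734534 0 0)))) (P.cons (P.cons (P.lf 0 423866407 0) (P.cons (P.lf 33480676 0 0) (P.cons (P.lf 1831928 0 0) (P.lf 0 203546 0)))) (P.cons (P.cons (P.lf 33556494 0 0) (P.cons (P.lf 2264654 0 0) (P.cons (P.lf 123910 0 0) (P.lf 0 13766 0)))) (P.cons (P.cons (P.lf 3213468 0 0) (P.cons (P.lf 0 186712 0) (P.cons (P.lf 0 10214 0) P.nil))) (P.cons (P.cons (P.lf 0 109592 0) (P.cons (P.lf 0 11926 0) P.nil)) (P.cons (P.cons (P.lf 0 11687 0) P.nil) P.nil)))))) 8073)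
 (EL.cons 7 (TM.mk (P.cons (P.cons (P.lf 0 726955806 0) (P.cons (P.lf 206684437 0 0) (P.cons (P.lf 11308945 0 0) (P.lf 0 1256553 0)))) (P.cons (P.cons (P.lf 49020564 0 0) (P.cons (P.lf 0 3872071 0) (P.cons (P.lf 0 211862 0) (P.lf 23539 0 0)))) (P.cons (P.cons (P.lf 0 11824892 0) (P.cons (P.lf 365578 0 0) (P.cons (P.lf 20002 0 0) (P.lf 0 2218 0)))) (P.cons (P.cons (P.lf 513718 0 0) (P.cons (P.lf 74484 0 0) (P.cons (P.lf 4076 0 0) P.nil))) (P.cons (P.cons (P.lf 93492 0 0) (P.cons (P.lf 0 3928 0) P.nil)) (P.cons (P.cons (P.lf 0 2022 0) P.nil) P.nil)))))) 6465)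
 (EL.cons 10 (TM.mk (P.cons (P.cons (P.lf 0 2604040086 0) (P.cons (P.lf 0 326744457 0) (P.cons (P.lf 49885425 0 0) (P.cons (P.lf 1523994 0 0) (P.lf 0 126999 0))))) (P.cons (P.cons (P.lf 0 61196337 0) (P.cons (P.lf 0 7678668 0) (P.cons (P.lf 1172334 0 0) (P.cons (P.lf 35814 0 0) (P.lf 0 2982 0))))) (P.cons (P.cons (P.lf 9020025 0 0) (P.cons (P.lf 1131795 0 0) (P.cons (P.lf 0 172794 0) (P.cons (P.lf 0 5277 0) P.nil)))) (P.cons (P.cons (P.lf 221478 0 0) (P.cons (P.lf 27789 0 0) (P.cons (P.lf 0 4242 0) P.nil))) (P.cons (P.cons (P.lf 0 15171 0) (P.cons (P.lf 0 1902 0) P.nil)) (P.cons (P.cons (P.lf 0 444 0) P.nil) P.nil)))))) 1239)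
 EL.nil))))
noncomputable def S227_241_364_438_8 : EL := (EL.cons 12 (TM.mk (P.cons (P.cons (P.lf 1455806530 0 0) (P.cons (P.lf 0 623068220 0) (P.cons (P.lf 32574696 0 0) (P.cons (P.lf 11083414 0 0) (P.cons (P.lf 0 611014 0) (P.cons (P.lf 0 44352 0) P.nil)))))) (P.cons (P.cons (P.lf 0 147692936 0) (P.cons (P.lf 9641772 0 0) (P.cons (P.lf 5227660 0 0) (P.cons (P.lf 455720 0 0) (P.cons (P.lf 0 43076 0) P.nil))))) (P.cons (P.cons (P.lf 0 27711690 0) (P.cons (P.lf 10954138 0 0) (P.cons (P.lf 17052 0 0) (P.cons (P.lf 0 130312 0) P.nil)))) (P.cons (P.cons (P.lf 3055374 0 0) (P.cons (P.lf 0 114702 0) (P.cons (P.lf 0 54982 0) P.nil))) (P.cons (P.cons (P.lf 208586 0 0) (P.cons (P.lf 0 82230 0) P.nil)) (P.cons (P.cons (P.lf 0 24514 0) P.nil) P.nil)))))) 47634)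
 (EL.cons 3 (TM.mk (P.cons (P.cons (P.lf 0 1119618501 0) (P.cons (P.lf 115243841 0 0) (P.cons (P.lf 32915423 0 0) (P.cons (P.lf 2211320 0 0) (P.cons (P.lf 0 243880 0) (P.cons (P.lf 0 17700 0) P.nil)))))) (P.cons (P.cons (P.lf 0 334395700 0) (P.cons (P.lf 132923635 0 0) (P.cons (P.lf 837226 0 0) (P.cons (P.lf 0 1512393 0) (P.cons (P.lf 58986 0 0) P.nil))))) (P.cons (P.cons (P.lf 59835543 0 0) (P.cons (P.lf 0 2287504 0) (P.cons (P.lf 0 1016615 0) (P.cons (P.lf 0 83644 0) P.nil)))) (P.cons (P.cons (P.lf 5394383 0 0) (P.cons (P.lf 0 2091299 0) (P.cons (P.lf 0 59138 0) P.nil))) (P.cons (P.cons (P.lf 0 801950 0) (P.cons (P.lf 0 400 0) P.nil)) (P.cons (P.cons (P.lf 0 40509 0) P.nil) P.nil)))))) 122053)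
 (EL.cons 7 (TM.mk (P.cons (P.cons (P.lf 0 241248976 0) (P.cons (P.lf 145341747 0 0) (P.cons (P.lf 0 12102129 0) (P.cons (P.lf 0 3078236 0) (P.cons (P.lf 183804 0 0) (P.cons (P.lf 13339 0 0) P.nil)))))) (P.cons (P.cons (P.lf 38673187 0 0) (P.cons (P.lf 0 15372743 0) (P.cons (P.lf 0 96827 0) (P.cons (P.lf 174906 0 0) (P.cons (P.lf 0 6818 0) P.nil))))) (P.cons (P.cons (P.lf 0 13187236 0) (P.cons (P.lf 2755786 0 0) (P.cons (P.lf 133258 0 0) (P.cons (P.lf 0 18662 0) P.nil)))) (P.cons (P.cons (P.lf 908299 0 0) (P.cons (P.lf 170014 0 0) (P.cons (P.lf 0 18652 0) P.nil))) (P.cons (P.cons (P.lf 231355 0 0) (P.cons (P.lf 0 57118 0) P.nil)) (P.cons (P.cons (P.lf 0 19501 0) P.nil) P.nil)))))) 54588)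
 (EL.cons 10 (TM.mk (P.cons (P.cons (P.lf 0 2144048298 0) (P.cons (P.lf 189787290 0 0) (P.cons (P.lf 123747948 0 0) (P.cons (P.lf 0 7174050 0) (P.cons (P.lf 0 1204002 0) (P.cons (P.lf 61116 0 0) P.nil)))))) (P.cons (P.cons (P.lf 58371570 0 0) (P.cons (P.lf 34280154 0 0) (P.cons (P.lf 3739014 0 0) (P.cons (P.lf 0 529362 0) (P.cons (P.lf 0 61740 0) P.nil))))) (P.cons (P.cons (P.lf 33147228 0 0) (P.cons (P.lf 661128 0 0) (P.cons (P.lf 0 1265316 0) (P.cons (P.lf 44856 0 0) P.nil)))) (P.cons (P.cons (P.lf 0 724854 0) (P.cons (P.lf 0 326700 0) (P.cons (P.lf 0 28590 0) P.nil))) (P.cons (P.cons (P.lf 0 210222 0) (P.cons (P.lf 0 13644 0) P.nil)) (P.cons (P.cons (P.lf 2298 0 0) P.nil) P.nil)))))) 44046)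
 EL.nil))))
noncomputable def S227_241_364_438_9 : EL := (EL.cons 3 (TM.mk (P.cons (P.lf 0 685729796 0) (P.cons (P.lf 214195188 0 0) (P.cons (P.lf 1881828 0 0) (P.cons (P.lf 0 187398 0) (P.cons (P.lf 0 2831 0) (P.cons (P.lf 153 0 0) P.nil)))))) 44)
 (EL.cons 7 (TM.mk (P.cons (P.lf 0 2108197044 0) (P.cons (P.lf 0 24771881 0) (P.cons (P.lf 3796786 0 0) (P.cons (P.lf 45040 0 0) (P.cons (P.lf 0 3252 0) (P.cons (P.lf 0 61 0) P.nil)))))) 51)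
 EL.nil))
noncomputable def S227_241_364_438_10 : EL := (EL.cons 3 (TM.mk (P.cons (P.cons (P.lf 0 282299379 0) (P.cons (P.lf 60410420 0 0) (P.cons (P.lf 3305415 0 0) (P.lf 0 367267 0)))) (P.cons (P.cons (P.lf 102499061 0 0) (P.cons (P.lf 0 16740338 0) (P.cons (P.lf 0 915964 0) (P.lf 101773 0 0)))) (P.cons (P.cons (P.lf 0 648216 0) (P.cons (P.lf 0 1132327 0) (P.cons (P.lf 0 61955 0) (P.lf 6883 0 0)))) (P.cons (P.cons (P.lf 0 1210674 0) (P.cons (P.lf 93356 0 0) (P.cons (P.lf 5107 0 0) P.nil))) (P.cons (P.cons (P.lf 27658 0 0) (P.cons (P.lf 5963 0 0) P.nil)) (P.cons (P.cons (P.lf 5050 0 0) P.nil) P.nil)))))) 1949)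
 (EL.cons 7 (TM.mk (P.cons (P.cons (P.lf 0 867896832 0) (P.cons (P.lf 185724862 0 0) (P.cons (P.lf 10162117 0 0) (P.lf 0 1129122 0)))) (P.cons (P.cons (P.lf 33826452 0 0) (P.cons (P.lf 8729267 0 0) (P.cons (P.lf 477628 0 0) (P.lf 0 53069 0)))) (P.cons (P.cons (P.lf 11457262 0 0) (P.cons (P.lf 0 1184075 0) (P.cons (P.lf 0 64787 0) (P.lf 7196 0 0)))) (P.cons (P.cons (P.lf 0 385664 0) (P.cons (P.lf 0 61827 0) (P.cons (P.lf 0 3382 0) P.nil))) (P.cons (P.cons (P.lf 0 57870 0) (P.cons (P.lf 3647 0 0) P.nil)) (P.cons (P.cons (P.lf 1134 0 0) P.nil) P.nil)))))) 1370)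
 EL.nil))
noncomputable def S227_241_364_438_11 : EL := (EL.cons 3 (TM.mk (P.cons (P.cons (P.lf 0 116216241 0) (P.cons (P.lf 49739195 0 0) (P.cons (P.lf 0 2600419 0) (P.cons (P.lf 0 884782 0) (P.cons (P.lf 48776 0 0) (P.cons (P.lf 3540 0 0) P.nil)))))) (P.cons (P.cons (P.lf 48091658 0 0) (P.cons (P.lf 0 16306277 0) (P.cons (P.lf 394948 0 0) (P.cons (P.lf 239991 0 0) (P.cons (P.lf 0 11796 0) P.nil))))) (P.cons (P.cons (P.lf 0 1151673 0) (P.cons (P.lf 0 770536 0) (P.cons (P.lf 136129 0 0) (P.cons (P.lf 24194 0 0) P.nil)))) (P.cons (P.cons (P.lf 0 999031 0) (P.cons (P.lf 298009 0 0) (P.cons (P.lf 5248 0 0) P.nil))) (P.cons (P.cons (P.lf 56206 0 0) (P.cons (P.lf 6098 0 0) P.nil)) (P.cons (P.cons (P.lf 8505 0 0) P.nil) P.nil)))))) 15657)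
 (EL.cons 7 (TM.mk (P.cons (P.cons (P.lf 0 357293410 0) (P.cons (P.lf 152917413 0 0) (P.cons (P.lf 0 7994691 0) (P.cons (P.lf 0 2720162 0) (P.cons (P.lf 149958 0 0) (P.cons (P.lf 10885 0 0) P.nil)))))) (P.cons (P.cons (P.lf 32049457 0 0) (P.cons (P.lf 0 569525 0) (P.cons (P.lf 0 1376945 0) (P.cons (P.lf 0 143808 0) (P.cons (P.lf 12334 0 0) P.nil))))) (P.cons (P.cons (P.lf 7870574 0 0) (P.cons (P.lf 0 2991638 0) (P.cons (P.lf 0 4862 0) (P.cons (P.lf 35566 0 0) P.nil)))) (P.cons (P.cons (P.lf 0 727601 0) (P.cons (P.lf 0 2444 0) (P.cons (P.lf 15926 0 0) P.nil))) (P.cons (P.cons (P.lf 0 73577 0) (P.cons (P.lf 25640 0 0) P.nil)) (P.cons (P.cons (P.lf 6665 0 0) P.nil) P.nil)))))) 13982)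
 EL.nil))
noncomputable def S227_241_364_438_12 : EL := (EL.cons 4 (TM.mk (P.cons (P.lf 685729796 0 0) (P.cons (P.lf 0 214195188 0) (P.cons (P.lf 0 1881828 0) (P.cons (P.lf 187398 0 0) (P.cons (P.lf 2831 0 0) (P.cons (P.lf 0 153 0) P.nil)))))) 44)
 (EL.cons 8 (TM.mk (P.cons (P.lf 2108197044 0 0) (P.cons (P.lf 24771881 0 0) (P.cons (P.lf 0 3796786 0) (P.cons (P.lf 0 45040 0) (P.cons (P.lf 3252 0 0) (P.cons (P.lf 61 0 0) P.nil)))))) 51)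
 EL.nil))
noncomputable def S227_241_364_438_13 : EL := (EL.cons 4 (TM.mk (P.cons (P.cons (P.lf 282299379 0 0) (P.cons (P.lf 0 60410420 0) (P.cons (P.lf 0 3305415 0) (P.lf 367267 0 0)))) (P.cons (P.cons (P.lf 0 102499061 0) (P.cons (P.lf 16740338 0 0) (P.cons (P.lf 915964 0 0) (P.lf 0 101773 0)))) (P.cons (P.cons (P.lf 648216 0 0) (P.cons (P.lf 1132327 0 0) (P.cons (P.lf 61955 0 0) (P.lf 0 6883 0)))) (P.cons (P.cons (P.lf 1210674 0 0) (P.cons (P.lf 0 93356 0) (P.cons (P.lf 0 5107 0) P.nil))) (P.cons (P.cons (P.lf 0 27658 0) (P.cons (P.lf 0 5963 0) P.nil)) (P.cons (P.cons (P.lf 0 5050 0) P.nil) P.nil)))))) 1949)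
 (EL.cons 8 (TM.mk (P.cons (P.cons (P.lf 867896832 0 0) (P.cons (P.lf 0 185724862 0) (P.cons (P.lf 0 10162117 0) (P.lf 1129122 0 0)))) (P.cons (P.cons (P.lf 0 33826452 0) (P.cons (P.lf 0 8729267 0) (P.cons (P.lf 0 477628 0) (P.lf 53069 0 0)))) (P.cons (P.cons (P.lf 0 11457262 0) (P.cons (P.lf 1184075 0 0) (P.cons (P.lf 64787 0 0) (P.lf 0 7196 0)))) (P.cons (P.cons (P.lf 385664 0 0) (P.cons (P.lf 61827 0 0) (P.cons (P.lf 3382 0 0) P.nil))) (P.cons (P.cons (P.lf 57870 0 0) (P.cons (P.lf 0 3647 0) P.nil)) (P.cons (P.cons (P.lf 0 1134 0) P.nil) P.nil)))))) 1370)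
 EL.nil))
noncomputable def S227_241_364_438_14 : EL := (EL.cons 4 (TM.mk (P.cons (P.cons (P.lf 116216241 0 0) (P.cons (P.lf 0 49739195 0) (P.cons (P.lf 2600419 0 0) (P.cons (P.lf 884782 0 0) (P.cons (P.lf 0 48776 0) (P.cons (P.lf 0 3540 0) P.nil)))))) (P.cons (P.cons (P.lf 0 48091658 0) (P.cons (P.lf 16306277 0 0) (P.cons (P.lf 0 394948 0) (P.cons (P.lf 0 239991 0) (P.cons (P.lf 11796 0 0) P.nil))))) (P.cons (P.cons (P.lf 1151673 0 0) (P.cons (P.lf 770536 0 0) (P.cons (P.lf 0 136129 0) (P.cons (P.lf 0 24194 0) P.nil)))) (P.cons (P.cons (P.lf 999031 0 0) (P.cons (P.lf 0 298009 0) (P.cons (P.lf 0 5248 0) P.nil))) (P.cons (P.cons (P.lf 0 56206 0) (P.cons (P.lf 0 6098 0) P.nil)) (P.cons (P.cons (P.lf 0 8505 0) P.nil) P.nil)))))) 15657)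
 (EL.cons 8 (TM.mk (P.cons (P.cons (P.lf 357293410 0 0) (P.cons (P.lf 0 152917413 0) (P.cons (P.lf 7994691 0 0) (P.cons (P.lf 2720162 0 0) (P.cons (P.lf 0 149958 0) (P.cons (P.lf 0 10885 0) P.nil)))))) (P.cons (P.cons (P.lf 0 32049457 0) (P.cons (P.lf 569525 0 0) (P.cons (P.lf 1376945 0 0) (P.cons (P.lf 143808 0 0) (P.cons (P.lf 0 12334 0) P.nil))))) (P.cons (P.cons (P.lf 0 7870574 0) (P.cons (P.lf 2991638 0 0) (P.cons (P.lf 4862 0 0) (P.cons (P.lf 0 35566 0) P.nil)))) (P.cons (P.cons (P.lf 727601 0 0) (P.cons (P.lf 2444 0 0) (P.cons (P.lf 0 15926 0) P.nil))) (P.cons (P.cons (P.lf 73577 0 0) (P.cons (P.lf 0 25640 0) P.nil)) (P.cons (P.cons (P.lf 0 6665 0) P.nil) P.nil)))))) 13982)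
 EL.nil))
noncomputable def S227_241_364_438_15 : EL := (EL.cons 4 (TM.mk (P.cons (P.lf 0 116781729 0) (P.cons (P.lf 72956096 0 0) (P.cons (P.lf 0 10753354 0) (P.cons (P.lf 0 264040 0) (P.cons (P.lf 18093 0 0) (P.cons (P.lf 528 0 0) P.nil)))))) 57)
 (EL.cons 8 (TM.mk (P.cons (P.lf 0 359031937 0) (P.cons (P.lf 107928824 0 0) (P.cons (P.lf 2949648 0 0) (P.cons (P.lf 0 280843 0) (P.cons (P.lf 0 7359 0) (P.cons (P.lf 381 0 0) P.nil)))))) 49)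
 EL.nil))
noncomputable def S227_241_364_438_16 : EL := (EL.cons 4 (TM.mk (P.cons (P.cons (P.lf 0 48076384 0) (P.cons (P.lf 10288065 0 0) (P.cons (P.lf 562920 0 0) (P.lf 0 62546 0)))) (P.cons (P.cons (P.lf 32473064 0 0) (P.cons (P.lf 0 6064516 0) (P.cons (P.lf 0 331825 0) (P.lf 36869 0 0)))) (P.cons (P.cons (P.lf 0 5430992 0) (P.cons (P.lf 669446 0 0) (P.cons (P.lf 36629 0 0) (P.lf 0 4069 0)))) (P.cons (P.cons (P.lf 0 232740 0) (P.cons (P.lf 86769 0 0) (P.cons (P.lf 4747 0 0) P.nil))) (P.cons (P.cons (P.lf 73987 0 0) (P.cons (P.lf 0 4157 0) P.nil)) (P.cons (P.cons (P.lf 6 0 0) P.nil) P.nil)))))) 2066)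
 (EL.cons 8 (TM.mk (P.cons (P.cons (P.lf 0 147805292 0) (P.cons (P.lf 31629470 0 0) (P.cons (P.lf 1730637 0 0) (P.lf 0 192292 0)))) (P.cons (P.cons (P.lf 51929337 0 0) (P.cons (P.lf 0 8393191 0) (P.cons (P.lf 0 459242 0) (P.lf 51026 0 0)))) (P.cons (P.cons (P.lf 557392 0 0) (P.cons (P.lf 0 752812 0) (P.cons (P.lf 0 41190 0) (P.lf 4576 0 0)))) (P.cons (P.cons (P.lf 0 731361 0) (P.cons (P.lf 57022 0 0) (P.cons (P.lf 3119 0 0) P.nil))) (P.cons (P.cons (P.lf 6269 0 0) (P.cons (P.lf 5000 0 0) P.nil)) (P.cons (P.cons (P.lf 4041 0 0) P.nil) P.nil)))))) 1547)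
 EL.nil))
noncomputable def S227_241_364_438_17 : EL := (EL.cons 4 (TM.mk (P.cons (P.cons (P.lf 0 19791955 0) (P.cons (P.lf 8470725 0 0) (P.cons (P.lf 0 442858 0) (P.cons (P.lf 0 150680 0) (P.cons (P.lf 8306 0 0) (P.cons (P.lf 602 0 0) P.nil)))))) (P.cons (P.cons (P.lf 14372378 0 0) (P.cons (P.lf 0 5422928 0) (P.cons (P.lf 205591 0 0) (P.cons (P.lf 87937 0 0) (P.cons (P.lf 0 4603 0) P.nil))))) (P.cons (P.cons (P.lf 0 2700099 0) (P.cons (P.lf 712956 0 0) (P.cons (P.lf 3388 0 0) (P.cons (P.lf 0 8232 0) P.nil)))) (P.cons (P.cons (P.lf 0 136757 0) (P.cons (P.lf 101676 0 0) (P.cons (P.lf 0 6652 0) P.nil))) (P.cons (P.cons (P.lf 65411 0 0) (P.cons (P.lf 0 15177 0) P.nil)) (P.cons (P.cons (P.lf 0 1089 0) P.nil) P.nil)))))) 7883)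
 (EL.cons 8 (TM.mk (P.cons (P.cons (P.lf 0 60848081 0) (P.cons (P.lf 26042268 0 0) (P.cons (P.lf 0 1361518 0) (P.cons (P.lf 0 463251 0) (P.cons (P.lf 25538 0 0) (P.cons (P.lf 1853 0 0) P.nil)))))) (P.cons (P.cons (P.lf 24464676 0 0) (P.cons (P.lf 0 8231578 0) (P.cons (P.lf 190787 0 0) (P.cons (P.lf 120210 0 0) (P.cons (P.lf 0 5876 0) P.nil))))) (P.cons (P.cons (P.lf 0 197536 0) (P.cons (P.lf 0 550654 0) (P.cons (P.lf 76156 0 0) (P.cons (P.lf 14978 0 0) P.nil)))) (P.cons (P.cons (P.lf 0 574202 0) (P.cons (P.lf 166109 0 0) (P.cons (P.lf 3241 0 0) P.nil))) (P.cons (P.cons (P.lf 23736 0 0) (P.cons (P.lf 5975 0 0) P.nil)) (P.cons (P.cons (P.lf 5791 0 0) P.nil) P.nil)))))) 9543)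
 EL.nil))
noncomputable def S227_241_364_438_18 : EL := (EL.cons 4 (TM.mk (P.cons (P.lf 19888259 0 0) (P.cons (P.lf 0 18636945 0) (P.cons (P.lf 5657716 0 0) (P.cons (P.lf 0 487535 0) (P.cons (P.lf 0 25466 0) (P.cons (P.lf 1193 0 0) P.nil)))))) 87)
 (EL.cons 8 (TM.mk (P.cons (P.lf 61144157 0 0) (P.cons (P.lf 0 37479629 0) (P.cons (P.lf 5071246 0 0) (P.cons (P.lf 271888 0 0) (P.cons (P.lf 0 17078 0) (P.cons (P.lf 0 814 0) P.nil)))))) 70)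
 EL.nil))
noncomputable def S227_241_364_438_19 : EL := (EL.cons 4 (TM.mk (P.cons (P.cons (P.lf 8187543 0 0) (P.cons (P.lf 0 1752086 0) (P.cons (P.lf 0 95866 0) (P.lf 10651 0 0)))) (P.cons (P.cons (P.lf 0 8087723 0) (P.cons (P.lf 1580087 0 0) (P.cons (P.lf 86455 0 0) (P.lf 0 9605 0)))) (P.cons (P.cons (P.lf 2629879 0 0) (P.cons (P.lf 0 431807 0) (P.cons (P.lf 0 23625 0) (P.lf 2625 0 0)))) (P.cons (P.cons (P.lf 0 231855 0) (P.cons (P.lf 17520 0 0) (P.cons (P.lf 958 0 0) P.nil))) (P.cons (P.cons (P.lf 0 28996 0) (P.cons (P.lf 5910 0 0) P.nil)) (P.cons (P.cons (P.lf 4053 0 0) P.nil) P.nil)))))) 1842)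
 (EL.cons 8 (TM.mk (P.cons (P.cons (P.lf 25171660 0 0) (P.cons (P.lf 0 5386588 0) (P.cons (P.lf 0 294732 0) (P.lf 32747 0 0)))) (P.cons (P.cons (P.lf 0 16706356 0) (P.cons (P.lf 3111944 0 0) (P.cons (P.lf 170272 0 0) (P.lf 0 18918 0)))) (P.cons (P.cons (P.lf 2598426 0 0) (P.cons (P.lf 0 303495 0) (P.cons (P.lf 0 16605 0) (P.lf 1844 0 0)))) (P.cons (P.cons (P.lf 185352 0 0) (P.cons (P.lf 0 55152 0) (P.cons (P.lf 0 3017 0) P.nil))) (P.cons (P.cons (P.lf 0 42025 0) (P.cons (P.lf 2198 0 0) P.nil)) (P.cons (P.cons (P.lf 0 764 0) P.nil) P.nil)))))) 1448)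
 EL.nil))
noncomputable def S227_241_364_438_20 : EL := (EL.cons 4 (TM.mk (P.cons (P.cons (P.lf 3370625 0 0) (P.cons (P.lf 0 1442588 0) (P.cons (P.lf 75420 0 0) (P.cons (P.lf 25661 0 0) (P.cons (P.lf 0 1413 0) (P.cons (P.lf 0 102 0) P.nil)))))) (P.cons (P.cons (P.lf 0 3500508 0) (P.cons (P.lf 1374148 0 0) (P.cons (P.lf 0 58571 0) (P.cons (P.lf 0 22991 0) (P.cons (P.lf 1225 0 0) P.nil))))) (P.cons (P.cons (P.lf 1215136 0 0) (P.cons (P.lf 0 405937 0) (P.cons (P.lf 10152 0 0) (P.cons (P.lf 6009 0 0) P.nil)))) (P.cons (P.cons (P.lf 0 112705 0) (P.cons (P.lf 17681 0 0) (P.cons (P.lf 1429 0 0) P.nil))) (P.cons (P.cons (P.lf 0 20331 0) (P.cons (P.lf 8572 0 0) P.nil)) (P.cons (P.cons (P.lf 3715 0 0) P.nil) P.nil)))))) 4557)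
 (EL.cons 8 (TM.mk (P.cons (P.cons (P.lf 10362600 0 0) (P.cons (P.lf 0 4435072 0) (P.cons (P.lf 231870 0 0) (P.cons (P.lf 78892 0 0) (P.cons (P.lf 0 4348 0) (P.cons (P.lf 0 315 0) P.nil)))))) (P.cons (P.cons (P.lf 0 7403274 0) (P.cons (P.lf 2787204 0 0) (P.cons (P.lf 0 104918 0) (P.cons (P.lf 0 45114 0) (P.cons (P.lf 2358 0 0) P.nil))))) (P.cons (P.cons (P.lf 1306624 0 0) (P.cons (P.lf 0 331937 0) (P.cons (P.lf 0 3456 0) (P.cons (P.lf 3627 0 0) P.nil)))) (P.cons (P.cons (P.lf 101545 0 0) (P.cons (P.lf 0 62640 0) (P.cons (P.lf 3651 0 0) P.nil))) (P.cons (P.cons (P.lf 0 35775 0) (P.cons (P.lf 7925 0 0) P.nil)) (P.cons (P.cons (P.lf 0 2 0) P.nil) P.nil)))))) 4729)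
 EL.nil))
noncomputable def S227_241_364_438_21 : EL := (EL.cons 4 (TM.mk (P.cons (P.cons (P.lf 1218675771 0 0) (P.cons (P.lf 181231260 0 0) (P.cons (P.lf 9916245 0 0) (P.lf 0 1101801 0)))) (P.cons (P.cons (P.lf 526365468 0 0) (P.cons (P.lf 0 50221014 0) (P.cons (P.lf 0 2747892 0) (P.lf 305319 0 0)))) (P.cons (P.cons (P.lf 0 34204710 0) (P.cons (P.lf 0 3396981 0) (P.cons (P.lf 0 185865 0) (P.lf 20649 0 0)))) (P.cons (P.cons (P.lf 0 4424142 0) (P.cons (P.lf 280068 0 0) (P.cons (P.lf 15321 0 0) P.nil))) (P.cons (P.cons (P.lf 137250 0 0) (P.cons (P.lf 17889 0 0) P.nil)) (P.cons (P.cons (P.lf 16737 0 0) P.nil) P.nil)))))) 6105)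
 (EL.cons 8 (TM.mk (P.cons (P.cons (P.lf 0 140941026 0) (P.cons (P.lf 0 20959575 0) (P.cons (P.lf 0 1146828 0) (P.lf 127431 0 0)))) (P.cons (P.cons (P.lf 0 15194112 0) (P.cons (P.lf 12601338 0 0) (P.cons (P.lf 689490 0 0) (P.lf 0 76608 0)))) (P.cons (P.cons (P.lf 23282154 0 0) (P.cons (P.lf 0 1549653 0) (P.cons (P.lf 0 84789 0) (P.lf 9414 0 0)))) (P.cons (P.cons (P.lf 0 899382 0) (P.cons (P.lf 0 136311 0) (P.cons (P.lf 0 7458 0) P.nil))) (P.cons (P.cons (P.lf 0 151362 0) (P.cons (P.lf 7575 0 0) P.nil)) (P.cons (P.cons (P.lf 3156 0 0) P.nil) P.nil)))))) 5076)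
 (EL.cons 11 (TM.mk (P.cons (P.cons (P.lf 2604040086 0 0) (P.cons (P.lf 326744457 0 0) (P.cons (P.lf 0 49885425 0) (P.cons (P.lf 0 1523994 0) (P.lf 126999 0 0))))) (P.cons (P.cons (P.lf 61196337 0 0) (P.cons (P.lf 7678668 0 0) (P.cons (P.lf 0 1172334 0) (P.cons (P.lf 0 35814 0) (P.lf 2982 0 0))))) (P.cons (P.cons (P.lf 0 9020025 0) (P.cons (P.lf 0 1131795 0) (P.cons (P.lf 172794 0 0) (P.cons (P.lf 5277 0 0) P.nil)))) (P.cons (P.cons (P.lf 0 221478 0) (P.cons (P.lf 0 27789 0) (P.cons (P.lf 4242 0 0) P.nil))) (P.cons (P.cons (P.lf 15171 0 0) (P.cons (P.lf 1902 0 0) P.nil)) (P.cons (P.cons (P.lf 444 0 0) P.nil) P.nil)))))) 1239)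
 EL.nil)))
noncomputable def S227_241_364_438_22 : EL := (EL.cons 4 (TM.mk (P.cons (P.cons (P.lf 501701130 0 0) (P.cons (P.lf 0 32752323 0) (P.cons (P.lf 0 17757921 0) (P.cons (P.lf 0 1548051 0) (P.cons (P.lf 146328 0 0) (P.cons (P.lf 10620 0 0) P.nil)))))) (P.cons (P.cons (P.lf 191243679 0 0) (P.cons (P.lf 0 74614956 0) (P.cons (P.lf 0 221139 0) (P.cons (P.lf 876192 0 0) (P.cons (P.lf 0 35391 0) P.nil))))) (P.cons (P.cons (P.lf 0 30493608 0) (P.cons (P.lf 758484 0 0) (P.cons (P.lf 576372 0 0) (P.cons (P.lf 53919 0 0) P.nil)))) (P.cons (P.cons (P.lf 0 3196707 0) (P.cons (P.lf 1194654 0 0) (P.cons (P.lf 32193 0 0) P.nil))) (P.cons (P.cons (P.lf 429078 0 0) (P.cons (P.lf 3249 0 0) P.nil)) (P.cons (P.cons (P.lf 24507 0 0) P.nil) P.nil)))))) 53187)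
 (EL.cons 8 (TM.mk (P.cons (P.cons (P.lf 0 58022217 0) (P.cons (P.lf 3787833 0 0) (P.cons (P.lf 2053719 0 0) (P.cons (P.lf 179037 0 0) (P.cons (P.lf 0 16923 0) (P.cons (P.lf 0 1227 0) P.nil)))))) (P.cons (P.cons (P.lf 0 3311865 0) (P.cons (P.lf 7401609 0 0) (P.cons (P.lf 0 640059 0) (P.cons (P.lf 0 159357 0) (P.cons (P.lf 9576 0 0) P.nil))))) (P.cons (P.cons (P.lf 10528905 0 0) (P.cons (P.lf 0 2873712 0) (P.cons (P.lf 0 69060 0) (P.cons (P.lf 27114 0 0) P.nil)))) (P.cons (P.cons (P.lf 0 817950 0) (P.cons (P.lf 0 86229 0) (P.cons (P.lf 17289 0 0) P.nil))) (P.cons (P.cons (P.lf 0 152466 0) (P.cons (P.lf 41379 0 0) P.nil)) (P.cons (P.cons (P.lf 13083 0 0) P.nil) P.nil)))))) 20292)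
 (EL.cons 11 (TM.mk (P.cons (P.cons (P.lf 1072024149 0 0) (P.cons (P.lf 0 94893645 0) (P.cons (P.lf 0 61873974 0) (P.cons (P.lf 3587025 0 0) (P.cons (P.lf 602001 0 0) (P.cons (P.lf 0 30558 0) P.nil)))))) (P.cons (P.cons (P.lf 0 29185785 0) (P.cons (P.lf 0 17140077 0) (P.cons (P.lf 0 1869507 0) (P.cons (P.lf 264681 0 0) (P.cons (P.lf 30870 0 0) P.nil))))) (P.cons (P.cons (P.lf 0 16573614 0) (P.cons (P.lf 0 330564 0) (P.cons (P.lf 632658 0 0) (P.cons (P.lf 0 22428 0) P.nil)))) (P.cons (P.cons (P.lf 362427 0 0) (P.cons (P.lf 163350 0 0) (P.cons (P.lf 14295 0 0) P.nil))) (P.cons (P.cons (P.lf 105111 0 0) (P.cons (P.lf 6822 0 0) P.nil)) (P.cons (P.cons (P.lf 0 1149 0) P.nil) P.nil)))))) 22023)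
 EL.nil)))
noncomputable def S227_241_364_438_23 : EL := (EL.cons 4 (TM.mk (P.cons (P.cons (P.lf 0 207543939 0) (P.cons (P.lf 0 30864195 0) (P.cons (P.lf 0 1688763 0) (P.lf 187638 0 0)))) (P.cons (P.cons (P.lf 0 24812916 0) (P.cons (P.lf 18193548 0 0) (P.cons (P.lf 995475 0 0) (P.lf 0 110607 0)))) (P.cons (P.cons (P.lf 34395225 0 0) (P.cons (P.lf 0 2008338 0) (P.cons (P.lf 0 109887 0) (P.lf 12210 0 0)))) (P.cons (P.cons (P.lf 0 876825 0) (P.cons (P.lf 0 260307 0) (P.cons (P.lf 0 14241 0) P.nil))) (P.cons (P.cons (P.lf 0 300060 0) (P.cons (P.lf 12474 0 0) P.nil)) (P.cons (P.cons (P.lf 3651 0 0) P.nil) P.nil)))))) 6351)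
 (EL.cons 8 (TM.mk (P.cons (P.cons (P.lf 24002655 0 0) (P.cons (P.lf 3569475 0 0) (P.cons (P.lf 195306 0 0) (P.lf 0 21699 0)))) (P.cons (P.cons (P.lf 0 4909890 0) (P.cons (P.lf 0 3261006 0) (P.cons (P.lf 0 178428 0) (P.lf 19824 0 0)))) (P.cons (P.cons (P.lf 0 4839150 0) (P.cons (P.lf 924453 0 0) (P.cons (P.lf 50580 0 0) (P.lf 0 5616 0)))) (P.cons (P.cons (P.lf 1391142 0 0) (P.cons (P.lf 0 52356 0) (P.cons (P.lf 0 2862 0) P.nil))) (P.cons (P.cons (P.lf 0 10377 0) (P.cons (P.lf 0 9837 0) P.nil)) (P.cons (P.cons (P.lf 0 10086 0) P.nil) P.nil)))))) 3093)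
 (EL.cons 11 (TM.mk (P.cons (P.cons (P.lf 0 443475414 0) (P.cons (P.lf 0 55645506 0) (P.cons (P.lf 8495628 0 0) (P.cons (P.lf 259539 0 0) (P.lf 0 21627 0))))) (P.cons (P.cons (P.lf 128102475 0 0) (P.cons (P.lf 16073781 0 0) (P.cons (P.lf 0 2454048 0) (P.cons (P.lf 0 74970 0) (P.lf 6246 0 0))))) (P.cons (P.cons (P.lf 6008550 0 0) (P.cons (P.lf 753927 0 0) (P.cons (P.lf 0 115104 0) (P.cons (P.lf 0 3516 0) P.nil)))) (P.cons (P.cons (P.lf 0 534702 0) (P.cons (P.lf 0 67092 0) (P.cons (P.lf 10242 0 0) P.nil))) (P.cons (P.cons (P.lf 0 23259 0) (P.cons (P.lf 0 2916 0) P.nil)) (P.cons (P.cons (P.lf 1104 0 0) P.nil) P.nil)))))) 1614)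
 EL.nil)))
noncomputable def S227_241_364_438_24 : EL := (EL.cons 4 (TM.mk (P.cons (P.cons (P.lf 0 85441125 0) (P.cons (P.lf 5577813 0 0) (P.cons (P.lf 3024222 0 0) (P.cons (P.lf 263637 0 0) (P.cons (P.lf 0 24918 0) (P.cons (P.lf 0 1806 0) P.nil)))))) (P.cons (P.cons (P.lf 0 5880873 0) (P.cons (P.lf 10964847 0 0) (P.cons (P.lf 0 906987 0) (P.cons (P.lf 0 231567 0) (P.cons (P.lf 13809 0 0) P.nil))))) (P.cons (P.cons (P.lf 15601011 0 0) (P.cons (P.lf 0 4113690 0) (P.cons (P.lf 0 118221 0) (P.cons (P.lf 36702 0 0) P.nil)))) (P.cons (P.cons (P.lf 0 1011696 0) (P.cons (P.lf 0 196452 0) (P.cons (P.lf 25899 0 0) P.nil))) (P.cons (P.cons (P.lf 0 266628 0) (P.cons (P.lf 66846 0 0) P.nil)) (P.cons (P.cons (P.lf 18459 0 0) P.nil) P.nil)))))) 33252)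
 (EL.cons 8 (TM.mk (P.cons (P.cons (P.lf 9881346 0 0) (P.cons (P.lf 0 645078 0) (P.cons (P.lf 0 349752 0) (P.cons (P.lf 0 30489 0) (P.cons (P.lf 2880 0 0) (P.cons (P.lf 207 0 0) P.nil)))))) (P.cons (P.cons (P.lf 0 2522526 0) (P.cons (P.lf 0 1059015 0) (P.cons (P.lf 218253 0 0) (P.cons (P.lf 36663 0 0) (P.cons (P.lf 0 2529 0) P.nil))))) (P.cons (P.cons (P.lf 0 1996395 0) (P.cons (P.lf 884907 0 0) (P.cons (P.lf 0 21327 0) (P.cons (P.lf 0 13011 0) P.nil)))) (P.cons (P.cons (P.lf 700545 0 0) (P.cons (P.lf 0 134901 0) (P.cons (P.lf 0 7011 0) P.nil))) (P.cons (P.cons (P.lf 0 12429 0) (P.cons (P.lf 0 13323 0) P.nil)) (P.cons (P.cons (P.lf 0 11211 0) P.nil) P.nil)))))) 11022)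
 (EL.cons 11 (TM.mk (P.cons (P.cons (P.lf 0 182568753 0) (P.cons (P.lf 16160655 0 0) (P.cons (P.lf 10537311 0 0) (P.cons (P.lf 0 610878 0) (P.cons (P.lf 0 102522 0) (P.cons (P.lf 5202 0 0) P.nil)))))) (P.cons (P.cons (P.lf 61997763 0 0) (P.cons (P.lf 0 2128953 0) (P.cons (P.lf 0 2973060 0) (P.cons (P.lf 145737 0 0) (P.cons (P.lf 26766 0 0) P.nil))))) (P.cons (P.cons (P.lf 1770984 0 0) (P.cons (P.lf 0 899835 0) (P.cons (P.lf 0 236109 0) (P.cons (P.lf 19575 0 0) P.nil)))) (P.cons (P.cons (P.lf 0 1006902 0) (P.cons (P.lf 0 48996 0) (P.cons (P.lf 33225 0 0) P.nil))) (P.cons (P.cons (P.lf 0 5760 0) (P.cons (P.lf 8235 0 0) P.nil)) (P.cons (P.cons (P.lf 6789 0 0) P.nil) P.nil)))))) 15945)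
 EL.nil)))
noncomputable def S227_241_364_438_25 : EL := (EL.cons 4 (TM.mk (P.cons (P.cons (P.lf 35345319 0 0) (P.cons (P.lf 5256258 0 0) (P.cons (P.lf 287601 0 0) (P.lf 0 31953 0)))) (P.cons (P.cons (P.lf 0 6814785 0) (P.cons (P.lf 0 4740261 0) (P.cons (P.lf 0 259368 0) (P.lf 28818 0 0)))) (P.cons (P.cons (P.lf 0 7274547 0) (P.cons (P.lf 1295424 0 0) (P.cons (P.lf 70878 0 0) (P.lf 0 7875 0)))) (P.cons (P.cons (P.lf 1977075 0 0) (P.cons (P.lf 0 52563 0) (P.cons (P.lf 0 2874 0) P.nil))) (P.cons (P.cons (P.lf 21831 0 0) (P.cons (P.lf 0 17733 0) P.nil)) (P.cons (P.cons (P.lf 0 18582 0) P.nil) P.nil)))))) 5697)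
 (EL.cons 8 (TM.mk (P.cons (P.cons (P.lf 0 4087719 0) (P.cons (P.lf 0 607890 0) (P.cons (P.lf 0 33261 0) (P.lf 3693 0 0)))) (P.cons (P.cons (P.lf 2113011 0 0) (P.cons (P.lf 745239 0 0) (P.cons (P.lf 40776 0 0) (P.lf 0 4530 0)))) (P.cons (P.cons (P.lf 574152 0 0) (P.cons (P.lf 0 329241 0) (P.cons (P.lf 0 18012 0) (P.lf 2001 0 0)))) (P.cons (P.cons (P.lf 0 497748 0) (P.cons (P.lf 56403 0 0) (P.cons (P.lf 3084 0 0) P.nil))) (P.cons (P.cons (P.lf 73719 0 0) (P.cons (P.lf 0 528 0) P.nil)) (P.cons (P.cons (P.lf 2043 0 0) P.nil) P.nil)))))) 2523)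
 (EL.cons 11 (TM.mk (P.cons (P.cons (P.lf 75525120 0 0) (P.cons (P.lf 9476586 0 0) (P.cons (P.lf 0 1446828 0) (P.cons (P.lf 0 44199 0) (P.lf 3681 0 0))))) (P.cons (P.cons (P.lf 0 45407310 0) (P.cons (P.lf 0 5697525 0) (P.cons (P.lf 869862 0 0) (P.cons (P.lf 26574 0 0) (P.lf 0 2214 0))))) (P.cons (P.cons (P.lf 5583996 0 0) (P.cons (P.lf 700656 0 0) (P.cons (P.lf 0 106971 0) (P.cons (P.lf 0 3267 0) P.nil)))) (P.cons (P.cons (P.lf 491199 0 0) (P.cons (P.lf 61632 0 0) (P.cons (P.lf 0 9408 0) P.nil))) (P.cons (P.cons (P.lf 0 27324 0) (P.cons (P.lf 0 3426 0) P.nil)) (P.cons (P.cons (P.lf 0 2061 0) P.nil) P.nil)))))) 2151)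
 EL.nil)))
noncomputable def S227_241_364_438_26 : EL := (EL.cons 4 (TM.mk (P.cons (P.cons (P.lf 14550864 0 0) (P.cons (P.lf 0 949917 0) (P.cons (P.lf 0 515031 0) (P.cons (P.lf 0 44898 0) (P.cons (P.lf 4242 0 0) (P.cons (P.lf 306 0 0) P.nil)))))) (P.cons (P.cons (P.lf 0 3543591 0) (P.cons (P.lf 0 1570626 0) (P.cons (P.lf 315339 0 0) (P.cons (P.lf 53460 0 0) (P.cons (P.lf 0 3675 0) P.nil))))) (P.cons (P.cons (P.lf 0 3009666 0) (P.cons (P.lf 1286463 0 0) (P.cons (P.lf 0 26700 0) (P.cons (P.lf 0 18444 0) P.nil)))) (P.cons (P.cons (P.lf 1003431 0 0) (P.cons (P.lf 0 180510 0) (P.cons (P.lf 0 11262 0) P.nil))) (P.cons (P.cons (P.lf 0 783 0) (P.cons (P.lf 0 24270 0) P.nil)) (P.cons (P.cons (P.lf 0 18525 0) P.nil) P.nil)))))) 17862)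
 (EL.cons 8 (TM.mk (P.cons (P.cons (P.lf 0 1682820 0) (P.cons (P.lf 109857 0 0) (P.cons (P.lf 59562 0 0) (P.cons (P.lf 5190 0 0) (P.cons (P.lf 0 489 0) (P.cons (P.lf 0 33 0) P.nil)))))) (P.cons (P.cons (P.lf 955239 0 0) (P.cons (P.lf 146037 0 0) (P.cons (P.lf 0 55773 0) (P.cons (P.lf 0 7863 0) (P.cons (P.lf 582 0 0) P.nil))))) (P.cons (P.cons (P.lf 210420 0 0) (P.cons (P.lf 0 207339 0) (P.cons (P.lf 15078 0 0) (P.cons (P.lf 4152 0 0) P.nil)))) (P.cons (P.cons (P.lf 0 227142 0) (P.cons (P.lf 69582 0 0) (P.cons (P.lf 177 0 0) P.nil))) (P.cons (P.cons (P.lf 38559 0 0) (P.cons (P.lf 0 4443 0) P.nil)) (P.cons (P.cons (P.lf 1668 0 0) P.nil) P.nil)))))) 5853)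
 (EL.cons 11 (TM.mk (P.cons (P.cons (P.lf 31091976 0 0) (P.cons (P.lf 0 2752203 0) (P.cons (P.lf 0 1794531 0) (P.cons (P.lf 104034 0 0) (P.cons (P.lf 17457 0 0) (P.cons (P.lf 0 885 0) P.nil)))))) (P.cons (P.cons (P.lf 0 20270313 0) (P.cons (P.lf 1222248 0 0) (P.cons (P.lf 1066860 0 0) (P.cons (P.lf 0 57315 0) (P.cons (P.lf 0 10011 0) P.nil))))) (P.cons (P.cons (P.lf 2911098 0 0) (P.cons (P.lf 47544 0 0) (P.cons (P.lf 0 113019 0) (P.cons (P.lf 4131 0 0) P.nil)))) (P.cons (P.cons (P.lf 303159 0 0) (P.cons (P.lf 0 41268 0) (P.cons (P.lf 0 20097 0) P.nil))) (P.cons (P.cons (P.lf 0 54510 0) (P.cons (P.lf 0 4341 0) P.nil)) (P.cons (P.cons (P.lf 0 2064 0) P.nil) P.nil)))))) 10032)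
 EL.nil)))
noncomputable def S227_241_364_438_27 : EL := (EL.cons 13 (TM.mk (P.lf 0 4294967296 0) 0)
 EL.nil)
noncomputable def S227_241_364_438_28 : EL := (EL.cons 13 (TM.mk (P.cons (P.cons (P.lf 0 1768140470 0) (P.cons (P.lf 378371752 0 0) (P.cons (P.lf 20702980 0 0) (P.lf 0 2300328 0)))) (P.cons (P.cons (P.lf 89689754 0 0) (P.cons (P.lf 13337908 0 0) (P.cons (P.lf 729792 0 0) (P.lf 0 81088 0)))) (P.cons (P.cons (P.lf 19103306 0 0) (P.cons (P.lf 0 1887572 0) (P.cons (P.lf 0 103280 0) (P.lf 11472 0 0)))) (P.cons (P.cons (P.lf 0 886419 0) (P.cons (P.lf 0 71676 0) (P.cons (P.lf 0 3920 0) P.nil))) (P.cons (P.cons (P.lf 0 68435 0) (P.cons (P.lf 4576 0 0) P.nil)) (P.cons (P.cons (P.lf 1839 0 0) P.nil) P.nil)))))) 1558)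
 EL.nil)
noncomputable def S227_241_364_438_29 : EL := (EL.cons 13 (TM.mk (P.cons (P.cons (P.lf 0 727903265 0) (P.cons (P.lf 311534110 0 0) (P.cons (P.lf 0 16287348 0) (P.cons (P.lf 0 5541707 0) (P.cons (P.lf 305507 0 0) (P.cons (P.lf 22176 0 0) P.nil)))))) (P.cons (P.cons (P.lf 73846468 0 0) (P.cons (P.lf 0 4820886 0) (P.cons (P.lf 0 2613830 0) (P.cons (P.lf 0 227860 0) (P.cons (P.lf 21538 0 0) P.nil))))) (P.cons (P.cons (P.lf 13855845 0 0) (P.cons (P.lf 0 5477069 0) (P.cons (P.lf 0 8526 0) (P.cons (P.lf 65156 0 0) P.nil)))) (P.cons (P.cons (P.lf 0 1527687 0) (P.cons (P.lf 57351 0 0) (P.cons (P.lf 27491 0 0) P.nil))) (P.cons (P.cons (P.lf 0 104293 0) (P.cons (P.lf 41115 0 0) P.nil)) (P.cons (P.cons (P.lf 12257 0 0) P.nil) P.nil)))))) 23817)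
 EL.nil)
noncomputable def S227_241_364_438_30 : EL := (EL.cons 13 (TM.mk (P.cons (P.lf 731445116 0 0) (P.cons (P.lf 0 228474868 0) (P.cons (P.lf 0 2007284 0) (P.cons (P.lf 199892 0 0) (P.cons (P.lf 3020 0 0) (P.cons (P.lf 0 164 0) P.nil)))))) 40)
 EL.nil)
noncomputable def S227_241_364_438_31 : EL := (EL.cons 13 (TM.mk (P.cons (P.cons (P.lf 301119338 0 0) (P.cons (P.lf 0 64437782 0) (P.cons (P.lf 0 3525776 0) (P.lf 391752 0 0)))) (P.cons (P.cons (P.lf 0 109332332 0) (P.cons (P.lf 17856361 0 0) (P.cons (P.lf 977029 0 0) (P.lf 0 108558 0)))) (P.cons (P.cons (P.lf 691431 0 0) (P.cons (P.lf 1207816 0 0) (P.cons (P.lf 66086 0 0) (P.lf 0 7342 0)))) (P.cons (P.cons (P.lf 1291386 0 0) (P.cons (P.lf 0 99580 0) (P.cons (P.lf 0 5448 0) P.nil))) (P.cons (P.cons (P.lf 0 29502 0) (P.cons (P.lf 0 6361 0) P.nil)) (P.cons (P.cons (P.lf 0 5387 0) P.nil) P.nil)))))) 2059)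
 EL.nil)
noncomputable def S227_241_364_438_32 : EL := (EL.cons 13 (TM.mk (P.cons (P.cons (P.lf 123963991 0 0) (P.cons (P.lf 0 53055142 0) (P.cons (P.lf 2773781 0 0) (P.cons (P.lf 943768 0 0) (P.cons (P.lf 0 52028 0) (P.cons (P.lf 0 3776 0) P.nil)))))) (P.cons (P.cons (P.lf 0 51297769 0) (P.cons (P.lf 17393363 0 0) (P.cons (P.lf 0 421278 0) (P.cons (P.lf 0 255991 0) (P.cons (P.lf 12583 0 0) P.nil))))) (P.cons (P.cons (P.lf 1228452 0 0) (P.cons (P.lf 821906 0 0) (P.cons (P.lf 0 145205 0) (P.cons (P.lf 0 25807 0) P.nil)))) (P.cons (P.cons (P.lf 1065634 0 0) (P.cons (P.lf 0 317877 0) (P.cons (P.lf 0 5598 0) P.nil))) (P.cons (P.cons (P.lf 0 59954 0) (P.cons (P.lf 0 6505 0) P.nil)) (P.cons (P.cons (P.lf 0 9073 0) P.nil) P.nil)))))) 16678)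
 EL.nil)
noncomputable def S227_241_364_438_33 : EL := (EL.cons 14 (TM.mk (P.lf 8589934592 0 0) 0)
 EL.nil)
noncomputable def S227_241_364_438_34 : EL := (EL.cons 14 (TM.mk (P.cons (P.cons (P.lf 3536280940 0 0) (P.cons (P.lf 0 756743504 0) (P.cons (P.lf 0 41405960 0) (P.lf 4600656 0 0)))) (P.cons (P.cons (P.lf 0 179379508 0) (P.cons (P.lf 0 26675816 0) (P.cons (P.lf 0 1459584 0) (P.lf 162176 0 0)))) (P.cons (P.cons (P.lf 0 38206612 0) (P.cons (P.lf 3775144 0 0) (P.cons (P.lf 206560 0 0) (P.lf 0 22944 0)))) (P.cons (P.cons (P.lf 1772838 0 0) (P.cons (P.lf 143352 0 0) (P.cons (P.lf 7840 0 0) P.nil))) (P.cons (P.cons (P.lf 136870 0 0) (P.cons (P.lf 0 9152 0) P.nil)) (P.cons (P.cons (P.lf 0 3678 0) P.nil) P.nil)))))) 3116)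
 EL.nil)
noncomputable def S227_241_364_438_35 : EL := (EL.cons 14 (TM.mk (P.cons (P.cons (P.lf 1455806530 0 0) (P.cons (P.lf 0 623068220 0) (P.cons (P.lf 32574696 0 0) (P.cons (P.lf 11083414 0 0) (P.cons (P.lf 0 611014 0) (P.cons (P.lf 0 44352 0) P.nil)))))) (P.cons (P.cons (P.lf 0 147692936 0) (P.cons (P.lf 9641772 0 0) (P.cons (P.lf 5227660 0 0) (P.cons (P.lf 455720 0 0) (P.cons (P.lf 0 43076 0) P.nil))))) (P.cons (P.cons (P.lf 0 27711690 0) (P.cons (P.lf 10954138 0 0) (P.cons (P.lf 17052 0 0) (P.cons (P.lf 0 130312 0) P.nil)))) (P.cons (P.cons (P.lf 3055374 0 0) (P.cons (P.lf 0 114702 0) (P.cons (P.lf 0 54982 0) P.nil))) (P.cons (P.cons (P.lf 208586 0 0) (P.cons (P.lf 0 82230 0) P.nil)) (P.cons (P.cons (P.lf 0 24514 0) P.nil) P.nil)))))) 47634)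
 EL.nil)
noncomputable def S227_241_364_438_36 : EL := (EL.cons 14 (TM.mk (P.cons (P.lf 0 1462890232 0) (P.cons (P.lf 456949736 0 0) (P.cons (P.lf 4014568 0 0) (P.cons (P.lf 0 399784 0) (P.cons (P.lf 0 6040 0) (P.cons (P.lf 328 0 0) P.nil)))))) 80)
 EL.nil)
noncomputable def S227_241_364_438_37 : EL := (EL.cons 14 (TM.mk (P.cons (P.cons (P.lf 0 602238676 0) (P.cons (P.lf 128875564 0 0) (P.cons (P.lf 7051552 0 0) (P.lf 0 783504 0)))) (P.cons (P.cons (P.lf 218664664 0 0) (P.cons (P.lf 0 35712722 0) (P.cons (P.lf 0 1954058 0) (P.lf 217116 0 0)))) (P.cons (P.cons (P.lf 0 1382862 0) (P.cons (P.lf 0 2415632 0) (P.cons (P.lf 0 132172 0) (P.lf 14684 0 0)))) (P.cons (P.cons (P.lf 0 2582772 0) (P.cons (P.lf 199160 0 0) (P.cons (P.lf 10896 0 0) P.nil))) (P.cons (P.cons (P.lf 59004 0 0) (P.cons (P.lf 12722 0 0) P.nil)) (P.cons (P.cons (P.lf 10774 0 0) P.nil) P.nil))))))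 4118)
 EL.nil)
noncomputable def S227_241_364_438_38 : EL := (EL.cons 14 (TM.mk (P.cons (P.cons (P.lf 0 247927982 0) (P.cons (P.lf 106110284 0 0) (P.cons (P.lf 0 5547562 0) (P.cons (P.lf 0 1887536 0) (P.cons (P.lf 104056 0 0) (P.cons (P.lf 7552 0 0) P.nil)))))) (P.cons (P.cons (P.lf 102595538 0 0) (P.cons (P.lf 0 34786726 0) (P.cons (P.lf 842556 0 0) (P.cons (P.lf 511982 0 0) (P.cons (P.lf 0 25166 0) P.nil))))) (P.cons (P.cons (P.lf 0 2456904 0) (P.cons (P.lf 0 1643812 0) (P.cons (P.lf 290410 0 0) (P.cons (P.lf 51614 0 0) P.nil)))) (P.cons (P.cons (P.lf 0 2131268 0) (P.cons (P.lf 635754 0 0) (P.cons (P.lf 11196 0 0) P.nil))) (P.cons (P.cons (P.lf 119908 0 0) (P.cons (P.lf 13010 0 0) P.nil)) (P.cons (P.cons (P.lf 18146 0 0) P.nil) P.nil)))))) 33356)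
 EL.nil)
noncomputable def S227_241_364_438_39 : EL := (EL.cons 14 (TM.mk (P.cons (P.lf 249134356 0 0) (P.cons (P.lf 0 155639672 0) (P.cons (P.lf 22940490 0 0) (P.cons (P.lf 563286 0 0) (P.cons (P.lf 0 38600 0) (P.cons (P.lf 0 1128 0) P.nil)))))) 108)
 EL.nil)
noncomputable def S227_241_364_438_40 : EL := (EL.cons 14 (TM.mk (P.cons (P.cons (P.lf 102562954 0 0) (P.cons (P.lf 0 21947874 0) (P.cons (P.lf 0 1200898 0) (P.lf 133432 0 0)))) (P.cons (P.cons (P.lf 0 69275870 0) (P.cons (P.lf 12937636 0 0) (P.cons (P.lf 707894 0 0) (P.lf 0 78654 0)))) (P.cons (P.cons (P.lf 11586118 0 0) (P.cons (P.lf 0 1428152 0) (P.cons (P.lf 0 78142 0) (P.lf 8682 0 0)))) (P.cons (P.cons (P.lf 496514 0 0) (P.cons (P.lf 0 185108 0) (P.cons (P.lf 0 10128 0) P.nil))) (P.cons (P.cons (P.lf 0 157840 0) (P.cons (P.lf 8870 0 0) P.nil)) (P.cons (P.cons (P.lf 0 14 0) P.nil) P.nil)))))) 4368)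
 EL.nil)
noncomputable def S227_241_364_438_41 : EL := (EL.cons 14 (TM.mk (P.cons (P.cons (P.lf 42222838 0 0) (P.cons (P.lf 0 18070882 0) (P.cons (P.lf 944764 0 0) (P.cons (P.lf 321452 0 0) (P.cons (P.lf 0 17720 0) (P.cons (P.lf 0 1286 0) P.nil)))))) (P.cons (P.cons (P.lf 0 30661074 0) (P.cons (P.lf 11568914 0 0) (P.cons (P.lf 0 438596 0) (P.cons (P.lf 0 187600 0) (P.cons (P.lf 9820 0 0) P.nil))))) (P.cons (P.cons (P.lf 5760212 0 0) (P.cons (P.lf 0 1520974 0) (P.cons (P.lf 0 7228 0) (P.cons (P.lf 17562 0 0) P.nil)))) (P.cons (P.cons (P.lf 291750 0 0) (P.cons (P.lf 0 216910 0) (P.cons (P.lf 14192 0 0) P.nil))) (P.cons (P.cons (P.lf 0 139544 0) (P.cons (P.lf 32378 0 0) P.nil)) (P.cons (P.cons (P.lf 2324 0 0) P.nil) P.nil)))))) 16772)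
 EL.nil)
noncomputable def S227_241_364_438_42 : EL := (EL.cons 14 (TM.mk (P.cons (P.lf 0 42428286 0) (P.cons (P.lf 39758816 0 0) (P.cons (P.lf 0 12069796 0) (P.cons (P.lf 1040076 0 0) (P.cons (P.lf 54328 0 0) (P.cons (P.lf 0 2546 0) P.nil)))))) 172)
 EL.nil)
noncomputable def S227_241_364_438_43 : EL := (EL.cons 14 (TM.mk (P.cons (P.cons (P.lf 0 17466760 0) (P.cons (P.lf 3737784 0 0) (P.cons (P.lf 204516 0 0) (P.lf 0 22724 0)))) (P.cons (P.cons (P.lf 17253810 0 0) (P.cons (P.lf 0 3370854 0) (P.cons (P.lf 0 184438 0) (P.lf 20492 0 0)))) (P.cons (P.cons (P.lf 0 5610410 0) (P.cons (P.lf 921190 0 0) (P.cons (P.lf 50402 0 0) (P.lf 0 5600 0)))) (P.cons (P.cons (P.lf 494626 0 0) (P.cons (P.lf 0 37378 0) (P.cons (P.lf 0 2044 0) P.nil))) (P.cons (P.cons (P.lf 61860 0 0) (P.cons (P.lf 0 12610 0) P.nil)) (P.cons (P.cons (P.lf 0 8648 0) P.nil) P.nil)))))) 3890)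
 EL.nil)
noncomputable def S227_241_364_438_44 : EL := (EL.cons 14 (TM.mk (P.cons (P.cons (P.lf 0 7190668 0) (P.cons (P.lf 3077522 0 0) (P.cons (P.lf 0 160896 0) (P.cons (P.lf 0 54744 0) (P.cons (P.lf 3016 0 0) (P.cons (P.lf 218 0 0) P.nil)))))) (P.cons (P.cons (P.lf 7467752 0 0) (P.cons (P.lf 0 2931516 0) (P.cons (P.lf 124952 0 0) (P.cons (P.lf 49048 0 0) (P.cons (P.lf 0 2614 0) P.nil))))) (P.cons (P.cons (P.lf 0 2592292 0) (P.cons (P.lf 866000 0 0) (P.cons (P.lf 0 21658 0) (P.cons (P.lf 0 12820 0) P.nil)))) (P.cons (P.cons (P.lf 240438 0 0) (P.cons (P.lf 0 37720 0) (P.cons (P.lf 0 3050 0) P.nil))) (P.cons (P.cons (P.lf 43374 0 0) (P.cons (P.lf 0 18288 0) P.nil)) (P.cons (P.cons (P.lf 0 7926 0) P.nil) P.nil)))))) 9676)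
 EL.nil)
noncomputable def S227_241_364_438_45 : EL := (EL.cons 14 (TM.mk (P.cons (P.cons (P.lf 599322476 0 0) (P.cons (P.lf 0 384754548 0) (P.cons (P.lf 61283008 0 0) (P.cons (P.lf 5476150 0 0) (P.cons (P.lf 0 1718676 0) (P.cons (P.lf 0 408 0) P.nil)))))) (P.cons (P.cons (P.lf 0 91202740 0) (P.cons (P.lf 25470802 0 0) (P.cons (P.lf 3021936 0 0) (P.cons (P.lf 0 597760 0) (P.cons (P.lf 0 116872 0) P.nil))))) (P.cons (P.cons (P.lf 0 14799258 0) (P.cons (P.lf 10619294 0 0) (P.cons (P.lf 0 1322144 0) (P.cons (P.lf 0 206822 0) P.nil)))) (P.cons (P.cons (P.lf 2793888 0 0) (P.cons (P.lf 0 671170 0) (P.cons (P.lf 0 81834 0) P.nil))) (P.cons (P.cons (P.lf 138038 0 0) (P.cons (P.lf 0 132174 0) P.nil)) (P.cons (P.cons (P.lf 0 36732 0) P.nil) P.nil)))))) 145334)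
 EL.nil)
noncomputable def S227_241_364_438_46 : EL := (EL.cons 15 (TM.mk (P.lf 4294967296 0 0) 0)
 EL.nil)
noncomputable def S227_241_364_438_47 : EL := (EL.cons 15 (TM.mk (P.cons (P.cons (P.lf 1768140470 0 0) (P.cons (P.lf 0 378371752 0) (P.cons (P.lf 0 20702980 0) (P.lf 2300328 0 0)))) (P.cons (P.cons (P.lf 0 89689754 0) (P.cons (P.lf 0 13337908 0) (P.cons (P.lf 0 729792 0) (P.lf 81088 0 0)))) (P.cons (P.cons (P.lf 0 19103306 0) (P.cons (P.lf 1887572 0 0) (P.cons (P.lf 103280 0 0) (P.lf 0 11472 0)))) (P.cons (P.cons (P.lf 886419 0 0) (P.cons (P.lf 71676 0 0) (P.cons (P.lf 3920 0 0) P.nil))) (P.cons (P.cons (P.lf 68435 0 0) (P.cons (P.lf 0 4576 0) P.nil)) (P.cons (P.cons (P.lf 0 1839 0) P.nil) P.nil)))))) 1558)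
 EL.nil)
noncomputable def S227_241_364_438_48 : EL := (EL.cons 15 (TM.mk (P.cons (P.cons (P.lf 727903265 0 0) (P.cons (P.lf 0 311534110 0) (P.cons (P.lf 16287348 0 0) (P.cons (P.lf 5541707 0 0) (P.cons (P.lf 0 305507 0) (P.cons (P.lf 0 22176 0) P.nil)))))) (P.cons (P.cons (P.lf 0 73846468 0) (P.cons (P.lf 4820886 0 0) (P.cons (P.lf 2613830 0 0) (P.cons (P.lf 227860 0 0) (P.cons (P.lf 0 21538 0) P.nil))))) (P.cons (P.cons (P.lf 0 13855845 0) (P.cons (P.lf 5477069 0 0) (P.cons (P.lf 8526 0 0) (P.cons (P.lf 0 65156 0) P.nil)))) (P.cons (P.cons (P.lf 1527687 0 0) (P.cons (P.lf 0 57351 0) (P.cons (P.lf 0 27491 0) P.nil))) (P.cons (P.cons (P.lf 104293 0 0) (P.cons (P.lf 0 41115 0) P.nil)) (P.cons (P.cons (P.lf 0 12257 0) P.nil) P.nil)))))) 23817)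
 EL.nil)
noncomputable def S227_241_364_438 : SL := (SL.cons S227_241_364_438_0 (SL.cons S227_241_364_438_1 (SL.cons S227_241_364_438_2 (SL.cons S227_241_364_438_3 (SL.cons S227_241_364_438_4 (SL.cons S227_241_364_438_5 (SL.cons S227_241_364_438_6 (SL.cons S227_241_364_438_7 (SL.cons S227_241_364_438_8 (SL.cons S227_241_364_438_9 (SL.cons S227_241_364_438_10 (SL.cons S227_241_364_438_11 (SL.cons S227_241_364_438_12 (SL.cons S227_241_364_438_13 (SL.cons S227_241_364_438_14 (SL.cons S227_241_364_438_15 (SL.cons S227_241_364_438_16 (SL.cons S227_241_364_438_17 (SL.cons S227_241_364_438_18 (SL.cons S227_241_364_438_19 (SL.cons S227_241_364_438_20 (SL.cons S227_241_364_438_21 (SL.cons S227_241_364_438_22 (SL.cons S227_241_364_438_23 (SL.cons S227_241_364_438_24 (SL.cons S227_241_364_438_25 (SL.cons S227_241_364_438_26 (SL.cons S227_241_364_438_27 (SL.cons S227_241_364_438_28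 (SL.cons S227_241_364_438_29 (SL.cons S227_241_364_438_30 (SL.cons S227_241_364_438_31 (SL.cons S227_241_364_438_32 (SL.cons S227_241_364_438_33 (SL.cons S227_241_364_438_34 (SL.cons S227_241_364_438_35 (SL.cons S227_241_364_438_36 (SL.cons S227_241_364_438_37 (SL.cons S227_241_364_438_38 (SL.cons S227_241_364_438_39 (SL.cons S227_241_364_438_40 (SL.cons S227_241_364_438_41 (SL.cons S227_241_364_438_42 (SL.cons S227_241_364_438_43 (SL.cons S227_241_364_438_44 (SL.cons S227_241_364_438_45 (SL.cons S227_241_364_438_46 (SL.cons S227_241_364_438_47 (SL.cons S227_241_364_438_48 SL.nil)))))))))))))))))))))))))))))))))))))))))))))))))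
noncomputable def S227_241_364_512_0 : EL := (EL.cons 0 (TM.mk (P.cons (P.lf 8236751121 0 0) (P.cons (P.lf 136792680 0 0) (P.cons (P.lf 0 20162540 0) (P.cons (P.lf 0 495075 0) (P.cons (P.lf 33925 0 0) (P.cons (P.lf 991 0 0) P.nil)))))) 101)
 (EL.cons 1 (TM.mk (P.cons (P.lf 0 673184881 0) (P.cons (P.lf 202366545 0 0) (P.cons (P.lf 5530590 0 0) (P.cons (P.lf 0 526580 0) (P.cons (P.lf 0 13798 0) (P.cons (P.lf 714 0 0) P.nil)))))) 98)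
 (EL.cons 5 (TM.mk (P.cons (P.lf 4372821786 0 0) (P.cons (P.lf 0 48637396 0) (P.cons (P.lf 7168902 0 0) (P.cons (P.lf 176026 0 0) (P.cons (P.lf 0 12058 0) (P.cons (P.lf 0 354 0) P.nil)))))) 135)
 (EL.cons 9 (TM.mk (P.lf 6442450944 0 0) 2)
 EL.nil))))
noncomputable def S227_241_364_512_1 : EL := (EL.cons 0 (TM.mk (P.cons (P.cons (P.lf 3079791905 0 0) (P.cons (P.lf 0 1457308072 0) (P.cons (P.lf 0 97432225 0) (P.lf 32477406 0 0)))) (P.cons (P.cons (P.lf 0 144397694 0) (P.cons (P.lf 0 156570705 0) (P.cons (P.lf 0 10467948 0) (P.lf 3489306 0 0)))) (P.cons (P.cons (P.lf 0 103121849 0) (P.cons (P.lf 19067532 0 0) (P.cons (P.lf 1274802 0 0) (P.lf 0 424932 0)))) (P.cons (P.cons (P.lf 3783201 0 0) (P.cons (P.lf 1728197 0 0) (P.cons (P.lf 115535 0 0) P.nil))) (P.cons (P.cons (P.lf 793919 0 0) (P.cons (P.lf 0 87726 0) P.nil)) (P.cons (P.cons (P.lf 0 14567 0) P.nil) P.nil))))))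 69552)
 (EL.cons 1 (TM.mk (P.cons (P.cons (P.lf 450518090 0 0) (P.cons (P.lf 316264398 0 0) (P.cons (P.lf 21144699 0 0) (P.lf 0 7048229 0)))) (P.cons (P.cons (P.lf 329316724 0 0) (P.cons (P.lf 0 79189838 0) (P.cons (P.lf 0 5294445 0) (P.lf 1764817 0 0)))) (P.cons (P.cons (P.lf 0 13858359 0) (P.cons (P.lf 0 9592650 0) (P.cons (P.lf 0 641334 0) (P.lf 213775 0 0)))) (P.cons (P.cons (P.lf 0 5190707 0) (P.cons (P.lf 690452 0 0) (P.cons (P.lf 46157 0 0) P.nil))) (P.cons (P.cons (P.lf 123226 0 0) (P.cons (P.lf 71281 0 0) P.nil)) (P.cons (P.cons (P.lf 29528 0 0) P.nil) P.nil)))))) 42017)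
 (EL.cons 5 (TM.mk (P.cons (P.cons (P.lf 1236285203 0 0) (P.cons (P.lf 0 885626888 0) (P.cons (P.lf 0 59210954 0) (P.lf 19736984 0 0)))) (P.cons (P.cons (P.lf 0 124908429 0) (P.cons (P.lf 6185176 0 0) (P.cons (P.lf 413518 0 0) (P.lf 0 137834 0)))) (P.cons (P.cons (P.lf 7554865 0 0) (P.cons (P.lf 223458 0 0) (P.cons (P.lf 14946 0 0) (P.lf 0 4988 0)))) (P.cons (P.cons (P.lf 289564 0 0) (P.cons (P.lf 0 348534 0) (P.cons (P.lf 0 23298 0) P.nil))) (P.cons (P.cons (P.lf 0 174091 0) (P.cons (P.lf 14192 0 0) P.nil)) (P.cons (P.cons (P.lf 1685 0 0) P.nil) P.nil)))))) 39194)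
 (EL.cons 9 (TM.mk (P.cons (P.cons (P.lf 2057049093 0 0) (P.cons (P.lf 0 1238630172 0) (P.cons (P.lf 0 82811928 0) (P.lf 27603972 0 0)))) (P.cons (P.cons (P.lf 0 155514555 0) (P.cons (P.lf 0 43662708 0) (P.cons (P.lf 0 2919186 0) (P.lf 973056 0 0)))) (P.cons (P.cons (P.lf 0 25685889 0) (P.cons (P.lf 6179130 0 0) (P.cons (P.lf 413118 0 0) (P.lf 0 137706 0)))) (P.cons (P.cons (P.lf 1442380 0 0) (P.cons (P.lf 234642 0 0) (P.cons (P.lf 15684 0 0) P.nil))) (P.cons (P.cons (P.lf 95452 0 0) (P.cons (P.lf 0 14988 0) P.nil)) (P.cons (P.cons (P.lf 0 3076 0) P.nil) P.nil)))))) 8494)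
 (EL.cons 2 (TM.mk (P.cons (P.cons (P.lf 459738168 0 0) (P.cons (P.lf 71179011 0 0) (P.cons (P.lf 0 34291802 0) (P.cons (P.lf 0 1297701 0) (P.lf 324424 0 0))))) (P.cons (P.cons (P.lf 0 132800141 0) (P.cons (P.lf 0 20560795 0) (P.cons (P.lf 9905543 0 0) (P.cons (P.lf 374852 0 0) (P.lf 0 93712 0))))) (P.cons (P.cons (P.lf 0 6228888 0) (P.cons (P.lf 0 964386 0) (P.cons (P.lf 464610 0 0) (P.cons (P.lf 17580 0 0) P.nil)))) (P.cons (P.cons (P.lf 554312 0 0) (P.cons (P.lf 85820 0 0) (P.cons (P.lf 0 41343 0) P.nil))) (P.cons (P.cons (P.lf 24111 0 0) (P.cons (P.lf 3732 0 0) P.nil)) (P.cons (P.cons (P.lf 0 1141 0) P.nil) P.nil)))))) 9338)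
 (EL.cons 6 (TM.mk (P.cons (P.cons (P.lf 1413411894 0 0) (P.cons (P.lf 218831655 0 0) (P.cons (P.lf 0 105426189 0) (P.cons (P.lf 0 3989634 0) (P.lf 997407 0 0))))) (P.cons (P.cons (P.lf 49823907 0 0) (P.cons (P.lf 7713990 0 0) (P.cons (P.lf 0 3716355 0) (P.cons (P.lf 0 140637 0) (P.lf 35157 0 0))))) (P.cons (P.cons (P.lf 0 7051065 0) (P.cons (P.lf 0 1091679 0) (P.cons (P.lf 525936 0 0) (P.cons (P.lf 19902 0 0) P.nil)))) (P.cons (P.cons (P.lf 0 267756 0) (P.cons (P.lf 0 41454 0) (P.cons (P.lf 19971 0 0) P.nil))) (P.cons (P.cons (P.lf 17109 0 0) (P.cons (P.lf 2646 0 0) P.nil)) (P.cons (P.cons (P.lf 750 0 0) P.nil) P.nil)))))) 8619)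
 EL.nil))))))
noncomputable def S227_241_364_512_2 : EL := (EL.cons 0 (TM.mk (P.cons (P.cons (P.lf 1126994263 0 0) (P.cons (P.lf 0 1103594614 0) (P.cons (P.lf 182117648 0 0) (P.cons (P.lf 58812537 0 0) (P.cons (P.lf 0 10262116 0) (P.cons (P.lf 0 762585 0) P.nil)))))) (P.cons (P.cons (P.lf 0 127874139 0) (P.cons (P.lf 0 39860529 0) (P.cons (P.lf 50771471 0 0) (P.cons (P.lf 8033587 0 0) (P.cons (P.lf 0 2142887 0) P.nil))))) (P.cons (P.cons (P.lf 0 63103732 0) (P.cons (P.lf 55352748 0 0) (P.cons (P.lf 0 1256121 0) (P.cons (P.lf 0 1896387 0) P.nil)))) (P.cons (P.cons (P.lf 7170090 0 0) (P.cons (P.lf 824055 0 0) (P.cons (P.lf 0 936937 0) P.nil))) (P.cons (P.cons (P.lf 956837 0 0) (P.cons (P.lf 0 758355 0) P.nil)) (P.cons (P.cons (P.lf 0 103852 0) P.nil) P.nil)))))) 1528191)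
 (EL.cons 1 (TM.mk (P.cons (P.cons (P.lf 356328461 0 0) (P.cons (P.lf 0 53920970 0) (P.cons (P.lf 0 100331736 0) (P.cons (P.lf 0 11732160 0) (P.cons (P.lf 3878914 0 0) (P.cons (P.lf 288244 0 0) P.nil)))))) (P.cons (P.cons (P.lf 157540494 0 0) (P.cons (P.lf 0 170393846 0) (P.cons (P.lf 9045216 0 0) (P.cons (P.lf 6530160 0 0) (P.cons (P.lf 0 819570 0) P.nil))))) (P.cons (P.cons (P.lf 0 27107085 0) (P.cons (P.lf 0 1754152 0) (P.cons (P.lf 4302202 0 0) (P.cons (P.lf 630031 0 0) P.nil)))) (P.cons (P.cons (P.lf 0 4307826 0) (P.cons (P.lf 3895868 0 0) (P.cons (P.lf 48331 0 0) P.nil))) (P.cons (P.cons (P.lf 546658 0 0) (P.cons (P.lf 66041 0 0) P.nil)) (P.cons (P.cons (P.lf 49409 0 0) P.nil) P.nil)))))) 761762)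
 (EL.cons 5 (TM.mk (P.cons (P.cons (P.lf 343672928 0 0) (P.cons (P.lf 0 504054178 0) (P.cons (P.lf 145204842 0 0) (P.cons (P.lf 35155599 0 0) (P.cons (P.lf 0 7174406 0) (P.cons (P.lf 0 533120 0) P.nil)))))) (P.cons (P.cons (P.lf 0 67085401 0) (P.cons (P.lf 50344120 0 0) (P.cons (P.lf 3394076 0 0) (P.cons (P.lf 0 1118186 0) (P.cons (P.lf 0 1144 0) P.nil))))) (P.cons (P.cons (P.lf 8101529 0 0) (P.cons (P.lf 0 1626209 0) (P.cons (P.lf 0 703711 0) (P.cons (P.lf 0 43333 0) P.nil)))) (P.cons (P.cons (P.lf 0 100045 0) (P.cons (P.lf 0 695257 0) (P.cons (P.lf 109042 0 0) P.nil))) (P.cons (P.cons (P.lf 0 233970 0) (P.cons (P.lf 126343 0 0) P.nil)) (P.cons (P.cons (P.lf 16436 0 0) P.nil) P.nil)))))) 899763)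
 (EL.cons 9 (TM.mk (P.cons (P.cons (P.lf 656807634 0 0) (P.cons (P.lf 0 790979424 0) (P.cons (P.lf 185256870 0 0) (P.cons (P.lf 49470637 0 0) (P.cons (P.lf 0 9549844 0) (P.cons (P.lf 0 709648 0) P.nil)))))) (P.cons (P.cons (P.lf 0 99310363 0) (P.cons (P.lf 31916016 0 0) (P.cons (P.lf 18923076 0 0) (P.cons (P.lf 1533697 0 0) (P.cons (P.lf 0 673276 0) P.nil))))) (P.cons (P.cons (P.lf 0 12648832 0) (P.cons (P.lf 15930669 0 0) (P.cons (P.lf 0 1015005 0) (P.cons (P.lf 0 633165 0) P.nil)))) (P.cons (P.cons (P.lf 2161156 0 0) (P.cons (P.lf 0 354937 0) (P.cons (P.lf 0 197712 0) P.nil))) (P.cons (P.cons (P.lf 93727 0 0) (P.cons (P.lf 0 126424 0) P.nil)) (P.cons (P.cons (P.lf 0 18073 0) P.nil) P.nil)))))) 421771)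
 (EL.cons 2 (TM.mk (P.cons (P.cons (P.lf 293585152 0 0) (P.cons (P.lf 0 131324810 0) (P.cons (P.lf 0 61087370 0) (P.cons (P.lf 14467021 0 0) (P.cons (P.lf 2197710 0 0) (P.cons (P.lf 0 385245 0) P.nil)))))) (P.cons (P.cons (P.lf 0 107000392 0) (P.cons (P.lf 28266541 0 0) (P.cons (P.lf 17919821 0 0) (P.cons (P.lf 0 3577111 0) (P.cons (P.lf 0 580325 0) P.nil))))) (P.cons (P.cons (P.lf 0 1232313 0) (P.cons (P.lf 4886302 0 0) (P.cons (P.lf 1217418 0 0) (P.cons (P.lf 0 435813 0) P.nil)))) (P.cons (P.cons (P.lf 1919497 0 0) (P.cons (P.lf 0 52779 0) (P.cons (P.lf 0 220753 0) P.nil))) (P.cons (P.cons (P.lf 0 7531 0) (P.cons (P.lf 0 41709 0) P.nil)) (P.cons (P.cons (P.lf 0 13477 0) P.nil) P.nil)))))) 345526)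
 (EL.cons 6 (TM.mk (P.cons (P.cons (P.lf 902593644 0 0) (P.cons (P.lf 0 403742970 0) (P.cons (P.lf 0 187806066 0) (P.cons (P.lf 44477196 0 0) (P.cons (P.lf 6756606 0 0) (P.cons (P.lf 0 1184394 0) P.nil)))))) (P.cons (P.cons (P.lf 0 36419646 0) (P.cons (P.lf 0 43955388 0) (P.cons (P.lf 0 5777616 0) (P.cons (P.lf 3418128 0 0) (P.cons (P.lf 405738 0 0) P.nil))))) (P.cons (P.cons (P.lf 0 18178626 0) (P.cons (P.lf 1932708 0 0) (P.cons (P.lf 2408310 0 0) (P.cons (P.lf 0 359436 0) P.nil)))) (P.cons (P.cons (P.lf 405012 0 0) (P.cons (P.lf 459768 0 0) (P.cons (P.lf 57804 0 0) P.nil))) (P.cons (P.cons (P.lf 144264 0 0) (P.cons (P.lf 2910 0 0) P.nil)) (P.cons (P.cons (P.lf 0 1236 0) P.nil) P.nil)))))) 347640)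
 EL.nil))))))
noncomputable def S227_241_364_512_3 : EL := (EL.cons 0 (TM.mk (P.cons (P.lf 218965742 0 0) (P.cons (P.lf 0 136792680 0) (P.cons (P.lf 20162540 0 0) (P.cons (P.lf 495075 0 0) (P.cons (P.lf 0 33925 0) (P.cons (P.lf 0 991 0) P.nil)))))) 101)
 (EL.cons 1 (TM.mk (P.cons (P.lf 673184881 0 0) (P.cons (P.lf 0 202366545 0) (P.cons (P.lf 0 5530590 0) (P.cons (P.lf 526580 0 0) (P.cons (P.lf 13798 0 0) (P.cons (P.lf 0 714 0) P.nil)))))) 98)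
 (EL.cons 5 (TM.mk (P.cons (P.lf 2069629158 0 0) (P.cons (P.lf 48637396 0 0) (P.cons (P.lf 0 7168902 0) (P.cons (P.lf 0 176026 0) (P.cons (P.lf 12058 0 0) (P.cons (P.lf 354 0 0) P.nil)))))) 128)
 EL.nil)))
noncomputable def S227_241_364_512_4 : EL := (EL.cons 0 (TM.mk (P.cons (P.cons (P.lf 69914895 0 0) (P.cons (P.lf 0 42098507 0) (P.cons (P.lf 0 2814607 0) (P.lf 938202 0 0)))) (P.cons (P.cons (P.lf 0 48962983 0) (P.cons (P.lf 24815851 0 0) (P.cons (P.lf 1659128 0 0) (P.lf 0 553042 0)))) (P.cons (P.cons (P.lf 8866850 0 0) (P.cons (P.lf 0 2739355 0) (P.cons (P.lf 0 183146 0) (P.lf 61048 0 0)))) (P.cons (P.cons (P.lf 265783 0 0) (P.cons (P.lf 0 355057 0) (P.cons (P.lf 0 23737 0) P.nil))) (P.cons (P.cons (P.lf 0 130550 0) (P.cons (P.lf 17013 0 0) P.nil)) (P.cons (P.cons (P.lf 910 0 0) P.nil) P.nil)))))) 14480)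
 (EL.cons 1 (TM.mk (P.cons (P.cons (P.lf 214945267 0 0) (P.cons (P.lf 0 129426999 0) (P.cons (P.lf 0 8653186 0) (P.lf 2884395 0 0)))) (P.cons (P.cons (P.lf 0 80864870 0) (P.cons (P.lf 34344727 0 0) (P.cons (P.lf 2296207 0 0) (P.lf 0 765403 0)))) (P.cons (P.cons (P.lf 435065 0 0) (P.cons (P.lf 3080491 0 0) (P.cons (P.lf 205953 0 0) (P.lf 0 68649 0)))) (P.cons (P.cons (P.lf 1259184 0 0) (P.cons (P.lf 0 233334 0) (P.cons (P.lf 0 15600 0) P.nil))) (P.cons (P.cons (P.lf 0 21586 0) (P.cons (P.lf 0 20461 0) P.nil)) (P.cons (P.cons (P.lf 0 7218 0) P.nil) P.nil)))))) 12397)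
 (EL.cons 5 (TM.mk (P.cons (P.cons (P.lf 660824398 0 0) (P.cons (P.lf 0 397908364 0) (P.cons (P.lf 0 26603224 0) (P.lf 8867740 0 0)))) (P.cons (P.cons (P.lf 0 34429122 0) (P.cons (P.lf 0 23377648 0) (P.cons (P.lf 0 1562974 0) (P.lf 520988 0 0)))) (P.cons (P.cons (P.lf 0 11714620 0) (P.cons (P.lf 3033702 0 0) (P.cons (P.lf 202824 0 0) (P.lf 0 67606 0)))) (P.cons (P.cons (P.lf 386292 0 0) (P.cons (P.lf 204456 0 0) (P.cons (P.lf 13668 0 0) P.nil))) (P.cons (P.cons (P.lf 78234 0 0) (P.cons (P.lf 0 11042 0) P.nil)) (P.cons (P.cons (P.lf 0 1348 0) P.nil) P.nil)))))) 7882)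
 EL.nil)))
noncomputable def S227_241_364_512_5 : EL := (EL.cons 0 (TM.mk (P.cons (P.cons (P.lf 22323549 0 0) (P.cons (P.lf 0 26883773 0) (P.cons (P.lf 6296501 0 0) (P.cons (P.lf 1681405 0 0) (P.cons (P.lf 0 324578 0) (P.cons (P.lf 0 24118 0) P.nil)))))) (P.cons (P.cons (P.lf 0 17321364 0) (P.cons (P.lf 17879640 0 0) (P.cons (P.lf 0 3290405 0) (P.cons (P.lf 0 998282 0) (P.cons (P.lf 179887 0 0) P.nil))))) (P.cons (P.cons (P.lf 3734319 0 0) (P.cons (P.lf 0 2611701 0) (P.cons (P.lf 143493 0 0) (P.cons (P.lf 100738 0 0) P.nil)))) (P.cons (P.cons (P.lf 81692 0 0) (P.cons (P.lf 0 311217 0) (P.cons (P.lf 88289 0 0) P.nil))) (P.cons (P.cons (P.lf 0 93378 0) (P.cons (P.lf 59712 0 0) P.nil)) (P.cons (P.cons (P.lf 3608 0 0) P.nil) P.nil)))))) 131177)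
 (EL.cons 1 (TM.mk (P.cons (P.cons (P.lf 68631172 0 0) (P.cons (P.lf 0 82651057 0) (P.cons (P.lf 19357867 0 0) (P.cons (P.lf 5169286 0 0) (P.cons (P.lf 0 997880 0) (P.cons (P.lf 0 74152 0) P.nil)))))) (P.cons (P.cons (P.lf 0 31008403 0) (P.cons (P.lf 28180756 0 0) (P.cons (P.lf 0 3841869 0) (P.cons (P.lf 0 1393681 0) (P.cons (P.lf 229620 0 0) P.nil))))) (P.cons (P.cons (P.lf 1233931 0 0) (P.cons (P.lf 1341123 0 0) (P.cons (P.lf 0 859494 0) (P.cons (P.lf 0 156804 0) P.nil)))) (P.cons (P.cons (P.lf 762078 0 0) (P.cons (P.lf 0 629542 0) (P.cons (P.lf 10119 0 0) P.nil))) (P.cons (P.cons (P.lf 0 53941 0) (P.cons (P.lf 0 14821 0) P.nil)) (P.cons (P.cons (P.lf 0 8006 0) P.nil) P.nil)))))) 158092)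
 (EL.cons 5 (TM.mk (P.cons (P.cons (P.lf 210998614 0 0) (P.cons (P.lf 0 254101130 0) (P.cons (P.lf 59513532 0 0) (P.cons (P.lf 15892378 0 0) (P.cons (P.lf 0 3067874 0) (P.cons (P.lf 0 227972 0) P.nil)))))) (P.cons (P.cons (P.lf 0 26944746 0) (P.cons (P.lf 4281464 0 0) (P.cons (P.lf 7477612 0 0) (P.cons (P.lf 866176 0 0) (P.cons (P.lf 0 288384 0) P.nil))))) (P.cons (P.cons (P.lf 0 5544034 0) (P.cons (P.lf 6238826 0 0) (P.cons (P.lf 0 389354 0) (P.cons (P.lf 0 246872 0) P.nil)))) (P.cons (P.cons (P.lf 691338 0 0) (P.cons (P.lf 0 7656 0) (P.cons (P.lf 0 97294 0) P.nil))) (P.cons (P.cons (P.lf 64442 0 0) (P.cons (P.lf 0 63372 0) P.nil)) (P.cons (P.cons (P.lf 0 7306 0) P.nil) P.nil)))))) 177884)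
 EL.nil)))
noncomputable def S227_241_364_512_6 : EL := (EL.cons 12 (TM.mk (P.lf 8589934592 0 0) 0)
 (EL.cons 3 (TM.mk (P.cons (P.lf 0 685729796 0) (P.cons (P.lf 214195188 0 0) (P.cons (P.lf 1881828 0 0) (P.cons (P.lf 0 187398 0) (P.cons (P.lf 0 2831 0) (P.cons (P.lf 153 0 0) P.nil)))))) 44)
 (EL.cons 7 (TM.mk (P.cons (P.lf 0 2108197044 0) (P.cons (P.lf 0 24771881 0) (P.cons (P.lf 3796786 0 0) (P.cons (P.lf 45040 0 0) (P.cons (P.lf 0 3252 0) (P.cons (P.lf 0 61 0) P.nil)))))) 51)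
 EL.nil)))
noncomputable def S227_241_364_512_7 : EL := (EL.cons 12 (TM.mk (P.cons (P.cons (P.lf 2742732124 0 0) (P.cons (P.lf 0 1651506896 0) (P.cons (P.lf 0 110415904 0) (P.lf 36805296 0 0)))) (P.cons (P.cons (P.lf 0 207352740 0) (P.cons (P.lf 0 58216944 0) (P.cons (P.lf 0 3892248 0) (P.lf 1297408 0 0)))) (P.cons (P.cons (P.lf 0 34247852 0) (P.cons (P.lf 8238840 0 0) (P.cons (P.lf 550824 0 0) (P.lf 0 183608 0)))) (P.cons (P.cons (P.lf 1923174 0 0) (P.cons (P.lf 312856 0 0) (P.cons (P.lf 20912 0 0) P.nil))) (P.cons (P.cons (P.lf 127270 0 0) (P.cons (P.lf 0 19984 0) P.nil)) (P.cons (P.cons (P.lf 0 4102 0) P.nil) P.nil)))))) 11300)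
 (EL.cons 3 (TM.mk (P.cons (P.cons (P.lf 0 1627672288 0) (P.cons (P.lf 0 263677788 0) (P.cons (P.lf 0 17628880 0) (P.lf 5876292 0 0)))) (P.cons (P.cons (P.lf 0 388757349 0) (P.cons (P.lf 73067782 0 0) (P.cons (P.lf 4885140 0 0) (P.lf 0 1628380 0)))) (P.cons (P.cons (P.lf 35931296 0 0) (P.cons (P.lf 4942354 0 0) (P.cons (P.lf 330432 0 0) (P.lf 0 110142 0)))) (P.cons (P.cons (P.lf 3017674 0 0) (P.cons (P.lf 0 407480 0) (P.cons (P.lf 0 27242 0) P.nil))) (P.cons (P.cons (P.lf 0 122100 0) (P.cons (P.lf 0 26030 0) P.nil)) (P.cons (P.cons (P.lf 0 11162 0) P.nil) P.nil)))))) 35405)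
 (EL.cons 7 (TM.mk (P.cons (P.cons (P.lf 0 510218978 0) (P.cons (P.lf 451065350 0 0) (P.cons (P.lf 30157181 0 0) (P.lf 0 10052395 0)))) (P.cons (P.cons (P.lf 44960169 0 0) (P.cons (P.lf 0 8450358 0) (P.cons (P.lf 0 564969 0) (P.lf 188321 0 0)))) (P.cons (P.cons (P.lf 0 11441533 0) (P.cons (P.lf 797837 0 0) (P.cons (P.lf 53338 0 0) (P.lf 0 17778 0)))) (P.cons (P.cons (P.lf 591830 0 0) (P.cons (P.lf 162558 0 0) (P.cons (P.lf 10867 0 0) P.nil))) (P.cons (P.cons (P.lf 89371 0 0) (P.cons (P.lf 0 8576 0) P.nil)) (P.cons (P.cons (P.lf 0 2390 0) P.nil) P.nil)))))) 23758)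
 (EL.cons 10 (TM.mk (P.cons (P.cons (P.lf 0 2879502123 0) (P.cons (P.lf 0 445819239 0) (P.cons (P.lf 214781649 0 0) (P.cons (P.lf 8127969 0 0) (P.lf 0 2031990 0))))) (P.cons (P.cons (P.lf 0 67669845 0) (P.cons (P.lf 0 10476990 0) (P.cons (P.lf 5047482 0 0) (P.cons (P.lf 191010 0 0) (P.lf 0 47751 0))))) (P.cons (P.cons (P.lf 9974187 0 0) (P.cons (P.lf 1544253 0 0) (P.cons (P.lf 0 743973 0) (P.cons (P.lf 0 28152 0) P.nil)))) (P.cons (P.cons (P.lf 244905 0 0) (P.cons (P.lf 37917 0 0) (P.cons (P.lf 0 18267 0) P.nil))) (P.cons (P.cons (P.lf 0 16776 0) (P.cons (P.lf 0 2595 0) P.nil)) (P.cons (P.cons (P.lf 0 492 0) P.nil) P.nil)))))) 9657)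
 EL.nil))))
noncomputable def S227_241_364_512_8 : EL := (EL.cons 12 (TM.mk (P.cons (P.cons (P.lf 875743512 0 0) (P.cons (P.lf 0 1054639232 0) (P.cons (P.lf 247009160 0 0) (P.cons (P.lf 65960850 0 0) (P.cons (P.lf 0 12733126 0) (P.cons (P.lf 0 946198 0) P.nil)))))) (P.cons (P.cons (P.lf 0 132413818 0) (P.cons (P.lf 42554688 0 0) (P.cons (P.lf 25230768 0 0) (P.cons (P.lf 2044930 0 0) (P.cons (P.lf 0 897702 0) P.nil))))) (P.cons (P.cons (P.lf 0 16865110 0) (P.cons (P.lf 21240892 0 0) (P.cons (P.lf 0 1353340 0) (P.cons (P.lf 0 844220 0) P.nil)))) (P.cons (P.cons (P.lf 2881542 0 0) (P.cons (P.lf 0 473250 0) (P.cons (P.lf 0 263616 0) P.nil))) (P.cons (P.cons (P.lf 124970 0 0) (P.cons (P.lf 0 168566 0) P.nil)) (P.cons (P.cons (P.lf 0 24098 0) P.nil) P.nil)))))) 562332)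
 (EL.cons 3 (TM.mk (P.cons (P.cons (P.lf 0 969508510 0) (P.cons (P.lf 373301022 0 0) (P.cons (P.lf 151695232 0 0) (P.cons (P.lf 8627359 0 0) (P.cons (P.lf 0 5082391 0) (P.cons (P.lf 0 377670 0) P.nil)))))) (P.cons (P.cons (P.lf 0 202084197 0) (P.cons (P.lf 260633659 0 0) (P.cons (P.lf 0 13227214 0) (P.cons (P.lf 0 9907163 0) (P.cons (P.lf 1229220 0 0) P.nil))))) (P.cons (P.cons (P.lf 56456504 0 0) (P.cons (P.lf 0 9072461 0) (P.cons (P.lf 0 4852379 0) (P.cons (P.lf 0 365537 0) P.nil)))) (P.cons (P.cons (P.lf 3262154 0 0) (P.cons (P.lf 0 4310985 0) (P.cons (P.lf 0 24904 0) P.nil))) (P.cons (P.cons (P.lf 0 793259 0) (P.cons (P.lf 37042 0 0) P.nil)) (P.cons (P.cons (P.lf 0 25270 0) P.nil) P.nil)))))) 1023612)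
 (EL.cons 7 (TM.mk (P.cons (P.cons (P.lf 0 110891192 0) (P.cons (P.lf 225400539 0 0) (P.cons (P.lf 0 80446752 0) (P.cons (P.lf 0 17795276 0) (P.cons (P.lf 3830387 0 0) (P.cons (P.lf 284632 0 0) P.nil)))))) (P.cons (P.cons (P.lf 23371243 0 0) (P.cons (P.lf 0 30142534 0) (P.cons (P.lf 1529739 0 0) (P.cons (P.lf 1145767 0 0) (P.cons (P.lf 0 142159 0) P.nil))))) (P.cons (P.cons (P.lf 0 10316688 0) (P.cons (P.lf 5934001 0 0) (P.cons (P.lf 313279 0 0) (P.cons (P.lf 0 143397 0) P.nil)))) (P.cons (P.cons (P.lf 1055844 0 0) (P.cons (P.lf 243066 0 0) (P.cons (P.lf 0 116910 0) P.nil))) (P.cons (P.cons (P.lf 172205 0 0) (P.cons (P.lf 0 121536 0) P.nil)) (P.cons (P.cons (P.lf 0 20643 0) P.nil) P.nil)))))) 437605)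
 (EL.cons 10 (TM.mk (P.cons (P.cons (P.lf 0 1838827266 0) (P.cons (P.lf 822533586 0 0) (P.cons (P.lf 382611738 0 0) (P.cons (P.lf 0 90612078 0) (P.cons (P.lf 0 13765044 0) (P.cons (P.lf 2412936 0 0) P.nil)))))) (P.cons (P.cons (P.lf 95803380 0 0) (P.cons (P.lf 79884024 0 0) (P.cons (P.lf 7274778 0 0) (P.cons (P.lf 0 5898942 0) (P.cons (P.lf 0 664866 0) P.nil))))) (P.cons (P.cons (P.lf 32597406 0 0) (P.cons (P.lf 0 3394764 0) (P.cons (P.lf 0 4302798 0) (P.cons (P.lf 638394 0 0) P.nil)))) (P.cons (P.cons (P.lf 0 1074906 0) (P.cons (P.lf 0 735348 0) (P.cons (P.lf 0 45936 0) P.nil))) (P.cons (P.cons (P.lf 0 217692 0) (P.cons (P.lf 0 2970 0) P.nil)) (P.cons (P.cons (P.lf 3750 0 0) P.nil) P.nil)))))) 599988)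
 EL.nil))))
noncomputable def S227_241_364_512_9 : EL := (EL.cons 3 (TM.mk (P.cons (P.lf 0 685729796 0) (P.cons (P.lf 214195188 0 0) (P.cons (P.lf 1881828 0 0) (P.cons (P.lf 0 187398 0) (P.cons (P.lf 0 2831 0) (P.cons (P.lf 153 0 0) P.nil)))))) 44)
 (EL.cons 7 (TM.mk (P.cons (P.lf 0 2108197044 0) (P.cons (P.lf 0 24771881 0) (P.cons (P.lf 3796786 0 0) (P.cons (P.lf 45040 0 0) (P.cons (P.lf 0 3252 0) (P.cons (P.lf 0 61 0) P.nil)))))) 51)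
 EL.nil))
noncomputable def S227_241_364_512_10 : EL := (EL.cons 3 (TM.mk (P.cons (P.cons (P.lf 0 218950810 0) (P.cons (P.lf 131838894 0 0) (P.cons (P.lf 8814440 0 0) (P.lf 0 2938146 0)))) (P.cons (P.cons (P.lf 84944532 0 0) (P.cons (P.lf 0 36533891 0) (P.cons (P.lf 0 2442570 0) (P.lf 814190 0 0)))) (P.cons (P.cons (P.lf 0 1835617 0) (P.cons (P.lf 0 2471177 0) (P.cons (P.lf 0 165216 0) (P.lf 55071 0 0)))) (P.cons (P.cons (P.lf 0 1112777 0) (P.cons (P.lf 203740 0 0) (P.cons (P.lf 13621 0 0) P.nil))) (P.cons (P.cons (P.lf 33912 0 0) (P.cons (P.lf 13015 0 0) P.nil)) (P.cons (P.cons (P.lf 4786 0 0) P.nil) P.nil)))))) 8782)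
 (EL.cons 7 (TM.mk (P.cons (P.cons (P.lf 0 673138973 0) (P.cons (P.lf 405323453 0 0) (P.cons (P.lf 27098981 0 0) (P.lf 0 9032992 0)))) (P.cons (P.cons (P.lf 42980280 0 0) (P.cons (P.lf 19050636 0 0) (P.cons (P.lf 1273680 0 0) (P.lf 0 424558 0)))) (P.cons (P.cons (P.lf 10215596 0 0) (P.cons (P.lf 0 2584114 0) (P.cons (P.lf 0 172766 0) (P.lf 57588 0 0)))) (P.cons (P.cons (P.lf 0 450502 0) (P.cons (P.lf 0 134934 0) (P.cons (P.lf 0 9020 0) P.nil))) (P.cons (P.cons (P.lf 0 54044 0) (P.cons (P.lf 7963 0 0) P.nil)) (P.cons (P.cons (P.lf 1369 0 0) P.nil) P.nil)))))) 5022)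
 EL.nil))
noncomputable def S227_241_364_512_11 : EL := (EL.cons 3 (TM.mk (P.cons (P.cons (P.lf 0 69910126 0) (P.cons (P.lf 84191274 0 0) (P.cons (P.lf 0 19718606 0) (P.cons (P.lf 0 5265617 0) (P.cons (P.lf 1016477 0 0) (P.cons (P.lf 75534 0 0) P.nil)))))) (P.cons (P.cons (P.lf 32407713 0 0) (P.cons (P.lf 0 29695181 0) (P.cons (P.lf 4145162 0 0) (P.cons (P.lf 1481527 0 0) (P.cons (P.lf 0 245844 0) P.nil))))) (P.cons (P.cons (P.lf 0 1763632 0) (P.cons (P.lf 0 865565 0) (P.cons (P.lf 791293 0 0) (P.cons (P.lf 132835 0 0) P.nil)))) (P.cons (P.cons (P.lf 0 698686 0) (P.cons (P.lf 599763 0 0) (P.cons (P.lf 0 12562 0) P.nil))) (P.cons (P.cons (P.lf 60781 0 0) (P.cons (P.lf 5728 0 0) P.nil)) (P.cons (P.cons (P.lf 6098 0 0) P.nil) P.nil)))))) 144986)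
 (EL.cons 7 (TM.mk (P.cons (P.cons (P.lf 0 214930610 0) (P.cons (P.lf 258836349 0 0) (P.cons (P.lf 0 60622578 0) (P.cons (P.lf 0 16188536 0) (P.cons (P.lf 3125045 0 0) (P.cons (P.lf 232222 0 0) P.nil)))))) (P.cons (P.cons (P.lf 29972359 0 0) (P.cons (P.lf 0 7402648 0) (P.cons (P.lf 0 6904629 0) (P.cons (P.lf 0 692099 0) (P.cons (P.lf 257039 0 0) P.nil))))) (P.cons (P.cons (P.lf 4908084 0 0) (P.cons (P.lf 0 5801951 0) (P.cons (P.lf 368563 0 0) (P.cons (P.lf 230451 0 0) P.nil)))) (P.cons (P.cons (P.lf 0 712506 0) (P.cons (P.lf 68172 0 0) (P.cons (P.lf 81048 0 0) P.nil))) (P.cons (P.cons (P.lf 0 47461 0) (P.cons (P.lf 52746 0 0) P.nil)) (P.cons (P.cons (P.lf 6783 0 0) P.nil) P.nil)))))) 158661)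
 EL.nil))
noncomputable def S227_241_364_512_12 : EL := (EL.cons 4 (TM.mk (P.cons (P.lf 685729796 0 0) (P.cons (P.lf 0 214195188 0) (P.cons (P.lf 0 1881828 0) (P.cons (P.lf 187398 0 0) (P.cons (P.lf 2831 0 0) (P.cons (P.lf 0 153 0) P.nil)))))) 44)
 (EL.cons 8 (TM.mk (P.cons (P.lf 2108197044 0 0) (P.cons (P.lf 24771881 0 0) (P.cons (P.lf 0 3796786 0) (P.cons (P.lf 0 45040 0) (P.cons (P.lf 3252 0 0) (P.cons (P.lf 61 0 0) P.nil)))))) 51)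
 EL.nil))
noncomputable def S227_241_364_512_13 : EL := (EL.cons 4 (TM.mk (P.cons (P.cons (P.lf 218950810 0 0) (P.cons (P.lf 0 131838894 0) (P.cons (P.lf 0 8814440 0) (P.lf 2938146 0 0)))) (P.cons (P.cons (P.lf 0 84944532 0) (P.cons (P.lf 36533891 0 0) (P.cons (P.lf 2442570 0 0) (P.lf 0 814190 0)))) (P.cons (P.cons (P.lf 1835617 0 0) (P.cons (P.lf 2471177 0 0) (P.cons (P.lf 165216 0 0) (P.lf 0 55071 0)))) (P.cons (P.cons (P.lf 1112777 0 0) (P.cons (P.lf 0 203740 0) (P.cons (P.lf 0 13621 0) P.nil))) (P.cons (P.cons (P.lf 0 33912 0) (P.cons (P.lf 0 13015 0) P.nil)) (P.cons (P.cons (P.lf 0 4786 0) P.nil) P.nil)))))) 8782)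
 (EL.cons 8 (TM.mk (P.cons (P.cons (P.lf 673138973 0 0) (P.cons (P.lf 0 405323453 0) (P.cons (P.lf 0 27098981 0) (P.lf 9032992 0 0)))) (P.cons (P.cons (P.lf 0 42980280 0) (P.cons (P.lf 0 19050636 0) (P.cons (P.lf 0 1273680 0) (P.lf 424558 0 0)))) (P.cons (P.cons (P.lf 0 10215596 0) (P.cons (P.lf 2584114 0 0) (P.cons (P.lf 172766 0 0) (P.lf 0 57588 0)))) (P.cons (P.cons (P.lf 450502 0 0) (P.cons (P.lf 134934 0 0) (P.cons (P.lf 9020 0 0) P.nil))) (P.cons (P.cons (P.lf 54044 0 0) (P.cons (P.lf 0 7963 0) P.nil)) (P.cons (P.cons (P.lf 0 1369 0) P.nil) P.nil)))))) 5022)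
 EL.nil))
noncomputable def S227_241_364_512_14 : EL := (EL.cons 4 (TM.mk (P.cons (P.cons (P.lf 69910126 0 0) (P.cons (P.lf 0 84191274 0) (P.cons (P.lf 19718606 0 0) (P.cons (P.lf 5265617 0 0) (P.cons (P.lf 0 1016477 0) (P.cons (P.lf 0 75534 0) P.nil)))))) (P.cons (P.cons (P.lf 0 32407713 0) (P.cons (P.lf 29695181 0 0) (P.cons (P.lf 0 4145162 0) (P.cons (P.lf 0 1481527 0) (P.cons (P.lf 245844 0 0) P.nil))))) (P.cons (P.cons (P.lf 1763632 0 0) (P.cons (P.lf 865565 0 0) (P.cons (P.lf 0 791293 0) (P.cons (P.lf 0 132835 0) P.nil)))) (P.cons (P.cons (P.lf 698686 0 0) (P.cons (P.lf 0 599763 0) (P.cons (P.lf 12562 0 0) P.nil))) (P.cons (P.cons (P.lf 0 60781 0) (P.cons (P.lf 0 5728 0) P.nil)) (P.cons (P.cons (P.lf 0 6098 0) P.nil) P.nil)))))) 144986)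
 (EL.cons 8 (TM.mk (P.cons (P.cons (P.lf 214930610 0 0) (P.cons (P.lf 0 258836349 0) (P.cons (P.lf 60622578 0 0) (P.cons (P.lf 16188536 0 0) (P.cons (P.lf 0 3125045 0) (P.cons (P.lf 0 232222 0) P.nil)))))) (P.cons (P.cons (P.lf 0 29972359 0) (P.cons (P.lf 7402648 0 0) (P.cons (P.lf 6904629 0 0) (P.cons (P.lf 692099 0 0) (P.cons (P.lf 0 257039 0) P.nil))))) (P.cons (P.cons (P.lf 0 4908084 0) (P.cons (P.lf 5801951 0 0) (P.cons (P.lf 0 368563 0) (P.cons (P.lf 0 230451 0) P.nil)))) (P.cons (P.cons (P.lf 712506 0 0) (P.cons (P.lf 0 68172 0) (P.cons (P.lf 0 81048 0) P.nil))) (P.cons (P.cons (P.lf 47461 0 0) (P.cons (P.lf 0 52746 0) P.nil)) (P.cons (P.cons (P.lf 0 6783 0) P.nil) P.nil)))))) 158661)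
 EL.nil))
noncomputable def S227_241_364_512_15 : EL := (EL.cons 4 (TM.mk (P.cons (P.lf 0 116781729 0) (P.cons (P.lf 72956096 0 0) (P.cons (P.lf 0 10753354 0) (P.cons (P.lf 0 264040 0) (P.cons (P.lf 18093 0 0) (P.cons (P.lf 528 0 0) P.nil)))))) 57)
 (EL.cons 8 (TM.mk (P.cons (P.lf 0 359031937 0) (P.cons (P.lf 107928824 0 0) (P.cons (P.lf 2949648 0 0) (P.cons (P.lf 0 280843 0) (P.cons (P.lf 0 7359 0) (P.cons (P.lf 381 0 0) P.nil)))))) 49)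
 EL.nil))
noncomputable def S227_241_364_512_16 : EL := (EL.cons 4 (TM.mk (P.cons (P.cons (P.lf 0 37287944 0) (P.cons (P.lf 22452537 0 0) (P.cons (P.lf 1501124 0 0) (P.lf 0 500374 0)))) (P.cons (P.cons (P.lf 26113590 0 0) (P.cons (P.lf 0 13235120 0) (P.cons (P.lf 0 884868 0) (P.lf 294956 0 0)))) (P.cons (P.cons (P.lf 0 4728987 0) (P.cons (P.lf 1460989 0 0) (P.cons (P.lf 97678 0 0) (P.lf 0 32559 0)))) (P.cons (P.cons (P.lf 0 141750 0) (P.cons (P.lf 189363 0 0) (P.cons (P.lf 12660 0 0) P.nil))) (P.cons (P.cons (P.lf 69627 0 0) (P.cons (P.lf 0 9074 0) P.nil)) (P.cons (P.cons (P.lf 0 485 0) P.nil) P.nil)))))) 7731)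
 (EL.cons 8 (TM.mk (P.cons (P.cons (P.lf 0 114637476 0) (P.cons (P.lf 69027733 0 0) (P.cons (P.lf 4615033 0 0) (P.lf 0 1538344 0)))) (P.cons (P.cons (P.lf 43127931 0 0) (P.cons (P.lf 0 18317188 0) (P.cons (P.lf 0 1224644 0) (P.lf 408215 0 0)))) (P.cons (P.cons (P.lf 0 232035 0) (P.cons (P.lf 0 1642929 0) (P.cons (P.lf 0 109842 0) (P.lf 36613 0 0)))) (P.cons (P.cons (P.lf 0 671565 0) (P.cons (P.lf 124445 0 0) (P.cons (P.lf 8320 0 0) P.nil))) (P.cons (P.cons (P.lf 11513 0 0) (P.cons (P.lf 10913 0 0) P.nil)) (P.cons (P.cons (P.lf 3850 0 0) P.nil) P.nil)))))) 6602)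
 EL.nil))
noncomputable def S227_241_364_512_17 : EL := (EL.cons 4 (TM.mk (P.cons (P.cons (P.lf 0 11905892 0) (P.cons (P.lf 14338012 0 0) (P.cons (P.lf 0 3358134 0) (P.cons (P.lf 0 896749 0) (P.cons (P.lf 173108 0 0) (P.cons (P.lf 12863 0 0) P.nil)))))) (P.cons (P.cons (P.lf 9238061 0 0) (P.cons (P.lf 0 9535808 0) (P.cons (P.lf 1754882 0 0) (P.cons (P.lf 532417 0 0) (P.cons (P.lf 0 95940 0) P.nil))))) (P.cons (P.cons (P.lf 0 1991637 0) (P.cons (P.lf 1392907 0 0) (P.cons (P.lf 0 76530 0) (P.cons (P.lf 0 53727 0) P.nil)))) (P.cons (P.cons (P.lf 0 43569 0) (P.cons (P.lf 165982 0 0) (P.cons (P.lf 0 47087 0) P.nil))) (P.cons (P.cons (P.lf 49801 0 0) (P.cons (P.lf 0 31846 0) P.nil)) (P.cons (P.cons (P.lf 0 1924 0) P.nil) P.nil)))))) 69971)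
 (EL.cons 8 (TM.mk (P.cons (P.cons (P.lf 0 36603292 0) (P.cons (P.lf 44080564 0 0) (P.cons (P.lf 0 10324196 0) (P.cons (P.lf 0 2756953 0) (P.cons (P.lf 532203 0 0) (P.cons (P.lf 39548 0 0) P.nil)))))) (P.cons (P.cons (P.lf 16537815 0 0) (P.cons (P.lf 0 15029737 0) (P.cons (P.lf 2048997 0 0) (P.cons (P.lf 743297 0 0) (P.cons (P.lf 0 122464 0) P.nil))))) (P.cons (P.cons (P.lf 0 658097 0) (P.cons (P.lf 0 715266 0) (P.cons (P.lf 458397 0 0) (P.cons (P.lf 83629 0 0) P.nil)))) (P.cons (P.cons (P.lf 0 406442 0) (P.cons (P.lf 335756 0 0) (P.cons (P.lf 0 5397 0) P.nil))) (P.cons (P.cons (P.lf 28769 0 0) (P.cons (P.lf 7905 0 0) P.nil)) (P.cons (P.cons (P.lf 4270 0 0) P.nil) P.nil)))))) 84304)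
 EL.nil))
noncomputable def S227_241_364_512_18 : EL := (EL.cons 4 (TM.mk (P.cons (P.lf 19888259 0 0) (P.cons (P.lf 0 18636945 0) (P.cons (P.lf 5657716 0 0) (P.cons (P.lf 0 487535 0) (P.cons (P.lf 0 25466 0) (P.cons (P.lf 1193 0 0) P.nil)))))) 87)
 (EL.cons 8 (TM.mk (P.cons (P.lf 61144157 0 0) (P.cons (P.lf 0 37479629 0) (P.cons (P.lf 5071246 0 0) (P.cons (P.lf 271888 0 0) (P.cons (P.lf 0 17078 0) (P.cons (P.lf 0 814 0) P.nil)))))) 70)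
 EL.nil))
noncomputable def S227_241_364_512_19 : EL := (EL.cons 4 (TM.mk (P.cons (P.cons (P.lf 6350241 0 0) (P.cons (P.lf 0 3823730 0) (P.cons (P.lf 0 255645 0) (P.lf 85215 0 0)))) (P.cons (P.cons (P.lf 0 6430785 0) (P.cons (P.lf 3448362 0 0) (P.cons (P.lf 230549 0 0) (P.lf 0 76849 0)))) (P.cons (P.cons (P.lf 2177070 0 0) (P.cons (P.lf 0 942372 0) (P.cons (P.lf 0 63004 0) (P.lf 21000 0 0)))) (P.cons (P.cons (P.lf 0 213481 0) (P.cons (P.lf 38238 0 0) (P.cons (P.lf 2555 0 0) P.nil))) (P.cons (P.cons (P.lf 0 22797 0) (P.cons (P.lf 12900 0 0) P.nil)) (P.cons (P.cons (P.lf 3920 0 0) P.nil) P.nil)))))) 6377)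
 (EL.cons 8 (TM.mk (P.cons (P.cons (P.lf 19523087 0 0) (P.cons (P.lf 0 11755618 0) (P.cons (P.lf 0 785953 0) (P.lf 261984 0 0)))) (P.cons (P.cons (P.lf 0 13443058 0) (P.cons (P.lf 6791465 0 0) (P.cons (P.lf 454061 0 0) (P.lf 0 151353 0)))) (P.cons (P.cons (P.lf 2280170 0 0) (P.cons (P.lf 0 662343 0) (P.cons (P.lf 0 44282 0) (P.lf 14760 0 0)))) (P.cons (P.cons (P.lf 127517 0 0) (P.cons (P.lf 0 120363 0) (P.cons (P.lf 0 8046 0) P.nil))) (P.cons (P.cons (P.lf 0 39720 0) (P.cons (P.lf 4797 0 0) P.nil)) (P.cons (P.cons (P.lf 0 381 0) P.nil) P.nil)))))) 5177)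
 EL.nil))
noncomputable def S227_241_364_512_20 : EL := (EL.cons 4 (TM.mk (P.cons (P.cons (P.lf 2027607 0 0) (P.cons (P.lf 0 2441804 0) (P.cons (P.lf 571899 0 0) (P.cons (P.lf 152718 0 0) (P.cons (P.lf 0 29480 0) (P.cons (P.lf 0 2190 0) P.nil)))))) (P.cons (P.cons (P.lf 0 2206612 0) (P.cons (P.lf 2386698 0 0) (P.cons (P.lf 0 477500 0) (P.cons (P.lf 0 138375 0) (P.cons (P.lf 25546 0 0) P.nil))))) (P.cons (P.cons (P.lf 825044 0 0) (P.cons (P.lf 0 737780 0) (P.cons (P.lf 104816 0 0) (P.cons (P.lf 37052 0 0) P.nil)))) (P.cons (P.cons (P.lf 0 93655 0) (P.cons (P.lf 40705 0 0) (P.cons (P.lf 4923 0 0) P.nil))) (P.cons (P.cons (P.lf 0 12150 0) (P.cons (P.lf 15337 0 0) P.nil)) (P.cons (P.cons (P.lf 3042 0 0) P.nil) P.nil)))))) 32111)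
 (EL.cons 8 (TM.mk (P.cons (P.cons (P.lf 6233644 0 0) (P.cons (P.lf 0 7507044 0) (P.cons (P.lf 1758239 0 0) (P.cons (P.lf 469516 0 0) (P.cons (P.lf 0 90635 0) (P.cons (P.lf 0 6734 0) P.nil)))))) (P.cons (P.cons (P.lf 0 4763583 0) (P.cons (P.lf 4904514 0 0) (P.cons (P.lf 0 898155 0) (P.cons (P.lf 0 273244 0) (P.cons (P.lf 49166 0 0) P.nil))))) (P.cons (P.cons (P.lf 974713 0 0) (P.cons (P.lf 0 657107 0) (P.cons (P.lf 26106 0 0) (P.cons (P.lf 24009 0 0) P.nil)))) (P.cons (P.cons (P.lf 43642 0 0) (P.cons (P.lf 0 104305 0) (P.cons (P.lf 26742 0 0) P.nil))) (P.cons (P.cons (P.lf 0 27572 0) (P.cons (P.lf 16848 0 0) P.nil)) (P.cons (P.cons (P.lf 630 0 0) P.nil) P.nil)))))) 39888)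
 EL.nil))
noncomputable def S227_241_364_512_21 : EL := (EL.cons 4 (TM.mk (P.cons (P.cons (P.lf 1408721478 0 0) (P.cons (P.lf 395516682 0 0) (P.cons (P.lf 26443320 0 0) (P.lf 0 8814438 0)))) (P.cons (P.cons (P.lf 473701881 0 0) (P.cons (P.lf 0 109601673 0) (P.cons (P.lf 0 7327710 0) (P.lf 2442570 0 0)))) (P.cons (P.cons (P.lf 0 37766913 0) (P.cons (P.lf 0 7413531 0) (P.cons (P.lf 0 495648 0) (P.lf 165213 0 0)))) (P.cons (P.cons (P.lf 0 4130451 0) (P.cons (P.lf 611220 0 0) (P.cons (P.lf 40863 0 0) P.nil))) (P.cons (P.cons (P.lf 156012 0 0) (P.cons (P.lf 39045 0 0) P.nil)) (P.cons (P.cons (P.lf 15948 0 0) P.nil) P.nil)))))) 26604)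
 (EL.cons 8 (TM.mk (P.cons (P.cons (P.lf 0 162919995 0) (P.cons (P.lf 0 45741897 0) (P.cons (P.lf 0 3058200 0) (P.lf 1019403 0 0)))) (P.cons (P.cons (P.lf 0 1979889 0) (P.cons (P.lf 27500994 0 0) (P.cons (P.lf 1838649 0 0) (P.lf 0 612879 0)))) (P.cons (P.cons (P.lf 21657129 0 0) (P.cons (P.lf 0 3381951 0) (P.cons (P.lf 0 226104 0) (P.lf 75366 0 0)))) (P.cons (P.cons (P.lf 0 1042332 0) (P.cons (P.lf 0 297492 0) (P.cons (P.lf 0 19887 0) P.nil))) (P.cons (P.cons (P.lf 0 143415 0) (P.cons (P.lf 16539 0 0) P.nil)) (P.cons (P.cons (P.lf 3759 0 0) P.nil) P.nil)))))) 18717)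
 (EL.cons 11 (TM.mk (P.cons (P.cons (P.lf 2879502123 0 0) (P.cons (P.lf 445819239 0 0) (P.cons (P.lf 0 214781649 0) (P.cons (P.lf 0 8127969 0) (P.lf 2031990 0 0))))) (P.cons (P.cons (P.lf 67669845 0 0) (P.cons (P.lf 10476990 0 0) (P.cons (P.lf 0 5047482 0) (P.cons (P.lf 0 191010 0) (P.lf 47751 0 0))))) (P.cons (P.cons (P.lf 0 9974187 0) (P.cons (P.lf 0 1544253 0) (P.cons (P.lf 743973 0 0) (P.cons (P.lf 28152 0 0) P.nil)))) (P.cons (P.cons (P.lf 0 244905 0) (P.cons (P.lf 0 37917 0) (P.cons (P.lf 18267 0 0) P.nil))) (P.cons (P.cons (P.lf 16776 0 0) (P.cons (P.lf 2595 0 0) P.nil)) (P.cons (P.cons (P.lf 492 0 0) P.nil) P.nil)))))) 9657)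
 EL.nil)))
noncomputable def S227_241_364_512_22 : EL := (EL.cons 4 (TM.mk (P.cons (P.cons (P.lf 449799192 0 0) (P.cons (P.lf 0 144554874 0) (P.cons (P.lf 0 85706919 0) (P.cons (P.lf 0 6946488 0) (P.cons (P.lf 3049434 0 0) (P.cons (P.lf 226602 0 0) P.nil)))))) (P.cons (P.cons (P.lf 117245955 0 0) (P.cons (P.lf 0 145164420 0) (P.cons (P.lf 8686188 0 0) (P.cons (P.lf 5694345 0 0) (P.cons (P.lf 0 737532 0) P.nil))))) (P.cons (P.cons (P.lf 0 29110068 0) (P.cons (P.lf 4103448 0 0) (P.cons (P.lf 2821836 0 0) (P.cons (P.lf 249186 0 0) P.nil)))) (P.cons (P.cons (P.lf 0 1980420 0) (P.cons (P.lf 2455374 0 0) (P.cons (P.lf 6171 0 0) P.nil))) (P.cons (P.cons (P.lf 427020 0 0) (P.cons (P.lf 0 15657 0) P.nil)) (P.cons (P.cons (P.lf 15684 0 0) P.nil) P.nil)))))) 439302)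
 (EL.cons 8 (TM.mk (P.cons (P.cons (P.lf 0 52019709 0) (P.cons (P.lf 16717905 0 0) (P.cons (P.lf 9912087 0 0) (P.cons (P.lf 803370 0 0) (P.cons (P.lf 0 352671 0) (P.cons (P.lf 0 26205 0) P.nil)))))) (P.cons (P.cons (P.lf 3300558 0 0) (P.cons (P.lf 11369943 0 0) (P.cons (P.lf 0 4217184 0) (P.cons (P.lf 0 918933 0) (P.cons (P.lf 199599 0 0) P.nil))))) (P.cons (P.cons (P.lf 7612386 0 0) (P.cons (P.lf 0 5867976 0) (P.cons (P.lf 27642 0 0) (P.cons (P.lf 186924 0 0) P.nil)))) (P.cons (P.cons (P.lf 0 884175 0) (P.cons (P.lf 0 87447 0) (P.cons (P.lf 98979 0 0) P.nil))) (P.cons (P.cons (P.lf 0 109833 0) (P.cons (P.lf 87141 0 0) P.nil)) (P.cons (P.cons (P.lf 13713 0 0) P.nil) P.nil)))))) 139461)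
 (EL.cons 11 (TM.mk (P.cons (P.cons (P.lf 919413633 0 0) (P.cons (P.lf 0 411266793 0) (P.cons (P.lf 0 191305869 0) (P.cons (P.lf 45306039 0 0) (P.cons (P.lf 6882522 0 0) (P.cons (P.lf 0 1206468 0) P.nil)))))) (P.cons (P.cons (P.lf 0 47901690 0) (P.cons (P.lf 0 39942012 0) (P.cons (P.lf 0 3637389 0) (P.cons (P.lf 2949471 0 0) (P.cons (P.lf 332433 0 0) P.nil))))) (P.cons (P.cons (P.lf 0 16298703 0) (P.cons (P.lf 1697382 0 0) (P.cons (P.lf 2151399 0 0) (P.cons (P.lf 0 319197 0) P.nil)))) (P.cons (P.cons (P.lf 537453 0 0) (P.cons (P.lf 367674 0 0) (P.cons (P.lf 22968 0 0) P.nil))) (P.cons (P.cons (P.lf 108846 0 0) (P.cons (P.lf 1485 0 0) P.nil)) (P.cons (P.cons (P.lf 0 1875 0) P.nil) P.nil)))))) 299994)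
 EL.nil)))
noncomputable def S227_241_364_512_23 : EL := (EL.cons 4 (TM.mk (P.cons (P.cons (P.lf 0 239909262 0) (P.cons (P.lf 0 67357611 0) (P.cons (P.lf 0 4503372 0) (P.lf 1501122 0 0)))) (P.cons (P.cons (P.lf 0 5734494 0) (P.cons (P.lf 39705360 0 0) (P.cons (P.lf 2654607 0 0) (P.lf 0 884868 0)))) (P.cons (P.cons (P.lf 32289210 0 0) (P.cons (P.lf 0 4382970 0) (P.cons (P.lf 0 293034 0) (P.lf 97677 0 0)))) (P.cons (P.cons (P.lf 0 1149792 0) (P.cons (P.lf 0 568092 0) (P.cons (P.lf 0 37980 0) P.nil))) (P.cons (P.cons (P.lf 0 286980 0) (P.cons (P.lf 27222 0 0) P.nil)) (P.cons (P.cons (P.lf 5130 0 0) P.nil) P.nil)))))) 23439)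
 (EL.cons 8 (TM.mk (P.cons (P.cons (P.lf 27745737 0 0) (P.cons (P.lf 7789974 0 0) (P.cons (P.lf 520818 0 0) (P.lf 0 173607 0)))) (P.cons (P.cons (P.lf 0 8329503 0) (P.cons (P.lf 0 7116780 0) (P.cons (P.lf 0 475809 0) (P.lf 158601 0 0)))) (P.cons (P.cons (P.lf 0 3869733 0) (P.cons (P.lf 2017518 0 0) (P.cons (P.lf 134883 0 0) (P.lf 0 44961 0)))) (P.cons (P.cons (P.lf 1336239 0 0) (P.cons (P.lf 0 114258 0) (P.cons (P.lf 0 7638 0) P.nil))) (P.cons (P.cons (P.lf 0 20694 0) (P.cons (P.lf 0 21468 0) P.nil)) (P.cons (P.cons (P.lf 0 9768 0) P.nil) P.nil)))))) 11502)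
 (EL.cons 11 (TM.mk (P.cons (P.cons (P.lf 0 490387380 0) (P.cons (P.lf 0 75924279 0) (P.cons (P.lf 36577923 0 0) (P.cons (P.lf 1384215 0 0) (P.lf 0 346053 0))))) (P.cons (P.cons (P.lf 141653484 0 0) (P.cons (P.lf 21931515 0 0) (P.cons (P.lf 0 10565913 0) (P.cons (P.lf 0 399843 0) (P.lf 99960 0 0))))) (P.cons (P.cons (P.lf 6644148 0 0) (P.cons (P.lf 1028679 0 0) (P.cons (P.lf 0 495585 0) (P.cons (P.lf 0 18753 0) P.nil)))) (P.cons (P.cons (P.lf 0 591267 0) (P.cons (P.lf 0 91542 0) (P.cons (P.lf 44100 0 0) P.nil))) (P.cons (P.cons (P.lf 0 25719 0) (P.cons (P.lf 0 3981 0) P.nil)) (P.cons (P.cons (P.lf 1218 0 0) P.nil) P.nil)))))) 9939)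
 EL.nil)))
noncomputable def S227_241_364_512_24 : EL := (EL.cons 4 (TM.mk (P.cons (P.cons (P.lf 0 76602078 0) (P.cons (P.lf 24618105 0 0) (P.cons (P.lf 14596131 0 0) (P.cons (P.lf 1183005 0 0) (P.cons (P.lf 0 519327 0) (P.cons (P.lf 0 38589 0) P.nil)))))) (P.cons (P.cons (P.lf 3960174 0 0) (P.cons (P.lf 17032176 0 0) (P.cons (P.lf 0 6038541 0) (P.cons (P.lf 0 1339287 0) (P.cons (P.lf 287820 0 0) P.nil))))) (P.cons (P.cons (P.lf 11404752 0 0) (P.cons (P.lf 0 8488545 0) (P.cons (P.lf 0 58551 0) (P.cons (P.lf 257232 0 0) P.nil)))) (P.cons (P.cons (P.lf 0 1177404 0) (P.cons (P.lf 0 260985 0) (P.cons (P.lf 157107 0 0) P.nil))) (P.cons (P.cons (P.lf 0 197451 0) (P.cons (P.lf 142056 0 0) P.nil)) (P.cons (P.cons (P.lf 20406 0 0) P.nil) P.nil)))))) 224925)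
 (EL.cons 8 (TM.mk (P.cons (P.cons (P.lf 8859102 0 0) (P.cons (P.lf 0 2847105 0) (P.cons (P.lf 0 1688055 0) (P.cons (P.lf 0 136815 0) (P.cons (P.lf 60060 0 0) (P.cons (P.lf 4461 0 0) P.nil)))))) (P.cons (P.cons (P.lf 0 3329331 0) (P.cons (P.lf 0 1047006 0) (P.cons (P.lf 1245480 0 0) (P.cons (P.lf 199233 0 0) (P.cons (P.lf 0 52752 0) P.nil))))) (P.cons (P.cons (P.lf 0 1145145 0) (P.cons (P.lf 1611981 0 0) (P.cons (P.lf 0 224412 0) (P.cons (P.lf 0 80340 0) P.nil)))) (P.cons (P.cons (P.lf 559488 0 0) (P.cons (P.lf 0 292722 0) (P.cons (P.lf 0 17817 0) P.nil))) (P.cons (P.cons (P.lf 0 24888 0) (P.cons (P.lf 0 22773 0) P.nil)) (P.cons (P.cons (P.lf 0 8949 0) P.nil) P.nil)))))) 65580)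
 (EL.cons 11 (TM.mk (P.cons (P.cons (P.lf 0 156578748 0) (P.cons (P.lf 70039899 0 0) (P.cons (P.lf 32579931 0 0) (P.cons (P.lf 0 7715745 0) (P.cons (P.lf 0 1172112 0) (P.cons (P.lf 205464 0 0) P.nil)))))) (P.cons (P.cons (P.lf 57066876 0 0) (P.cons (P.lf 0 15075489 0) (P.cons (P.lf 0 9557238 0) (P.cons (P.lf 1907793 0 0) (P.cons (P.lf 309507 0 0) P.nil))))) (P.cons (P.cons (P.lf 657234 0 0) (P.cons (P.lf 0 2606028 0) (P.cons (P.lf 0 649290 0) (P.cons (P.lf 232434 0 0) P.nil)))) (P.cons (P.cons (P.lf 0 1023732 0) (P.cons (P.lf 28149 0 0) (P.cons (P.lf 117735 0 0) P.nil))) (P.cons (P.cons (P.lf 4017 0 0) (P.cons (P.lf 22245 0 0) P.nil)) (P.cons (P.cons (P.lf 7188 0 0) P.nil) P.nil)))))) 184269)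
 EL.nil)))
noncomputable def S227_241_364_512_25 : EL := (EL.cons 4 (TM.mk (P.cons (P.cons (P.lf 40857228 0 0) (P.cons (P.lf 11471190 0 0) (P.cons (P.lf 766935 0 0) (P.lf 0 255645 0)))) (P.cons (P.cons (P.lf 0 11785599 0) (P.cons (P.lf 0 10345086 0) (P.cons (P.lf 0 691647 0) (P.lf 230547 0 0)))) (P.cons (P.cons (P.lf 0 5916117 0) (P.cons (P.lf 2827116 0 0) (P.cons (P.lf 189012 0 0) (P.lf 0 63003 0)))) (P.cons (P.cons (P.lf 1921953 0 0) (P.cons (P.lf 0 114717 0) (P.cons (P.lf 0 7668 0) P.nil))) (P.cons (P.cons (P.lf 3234 0 0) (P.cons (P.lf 0 38703 0) P.nil)) (P.cons (P.cons (P.lf 0 18183 0) P.nil) P.nil)))))) 19878)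
 (EL.cons 8 (TM.mk (P.cons (P.cons (P.lf 0 4725177 0) (P.cons (P.lf 0 1326654 0) (P.cons (P.lf 0 88695 0) (P.lf 29565 0 0)))) (P.cons (P.cons (P.lf 2894496 0 0) (P.cons (P.lf 1626402 0 0) (P.cons (P.lf 108735 0 0) (P.lf 0 36243 0)))) (P.cons (P.cons (P.lf 228897 0 0) (P.cons (P.lf 0 718530 0) (P.cons (P.lf 0 48039 0) (P.lf 16011 0 0)))) (P.cons (P.cons (P.lf 0 438603 0) (P.cons (P.lf 123093 0 0) (P.cons (P.lf 8229 0 0) P.nil))) (P.cons (P.cons (P.lf 73164 0 0) (P.cons (P.lf 0 1152 0) P.nil)) (P.cons (P.cons (P.lf 1374 0 0) P.nil) P.nil)))))) 7668)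
 (EL.cons 11 (TM.mk (P.cons (P.cons (P.lf 83514360 0 0) (P.cons (P.lf 12930120 0 0) (P.cons (P.lf 0 6229323 0) (P.cons (P.lf 0 235734 0) (P.lf 58932 0 0))))) (P.cons (P.cons (P.lf 0 50210613 0) (P.cons (P.lf 0 7773861 0) (P.cons (P.lf 3745200 0 0) (P.cons (P.lf 141729 0 0) (P.lf 0 35430 0))))) (P.cons (P.cons (P.lf 6174687 0 0) (P.cons (P.lf 955995 0 0) (P.cons (P.lf 0 460569 0) (P.cons (P.lf 0 17427 0) P.nil)))) (P.cons (P.cons (P.lf 543162 0 0) (P.cons (P.lf 84093 0 0) (P.cons (P.lf 0 40512 0) P.nil))) (P.cons (P.cons (P.lf 0 30213 0) (P.cons (P.lf 0 4677 0) P.nil)) (P.cons (P.cons (P.lf 0 2280 0) P.nil) P.nil)))))) 13104)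
 EL.nil)))
noncomputable def S227_241_364_512_26 : EL := (EL.cons 4 (TM.mk (P.cons (P.cons (P.lf 13045551 0 0) (P.cons (P.lf 0 4192530 0) (P.cons (P.lf 0 2485761 0) (P.cons (P.lf 0 201468 0) (P.cons (P.lf 88440 0 0) (P.cons (P.lf 6570 0 0) P.nil)))))) (P.cons (P.cons (P.lf 0 4749348 0) (P.cons (P.lf 0 1591044 0) (P.cons (P.lf 1804836 0 0) (P.cons (P.lf 291015 0 0) (P.cons (P.lf 0 76641 0) P.nil))))) (P.cons (P.cons (P.lf 0 1767396 0) (P.cons (P.lf 2363172 0 0) (P.cons (P.lf 0 304431 0) (P.cons (P.lf 0 114498 0) P.nil)))) (P.cons (P.cons (P.lf 812616 0 0) (P.cons (P.lf 0 400293 0) (P.cons (P.lf 0 33369 0) P.nil))) (P.cons (P.cons (P.lf 0 23805 0) (P.cons (P.lf 0 42852 0) P.nil)) (P.cons (P.cons (P.lf 0 15066 0) P.nil) P.nil)))))) 99225)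
 (EL.cons 8 (TM.mk (P.cons (P.cons (P.lf 0 1508730 0) (P.cons (P.lf 484869 0 0) (P.cons (P.lf 287478 0 0) (P.cons (P.lf 23298 0 0) (P.cons (P.lf 0 10227 0) (P.cons (P.lf 0 759 0) P.nil)))))) (P.cons (P.cons (P.lf 1038261 0 0) (P.cons (P.lf 26853 0 0) (P.cons (P.lf 0 301905 0) (P.cons (P.lf 0 41208 0) (P.cons (P.lf 12177 0 0) P.nil))))) (P.cons (P.cons (P.lf 22053 0 0) (P.cons (P.lf 0 331551 0) (P.cons (P.lf 103683 0 0) (P.cons (P.lf 24216 0 0) P.nil)))) (P.cons (P.cons (P.lf 0 158166 0) (P.cons (P.lf 135243 0 0) (P.cons (P.lf 0 8241 0) P.nil))) (P.cons (P.cons (P.lf 33612 0 0) (P.cons (P.lf 0 10887 0) P.nil)) (P.cons (P.cons (P.lf 516 0 0) P.nil) P.nil)))))) 27003)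
 (EL.cons 11 (TM.mk (P.cons (P.cons (P.lf 26665803 0 0) (P.cons (P.lf 0 11927991 0) (P.cons (P.lf 0 5548452 0) (P.cons (P.lf 1314012 0 0) (P.cons (P.lf 199614 0 0) (P.cons (P.lf 0 34989 0) P.nil)))))) (P.cons (P.cons (P.lf 0 18048006 0) (P.cons (P.lf 6293235 0 0) (P.cons (P.lf 3360744 0 0) (P.cons (P.lf 0 735348 0) (P.cons (P.lf 0 115059 0) P.nil))))) (P.cons (P.cons (P.lf 2850618 0 0) (P.cons (P.lf 0 325404 0) (P.cons (P.lf 0 382602 0) (P.cons (P.lf 58296 0 0) P.nil)))) (P.cons (P.cons (P.lf 243264 0 0) (P.cons (P.lf 0 153729 0) (P.cons (P.lf 0 60573 0) P.nil))) (P.cons (P.cons (P.lf 0 57378 0) (P.cons (P.lf 0 2856 0) P.nil)) (P.cons (P.cons (P.lf 0 1563 0) P.nil) P.nil)))))) 88407)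
 EL.nil)))
noncomputable def S227_241_364_512_27 : EL := (EL.cons 13 (TM.mk (P.lf 0 4294967296 0) 0)
 EL.nil)
noncomputable def S227_241_364_512_28 : EL := (EL.cons 13 (TM.mk (P.cons (P.cons (P.lf 0 1371366062 0) (P.cons (P.lf 825753448 0 0) (P.cons (P.lf 55207952 0 0) (P.lf 0 18402648 0)))) (P.cons (P.cons (P.lf 103676370 0 0) (P.cons (P.lf 29108472 0 0) (P.cons (P.lf 1946124 0 0) (P.lf 0 648704 0)))) (P.cons (P.cons (P.lf 17123926 0 0) (P.cons (P.lf 0 4119420 0) (P.cons (P.lf 0 275412 0) (P.lf 91804 0 0)))) (P.cons (P.cons (P.lf 0 961587 0) (P.cons (P.lf 0 156428 0) (P.cons (P.lf 0 10456 0) P.nil))) (P.cons (P.cons (P.lf 0 63635 0) (P.cons (P.lf 9992 0 0) P.nil)) (P.cons (P.cons (P.lf 2051 0 0) P.nil) P.nil)))))) 5650)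
 EL.nil)
noncomputable def S227_241_364_512_29 : EL := (EL.cons 13 (TM.mk (P.cons (P.cons (P.lf 0 437871756 0) (P.cons (P.lf 527319616 0 0) (P.cons (P.lf 0 123504580 0) (P.cons (P.lf 0 32980425 0) (P.cons (P.lf 6366563 0 0) (P.cons (P.lf 473099 0 0) P.nil)))))) (P.cons (P.cons (P.lf 66206909 0 0) (P.cons (P.lf 0 21277344 0) (P.cons (P.lf 0 12615384 0) (P.cons (P.lf 0 1022465 0) (P.cons (P.lf 448851 0 0) P.nil))))) (P.cons (P.cons (P.lf 8432555 0 0) (P.cons (P.lf 0 10620446 0) (P.cons (P.lf 676670 0 0) (P.cons (P.lf 422110 0 0) P.nil)))) (P.cons (P.cons (P.lf 0 1440771 0) (P.cons (P.lf 236625 0 0) (P.cons (P.lf 131808 0 0) P.nil))) (P.cons (P.cons (P.lf 0 62485 0) (P.cons (P.lf 84283 0 0) P.nil)) (P.cons (P.cons (P.lf 12049 0 0) P.nil) P.nil)))))) 281166)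
 EL.nil)
noncomputable def S227_241_364_512_30 : EL := (EL.cons 13 (TM.mk (P.cons (P.lf 731445116 0 0) (P.cons (P.lf 0 228474868 0) (P.cons (P.lf 0 2007284 0) (P.cons (P.lf 199892 0 0) (P.cons (P.lf 3020 0 0) (P.cons (P.lf 0 164 0) P.nil)))))) 40)
 EL.nil)
noncomputable def S227_241_364_512_31 : EL := (EL.cons 13 (TM.mk (P.cons (P.cons (P.lf 233547531 0 0) (P.cons (P.lf 0 140628154 0) (P.cons (P.lf 0 9402070 0) (P.lf 3134023 0 0)))) (P.cons (P.cons (P.lf 0 90607501 0) (P.cons (P.lf 38969484 0 0) (P.cons (P.lf 2605409 0 0) (P.lf 0 868470 0)))) (P.cons (P.cons (P.lf 1957992 0 0) (P.cons (P.lf 2635923 0 0) (P.cons (P.lf 176231 0 0) (P.lf 0 58743 0)))) (P.cons (P.cons (P.lf 1186963 0 0) (P.cons (P.lf 0 217323 0) (P.cons (P.lf 0 14530 0) P.nil))) (P.cons (P.cons (P.lf 0 36173 0) (P.cons (P.lf 0 13883 0) P.nil)) (P.cons (P.cons (P.lf 0 5106 0) P.nil) P.nil)))))) 9348)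
 EL.nil)
noncomputable def S227_241_364_512_32 : EL := (EL.cons 13 (TM.mk (P.cons (P.cons (P.lf 74570802 0 0) (P.cons (P.lf 0 89804026 0) (P.cons (P.lf 21033180 0 0) (P.cons (P.lf 5616659 0 0) (P.cons (P.lf 0 1084243 0) (P.cons (P.lf 0 80570 0) P.nil)))))) (P.cons (P.cons (P.lf 0 34568228 0) (P.cons (P.lf 31674860 0 0) (P.cons (P.lf 0 4421507 0) (P.cons (P.lf 0 1580296 0) (P.cons (P.lf 262234 0 0) P.nil))))) (P.cons (P.cons (P.lf 1881208 0 0) (P.cons (P.lf 923270 0 0) (P.cons (P.lf 0 844046 0) (P.cons (P.lf 0 141691 0) P.nil)))) (P.cons (P.cons (P.lf 745266 0 0) (P.cons (P.lf 0 639748 0) (P.cons (P.lf 13400 0 0) P.nil))) (P.cons (P.cons (P.lf 0 64834 0) (P.cons (P.lf 0 6110 0) P.nil)) (P.cons (P.cons (P.lf 0 6505 0) P.nil) P.nil)))))) 154629)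
 EL.nil)
noncomputable def S227_241_364_512_33 : EL := (EL.cons 14 (TM.mk (P.lf 8589934592 0 0) 0)
 EL.nil)
noncomputable def S227_241_364_512_34 : EL := (EL.cons 14 (TM.mk (P.cons (P.cons (P.lf 2742732124 0 0) (P.cons (P.lf 0 1651506896 0) (P.cons (P.lf 0 110415904 0) (P.lf 36805296 0 0)))) (P.cons (P.cons (P.lf 0 207352740 0) (P.cons (P.lf 0 58216944 0) (P.cons (P.lf 0 3892248 0) (P.lf 1297408 0 0)))) (P.cons (P.cons (P.lf 0 34247852 0) (P.cons (P.lf 8238840 0 0) (P.cons (P.lf 550824 0 0) (P.lf 0 183608 0)))) (P.cons (P.cons (P.lf 1923174 0 0) (P.cons (P.lf 312856 0 0) (P.cons (P.lf 20912 0 0) P.nil))) (P.cons (P.cons (P.lf 127270 0 0) (P.cons (P.lf 0 19984 0) P.nil)) (P.cons (P.cons (P.lf 0 4102 0) P.nil) P.nil)))))) 11300)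
 EL.nil)
noncomputable def S227_241_364_512_35 : EL := (EL.cons 14 (TM.mk (P.cons (P.cons (P.lf 875743512 0 0) (P.cons (P.lf 0 1054639232 0) (P.cons (P.lf 247009160 0 0) (P.cons (P.lf 65960850 0 0) (P.cons (P.lf 0 12733126 0) (P.cons (P.lf 0 946198 0) P.nil)))))) (P.cons (P.cons (P.lf 0 132413818 0) (P.cons (P.lf 42554688 0 0) (P.cons (P.lf 25230768 0 0) (P.cons (P.lf 2044930 0 0) (P.cons (P.lf 0 897702 0) P.nil))))) (P.cons (P.cons (P.lf 0 16865110 0) (P.cons (P.lf 21240892 0 0) (P.cons (P.lf 0 1353340 0) (P.cons (P.lf 0 844220 0) P.nil)))) (P.cons (P.cons (P.lf 2881542 0 0) (P.cons (P.lf 0 473250 0) (P.cons (P.lf 0 263616 0) P.nil))) (P.cons (P.cons (P.lf 124970 0 0) (P.cons (P.lf 0 168566 0) P.nil)) (P.cons (P.cons (P.lf 0 24098 0) P.nil) P.nil)))))) 562332)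
 EL.nil)
noncomputable def S227_241_364_512_36 : EL := (EL.cons 14 (TM.mk (P.cons (P.lf 0 1462890232 0) (P.cons (P.lf 456949736 0 0) (P.cons (P.lf 4014568 0 0) (P.cons (P.lf 0 399784 0) (P.cons (P.lf 0 6040 0) (P.cons (P.lf 328 0 0) P.nil)))))) 80)
 EL.nil)
noncomputable def S227_241_364_512_37 : EL := (EL.cons 14 (TM.mk (P.cons (P.cons (P.lf 0 467095062 0) (P.cons (P.lf 281256308 0 0) (P.cons (P.lf 18804140 0 0) (P.lf 0 6268046 0)))) (P.cons (P.cons (P.lf 181215002 0 0) (P.cons (P.lf 0 77938968 0) (P.cons (P.lf 0 5210818 0) (P.lf 1736940 0 0)))) (P.cons (P.cons (P.lf 0 3915984 0) (P.cons (P.lf 0 5271846 0) (P.cons (P.lf 0 352462 0) (P.lf 117486 0 0)))) (P.cons (P.cons (P.lf 0 2373926 0) (P.cons (P.lf 434646 0 0) (P.cons (P.lf 29060 0 0) P.nil))) (P.cons (P.cons (P.lf 72346 0 0) (P.cons (P.lf 27766 0 0) P.nil)) (P.cons (P.cons (P.lf 10212 0 0) P.nil) P.nil))))))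 18696)
 EL.nil)
noncomputable def S227_241_364_512_38 : EL := (EL.cons 14 (TM.mk (P.cons (P.cons (P.lf 0 149141604 0) (P.cons (P.lf 179608052 0 0) (P.cons (P.lf 0 42066360 0) (P.cons (P.lf 0 11233318 0) (P.cons (P.lf 2168486 0 0) (P.cons (P.lf 161140 0 0) P.nil)))))) (P.cons (P.cons (P.lf 69136456 0 0) (P.cons (P.lf 0 63349720 0) (P.cons (P.lf 8843014 0 0) (P.cons (P.lf 3160592 0 0) (P.cons (P.lf 0 524468 0) P.nil))))) (P.cons (P.cons (P.lf 0 3762416 0) (P.cons (P.lf 0 1846540 0) (P.cons (P.lf 1688092 0 0) (P.cons (P.lf 283382 0 0) P.nil)))) (P.cons (P.cons (P.lf 0 1490532 0) (P.cons (P.lf 1279496 0 0) (P.cons (P.lf 0 26800 0) P.nil))) (P.cons (P.cons (P.lf 129668 0 0) (P.cons (P.lf 12220 0 0) P.nil)) (P.cons (P.cons (P.lf 13010 0 0) P.nil) P.nil)))))) 309258)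
 EL.nil)
noncomputable def S227_241_364_512_39 : EL := (EL.cons 14 (TM.mk (P.cons (P.lf 249134356 0 0) (P.cons (P.lf 0 155639672 0) (P.cons (P.lf 22940490 0 0) (P.cons (P.lf 563286 0 0) (P.cons (P.lf 0 38600 0) (P.cons (P.lf 0 1128 0) P.nil)))))) 108)
 EL.nil)
noncomputable def S227_241_364_512_40 : EL := (EL.cons 14 (TM.mk (P.cons (P.cons (P.lf 79547614 0 0) (P.cons (P.lf 0 47898746 0) (P.cons (P.lf 0 3202398 0) (P.lf 1067466 0 0)))) (P.cons (P.cons (P.lf 0 55708994 0) (P.cons (P.lf 28234924 0 0) (P.cons (P.lf 1887720 0 0) (P.lf 0 629240 0)))) (P.cons (P.cons (P.lf 10088506 0 0) (P.cons (P.lf 0 3116778 0) (P.cons (P.lf 0 208380 0) (P.lf 69460 0 0)))) (P.cons (P.cons (P.lf 302402 0 0) (P.cons (P.lf 0 403976 0) (P.cons (P.lf 0 27008 0) P.nil))) (P.cons (P.cons (P.lf 0 148538 0) (P.cons (P.lf 19358 0 0) P.nil)) (P.cons (P.cons (P.lf 1036 0 0) P.nil) P.nil))))))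 16454)
 EL.nil)
noncomputable def S227_241_364_512_41 : EL := (EL.cons 14 (TM.mk (P.cons (P.cons (P.lf 25399238 0 0) (P.cons (P.lf 0 30587760 0) (P.cons (P.lf 7164020 0 0) (P.cons (P.lf 1913066 0 0) (P.cons (P.lf 0 369298 0) (P.cons (P.lf 0 27442 0) P.nil)))))) (P.cons (P.cons (P.lf 0 19707864 0) (P.cons (P.lf 20343058 0 0) (P.cons (P.lf 0 3743750 0) (P.cons (P.lf 0 1135824 0) (P.cons (P.lf 204672 0 0) P.nil))))) (P.cons (P.cons (P.lf 4248826 0 0) (P.cons (P.lf 0 2971536 0) (P.cons (P.lf 163264 0 0) (P.cons (P.lf 114618 0 0) P.nil)))) (P.cons (P.cons (P.lf 92948 0 0) (P.cons (P.lf 0 354096 0) (P.cons (P.lf 100454 0 0) P.nil))) (P.cons (P.cons (P.lf 0 106244 0) (P.cons (P.lf 67940 0 0) P.nil)) (P.cons (P.cons (P.lf 4106 0 0) P.nil) P.nil)))))) 149226)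
 EL.nil)
noncomputable def S227_241_364_512_42 : EL := (EL.cons 14 (TM.mk (P.cons (P.lf 0 42428286 0) (P.cons (P.lf 39758816 0 0) (P.cons (P.lf 0 12069796 0) (P.cons (P.lf 1040076 0 0) (P.cons (P.lf 54328 0 0) (P.cons (P.lf 0 2546 0) P.nil)))))) 172)
 EL.nil)
noncomputable def S227_241_364_512_43 : EL := (EL.cons 14 (TM.mk (P.cons (P.cons (P.lf 0 13547182 0) (P.cons (P.lf 8157292 0 0) (P.cons (P.lf 545376 0 0) (P.lf 0 181792 0)))) (P.cons (P.cons (P.lf 13719010 0 0) (P.cons (P.lf 0 7356506 0) (P.cons (P.lf 0 491838 0) (P.lf 163946 0 0)))) (P.cons (P.cons (P.lf 0 4644416 0) (P.cons (P.lf 2010394 0 0) (P.cons (P.lf 134410 0 0) (P.lf 0 44802 0)))) (P.cons (P.cons (P.lf 455428 0 0) (P.cons (P.lf 0 81576 0) (P.cons (P.lf 0 5452 0) P.nil))) (P.cons (P.cons (P.lf 48634 0 0) (P.cons (P.lf 0 27522 0) P.nil)) (P.cons (P.cons (P.lf 0 8364 0) P.nil) P.nil)))))) 13564)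
 EL.nil)
noncomputable def S227_241_364_512_44 : EL := (EL.cons 14 (TM.mk (P.cons (P.cons (P.lf 0 4325562 0) (P.cons (P.lf 5209182 0 0) (P.cons (P.lf 0 1220052 0) (P.cons (P.lf 0 325800 0) (P.cons (P.lf 62892 0 0) (P.cons (P.lf 4672 0 0) P.nil)))))) (P.cons (P.cons (P.lf 4707440 0 0) (P.cons (P.lf 0 5091624 0) (P.cons (P.lf 1018668 0 0) (P.cons (P.lf 295200 0 0) (P.cons (P.lf 0 54500 0) P.nil))))) (P.cons (P.cons (P.lf 0 1760094 0) (P.cons (P.lf 1573932 0 0) (P.cons (P.lf 0 223608 0) (P.cons (P.lf 0 79046 0) P.nil)))) (P.cons (P.cons (P.lf 199798 0 0) (P.cons (P.lf 0 86838 0) (P.cons (P.lf 0 10504 0) P.nil))) (P.cons (P.cons (P.lf 25922 0 0) (P.cons (P.lf 0 32720 0) P.nil)) (P.cons (P.cons (P.lf 0 6490 0) P.nil) P.nil)))))) 68458)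
 EL.nil)
noncomputable def S227_241_364_512_45 : EL := (EL.cons 14 (TM.mk (P.cons (P.cons (P.lf 279621436 0 0) (P.cons (P.lf 0 505113200 0) (P.cons (P.lf 270377834 0 0) (P.cons (P.lf 0 9120376 0) (P.cons (P.lf 0 24441210 0) (P.cons (P.lf 2356454 0 0) P.nil)))))) (P.cons (P.cons (P.lf 0 63418812 0) (P.cons (P.lf 58568276 0 0) (P.cons (P.lf 2364826 0 0) (P.cons (P.lf 0 7968454 0) (P.cons (P.lf 0 1232666 0) P.nil))))) (P.cons (P.cons (P.lf 0 5680188 0) (P.cons (P.lf 14939584 0 0) (P.cons (P.lf 0 7076770 0) (P.cons (P.lf 0 726716 0) P.nil)))) (P.cons (P.cons (P.lf 2051170 0 0) (P.cons (P.lf 0 1604438 0) (P.cons (P.lf 0 183116 0) P.nil))) (P.cons (P.cons (P.lf 20914 0 0) (P.cons (P.lf 0 199774 0) P.nil)) (P.cons (P.cons (P.lf 0 28354 0) P.nil) P.nil)))))) 2432610)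
 EL.nil)
noncomputable def S227_241_364_512_46 : EL := (EL.cons 15 (TM.mk (P.lf 4294967296 0 0) 0)
 EL.nil)
noncomputable def S227_241_364_512_47 : EL := (EL.cons 15 (TM.mk (P.cons (P.cons (P.lf 1371366062 0 0) (P.cons (P.lf 0 825753448 0) (P.cons (P.lf 0 55207952 0) (P.lf 18402648 0 0)))) (P.cons (P.cons (P.lf 0 103676370 0) (P.cons (P.lf 0 29108472 0) (P.cons (P.lf 0 1946124 0) (P.lf 648704 0 0)))) (P.cons (P.cons (P.lf 0 17123926 0) (P.cons (P.lf 4119420 0 0) (P.cons (P.lf 275412 0 0) (P.lf 0 91804 0)))) (P.cons (P.cons (P.lf 961587 0 0) (P.cons (P.lf 156428 0 0) (P.cons (P.lf 10456 0 0) P.nil))) (P.cons (P.cons (P.lf 63635 0 0) (P.cons (P.lf 0 9992 0) P.nil)) (P.cons (P.cons (P.lf 0 2051 0) P.nil) P.nil)))))) 5650)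
 EL.nil)
noncomputable def S227_241_364_512_48 : EL := (EL.cons 15 (TM.mk (P.cons (P.cons (P.lf 437871756 0 0) (P.cons (P.lf 0 527319616 0) (P.cons (P.lf 123504580 0 0) (P.cons (P.lf 32980425 0 0) (P.cons (P.lf 0 6366563 0) (P.cons (P.lf 0 473099 0) P.nil)))))) (P.cons (P.cons (P.lf 0 66206909 0) (P.cons (P.lf 21277344 0 0) (P.cons (P.lf 12615384 0 0) (P.cons (P.lf 1022465 0 0) (P.cons (P.lf 0 448851 0) P.nil))))) (P.cons (P.cons (P.lf 0 8432555 0) (P.cons (P.lf 10620446 0 0) (P.cons (P.lf 0 676670 0) (P.cons (P.lf 0 422110 0) P.nil)))) (P.cons (P.cons (P.lf 1440771 0 0) (P.cons (P.lf 0 236625 0) (P.cons (P.lf 0 131808 0) P.nil))) (P.cons (P.cons (P.lf 62485 0 0) (P.cons (P.lf 0 84283 0) P.nil)) (P.cons (P.cons (P.lf 0 12049 0) P.nil) P.nil)))))) 281166)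
 EL.nil)
noncomputable def S227_241_364_512 : SL := (SL.cons S227_241_364_512_0 (SL.cons S227_241_364_512_1 (SL.cons S227_241_364_512_2 (SL.cons S227_241_364_512_3 (SL.cons S227_241_364_512_4 (SL.cons S227_241_364_512_5 (SL.cons S227_241_364_512_6 (SL.cons S227_241_364_512_7 (SL.cons S227_241_364_512_8 (SL.cons S227_241_364_512_9 (SL.cons S227_241_364_512_10 (SL.cons S227_241_364_512_11 (SL.cons S227_241_364_512_12 (SL.cons S227_241_364_512_13 (SL.cons S227_241_364_512_14 (SL.cons S227_241_364_512_15 (SL.cons S227_241_364_512_16 (SL.cons S227_241_364_512_17 (SL.cons S227_241_364_512_18 (SL.cons S227_241_364_512_19 (SL.cons S227_241_364_512_20 (SL.cons S227_241_364_512_21 (SL.cons S227_241_364_512_22 (SL.cons S227_241_364_512_23 (SL.cons S227_241_364_512_24 (SL.cons S227_241_364_512_25 (SL.cons S227_241_364_512_26 (SL.cons S227_241_364_512_27 (SL.cons S227_241_364_512_28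 (SL.cons S227_241_364_512_29 (SL.cons S227_241_364_512_30 (SL.cons S227_241_364_512_31 (SL.cons S227_241_364_512_32 (SL.cons S227_241_364_512_33 (SL.cons S227_241_364_512_34 (SL.cons S227_241_364_512_35 (SL.cons S227_241_364_512_36 (SL.cons S227_241_364_512_37 (SL.cons S227_241_364_512_38 (SL.cons S227_241_364_512_39 (SL.cons S227_241_364_512_40 (SL.cons S227_241_364_512_41 (SL.cons S227_241_364_512_42 (SL.cons S227_241_364_512_43 (SL.cons S227_241_364_512_44 (SL.cons S227_241_364_512_45 (SL.cons S227_241_364_512_46 (SL.cons S227_241_364_512_47 (SL.cons S227_241_364_512_48 SL.nil)))))))))))))))))))))))))))))))))))))))))))))))))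
noncomputable def S227_241_438_512_0 : EL := (EL.cons 0 (TM.mk (P.cons (P.lf 8236751121 0 0) (P.cons (P.lf 136792680 0 0) (P.cons (P.lf 0 20162540 0) (P.cons (P.lf 0 495075 0) (P.cons (P.lf 33925 0 0) (P.cons (P.lf 991 0 0) P.nil)))))) 101)
 (EL.cons 1 (TM.mk (P.cons (P.lf 0 673184881 0) (P.cons (P.lf 202366545 0 0) (P.cons (P.lf 5530590 0 0) (P.cons (P.lf 0 526580 0) (P.cons (P.lf 0 13798 0) (P.cons (P.lf 714 0 0) P.nil)))))) 98)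
 (EL.cons 5 (TM.mk (P.cons (P.lf 4372821786 0 0) (P.cons (P.lf 0 48637396 0) (P.cons (P.lf 7168902 0 0) (P.cons (P.lf 176026 0 0) (P.cons (P.lf 0 12058 0) (P.cons (P.lf 0 354 0) P.nil)))))) 135)
 (EL.cons 9 (TM.mk (P.lf 6442450944 0 0) 2)
 EL.nil))))
noncomputable def S227_241_438_512_1 : EL := (EL.cons 0 (TM.mk (P.cons (P.cons (P.lf 2330839500 0 0) (P.cons (P.lf 0 765191117 0) (P.cons (P.lf 0 12179028 0) (P.lf 4059675 0 0)))) (P.cons (P.cons (P.lf 0 224863869 0) (P.cons (P.lf 0 82210832 0) (P.cons (P.lf 0 1308486 0) (P.lf 436159 0 0)))) (P.cons (P.cons (P.lf 0 93322487 0) (P.cons (P.lf 10011821 0 0) (P.cons (P.lf 159339 0 0) (P.lf 0 53109 0)))) (P.cons (P.cons (P.lf 4671373 0 0) (P.cons (P.lf 907423 0 0) (P.cons (P.lf 14433 0 0) P.nil))) (P.cons (P.cons (P.lf 748822 0 0) (P.cons (P.lf 0 46054 0) P.nil)) (P.cons (P.cons (P.lf 0 18967 0) P.nil) P.nil)))))) 16387)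
 (EL.cons 1 (TM.mk (P.cons (P.cons (P.lf 613055439 0 0) (P.cons (P.lf 166061461 0 0) (P.cons (P.lf 2643081 0 0) (P.lf 0 881026 0)))) (P.cons (P.cons (P.lf 288618791 0 0) (P.cons (P.lf 0 41580336 0) (P.cons (P.lf 0 661803 0) (P.lf 220599 0 0)))) (P.cons (P.cons (P.lf 0 18788304 0) (P.cons (P.lf 0 5036828 0) (P.cons (P.lf 0 80161 0) (P.lf 26715 0 0)))) (P.cons (P.cons (P.lf 0 4835858 0) (P.cons (P.lf 362534 0 0) (P.cons (P.lf 5764 0 0) P.nil))) (P.cons (P.cons (P.lf 159867 0 0) (P.cons (P.lf 37421 0 0) P.nil)) (P.cons (P.cons (P.lf 28242 0 0) P.nil) P.nil)))))) 9441)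
 (EL.cons 5 (TM.mk (P.cons (P.cons (P.lf 781136137 0 0) (P.cons (P.lf 0 465017552 0) (P.cons (P.lf 0 7401370 0) (P.lf 2467122 0 0)))) (P.cons (P.cons (P.lf 0 121729691 0) (P.cons (P.lf 3247656 0 0) (P.cons (P.lf 51688 0 0) (P.lf 0 17224 0)))) (P.cons (P.cons (P.lf 7669695 0 0) (P.cons (P.lf 117336 0 0) (P.cons (P.lf 1872 0 0) (P.lf 0 630 0)))) (P.cons (P.cons (P.lf 110442 0 0) (P.cons (P.lf 0 183002 0) (P.cons (P.lf 0 2912 0) P.nil))) (P.cons (P.cons (P.lf 0 166791 0) (P.cons (P.lf 7446 0 0) P.nil)) (P.cons (P.cons (P.lf 2863 0 0) P.nil) P.nil)))))) 9262)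
 (EL.cons 9 (TM.mk (P.cons (P.cons (P.lf 1420481523 0 0) (P.cons (P.lf 0 650369556 0) (P.cons (P.lf 0 10351488 0) (P.lf 3450492 0 0)))) (P.cons (P.cons (P.lf 0 177954075 0) (P.cons (P.lf 0 22926048 0) (P.cons (P.lf 0 364896 0) (P.lf 121632 0 0)))) (P.cons (P.cons (P.lf 0 22510251 0) (P.cons (P.lf 3244488 0 0) (P.cons (P.lf 51636 0 0) (P.lf 0 17208 0)))) (P.cons (P.cons (P.lf 1562968 0 0) (P.cons (P.lf 123204 0 0) (P.cons (P.lf 1956 0 0) P.nil))) (P.cons (P.cons (P.lf 87742 0 0) (P.cons (P.lf 0 7866 0) P.nil)) (P.cons (P.cons (P.lf 0 3412 0) P.nil) P.nil)))))) 1948)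
 (EL.cons 2 (TM.mk (P.cons (P.cons (P.lf 486612787 0 0) (P.cons (P.lf 18038070 0 0) (P.cons (P.lf 0 8937928 0) (P.cons (P.lf 0 81104 0) (P.lf 20275 0 0))))) (P.cons (P.cons (P.lf 0 140563155 0) (P.cons (P.lf 0 5210482 0) (P.cons (P.lf 2581813 0 0) (P.cons (P.lf 23428 0 0) (P.lf 0 5855 0))))) (P.cons (P.cons (P.lf 0 6593006 0) (P.cons (P.lf 0 244392 0) (P.cons (P.lf 121097 0 0) (P.cons (P.lf 1096 0 0) P.nil)))) (P.cons (P.cons (P.lf 586715 0 0) (P.cons (P.lf 21746 0 0) (P.cons (P.lf 0 10774 0) P.nil))) (P.cons (P.cons (P.lf 25520 0 0) (P.cons (P.lf 945 0 0) P.nil)) (P.cons (P.cons (P.lf 0 1209 0) P.nil) P.nil)))))) 1227)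
 (EL.cons 6 (TM.mk (P.cons (P.cons (P.lf 1496034807 0 0) (P.cons (P.lf 55455969 0 0) (P.cons (P.lf 0 27478629 0) (P.cons (P.lf 0 249351 0) (P.lf 62337 0 0))))) (P.cons (P.cons (P.lf 52736430 0 0) (P.cons (P.lf 1954866 0 0) (P.cons (P.lf 0 968643 0) (P.cons (P.lf 0 8787 0) (P.lf 2196 0 0))))) (P.cons (P.cons (P.lf 0 7463244 0) (P.cons (P.lf 0 276651 0) (P.cons (P.lf 137079 0 0) (P.cons (P.lf 1242 0 0) P.nil)))) (P.cons (P.cons (P.lf 0 283407 0) (P.cons (P.lf 0 10503 0) (P.cons (P.lf 5205 0 0) P.nil))) (P.cons (P.cons (P.lf 18108 0 0) (P.cons (P.lf 669 0 0) P.nil)) (P.cons (P.cons (P.lf 792 0 0) P.nil) P.nil)))))) 1155)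
 EL.nil))))))
noncomputable def S227_241_438_512_2 : EL := (EL.cons 0 (TM.mk (P.cons (P.cons (P.lf 627414707 0 0) (P.cons (P.lf 0 441356541 0) (P.cons (P.lf 63527310 0 0) (P.cons (P.lf 4587455 0 0) (P.cons (P.lf 0 730753 0) (P.cons (P.lf 0 11926 0) P.nil)))))) (P.cons (P.cons (P.lf 0 134245840 0) (P.cons (P.lf 7909957 0 0) (P.cons (P.lf 14858331 0 0) (P.cons (P.lf 426992 0 0) (P.cons (P.lf 0 152581 0) P.nil))))) (P.cons (P.cons (P.lf 0 35965582 0) (P.cons (P.lf 26388935 0 0) (P.cons (P.lf 0 946596 0) (P.cons (P.lf 0 183497 0) P.nil)))) (P.cons (P.cons (P.lf 7331573 0 0) (P.cons (P.lf 0 102712 0) (P.cons (P.lf 0 275132 0) P.nil))) (P.cons (P.cons (P.lf 574631 0 0) (P.cons (P.lf 0 382746 0) P.nil)) (P.cons (P.cons (P.lf 0 108792 0) P.nil) P.nil)))))) 157989)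
 (EL.cons 1 (TM.mk (P.cons (P.cons (P.lf 303069212 0 0) (P.cons (P.lf 0 80515650 0) (P.cons (P.lf 0 27949088 0) (P.cons (P.lf 0 421719 0) (P.cons (P.lf 276207 0 0) (P.cons (P.lf 4501 0 0) P.nil)))))) (P.cons (P.cons (P.lf 75368181 0 0) (P.cons (P.lf 0 78438954 0) (P.cons (P.lf 4386125 0 0) (P.cons (P.lf 595508 0 0) (P.cons (P.lf 0 58357 0) P.nil))))) (P.cons (P.cons (P.lf 0 26841310 0) (P.cons (P.lf 1464137 0 0) (P.cons (P.lf 1241747 0 0) (P.cons (P.lf 31010 0 0) P.nil)))) (P.cons (P.cons (P.lf 0 2361651 0) (P.cons (P.lf 1931121 0 0) (P.cons (P.lf 0 27744 0) P.nil))) (P.cons (P.cons (P.lf 566763 0 0) (P.cons (P.lf 6409 0 0) P.nil)) (P.cons (P.cons (P.lf 30453 0 0) P.nil) P.nil)))))) 83797)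
 (EL.cons 5 (TM.mk (P.cons (P.cons (P.lf 131877842 0 0) (P.cons (P.lf 0 168109888 0) (P.cons (P.lf 46648372 0 0) (P.cons (P.lf 2462008 0 0) (P.cons (P.lf 0 510865 0) (P.cons (P.lf 0 8320 0) P.nil)))))) (P.cons (P.cons (P.lf 0 41204664 0) (P.cons (P.lf 26449468 0 0) (P.cons (P.lf 428758 0 0) (P.cons (P.lf 0 140062 0) (P.cons (P.lf 0 95 0) P.nil))))) (P.cons (P.cons (P.lf 7108610 0 0) (P.cons (P.lf 0 1174993 0) (P.cons (P.lf 0 182757 0) (P.cons (P.lf 1003 0 0) P.nil)))) (P.cons (P.cons (P.lf 0 416273 0) (P.cons (P.lf 0 281118 0) (P.cons (P.lf 38402 0 0) P.nil))) (P.cons (P.cons (P.lf 0 169171 0) (P.cons (P.lf 66041 0 0) P.nil)) (P.cons (P.cons (P.lf 19092 0 0) P.nil) P.nil)))))) 80102)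
 (EL.cons 9 (TM.mk (P.cons (P.cons (P.lf 313198776 0 0) (P.cons (P.lf 0 286797042 0) (P.cons (P.lf 61090470 0 0) (P.cons (P.lf 3611560 0 0) (P.cons (P.lf 0 680025 0) (P.cons (P.lf 0 11088 0) P.nil)))))) (P.cons (P.cons (P.lf 0 78473386 0) (P.cons (P.lf 25819330 0 0) (P.cons (P.lf 5039748 0 0) (P.cons (P.lf 10362 0 0) (P.cons (P.lf 0 47941 0) P.nil))))) (P.cons (P.cons (P.lf 0 5011002 0) (P.cons (P.lf 7242118 0 0) (P.cons (P.lf 0 458215 0) (P.cons (P.lf 0 56674 0) P.nil)))) (P.cons (P.cons (P.lf 1932790 0 0) (P.cons (P.lf 0 280264 0) (P.cons (P.lf 0 52428 0) P.nil))) (P.cons (P.cons (P.lf 30999 0 0) (P.cons (P.lf 0 61786 0) P.nil)) (P.cons (P.cons (P.lf 0 17274 0) P.nil) P.nil)))))) 29126)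
 (EL.cons 2 (TM.mk (P.cons (P.cons (P.lf 214584316 0 0) (P.cons (P.lf 0 90293394 0) (P.cons (P.lf 0 9147054 0) (P.cons (P.lf 2232090 0 0) (P.cons (P.lf 73355 0 0) (P.cons (P.lf 0 13404 0) P.nil)))))) (P.cons (P.cons (P.lf 0 88867445 0) (P.cons (P.lf 21622370 0 0) (P.cons (P.lf 2952483 0 0) (P.cons (P.lf 0 560334 0) (P.cons (P.lf 0 20036 0) P.nil))))) (P.cons (P.cons (P.lf 1457443 0 0) (P.cons (P.lf 2875696 0 0) (P.cons (P.lf 122731 0 0) (P.cons (P.lf 0 65373 0) P.nil)))) (P.cons (P.cons (P.lf 1841326 0 0) (P.cons (P.lf 0 126241 0) (P.cons (P.lf 0 44122 0) P.nil))) (P.cons (P.cons (P.lf 0 30031 0) (P.cons (P.lf 0 23641 0) P.nil)) (P.cons (P.cons (P.lf 0 13584 0) P.nil) P.nil)))))) 23095)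
 (EL.cons 6 (TM.mk (P.cons (P.cons (P.lf 659714700 0 0) (P.cons (P.lf 0 277596618 0) (P.cons (P.lf 0 28121574 0) (P.cons (P.lf 6862314 0 0) (P.cons (P.lf 225540 0 0) (P.cons (P.lf 0 41214 0) P.nil)))))) (P.cons (P.cons (P.lf 0 59391792 0) (P.cons (P.lf 0 23496678 0) (P.cons (P.lf 0 37428 0) (P.cons (P.lf 501450 0 0) (P.cons (P.lf 11484 0 0) P.nil))))) (P.cons (P.cons (P.lf 0 16658928 0) (P.cons (P.lf 2020812 0 0) (P.cons (P.lf 445770 0 0) (P.cons (P.lf 0 58116 0) P.nil)))) (P.cons (P.cons (P.lf 644682 0 0) (P.cons (P.lf 244566 0 0) (P.cons (P.lf 0 144 0) P.nil))) (P.cons (P.cons (P.lf 142128 0 0) (P.cons (P.lf 0 5520 0) P.nil)) (P.cons (P.cons (P.lf 0 2436 0) P.nil) P.nil)))))) 19728)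
 EL.nil))))))
noncomputable def S227_241_438_512_3 : EL := (EL.cons 0 (TM.mk (P.cons (P.lf 218965742 0 0) (P.cons (P.lf 0 136792680 0) (P.cons (P.lf 20162540 0 0) (P.cons (P.lf 495075 0 0) (P.cons (P.lf 0 33925 0) (P.cons (P.lf 0 991 0) P.nil)))))) 101)
 (EL.cons 1 (TM.mk (P.cons (P.lf 673184881 0 0) (P.cons (P.lf 0 202366545 0) (P.cons (P.lf 0 5530590 0) (P.cons (P.lf 526580 0 0) (P.cons (P.lf 13798 0 0) (P.cons (P.lf 0 714 0) P.nil)))))) 98)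
 (EL.cons 5 (TM.mk (P.cons (P.lf 2069629158 0 0) (P.cons (P.lf 48637396 0 0) (P.cons (P.lf 0 7168902 0) (P.cons (P.lf 0 176026 0) (P.cons (P.lf 12058 0 0) (P.cons (P.lf 354 0 0) P.nil)))))) 128)
 EL.nil)))
noncomputable def S227_241_438_512_4 : EL := (EL.cons 0 (TM.mk (P.cons (P.cons (P.lf 48279262 0 0) (P.cons (P.lf 0 22104731 0) (P.cons (P.lf 0 351824 0) (P.lf 117274 0 0)))) (P.cons (P.cons (P.lf 0 36209404 0) (P.cons (P.lf 13030098 0 0) (P.cons (P.lf 207390 0 0) (P.lf 0 69129 0)))) (P.cons (P.cons (P.lf 7459017 0 0) (P.cons (P.lf 0 1438358 0) (P.cons (P.lf 0 22891 0) (P.lf 7630 0 0)))) (P.cons (P.cons (P.lf 83308 0 0) (P.cons (P.lf 0 186430 0) (P.cons (P.lf 0 2967 0) P.nil))) (P.cons (P.cons (P.lf 0 121807 0) (P.cons (P.lf 8933 0 0) P.nil)) (P.cons (P.cons (P.lf 1900 0 0) P.nil) P.nil)))))) 3314)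
 (EL.cons 1 (TM.mk (P.cons (P.cons (P.lf 148429020 0 0) (P.cons (P.lf 0 67958445 0) (P.cons (P.lf 0 1081646 0) (P.lf 360547 0 0)))) (P.cons (P.cons (P.lf 0 63214128 0) (P.cons (P.lf 18033440 0 0) (P.cons (P.lf 287025 0 0) (P.lf 0 95673 0)))) (P.cons (P.cons (P.lf 2018220 0 0) (P.cons (P.lf 1617478 0 0) (P.cons (P.lf 25741 0 0) (P.lf 0 8580 0)))) (P.cons (P.cons (P.lf 1139266 0 0) (P.cons (P.lf 0 122516 0) (P.cons (P.lf 0 1948 0) P.nil))) (P.cons (P.cons (P.lf 0 32103 0) (P.cons (P.lf 0 10741 0) P.nil)) (P.cons (P.cons (P.lf 0 6832 0) P.nil) P.nil)))))) 2655)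
 (EL.cons 5 (TM.mk (P.cons (P.cons (P.lf 456327878 0 0) (P.cons (P.lf 0 208930390 0) (P.cons (P.lf 0 3325400 0) (P.lf 1108464 0 0)))) (P.cons (P.cons (P.lf 0 46443568 0) (P.cons (P.lf 0 12274938 0) (P.cons (P.lf 0 195370 0) (P.lf 65122 0 0)))) (P.cons (P.cons (P.lf 0 10155510 0) (P.cons (P.lf 1592910 0 0) (P.cons (P.lf 25350 0 0) (P.lf 0 8448 0)))) (P.cons (P.cons (P.lf 491368 0 0) (P.cons (P.lf 107354 0 0) (P.cons (P.lf 1706 0 0) P.nil))) (P.cons (P.cons (P.lf 72554 0 0) (P.cons (P.lf 0 5796 0) P.nil)) (P.cons (P.cons (P.lf 0 1812 0) P.nil) P.nil)))))) 1842)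
 EL.nil)))
noncomputable def S227_241_438_512_5 : EL := (EL.cons 0 (TM.mk (P.cons (P.cons (P.lf 10644985 0 0) (P.cons (P.lf 0 9747645 0) (P.cons (P.lf 2076338 0 0) (P.cons (P.lf 122748 0 0) (P.cons (P.lf 0 23111 0) (P.cons (P.lf 0 376 0) P.nil)))))) (P.cons (P.cons (P.lf 0 9317304 0) (P.cons (P.lf 6967112 0 0) (P.cons (P.lf 0 1125843 0) (P.cons (P.lf 0 76331 0) (P.cons (P.lf 12809 0 0) P.nil))))) (P.cons (P.cons (P.lf 2476110 0 0) (P.cons (P.lf 0 1199647 0) (P.cons (P.lf 68607 0 0) (P.cons (P.lf 9156 0 0) P.nil)))) (P.cons (P.cons (P.lf 0 49434 0) (P.cons (P.lf 0 104530 0) (P.cons (P.lf 28413 0 0) P.nil))) (P.cons (P.cons (P.lf 0 63346 0) (P.cons (P.lf 30009 0 0) P.nil)) (P.cons (P.cons (P.lf 4783 0 0) P.nil) P.nil)))))) 14523)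
 (EL.cons 1 (TM.mk (P.cons (P.cons (P.lf 32726780 0 0) (P.cons (P.lf 0 29968008 0) (P.cons (P.lf 6383467 0 0) (P.cons (P.lf 377377 0 0) (P.cons (P.lf 0 71055 0) (P.cons (P.lf 0 1156 0) P.nil)))))) (P.cons (P.cons (P.lf 0 18037861 0) (P.cons (P.lf 11706616 0 0) (P.cons (P.lf 0 1392324 0) (P.cons (P.lf 0 112359 0) (P.cons (P.lf 16350 0 0) P.nil))))) (P.cons (P.cons (P.lf 1672481 0 0) (P.cons (P.lf 191925 0 0) (P.cons (P.lf 0 258628 0) (P.cons (P.lf 0 9346 0) P.nil)))) (P.cons (P.cons (P.lf 452328 0 0) (P.cons (P.lf 0 302375 0) (P.cons (P.lf 9579 0 0) P.nil))) (P.cons (P.cons (P.lf 0 58912 0) (P.cons (P.lf 0 2373 0) P.nil)) (P.cons (P.cons (P.lf 0 5049 0) P.nil) P.nil)))))) 15458)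
 (EL.cons 5 (TM.mk (P.cons (P.cons (P.lf 100614706 0 0) (P.cons (P.lf 0 92133182 0) (P.cons (P.lf 19625234 0 0) (P.cons (P.lf 1160208 0 0) (P.cons (P.lf 0 218456 0) (P.cons (P.lf 0 3560 0) P.nil)))))) (P.cons (P.cons (P.lf 0 22844974 0) (P.cons (P.lf 6129246 0 0) (P.cons (P.lf 2080214 0 0) (P.cons (P.lf 30592 0 0) (P.cons (P.lf 0 20534 0) P.nil))))) (P.cons (P.cons (P.lf 0 2550728 0) (P.cons (P.lf 2840580 0 0) (P.cons (P.lf 0 177130 0) (P.cons (P.lf 0 22146 0) P.nil)))) (P.cons (P.cons (P.lf 661840 0 0) (P.cons (P.lf 0 56254 0) (P.cons (P.lf 0 27578 0) P.nil))) (P.cons (P.cons (P.lf 32854 0 0) (P.cons (P.lf 0 31264 0) P.nil)) (P.cons (P.cons (P.lf 0 7458 0) P.nil) P.nil)))))) 14220)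
 EL.nil)))
noncomputable def S227_241_438_512_6 : EL := (EL.cons 12 (TM.mk (P.lf 8589934592 0 0) 0)
 (EL.cons 3 (TM.mk (P.cons (P.lf 0 685729796 0) (P.cons (P.lf 214195188 0 0) (P.cons (P.lf 1881828 0 0) (P.cons (P.lf 0 187398 0) (P.cons (P.lf 0 2831 0) (P.cons (P.lf 153 0 0) P.nil)))))) 44)
 (EL.cons 7 (TM.mk (P.cons (P.lf 0 2108197044 0) (P.cons (P.lf 0 24771881 0) (P.cons (P.lf 3796786 0 0) (P.cons (P.lf 45040 0 0) (P.cons (P.lf 0 3252 0) (P.cons (P.lf 0 61 0) P.nil)))))) 51)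
 EL.nil)))
noncomputable def S227_241_438_512_7 : EL := (EL.cons 12 (TM.mk (P.cons (P.cons (P.lf 1893975364 0 0) (P.cons (P.lf 0 867159408 0) (P.cons (P.lf 0 13801984 0) (P.lf 4600656 0 0)))) (P.cons (P.cons (P.lf 0 237272100 0) (P.cons (P.lf 0 30568064 0) (P.cons (P.lf 0 486528 0) (P.lf 162176 0 0)))) (P.cons (P.cons (P.lf 0 30013668 0) (P.cons (P.lf 4325984 0 0) (P.cons (P.lf 68848 0 0) (P.lf 0 22944 0)))) (P.cons (P.cons (P.lf 2083958 0 0) (P.cons (P.lf 164272 0 0) (P.cons (P.lf 2608 0 0) P.nil))) (P.cons (P.cons (P.lf 116990 0 0) (P.cons (P.lf 0 10488 0) P.nil)) (P.cons (P.cons (P.lf 0 4550 0) P.nil) P.nil)))))) 2572)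
 (EL.cons 3 (TM.mk (P.cons (P.cons (P.lf 0 1763183871 0) (P.cons (P.lf 0 138449724 0) (P.cons (P.lf 0 2203608 0) (P.lf 734534 0 0)))) (P.cons (P.cons (P.lf 0 351205719 0) (P.cons (P.lf 38365818 0 0) (P.cons (P.lf 610642 0 0) (P.lf 0 203546 0)))) (P.cons (P.cons (P.lf 38471316 0 0) (P.cons (P.lf 2595090 0 0) (P.cons (P.lf 41302 0 0) (P.lf 0 13766 0)))) (P.cons (P.cons (P.lf 2808256 0 0) (P.cons (P.lf 0 213956 0) (P.cons (P.lf 0 3404 0) P.nil))) (P.cons (P.cons (P.lf 0 135480 0) (P.cons (P.lf 0 13666 0) P.nil)) (P.cons (P.cons (P.lf 0 10596 0) P.nil) P.nil)))))) 7337)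
 (EL.cons 7 (TM.mk (P.cons (P.cons (P.lf 0 278403556 0) (P.cons (P.lf 236841619 0 0) (P.cons (P.lf 3769649 0 0) (P.lf 0 1256553 0)))) (P.cons (P.cons (P.lf 40617286 0 0) (P.cons (P.lf 0 4437042 0) (P.cons (P.lf 0 70621 0) (P.lf 23539 0 0)))) (P.cons (P.cons (P.lf 0 11031497 0) (P.cons (P.lf 418921 0 0) (P.cons (P.lf 6666 0 0) (P.lf 0 2218 0)))) (P.cons (P.cons (P.lf 675373 0 0) (P.cons (P.lf 85354 0 0) (P.cons (P.lf 1358 0 0) P.nil))) (P.cons (P.cons (P.lf 84958 0 0) (P.cons (P.lf 0 4502 0) P.nil)) (P.cons (P.cons (P.lf 0 2779 0) P.nil) P.nil)))))) 5367)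
 (EL.cons 10 (TM.mk (P.cons (P.cons (P.lf 0 3047827335 0) (P.cons (P.lf 0 112978803 0) (P.cons (P.lf 55981401 0 0) (P.cons (P.lf 507996 0 0) (P.lf 0 126999 0))))) (P.cons (P.cons (P.lf 0 71625576 0) (P.cons (P.lf 0 2655060 0) (P.cons (P.lf 1315593 0 0) (P.cons (P.lf 11937 0 0) (P.lf 0 2982 0))))) (P.cons (P.cons (P.lf 10557240 0 0) (P.cons (P.lf 391341 0 0) (P.cons (P.lf 0 193911 0) (P.cons (P.lf 0 1758 0) P.nil)))) (P.cons (P.cons (P.lf 259221 0 0) (P.cons (P.lf 9609 0 0) (P.cons (P.lf 0 4761 0) P.nil))) (P.cons (P.cons (P.lf 0 17757 0) (P.cons (P.lf 0 657 0) P.nil)) (P.cons (P.cons (P.lf 0 519 0) P.nil) P.nil)))))) 1161)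
 EL.nil))))
noncomputable def S227_241_438_512_8 : EL := (EL.cons 12 (TM.mk (P.cons (P.cons (P.lf 417598368 0 0) (P.cons (P.lf 0 382396056 0) (P.cons (P.lf 81453960 0 0) (P.cons (P.lf 4815414 0 0) (P.cons (P.lf 0 906700 0) (P.cons (P.lf 0 14784 0) P.nil)))))) (P.cons (P.cons (P.lf 0 104631182 0) (P.cons (P.lf 34425774 0 0) (P.cons (P.lf 6719664 0 0) (P.cons (P.lf 13816 0 0) (P.cons (P.lf 0 63922 0) P.nil))))) (P.cons (P.cons (P.lf 0 6681336 0) (P.cons (P.lf 9656158 0 0) (P.cons (P.lf 0 610954 0) (P.cons (P.lf 0 75566 0) P.nil)))) (P.cons (P.cons (P.lf 2577054 0 0) (P.cons (P.lf 0 373686 0) (P.cons (P.lf 0 69904 0) P.nil))) (P.cons (P.cons (P.lf 41332 0 0) (P.cons (P.lf 0 82382 0) P.nil)) (P.cons (P.cons (P.lf 0 23032 0) P.nil) P.nil)))))) 38806)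
 (EL.cons 3 (TM.mk (P.cons (P.cons (P.lf 0 744184243 0) (P.cons (P.lf 264409678 0 0) (P.cons (P.lf 39149895 0 0) (P.cons (P.lf 0 290535 0) (P.cons (P.lf 0 361906 0) (P.cons (P.lf 0 5901 0) P.nil)))))) (P.cons (P.cons (P.lf 0 76233124 0) (P.cons (P.lf 120308182 0 0) (P.cons (P.lf 0 6536055 0) (P.cons (P.lf 0 907299 0) (P.cons (P.lf 87531 0 0) P.nil))))) (P.cons (P.cons (P.lf 50672490 0 0) (P.cons (P.lf 0 7055156 0) (P.cons (P.lf 0 1282859 0) (P.cons (P.lf 171 0 0) P.nil)))) (P.cons (P.cons (P.lf 1116161 0 0) (P.cons (P.lf 0 2121465 0) (P.cons (P.lf 38828 0 0) P.nil))) (P.cons (P.cons (P.lf 0 763803 0) (P.cons (P.lf 40744 0 0) P.nil)) (P.cons (P.cons (P.lf 0 9466 0) P.nil) P.nil)))))) 99799)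
 (EL.cons 7 (TM.mk (P.cons (P.cons (P.lf 0 20279473 0) (P.cons (P.lf 66801285 0 0) (P.cons (P.lf 0 25270685 0) (P.cons (P.lf 0 1192689 0) (P.cons (P.lf 272754 0 0) (P.cons (P.lf 4444 0 0) P.nil)))))) (P.cons (P.cons (P.lf 8816440 0 0) (P.cons (P.lf 0 13913753 0) (P.cons (P.lf 755900 0 0) (P.cons (P.lf 104925 0 0) (P.cons (P.lf 0 10120 0) P.nil))))) (P.cons (P.cons (P.lf 0 7289070 0) (P.cons (P.lf 3070735 0 0) (P.cons (P.lf 25868 0 0) (P.cons (P.lf 0 17016 0) P.nil)))) (P.cons (P.cons (P.lf 1145595 0 0) (P.cons (P.lf 55765 0 0) (P.cons (P.lf 0 35825 0) P.nil))) (P.cons (P.cons (P.lf 110603 0 0) (P.cons (P.lf 0 62053 0) P.nil)) (P.cons (P.cons (P.lf 0 21262 0) P.nil) P.nil)))))) 44209)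
 (EL.cons 10 (TM.mk (P.cons (P.cons (P.lf 0 1344017190 0) (P.cons (P.lf 565539360 0 0) (P.cons (P.lf 57291258 0 0) (P.cons (P.lf 0 13980390 0) (P.cons (P.lf 0 459486 0) (P.cons (P.lf 83970 0 0) P.nil)))))) (P.cons (P.cons (P.lf 136789704 0 0) (P.cons (P.lf 41223846 0 0) (P.cons (P.lf 0 596928 0) (P.cons (P.lf 0 857322 0) (P.cons (P.lf 0 18000 0) P.nil))))) (P.cons (P.cons (P.lf 29910906 0 0) (P.cons (P.lf 0 3582828 0) (P.cons (P.lf 0 797970 0) (P.cons (P.lf 103302 0 0) P.nil)))) (P.cons (P.cons (P.lf 0 1447218 0) (P.cons (P.lf 0 369834 0) (P.cons (P.lf 9828 0 0) P.nil))) (P.cons (P.cons (P.lf 0 213696 0) (P.cons (P.lf 9150 0 0) P.nil)) (P.cons (P.cons (P.lf 5340 0 0) P.nil) P.nil)))))) 30744)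
 EL.nil))))
noncomputable def S227_241_438_512_9 : EL := (EL.cons 3 (TM.mk (P.cons (P.lf 0 685729796 0) (P.cons (P.lf 214195188 0 0) (P.cons (P.lf 1881828 0 0) (P.cons (P.lf 0 187398 0) (P.cons (P.lf 0 2831 0) (P.cons (P.lf 153 0 0) P.nil)))))) 44)
 (EL.cons 7 (TM.mk (P.cons (P.lf 0 2108197044 0) (P.cons (P.lf 0 24771881 0) (P.cons (P.lf 3796786 0 0) (P.cons (P.lf 45040 0 0) (P.cons (P.lf 0 3252 0) (P.cons (P.lf 0 61 0) P.nil)))))) 51)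
 EL.nil))
noncomputable def S227_241_438_512_10 : EL := (EL.cons 3 (TM.mk (P.cons (P.cons (P.lf 0 151195020 0) (P.cons (P.lf 69224862 0 0) (P.cons (P.lf 1101804 0 0) (P.lf 0 367267 0)))) (P.cons (P.cons (P.lf 66168717 0 0) (P.cons (P.lf 0 19182909 0) (P.cons (P.lf 0 305321 0) (P.lf 101773 0 0)))) (P.cons (P.cons (P.lf 0 3105627 0) (P.cons (P.lf 0 1297545 0) (P.cons (P.lf 0 20651 0) (P.lf 6883 0 0)))) (P.cons (P.cons (P.lf 0 1008068 0) (P.cons (P.lf 106978 0 0) (P.cons (P.lf 1702 0 0) P.nil))) (P.cons (P.cons (P.lf 40602 0 0) (P.cons (P.lf 6833 0 0) P.nil)) (P.cons (P.cons (P.lf 4503 0 0) P.nil) P.nil)))))) 1765)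
 (EL.cons 7 (TM.mk (P.cons (P.cons (P.lf 0 464831626 0) (P.cons (P.lf 212823844 0 0) (P.cons (P.lf 3387371 0 0) (P.lf 0 1129122 0)))) (P.cons (P.cons (P.lf 52770949 0 0) (P.cons (P.lf 10002948 0 0) (P.cons (P.lf 159209 0 0) (P.lf 0 53069 0)))) (P.cons (P.cons (P.lf 8887543 0 0) (P.cons (P.lf 0 1356845 0) (P.cons (P.lf 0 21594 0) (P.lf 7196 0 0)))) (P.cons (P.cons (P.lf 0 519848 0) (P.cons (P.lf 0 70850 0) (P.cons (P.lf 0 1126 0) P.nil))) (P.cons (P.cons (P.lf 0 49949 0) (P.cons (P.lf 4180 0 0) P.nil)) (P.cons (P.cons (P.lf 1619 0 0) P.nil) P.nil)))))) 1142)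
 EL.nil))
noncomputable def S227_241_438_512_11 : EL := (EL.cons 3 (TM.mk (P.cons (P.cons (P.lf 0 33336649 0) (P.cons (P.lf 30526468 0 0) (P.cons (P.lf 0 6502425 0) (P.cons (P.lf 0 384411 0) (P.cons (P.lf 72380 0 0) (P.cons (P.lf 1179 0 0) P.nil)))))) (P.cons (P.cons (P.lf 18765716 0 0) (P.cons (P.lf 0 12283466 0) (P.cons (P.lf 1494675 0 0) (P.cons (P.lf 118971 0 0) (P.cons (P.lf 0 17505 0) P.nil))))) (P.cons (P.cons (P.lf 0 1984188 0) (P.cons (P.lf 3808 0 0) (P.cons (P.lf 234175 0 0) (P.cons (P.lf 7431 0 0) P.nil)))) (P.cons (P.cons (P.lf 0 404359 0) (P.cons (P.lf 286497 0 0) (P.cons (P.lf 0 9958 0) P.nil))) (P.cons (P.cons (P.lf 61641 0 0) (P.cons (P.lf 0 1250 0) P.nil)) (P.cons (P.cons (P.lf 3620 0 0) P.nil) P.nil)))))) 13467)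
 (EL.cons 7 (TM.mk (P.cons (P.cons (P.lf 0 102489679 0) (P.cons (P.lf 93850101 0 0) (P.cons (P.lf 0 19990955 0) (P.cons (P.lf 0 1181829 0) (P.cons (P.lf 222528 0 0) (P.cons (P.lf 3628 0 0) P.nil)))))) (P.cons (P.cons (P.lf 24474976 0 0) (P.cons (P.lf 0 7346231 0) (P.cons (P.lf 0 1884082 0) (P.cons (P.lf 0 17277 0) (P.cons (P.lf 18302 0 0) P.nil))))) (P.cons (P.cons (P.lf 2126094 0 0) (P.cons (P.lf 0 2638175 0) (P.cons (P.lf 166568 0 0) (P.cons (P.lf 20634 0 0) P.nil)))) (P.cons (P.cons (P.lf 0 657267 0) (P.cons (P.lf 77077 0 0) (P.cons (P.lf 22315 0 0) P.nil))) (P.cons (P.cons (P.lf 0 21235 0) (P.cons (P.lf 25889 0 0) P.nil)) (P.cons (P.cons (P.lf 6674 0 0) P.nil) P.nil)))))) 11835)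
 EL.nil))
noncomputable def S227_241_438_512_12 : EL := (EL.cons 4 (TM.mk (P.cons (P.lf 685729796 0 0) (P.cons (P.lf 0 214195188 0) (P.cons (P.lf 0 1881828 0) (P.cons (P.lf 187398 0 0) (P.cons (P.lf 2831 0 0) (P.cons (P.lf 0 153 0) P.nil)))))) 44)
 (EL.cons 8 (TM.mk (P.cons (P.lf 2108197044 0 0) (P.cons (P.lf 24771881 0 0) (P.cons (P.lf 0 3796786 0) (P.cons (P.lf 0 45040 0) (P.cons (P.lf 3252 0 0) (P.cons (P.lf 61 0 0) P.nil)))))) 51)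
 EL.nil))
noncomputable def S227_241_438_512_13 : EL := (EL.cons 4 (TM.mk (P.cons (P.cons (P.lf 151195020 0 0) (P.cons (P.lf 0 69224862 0) (P.cons (P.lf 0 1101804 0) (P.lf 367267 0 0)))) (P.cons (P.cons (P.lf 0 66168717 0) (P.cons (P.lf 19182909 0 0) (P.cons (P.lf 305321 0 0) (P.lf 0 101773 0)))) (P.cons (P.cons (P.lf 3105627 0 0) (P.cons (P.lf 1297545 0 0) (P.cons (P.lf 20651 0 0) (P.lf 0 6883 0)))) (P.cons (P.cons (P.lf 1008068 0 0) (P.cons (P.lf 0 106978 0) (P.cons (P.lf 0 1702 0) P.nil))) (P.cons (P.cons (P.lf 0 40602 0) (P.cons (P.lf 0 6833 0) P.nil)) (P.cons (P.cons (P.lf 0 4503 0) P.nil) P.nil)))))) 1765)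
 (EL.cons 8 (TM.mk (P.cons (P.cons (P.lf 464831626 0 0) (P.cons (P.lf 0 212823844 0) (P.cons (P.lf 0 3387371 0) (P.lf 1129122 0 0)))) (P.cons (P.cons (P.lf 0 52770949 0) (P.cons (P.lf 0 10002948 0) (P.cons (P.lf 0 159209 0) (P.lf 53069 0 0)))) (P.cons (P.cons (P.lf 0 8887543 0) (P.cons (P.lf 1356845 0 0) (P.cons (P.lf 21594 0 0) (P.lf 0 7196 0)))) (P.cons (P.cons (P.lf 519848 0 0) (P.cons (P.lf 70850 0 0) (P.cons (P.lf 1126 0 0) P.nil))) (P.cons (P.cons (P.lf 49949 0 0) (P.cons (P.lf 0 4180 0) P.nil)) (P.cons (P.cons (P.lf 0 1619 0) P.nil) P.nil)))))) 1142)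
 EL.nil))
noncomputable def S227_241_438_512_14 : EL := (EL.cons 4 (TM.mk (P.cons (P.cons (P.lf 33336649 0 0) (P.cons (P.lf 0 30526468 0) (P.cons (P.lf 6502425 0 0) (P.cons (P.lf 384411 0 0) (P.cons (P.lf 0 72380 0) (P.cons (P.lf 0 1179 0) P.nil)))))) (P.cons (P.cons (P.lf 0 18765716 0) (P.cons (P.lf 12283466 0 0) (P.cons (P.lf 0 1494675 0) (P.cons (P.lf 0 118971 0) (P.cons (P.lf 17505 0 0) P.nil))))) (P.cons (P.cons (P.lf 1984188 0 0) (P.cons (P.lf 0 3808 0) (P.cons (P.lf 0 234175 0) (P.cons (P.lf 0 7431 0) P.nil)))) (P.cons (P.cons (P.lf 404359 0 0) (P.cons (P.lf 0 286497 0) (P.cons (P.lf 9958 0 0) P.nil))) (P.cons (P.cons (P.lf 0 61641 0) (P.cons (P.lf 1250 0 0) P.nil)) (P.cons (P.cons (P.lf 0 3620 0) P.nil) P.nil)))))) 13467)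
 (EL.cons 8 (TM.mk (P.cons (P.cons (P.lf 102489679 0 0) (P.cons (P.lf 0 93850101 0) (P.cons (P.lf 19990955 0 0) (P.cons (P.lf 1181829 0 0) (P.cons (P.lf 0 222528 0) (P.cons (P.lf 0 3628 0) P.nil)))))) (P.cons (P.cons (P.lf 0 24474976 0) (P.cons (P.lf 7346231 0 0) (P.cons (P.lf 1884082 0 0) (P.cons (P.lf 17277 0 0) (P.cons (P.lf 0 18302 0) P.nil))))) (P.cons (P.cons (P.lf 0 2126094 0) (P.cons (P.lf 2638175 0 0) (P.cons (P.lf 0 166568 0) (P.cons (P.lf 0 20634 0) P.nil)))) (P.cons (P.cons (P.lf 657267 0 0) (P.cons (P.lf 0 77077 0) (P.cons (P.lf 0 22315 0) P.nil))) (P.cons (P.cons (P.lf 21235 0 0) (P.cons (P.lf 0 25889 0) P.nil)) (P.cons (P.cons (P.lf 0 6674 0) P.nil) P.nil)))))) 11835)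
 EL.nil))
noncomputable def S227_241_438_512_15 : EL := (EL.cons 4 (TM.mk (P.cons (P.lf 0 116781729 0) (P.cons (P.lf 72956096 0 0) (P.cons (P.lf 0 10753354 0) (P.cons (P.lf 0 264040 0) (P.cons (P.lf 18093 0 0) (P.cons (P.lf 528 0 0) P.nil)))))) 57)
 (EL.cons 8 (TM.mk (P.cons (P.lf 0 359031937 0) (P.cons (P.lf 107928824 0 0) (P.cons (P.lf 2949648 0 0) (P.cons (P.lf 0 280843 0) (P.cons (P.lf 0 7359 0) (P.cons (P.lf 381 0 0) P.nil)))))) 49)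
 EL.nil))
noncomputable def S227_241_438_512_16 : EL := (EL.cons 4 (TM.mk (P.cons (P.cons (P.lf 0 25748940 0) (P.cons (P.lf 11789190 0 0) (P.cons (P.lf 187639 0 0) (P.lf 0 62546 0)))) (P.cons (P.cons (P.lf 19311682 0 0) (P.cons (P.lf 0 6949385 0) (P.cons (P.lf 0 110608 0) (P.lf 36869 0 0)))) (P.cons (P.cons (P.lf 0 3978142 0) (P.cons (P.lf 767124 0 0) (P.cons (P.lf 12209 0 0) (P.lf 0 4069 0)))) (P.cons (P.cons (P.lf 0 44430 0) (P.cons (P.lf 99429 0 0) (P.cons (P.lf 1582 0 0) P.nil))) (P.cons (P.cons (P.lf 64964 0 0) (P.cons (P.lf 0 4764 0) P.nil)) (P.cons (P.cons (P.lf 0 1013 0) P.nil) P.nil)))))) 1776)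
 (EL.cons 8 (TM.mk (P.cons (P.cons (P.lf 0 79162144 0) (P.cons (P.lf 36244504 0 0) (P.cons (P.lf 576878 0 0) (P.lf 0 192292 0)))) (P.cons (P.cons (P.lf 33714202 0 0) (P.cons (P.lf 0 9617835 0) (P.cons (P.lf 0 153080 0) (P.lf 51026 0 0)))) (P.cons (P.cons (P.lf 0 1076384 0) (P.cons (P.lf 0 862655 0) (P.cons (P.lf 0 13729 0) (P.lf 4576 0 0)))) (P.cons (P.cons (P.lf 0 607609 0) (P.cons (P.lf 65342 0 0) (P.cons (P.lf 1039 0 0) P.nil))) (P.cons (P.cons (P.lf 17122 0 0) (P.cons (P.lf 5729 0 0) P.nil)) (P.cons (P.cons (P.lf 3644 0 0) P.nil) P.nil)))))) 1406)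
 EL.nil))
noncomputable def S227_241_438_512_17 : EL := (EL.cons 4 (TM.mk (P.cons (P.cons (P.lf 0 5677325 0) (P.cons (P.lf 5198744 0 0) (P.cons (P.lf 0 1107380 0) (P.cons (P.lf 0 65465 0) (P.cons (P.lf 12326 0 0) (P.cons (P.lf 200 0 0) P.nil)))))) (P.cons (P.cons (P.lf 4969229 0 0) (P.cons (P.lf 0 3715793 0) (P.cons (P.lf 600450 0 0) (P.cons (P.lf 40710 0 0) (P.cons (P.lf 0 6831 0) P.nil))))) (P.cons (P.cons (P.lf 0 1320592 0) (P.cons (P.lf 639811 0 0) (P.cons (P.lf 0 36590 0) (P.cons (P.lf 0 4883 0) P.nil)))) (P.cons (P.cons (P.lf 26365 0 0) (P.cons (P.lf 55749 0 0) (P.cons (P.lf 0 15153 0) P.nil))) (P.cons (P.cons (P.lf 33784 0 0) (P.cons (P.lf 0 16005 0) P.nil)) (P.cons (P.cons (P.lf 0 2550 0) P.nil) P.nil)))))) 7756)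
 (EL.cons 8 (TM.mk (P.cons (P.cons (P.lf 0 17454283 0) (P.cons (P.lf 15982938 0 0) (P.cons (P.lf 0 3404516 0) (P.cons (P.lf 0 201268 0) (P.cons (P.lf 37896 0 0) (P.cons (P.lf 617 0 0) P.nil)))))) (P.cons (P.cons (P.lf 9620193 0 0) (P.cons (P.lf 0 6243529 0) (P.cons (P.lf 742573 0 0) (P.cons (P.lf 59925 0 0) (P.cons (P.lf 0 8720 0) P.nil))))) (P.cons (P.cons (P.lf 0 891990 0) (P.cons (P.lf 0 102360 0) (P.cons (P.lf 137935 0 0) (P.cons (P.lf 4985 0 0) P.nil)))) (P.cons (P.cons (P.lf 0 241242 0) (P.cons (P.lf 161267 0 0) (P.cons (P.lf 0 5109 0) P.nil))) (P.cons (P.cons (P.lf 31420 0 0) (P.cons (P.lf 1266 0 0) P.nil)) (P.cons (P.cons (P.lf 2693 0 0) P.nil) P.nil)))))) 8233)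
 EL.nil))
noncomputable def S227_241_438_512_18 : EL := (EL.cons 4 (TM.mk (P.cons (P.lf 19888259 0 0) (P.cons (P.lf 0 18636945 0) (P.cons (P.lf 5657716 0 0) (P.cons (P.lf 0 487535 0) (P.cons (P.lf 0 25466 0) (P.cons (P.lf 1193 0 0) P.nil)))))) 87)
 (EL.cons 8 (TM.mk (P.cons (P.lf 61144157 0 0) (P.cons (P.lf 0 37479629 0) (P.cons (P.lf 5071246 0 0) (P.cons (P.lf 271888 0 0) (P.cons (P.lf 0 17078 0) (P.cons (P.lf 0 814 0) P.nil)))))) 70)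
 EL.nil))
noncomputable def S227_241_438_512_19 : EL := (EL.cons 4 (TM.mk (P.cons (P.cons (P.lf 4385116 0 0) (P.cons (P.lf 0 2007732 0) (P.cons (P.lf 0 31955 0) (P.lf 10651 0 0)))) (P.cons (P.cons (P.lf 0 4658573 0) (P.cons (P.lf 1810636 0 0) (P.cons (P.lf 28817 0 0) (P.lf 0 9605 0)))) (P.cons (P.cons (P.lf 1692757 0 0) (P.cons (P.lf 0 494812 0) (P.cons (P.lf 0 7875 0) (P.lf 2625 0 0)))) (P.cons (P.cons (P.lf 0 193830 0) (P.cons (P.lf 20077 0 0) (P.cons (P.lf 318 0 0) P.nil))) (P.cons (P.cons (P.lf 0 16166 0) (P.cons (P.lf 6773 0 0) P.nil)) (P.cons (P.cons (P.lf 3778 0 0) P.nil) P.nil)))))) 1636)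
 (EL.cons 8 (TM.mk (P.cons (P.cons (P.lf 13481537 0 0) (P.cons (P.lf 0 6172541 0) (P.cons (P.lf 0 98243 0) (P.lf 32747 0 0)))) (P.cons (P.cons (P.lf 0 9952729 0) (P.cons (P.lf 3566005 0 0) (P.cons (P.lf 56757 0 0) (P.lf 0 18918 0)))) (P.cons (P.cons (P.lf 1939773 0 0) (P.cons (P.lf 0 347777 0) (P.cons (P.lf 0 5534 0) (P.lf 1844 0 0)))) (P.cons (P.cons (P.lf 65658 0 0) (P.cons (P.lf 0 63199 0) (P.cons (P.lf 0 1005 0) P.nil))) (P.cons (P.cons (P.lf 0 37254 0) (P.cons (P.lf 2518 0 0) P.nil)) (P.cons (P.cons (P.lf 29 0 0) P.nil) P.nil)))))) 1259)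
 EL.nil))
noncomputable def S227_241_438_512_20 : EL := (EL.cons 4 (TM.mk (P.cons (P.cons (P.lf 966864 0 0) (P.cons (P.lf 0 885360 0) (P.cons (P.lf 188589 0 0) (P.cons (P.lf 11148 0 0) (P.cons (P.lf 0 2099 0) (P.cons (P.lf 0 33 0) P.nil)))))) (P.cons (P.cons (P.lf 0 1148283 0) (P.cons (P.lf 909361 0 0) (P.cons (P.lf 0 161166 0) (P.cons (P.lf 0 10415 0) (P.cons (P.lf 1818 0 0) P.nil))))) (P.cons (P.cons (P.lf 486589 0 0) (P.cons (P.lf 0 304197 0) (P.cons (P.lf 37654 0 0) (P.cons (P.lf 2966 0 0) P.nil)))) (P.cons (P.cons (P.lf 0 72152 0) (P.cons (P.lf 22561 0 0) (P.cons (P.lf 965 0 0) P.nil))) (P.cons (P.cons (P.lf 0 5195 0) (P.cons (P.lf 6159 0 0) P.nil)) (P.cons (P.cons (P.lf 2301 0 0) P.nil) P.nil)))))) 4475)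
 (EL.cons 8 (TM.mk (P.cons (P.cons (P.lf 2972513 0 0) (P.cons (P.lf 0 2721939 0) (P.cons (P.lf 579798 0 0) (P.cons (P.lf 34276 0 0) (P.cons (P.lf 0 6453 0) (P.cons (P.lf 0 105 0) P.nil)))))) (P.cons (P.cons (P.lf 0 2566843 0) (P.cons (P.lf 1913518 0 0) (P.cons (P.lf 0 307568 0) (P.cons (P.lf 0 20912 0) (P.cons (P.lf 3501 0 0) P.nil))))) (P.cons (P.cons (P.lf 655506 0 0) (P.cons (P.lf 0 307228 0) (P.cons (P.lf 14419 0 0) (P.cons (P.lf 2244 0 0) P.nil)))) (P.cons (P.cons (P.lf 0 1057 0) (P.cons (P.lf 0 36570 0) (P.cons (P.lf 8713 0 0) P.nil))) (P.cons (P.cons (P.lf 0 19036 0) (P.cons (P.lf 8594 0 0) P.nil)) (P.cons (P.cons (P.lf 1133 0 0) P.nil) P.nil)))))) 4643)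
 EL.nil))
noncomputable def S227_241_438_512_21 : EL := (EL.cons 4 (TM.mk (P.cons (P.cons (P.lf 1611988851 0 0) (P.cons (P.lf 207674586 0 0) (P.cons (P.lf 3305412 0 0) (P.lf 0 1101801 0)))) (P.cons (P.cons (P.lf 417374436 0 0) (P.cons (P.lf 0 57548727 0) (P.cons (P.lf 0 915963 0) (P.lf 305319 0 0)))) (P.cons (P.cons (P.lf 0 41576943 0) (P.cons (P.lf 0 3892635 0) (P.cons (P.lf 0 61953 0) (P.lf 20649 0 0)))) (P.cons (P.cons (P.lf 0 3816324 0) (P.cons (P.lf 320934 0 0) (P.cons (P.lf 5106 0 0) P.nil))) (P.cons (P.cons (P.lf 176082 0 0) (P.cons (P.lf 20499 0 0) P.nil)) (P.cons (P.cons (P.lf 15099 0 0) P.nil) P.nil)))))) 5553)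
 (EL.cons 8 (TM.mk (P.cons (P.cons (P.lf 0 186428070 0) (P.cons (P.lf 0 24017775 0) (P.cons (P.lf 0 382278 0) (P.lf 127431 0 0)))) (P.cons (P.cons (P.lf 12153663 0 0) (P.cons (P.lf 14439990 0 0) (P.cons (P.lf 229830 0 0) (P.lf 0 76608 0)))) (P.cons (P.cons (P.lf 19919040 0 0) (P.cons (P.lf 0 1775766 0) (P.cons (P.lf 0 28260 0) (P.lf 9414 0 0)))) (P.cons (P.cons (P.lf 0 1195221 0) (P.cons (P.lf 0 156204 0) (P.cons (P.lf 0 2484 0) P.nil))) (P.cons (P.cons (P.lf 0 134907 0) (P.cons (P.lf 8682 0 0) P.nil)) (P.cons (P.cons (P.lf 4398 0 0) P.nil) P.nil)))))) 4206)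
 (EL.cons 11 (TM.mk (P.cons (P.cons (P.lf 3047827335 0 0) (P.cons (P.lf 112978803 0 0) (P.cons (P.lf 0 55981401 0) (P.cons (P.lf 0 507996 0) (P.lf 126999 0 0))))) (P.cons (P.cons (P.lf 71625576 0 0) (P.cons (P.lf 2655060 0 0) (P.cons (P.lf 0 1315593 0) (P.cons (P.lf 0 11937 0) (P.lf 2982 0 0))))) (P.cons (P.cons (P.lf 0 10557240 0) (P.cons (P.lf 0 391341 0) (P.cons (P.lf 193911 0 0) (P.cons (P.lf 1758 0 0) P.nil)))) (P.cons (P.cons (P.lf 0 259221 0) (P.cons (P.lf 0 9609 0) (P.cons (P.lf 4761 0 0) P.nil))) (P.cons (P.cons (P.lf 17757 0 0) (P.cons (P.lf 657 0 0) P.nil)) (P.cons (P.cons (P.lf 519 0 0) P.nil) P.nil)))))) 1161)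
 EL.nil)))
noncomputable def S227_241_438_512_22 : EL := (EL.cons 4 (TM.mk (P.cons (P.cons (P.lf 355423797 0 0) (P.cons (P.lf 0 116941605 0) (P.cons (P.lf 0 22826160 0) (P.cons (P.lf 0 46938 0) (P.cons (P.lf 217143 0 0) (P.cons (P.lf 3540 0 0) P.nil)))))) (P.cons (P.cons (P.lf 47499420 0 0) (P.cons (P.lf 0 66295824 0) (P.cons (P.lf 4015365 0 0) (P.cons (P.lf 513135 0 0) (P.cons (P.lf 0 52518 0) P.nil))))) (P.cons (P.cons (P.lf 0 26328339 0) (P.cons (P.lf 3529482 0 0) (P.cons (P.lf 758517 0 0) (P.cons (P.lf 3630 0 0) P.nil)))) (P.cons (P.cons (P.lf 0 760260 0) (P.cons (P.lf 1203981 0 0) (P.cons (P.lf 0 24393 0) P.nil))) (P.cons (P.cons (P.lf 412722 0 0) (P.cons (P.lf 0 20997 0) P.nil)) (P.cons (P.cons (P.lf 6543 0 0) P.nil) P.nil)))))) 43155)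
 (EL.cons 8 (TM.mk (P.cons (P.cons (P.lf 0 41105103 0) (P.cons (P.lf 13524408 0 0) (P.cons (P.lf 2639865 0 0) (P.cons (P.lf 5430 0 0) (P.cons (P.lf 0 25113 0) (P.cons (P.lf 0 408 0) P.nil)))))) (P.cons (P.cons (P.lf 7829268 0 0) (P.cons (P.lf 3283761 0 0) (P.cons (P.lf 0 1319991 0) (P.cons (P.lf 0 61101 0) (P.cons (P.lf 14211 0 0) P.nil))))) (P.cons (P.cons (P.lf 4707582 0 0) (P.cons (P.lf 0 2854455 0) (P.cons (P.lf 70350 0 0) (P.cons (P.lf 18825 0 0) P.nil)))) (P.cons (P.cons (P.lf 0 901431 0) (P.cons (P.lf 10656 0 0) (P.cons (P.lf 29070 0 0) P.nil))) (P.cons (P.cons (P.lf 0 65919 0) (P.cons (P.lf 43971 0 0) P.nil)) (P.cons (P.cons (P.lf 13968 0 0) P.nil) P.nil)))))) 16176)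
 (EL.cons 11 (TM.mk (P.cons (P.cons (P.lf 672008595 0 0) (P.cons (P.lf 0 282769680 0) (P.cons (P.lf 0 28645629 0) (P.cons (P.lf 6990195 0 0) (P.cons (P.lf 229743 0 0) (P.cons (P.lf 0 41985 0) P.nil)))))) (P.cons (P.cons (P.lf 0 68394852 0) (P.cons (P.lf 0 20611923 0) (P.cons (P.lf 298464 0 0) (P.cons (P.lf 428661 0 0) (P.cons (P.lf 9000 0 0) P.nil))))) (P.cons (P.cons (P.lf 0 14955453 0) (P.cons (P.lf 1791414 0 0) (P.cons (P.lf 398985 0 0) (P.cons (P.lf 0 51651 0) P.nil)))) (P.cons (P.cons (P.lf 723609 0 0) (P.cons (P.lf 184917 0 0) (P.cons (P.lf 0 4914 0) P.nil))) (P.cons (P.cons (P.lf 106848 0 0) (P.cons (P.lf 0 4575 0) P.nil)) (P.cons (P.cons (P.lf 0 2670 0) P.nil) P.nil)))))) 15372)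
 EL.nil)))
noncomputable def S227_241_438_512_23 : EL := (EL.cons 4 (TM.mk (P.cons (P.cons (P.lf 0 274526274 0) (P.cons (P.lf 0 35367570 0) (P.cons (P.lf 0 562920 0) (P.lf 187638 0 0)))) (P.cons (P.cons (P.lf 14671227 0 0) (P.cons (P.lf 20848158 0 0) (P.cons (P.lf 331824 0 0) (P.lf 0 110607 0)))) (P.cons (P.cons (P.lf 30036675 0 0) (P.cons (P.lf 0 2301372 0) (P.cons (P.lf 0 36627 0) (P.lf 12210 0 0)))) (P.cons (P.cons (P.lf 0 1441752 0) (P.cons (P.lf 0 298287 0) (P.cons (P.lf 0 4746 0) P.nil))) (P.cons (P.cons (P.lf 0 272988 0) (P.cons (P.lf 14292 0 0) P.nil)) (P.cons (P.cons (P.lf 6714 0 0) P.nil) P.nil)))))) 5622)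
 (EL.cons 8 (TM.mk (P.cons (P.cons (P.lf 31749228 0 0) (P.cons (P.lf 4090293 0 0) (P.cons (P.lf 65103 0 0) (P.lf 0 21699 0)))) (P.cons (P.cons (P.lf 0 11987019 0) (P.cons (P.lf 0 3736818 0) (P.cons (P.lf 0 59475 0) (P.lf 19824 0 0)))) (P.cons (P.cons (P.lf 0 2832870 0) (P.cons (P.lf 1059342 0 0) (P.cons (P.lf 16860 0 0) (P.lf 0 5616 0)))) (P.cons (P.cons (P.lf 1277517 0 0) (P.cons (P.lf 0 59994 0) (P.cons (P.lf 0 954 0) P.nil))) (P.cons (P.cons (P.lf 0 31731 0) (P.cons (P.lf 0 11271 0) P.nil)) (P.cons (P.cons (P.lf 0 9426 0) P.nil) P.nil)))))) 2730)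
 (EL.cons 11 (TM.mk (P.cons (P.cons (P.lf 0 519053640 0) (P.cons (P.lf 0 19240608 0) (P.cons (P.lf 9533790 0 0) (P.cons (P.lf 86511 0 0) (P.lf 0 21627 0))))) (P.cons (P.cons (P.lf 149934033 0 0) (P.cons (P.lf 5557848 0 0) (P.cons (P.lf 0 2753934 0) (P.cons (P.lf 0 24990 0) (P.lf 6246 0 0))))) (P.cons (P.cons (P.lf 7032540 0 0) (P.cons (P.lf 260685 0 0) (P.cons (P.lf 0 129171 0) (P.cons (P.lf 0 1170 0) P.nil)))) (P.cons (P.cons (P.lf 0 625830 0) (P.cons (P.lf 0 23196 0) (P.cons (P.lf 11493 0 0) P.nil))) (P.cons (P.cons (P.lf 0 27222 0) (P.cons (P.lf 0 1008 0) P.nil)) (P.cons (P.cons (P.lf 1290 0 0) P.nil) P.nil)))))) 1287)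
 EL.nil)))
noncomputable def S227_241_438_512_24 : EL := (EL.cons 4 (TM.mk (P.cons (P.cons (P.lf 0 60529680 0) (P.cons (P.lf 19915485 0 0) (P.cons (P.lf 3887358 0 0) (P.cons (P.lf 7992 0 0) (P.cons (P.lf 0 36978 0) (P.cons (P.lf 0 600 0) P.nil)))))) (P.cons (P.cons (P.lf 10817820 0 0) (P.cons (P.lf 5069547 0 0) (P.cons (P.lf 0 1898085 0) (P.cons (P.lf 0 89883 0) (P.cons (P.lf 20493 0 0) P.nil))))) (P.cons (P.cons (P.lf 7176675 0 0) (P.cons (P.lf 0 4182402 0) (P.cons (P.lf 73755 0 0) (P.cons (P.lf 26655 0 0) P.nil)))) (P.cons (P.cons (P.lf 0 1265427 0) (P.cons (P.lf 0 42828 0) (P.cons (P.lf 47442 0 0) P.nil))) (P.cons (P.cons (P.lf 0 125493 0) (P.cons (P.lf 72438 0 0) P.nil)) (P.cons (P.cons (P.lf 21690 0 0) P.nil) P.nil)))))) 28071)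
 (EL.cons 8 (TM.mk (P.cons (P.cons (P.lf 7000314 0 0) (P.cons (P.lf 0 2303244 0) (P.cons (P.lf 0 449574 0) (P.cons (P.lf 0 924 0) (P.cons (P.lf 4275 0 0) (P.cons (P.lf 69 0 0) P.nil)))))) (P.cons (P.cons (P.lf 0 3519972 0) (P.cons (P.lf 160209 0 0) (P.cons (P.lf 365226 0 0) (P.cons (P.lf 10695 0 0) (P.cons (P.lf 0 3756 0) P.nil))))) (P.cons (P.cons (P.lf 0 404439 0) (P.cons (P.lf 667125 0 0) (P.cons (P.lf 0 80964 0) (P.cons (P.lf 0 6453 0) P.nil)))) (P.cons (P.cons (P.lf 409512 0 0) (P.cons (P.lf 0 152754 0) (P.cons (P.lf 0 1947 0) P.nil))) (P.cons (P.cons (P.lf 0 34860 0) (P.cons (P.lf 0 8418 0) P.nil)) (P.cons (P.cons (P.lf 0 6531 0) P.nil) P.nil)))))) 9513)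
 (EL.cons 11 (TM.mk (P.cons (P.cons (P.lf 0 114444969 0) (P.cons (P.lf 48156477 0 0) (P.cons (P.lf 4878429 0 0) (P.cons (P.lf 0 1190448 0) (P.cons (P.lf 0 39123 0) (P.cons (P.lf 7149 0 0) P.nil)))))) (P.cons (P.cons (P.lf 47395971 0 0) (P.cons (P.lf 0 11531931 0) (P.cons (P.lf 0 1574658 0) (P.cons (P.lf 298845 0 0) (P.cons (P.lf 10686 0 0) P.nil))))) (P.cons (P.cons (P.lf 0 777303 0) (P.cons (P.lf 0 1533705 0) (P.cons (P.lf 0 65457 0) (P.cons (P.lf 34866 0 0) P.nil)))) (P.cons (P.cons (P.lf 0 982041 0) (P.cons (P.lf 67329 0 0) (P.cons (P.lf 23532 0 0) P.nil))) (P.cons (P.cons (P.lf 16017 0 0) (P.cons (P.lf 12609 0 0) P.nil)) (P.cons (P.cons (P.lf 7245 0 0) P.nil) P.nil)))))) 12306)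
 EL.nil)))
noncomputable def S227_241_438_512_25 : EL := (EL.cons 4 (TM.mk (P.cons (P.cons (P.lf 46752603 0 0) (P.cons (P.lf 6023196 0 0) (P.cons (P.lf 95865 0 0) (P.lf 0 31953 0)))) (P.cons (P.cons (P.lf 0 17102235 0) (P.cons (P.lf 0 5431911 0) (P.cons (P.lf 0 86454 0) (P.lf 28818 0 0)))) (P.cons (P.cons (P.lf 0 4463181 0) (P.cons (P.lf 1484436 0 0) (P.cons (P.lf 23625 0 0) (P.lf 0 7875 0)))) (P.cons (P.cons (P.lf 1862997 0 0) (P.cons (P.lf 0 60234 0) (P.cons (P.lf 0 957 0) P.nil))) (P.cons (P.cons (P.lf 0 16656 0) (P.cons (P.lf 0 20322 0) P.nil)) (P.cons (P.cons (P.lf 0 17757 0) P.nil) P.nil)))))) 5250)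
 (EL.cons 8 (TM.mk (P.cons (P.cons (P.lf 0 5406981 0) (P.cons (P.lf 0 696588 0) (P.cons (P.lf 0 11085 0) (P.lf 3693 0 0)))) (P.cons (P.cons (P.lf 3730353 0 0) (P.cons (P.lf 853977 0 0) (P.cons (P.lf 13590 0 0) (P.lf 0 4530 0)))) (P.cons (P.cons (P.lf 0 140376 0) (P.cons (P.lf 0 377280 0) (P.cons (P.lf 0 6003 0) (P.lf 2001 0 0)))) (P.cons (P.cons (P.lf 0 375342 0) (P.cons (P.lf 64632 0 0) (P.cons (P.lf 1026 0 0) P.nil))) (P.cons (P.cons (P.lf 72573 0 0) (P.cons (P.lf 0 603 0) P.nil)) (P.cons (P.cons (P.lf 654 0 0) P.nil) P.nil)))))) 2274)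
 (EL.cons 11 (TM.mk (P.cons (P.cons (P.lf 88396305 0 0) (P.cons (P.lf 3276729 0 0) (P.cons (P.lf 0 1623630 0) (P.cons (P.lf 0 14733 0) (P.lf 3681 0 0))))) (P.cons (P.cons (P.lf 0 53145741 0) (P.cons (P.lf 0 1970040 0) (P.cons (P.lf 976161 0 0) (P.cons (P.lf 8856 0 0) (P.lf 0 2214 0))))) (P.cons (P.cons (P.lf 6535635 0 0) (P.cons (P.lf 242265 0 0) (P.cons (P.lf 0 120042 0) (P.cons (P.lf 0 1089 0) P.nil)))) (P.cons (P.cons (P.lf 574911 0 0) (P.cons (P.lf 21309 0 0) (P.cons (P.lf 0 10557 0) P.nil))) (P.cons (P.cons (P.lf 0 31980 0) (P.cons (P.lf 0 1185 0) P.nil)) (P.cons (P.cons (P.lf 0 2412 0) P.nil) P.nil)))))) 1890)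
 EL.nil)))
noncomputable def S227_241_438_512_26 : EL := (EL.cons 4 (TM.mk (P.cons (P.cons (P.lf 10308375 0 0) (P.cons (P.lf 0 3391662 0) (P.cons (P.lf 0 662028 0) (P.cons (P.lf 0 1359 0) (P.cons (P.lf 6297 0 0) (P.cons (P.lf 102 0 0) P.nil)))))) (P.cons (P.cons (P.lf 0 5062239 0) (P.cons (P.lf 196062 0 0) (P.cons (P.lf 530040 0 0) (P.cons (P.lf 15732 0 0) (P.cons (P.lf 0 5457 0) P.nil))))) (P.cons (P.cons (P.lf 0 675033 0) (P.cons (P.lf 991260 0 0) (P.cons (P.lf 0 111714 0) (P.cons (P.lf 0 9315 0) P.nil)))) (P.cons (P.cons (P.lf 605148 0 0) (P.cons (P.lf 0 213750 0) (P.cons (P.lf 0 5223 0) P.nil))) (P.cons (P.cons (P.lf 0 43050 0) (P.cons (P.lf 0 16818 0) P.nil)) (P.cons (P.cons (P.lf 0 11304 0) P.nil) P.nil)))))) 14910)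
 (EL.cons 8 (TM.mk (P.cons (P.cons (P.lf 0 1192173 0) (P.cons (P.lf 392247 0 0) (P.cons (P.lf 76563 0 0) (P.cons (P.lf 156 0 0) (P.cons (P.lf 0 726 0) (P.cons (P.lf 0 9 0) P.nil)))))) (P.cons (P.cons (P.lf 971847 0 0) (P.cons (P.lf 0 149805 0) (P.cons (P.lf 0 86115 0) (P.cons (P.lf 0 1869 0) (P.cons (P.lf 867 0 0) P.nil))))) (P.cons (P.cons (P.lf 0 115098 0) (P.cons (P.lf 0 106167 0) (P.cons (P.lf 33006 0 0) (P.cons (P.lf 1665 0 0) P.nil)))) (P.cons (P.cons (P.lf 0 93225 0) (P.cons (P.lf 61683 0 0) (P.cons (P.lf 0 3783 0) P.nil))) (P.cons (P.cons (P.lf 27690 0 0) (P.cons (P.lf 0 6384 0) P.nil)) (P.cons (P.cons (P.lf 0 528 0) P.nil) P.nil)))))) 4776)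
 (EL.cons 11 (TM.mk (P.cons (P.cons (P.lf 19490301 0 0) (P.cons (P.lf 0 8201184 0) (P.cons (P.lf 0 830808 0) (P.cons (P.lf 202734 0 0) (P.cons (P.lf 6663 0 0) (P.cons (P.lf 0 1215 0) P.nil)))))) (P.cons (P.cons (P.lf 0 14159676 0) (P.cons (P.lf 4525650 0 0) (P.cons (P.lf 527679 0 0) (P.cons (P.lf 0 114219 0) (P.cons (P.lf 0 3900 0) P.nil))))) (P.cons (P.cons (P.lf 2600163 0 0) (P.cons (P.lf 0 329748 0) (P.cons (P.lf 0 70335 0) (P.cons (P.lf 9402 0 0) P.nil)))) (P.cons (P.cons (P.lf 153372 0 0) (P.cons (P.lf 0 100683 0) (P.cons (P.lf 0 8451 0) P.nil))) (P.cons (P.cons (P.lf 0 57456 0) (P.cons (P.lf 1218 0 0) P.nil)) (P.cons (P.cons (P.lf 0 840 0) P.nil) P.nil)))))) 7878)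
 EL.nil)))
noncomputable def S227_241_438_512_27 : EL := (EL.cons 13 (TM.mk (P.lf 0 4294967296 0) 0)
 EL.nil)
noncomputable def S227_241_438_512_28 : EL := (EL.cons 13 (TM.mk (P.cons (P.cons (P.lf 0 946987682 0) (P.cons (P.lf 433579704 0 0) (P.cons (P.lf 6900992 0 0) (P.lf 0 2300328 0)))) (P.cons (P.cons (P.lf 118636050 0 0) (P.cons (P.lf 15284032 0 0) (P.cons (P.lf 243264 0 0) (P.lf 0 81088 0)))) (P.cons (P.cons (P.lf 15006834 0 0) (P.cons (P.lf 0 2162992 0) (P.cons (P.lf 0 34424 0) (P.lf 11472 0 0)))) (P.cons (P.cons (P.lf 0 1041979 0) (P.cons (P.lf 0 82136 0) (P.cons (P.lf 0 1304 0) P.nil))) (P.cons (P.cons (P.lf 0 58495 0) (P.cons (P.lf 5244 0 0) P.nil)) (P.cons (P.cons (P.lf 2275 0 0) P.nil) P.nil)))))) 1286)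
 EL.nil)
noncomputable def S227_241_438_512_29 : EL := (EL.cons 13 (TM.mk (P.cons (P.cons (P.lf 0 208799184 0) (P.cons (P.lf 191198028 0 0) (P.cons (P.lf 0 40726980 0) (P.cons (P.lf 0 2407707 0) (P.cons (P.lf 453350 0 0) (P.cons (P.lf 7392 0 0) P.nil)))))) (P.cons (P.cons (P.lf 52315591 0 0) (P.cons (P.lf 0 17212887 0) (P.cons (P.lf 0 3359832 0) (P.cons (P.lf 0 6908 0) (P.cons (P.lf 31961 0 0) P.nil))))) (P.cons (P.cons (P.lf 3340668 0 0) (P.cons (P.lf 0 4828079 0) (P.cons (P.lf 305477 0 0) (P.cons (P.lf 37783 0 0) P.nil)))) (P.cons (P.cons (P.lf 0 1288527 0) (P.cons (P.lf 186843 0 0) (P.cons (P.lf 34952 0 0) P.nil))) (P.cons (P.cons (P.lf 0 20666 0) (P.cons (P.lf 41191 0 0) P.nil)) (P.cons (P.cons (P.lf 11516 0 0) P.nil) P.nil)))))) 19403)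
 EL.nil)
noncomputable def S227_241_438_512_30 : EL := (EL.cons 13 (TM.mk (P.cons (P.lf 731445116 0 0) (P.cons (P.lf 0 228474868 0) (P.cons (P.lf 0 2007284 0) (P.cons (P.lf 199892 0 0) (P.cons (P.lf 3020 0 0) (P.cons (P.lf 0 164 0) P.nil)))))) 40)
 EL.nil)
noncomputable def S227_241_438_512_31 : EL := (EL.cons 13 (TM.mk (P.cons (P.cons (P.lf 161274688 0 0) (P.cons (P.lf 0 73839853 0) (P.cons (P.lf 0 1175258 0) (P.lf 391752 0 0)))) (P.cons (P.cons (P.lf 0 70579965 0) (P.cons (P.lf 20461770 0 0) (P.cons (P.lf 325676 0 0) (P.lf 0 108558 0)))) (P.cons (P.cons (P.lf 3312669 0 0) (P.cons (P.lf 1384048 0 0) (P.cons (P.lf 22028 0 0) (P.lf 0 7342 0)))) (P.cons (P.cons (P.lf 1075273 0 0) (P.cons (P.lf 0 114110 0) (P.cons (P.lf 0 1816 0) P.nil))) (P.cons (P.cons (P.lf 0 43309 0) (P.cons (P.lf 0 7289 0) P.nil)) (P.cons (P.cons (P.lf 0 4804 0) P.nil) P.nil)))))) 1863)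
 EL.nil)
noncomputable def S227_241_438_512_32 : EL := (EL.cons 13 (TM.mk (P.cons (P.cons (P.lf 35559093 0 0) (P.cons (P.lf 0 32561566 0) (P.cons (P.lf 6935920 0 0) (P.cons (P.lf 410039 0 0) (P.cons (P.lf 0 77206 0) (P.cons (P.lf 0 1258 0) P.nil)))))) (P.cons (P.cons (P.lf 0 20016764 0) (P.cons (P.lf 13102364 0 0) (P.cons (P.lf 0 1594321 0) (P.cons (P.lf 0 126903 0) (P.cons (P.lf 18673 0 0) P.nil))))) (P.cons (P.cons (P.lf 2116468 0 0) (P.cons (P.lf 0 4062 0) (P.cons (P.lf 0 249787 0) (P.cons (P.lf 0 7927 0) P.nil)))) (P.cons (P.cons (P.lf 431317 0 0) (P.cons (P.lf 0 305597 0) (P.cons (P.lf 10622 0 0) P.nil))) (P.cons (P.cons (P.lf 0 65751 0) (P.cons (P.lf 1334 0 0) P.nil)) (P.cons (P.cons (P.lf 0 3862 0) P.nil) P.nil)))))) 14342)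
 EL.nil)
noncomputable def S227_241_438_512_33 : EL := (EL.cons 14 (TM.mk (P.lf 8589934592 0 0) 0)
 EL.nil)
noncomputable def S227_241_438_512_34 : EL := (EL.cons 14 (TM.mk (P.cons (P.cons (P.lf 1893975364 0 0) (P.cons (P.lf 0 867159408 0) (P.cons (P.lf 0 13801984 0) (P.lf 4600656 0 0)))) (P.cons (P.cons (P.lf 0 237272100 0) (P.cons (P.lf 0 30568064 0) (P.cons (P.lf 0 486528 0) (P.lf 162176 0 0)))) (P.cons (P.cons (P.lf 0 30013668 0) (P.cons (P.lf 4325984 0 0) (P.cons (P.lf 68848 0 0) (P.lf 0 22944 0)))) (P.cons (P.cons (P.lf 2083958 0 0) (P.cons (P.lf 164272 0 0) (P.cons (P.lf 2608 0 0) P.nil))) (P.cons (P.cons (P.lf 116990 0 0) (P.cons (P.lf 0 10488 0) P.nil)) (P.cons (P.cons (P.lf 0 4550 0) P.nil) P.nil)))))) 2572)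
 EL.nil)
noncomputable def S227_241_438_512_35 : EL := (EL.cons 14 (TM.mk (P.cons (P.cons (P.lf 417598368 0 0) (P.cons (P.lf 0 382396056 0) (P.cons (P.lf 81453960 0 0) (P.cons (P.lf 4815414 0 0) (P.cons (P.lf 0 906700 0) (P.cons (P.lf 0 14784 0) P.nil)))))) (P.cons (P.cons (P.lf 0 104631182 0) (P.cons (P.lf 34425774 0 0) (P.cons (P.lf 6719664 0 0) (P.cons (P.lf 13816 0 0) (P.cons (P.lf 0 63922 0) P.nil))))) (P.cons (P.cons (P.lf 0 6681336 0) (P.cons (P.lf 9656158 0 0) (P.cons (P.lf 0 610954 0) (P.cons (P.lf 0 75566 0) P.nil)))) (P.cons (P.cons (P.lf 2577054 0 0) (P.cons (P.lf 0 373686 0) (P.cons (P.lf 0 69904 0) P.nil))) (P.cons (P.cons (P.lf 41332 0 0) (P.cons (P.lf 0 82382 0) P.nil)) (P.cons (P.cons (P.lf 0 23032 0) P.nil) P.nil)))))) 38806)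
 EL.nil)
noncomputable def S227_241_438_512_36 : EL := (EL.cons 14 (TM.mk (P.cons (P.lf 0 1462890232 0) (P.cons (P.lf 456949736 0 0) (P.cons (P.lf 4014568 0 0) (P.cons (P.lf 0 399784 0) (P.cons (P.lf 0 6040 0) (P.cons (P.lf 328 0 0) P.nil)))))) 80)
 EL.nil)
noncomputable def S227_241_438_512_37 : EL := (EL.cons 14 (TM.mk (P.cons (P.cons (P.lf 0 322549376 0) (P.cons (P.lf 147679706 0 0) (P.cons (P.lf 2350516 0 0) (P.lf 0 783504 0)))) (P.cons (P.cons (P.lf 141159930 0 0) (P.cons (P.lf 0 40923540 0) (P.cons (P.lf 0 651352 0) (P.lf 217116 0 0)))) (P.cons (P.cons (P.lf 0 6625338 0) (P.cons (P.lf 0 2768096 0) (P.cons (P.lf 0 44056 0) (P.lf 14684 0 0)))) (P.cons (P.cons (P.lf 0 2150546 0) (P.cons (P.lf 228220 0 0) (P.cons (P.lf 3632 0 0) P.nil))) (P.cons (P.cons (P.lf 86618 0 0) (P.cons (P.lf 14578 0 0) P.nil)) (P.cons (P.cons (P.lf 9608 0 0) P.nil) P.nil)))))) 3726)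
 EL.nil)
noncomputable def S227_241_438_512_38 : EL := (EL.cons 14 (TM.mk (P.cons (P.cons (P.lf 0 71118186 0) (P.cons (P.lf 65123132 0 0) (P.cons (P.lf 0 13871840 0) (P.cons (P.lf 0 820078 0) (P.cons (P.lf 154412 0 0) (P.cons (P.lf 2516 0 0) P.nil)))))) (P.cons (P.cons (P.lf 40033528 0 0) (P.cons (P.lf 0 26204728 0) (P.cons (P.lf 3188642 0 0) (P.cons (P.lf 253806 0 0) (P.cons (P.lf 0 37346 0) P.nil))))) (P.cons (P.cons (P.lf 0 4232936 0) (P.cons (P.lf 8124 0 0) (P.cons (P.lf 499574 0 0) (P.cons (P.lf 15854 0 0) P.nil)))) (P.cons (P.cons (P.lf 0 862634 0) (P.cons (P.lf 611194 0 0) (P.cons (P.lf 0 21244 0) P.nil))) (P.cons (P.cons (P.lf 131502 0 0) (P.cons (P.lf 0 2668 0) P.nil)) (P.cons (P.cons (P.lf 7724 0 0) P.nil) P.nil)))))) 28684)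
 EL.nil)
noncomputable def S227_241_438_512_39 : EL := (EL.cons 14 (TM.mk (P.cons (P.lf 249134356 0 0) (P.cons (P.lf 0 155639672 0) (P.cons (P.lf 22940490 0 0) (P.cons (P.lf 563286 0 0) (P.cons (P.lf 0 38600 0) (P.cons (P.lf 0 1128 0) P.nil)))))) 108)
 EL.nil)
noncomputable def S227_241_438_512_40 : EL := (EL.cons 14 (TM.mk (P.cons (P.cons (P.lf 54931072 0 0) (P.cons (P.lf 0 25150272 0) (P.cons (P.lf 0 400298 0) (P.lf 133432 0 0)))) (P.cons (P.cons (P.lf 0 41198256 0) (P.cons (P.lf 14825356 0 0) (P.cons (P.lf 235964 0 0) (P.lf 0 78654 0)))) (P.cons (P.cons (P.lf 8486704 0 0) (P.cons (P.lf 0 1636532 0) (P.cons (P.lf 0 26046 0) (P.lf 8682 0 0)))) (P.cons (P.cons (P.lf 94786 0 0) (P.cons (P.lf 0 212116 0) (P.cons (P.lf 0 3376 0) P.nil))) (P.cons (P.cons (P.lf 0 138590 0) (P.cons (P.lf 10164 0 0) P.nil)) (P.cons (P.cons (P.lf 2162 0 0) P.nil) P.nil)))))) 3750)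
 EL.nil)
noncomputable def S227_241_438_512_41 : EL := (EL.cons 14 (TM.mk (P.cons (P.cons (P.lf 12111628 0 0) (P.cons (P.lf 0 11090654 0) (P.cons (P.lf 2362412 0 0) (P.cons (P.lf 139660 0 0) (P.cons (P.lf 0 26296 0) (P.cons (P.lf 0 428 0) P.nil)))))) (P.cons (P.cons (P.lf 0 10601022 0) (P.cons (P.lf 7927026 0 0) (P.cons (P.lf 0 1280960 0) (P.cons (P.lf 0 86848 0) (P.cons (P.lf 14574 0 0) P.nil))))) (P.cons (P.cons (P.lf 2817264 0 0) (P.cons (P.lf 0 1364932 0) (P.cons (P.lf 78060 0 0) (P.cons (P.lf 10418 0 0) P.nil)))) (P.cons (P.cons (P.lf 0 56246 0) (P.cons (P.lf 0 118932 0) (P.cons (P.lf 32328 0 0) P.nil))) (P.cons (P.cons (P.lf 0 72074 0) (P.cons (P.lf 34144 0 0) P.nil)) (P.cons (P.cons (P.lf 5442 0 0) P.nil) P.nil)))))) 16500)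
 EL.nil)
noncomputable def S227_241_438_512_42 : EL := (EL.cons 14 (TM.mk (P.cons (P.lf 0 42428286 0) (P.cons (P.lf 39758816 0 0) (P.cons (P.lf 0 12069796 0) (P.cons (P.lf 1040076 0 0) (P.cons (P.lf 54328 0 0) (P.cons (P.lf 0 2546 0) P.nil)))))) 172)
 EL.nil)
noncomputable def S227_241_438_512_43 : EL := (EL.cons 14 (TM.mk (P.cons (P.cons (P.lf 0 9354916 0) (P.cons (P.lf 4283162 0 0) (P.cons (P.lf 68172 0 0) (P.lf 0 22724 0)))) (P.cons (P.cons (P.lf 9938290 0 0) (P.cons (P.lf 0 3862692 0) (P.cons (P.lf 0 61478 0) (P.lf 20492 0 0)))) (P.cons (P.cons (P.lf 0 3611216 0) (P.cons (P.lf 1055600 0 0) (P.cons (P.lf 16800 0 0) (P.lf 0 5600 0)))) (P.cons (P.cons (P.lf 413504 0 0) (P.cons (P.lf 0 42832 0) (P.cons (P.lf 0 680 0) P.nil))) (P.cons (P.cons (P.lf 34488 0 0) (P.cons (P.lf 0 14450 0) P.nil)) (P.cons (P.cons (P.lf 0 8060 0) P.nil) P.nil)))))) 3450)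
 EL.nil)
noncomputable def S227_241_438_512_44 : EL := (EL.cons 14 (TM.mk (P.cons (P.cons (P.lf 0 2062644 0) (P.cons (P.lf 1888768 0 0) (P.cons (P.lf 0 402324 0) (P.cons (P.lf 0 23784 0) (P.cons (P.lf 4478 0 0) (P.cons (P.lf 72 0 0) P.nil)))))) (P.cons (P.cons (P.lf 2449672 0 0) (P.cons (P.lf 0 1939972 0) (P.cons (P.lf 343822 0 0) (P.cons (P.lf 22220 0 0) (P.cons (P.lf 0 3880 0) P.nil))))) (P.cons (P.cons (P.lf 0 1038058 0) (P.cons (P.lf 648954 0 0) (P.cons (P.lf 0 80330 0) (P.cons (P.lf 0 6328 0) P.nil)))) (P.cons (P.cons (P.lf 153926 0 0) (P.cons (P.lf 0 48132 0) (P.cons (P.lf 0 2060 0) P.nil))) (P.cons (P.cons (P.lf 11084 0 0) (P.cons (P.lf 0 13140 0) P.nil)) (P.cons (P.cons (P.lf 0 4910 0) P.nil) P.nil)))))) 9500)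
 EL.nil)
noncomputable def S227_241_438_512_45 : EL := (EL.cons 14 (TM.mk (P.cons (P.cons (P.lf 92075324 0 0) (P.cons (P.lf 0 126470468 0) (P.cons (P.lf 55891746 0 0) (P.cons (P.lf 0 6323008 0) (P.cons (P.lf 0 1021718 0) (P.cons (P.lf 124160 0 0) P.nil)))))) (P.cons (P.cons (P.lf 0 34604840 0) (P.cons (P.lf 27229568 0 0) (P.cons (P.lf 0 2738374 0) (P.cons (P.lf 0 1179990 0) (P.cons (P.lf 0 11770 0) P.nil))))) (P.cons (P.cons (P.lf 0 42128 0) (P.cons (P.lf 3771394 0 0) (P.cons (P.lf 0 1874796 0) (P.cons (P.lf 17716 0 0) P.nil)))) (P.cons (P.cons (P.lf 1219658 0 0) (P.cons (P.lf 0 843258 0) (P.cons (P.lf 6656 0 0) P.nil))) (P.cons (P.cons (P.lf 0 58422 0) (P.cons (P.lf 0 57656 0) P.nil)) (P.cons (P.cons (P.lf 0 18490 0) P.nil) P.nil)))))) 123106)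
 EL.nil)
noncomputable def S227_241_438_512_46 : EL := (EL.cons 15 (TM.mk (P.lf 4294967296 0 0) 0)
 EL.nil)
noncomputable def S227_241_438_512_47 : EL := (EL.cons 15 (TM.mk (P.cons (P.cons (P.lf 946987682 0 0) (P.cons (P.lf 0 433579704 0) (P.cons (P.lf 0 6900992 0) (P.lf 2300328 0 0)))) (P.cons (P.cons (P.lf 0 118636050 0) (P.cons (P.lf 0 15284032 0) (P.cons (P.lf 0 243264 0) (P.lf 81088 0 0)))) (P.cons (P.cons (P.lf 0 15006834 0) (P.cons (P.lf 2162992 0 0) (P.cons (P.lf 34424 0 0) (P.lf 0 11472 0)))) (P.cons (P.cons (P.lf 1041979 0 0) (P.cons (P.lf 82136 0 0) (P.cons (P.lf 1304 0 0) P.nil))) (P.cons (P.cons (P.lf 58495 0 0) (P.cons (P.lf 0 5244 0) P.nil)) (P.cons (P.cons (P.lf 0 2275 0) P.nil) P.nil)))))) 1286)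
 EL.nil)
noncomputable def S227_241_438_512_48 : EL := (EL.cons 15 (TM.mk (P.cons (P.cons (P.lf 208799184 0 0) (P.cons (P.lf 0 191198028 0) (P.cons (P.lf 40726980 0 0) (P.cons (P.lf 2407707 0 0) (P.cons (P.lf 0 453350 0) (P.cons (P.lf 0 7392 0) P.nil)))))) (P.cons (P.cons (P.lf 0 52315591 0) (P.cons (P.lf 17212887 0 0) (P.cons (P.lf 3359832 0 0) (P.cons (P.lf 6908 0 0) (P.cons (P.lf 0 31961 0) P.nil))))) (P.cons (P.cons (P.lf 0 3340668 0) (P.cons (P.lf 4828079 0 0) (P.cons (P.lf 0 305477 0) (P.cons (P.lf 0 37783 0) P.nil)))) (P.cons (P.cons (P.lf 1288527 0 0) (P.cons (P.lf 0 186843 0) (P.cons (P.lf 0 34952 0) P.nil))) (P.cons (P.cons (P.lf 20666 0 0) (P.cons (P.lf 0 41191 0) P.nil)) (P.cons (P.cons (P.lf 0 11516 0) P.nil) P.nil)))))) 19403)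
 EL.nil)
noncomputable def S227_241_438_512 : SL := (SL.cons S227_241_438_512_0 (SL.cons S227_241_438_512_1 (SL.cons S227_241_438_512_2 (SL.cons S227_241_438_512_3 (SL.cons S227_241_438_512_4 (SL.cons S227_241_438_512_5 (SL.cons S227_241_438_512_6 (SL.cons S227_241_438_512_7 (SL.cons S227_241_438_512_8 (SL.cons S227_241_438_512_9 (SL.cons S227_241_438_512_10 (SL.cons S227_241_438_512_11 (SL.cons S227_241_438_512_12 (SL.cons S227_241_438_512_13 (SL.cons S227_241_438_512_14 (SL.cons S227_241_438_512_15 (SL.cons S227_241_438_512_16 (SL.cons S227_241_438_512_17 (SL.cons S227_241_438_512_18 (SL.cons S227_241_438_512_19 (SL.cons S227_241_438_512_20 (SL.cons S227_241_438_512_21 (SL.cons S227_241_438_512_22 (SL.cons S227_241_438_512_23 (SL.cons S227_241_438_512_24 (SL.cons S227_241_438_512_25 (SL.cons S227_241_438_512_26 (SL.cons S227_241_438_512_27 (SL.cons S227_241_438_512_28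 (SL.cons S227_241_438_512_29 (SL.cons S227_241_438_512_30 (SL.cons S227_241_438_512_31 (SL.cons S227_241_438_512_32 (SL.cons S227_241_438_512_33 (SL.cons S227_241_438_512_34 (SL.cons S227_241_438_512_35 (SL.cons S227_241_438_512_36 (SL.cons S227_241_438_512_37 (SL.cons S227_241_438_512_38 (SL.cons S227_241_438_512_39 (SL.cons S227_241_438_512_40 (SL.cons S227_241_438_512_41 (SL.cons S227_241_438_512_42 (SL.cons S227_241_438_512_43 (SL.cons S227_241_438_512_44 (SL.cons S227_241_438_512_45 (SL.cons S227_241_438_512_46 (SL.cons S227_241_438_512_47 (SL.cons S227_241_438_512_48 SL.nil)))))))))))))))))))))))))))))))))))))))))))))))))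
noncomputable def S227_241_512_586_0 : EL := (EL.cons 0 (TM.mk (P.cons (P.lf 8236751121 0 0) (P.cons (P.lf 136792680 0 0) (P.cons (P.lf 0 20162540 0) (P.cons (P.lf 0 495075 0) (P.cons (P.lf 33925 0 0) (P.cons (P.lf 991 0 0) P.nil)))))) 101)
 (EL.cons 1 (TM.mk (P.cons (P.lf 0 673184881 0) (P.cons (P.lf 202366545 0 0) (P.cons (P.lf 5530590 0 0) (P.cons (P.lf 0 526580 0) (P.cons (P.lf 0 13798 0) (P.cons (P.lf 714 0 0) P.nil)))))) 98)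
 (EL.cons 5 (TM.mk (P.cons (P.lf 4372821786 0 0) (P.cons (P.lf 0 48637396 0) (P.cons (P.lf 7168902 0 0) (P.cons (P.lf 176026 0 0) (P.cons (P.lf 0 12058 0) (P.cons (P.lf 0 354 0) P.nil)))))) 135)
 (EL.cons 9 (TM.mk (P.lf 6442450944 0 0) 2)
 EL.nil))))
noncomputable def S227_241_512_586_1 : EL := (EL.cons 0 (TM.mk (P.cons (P.cons (P.lf 784218560 0 0) (P.cons (P.lf 0 765191117 0) (P.cons (P.lf 12179028 0 0) (P.lf 4059675 0 0)))) (P.cons (P.cons (P.lf 0 391030194 0) (P.cons (P.lf 0 82210832 0) (P.cons (P.lf 1308486 0 0) (P.lf 436159 0 0)))) (P.cons (P.cons (P.lf 0 73086380 0) (P.cons (P.lf 10011821 0 0) (P.cons (P.lf 0 159339 0) (P.lf 0 53109 0)))) (P.cons (P.cons (P.lf 6505490 0 0) (P.cons (P.lf 907423 0 0) (P.cons (P.lf 0 14433 0) P.nil))) (P.cons (P.cons (P.lf 655728 0 0) (P.cons (P.lf 0 46054 0) P.nil)) (P.cons (P.cons (P.lf 0 28056 0) P.nil) P.nil)))))) 16159)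
 (EL.cons 1 (TM.mk (P.cons (P.cons (P.lf 948702482 0 0) (P.cons (P.lf 166061461 0 0) (P.cons (P.lf 0 2643081 0) (P.lf 0 881026 0)))) (P.cons (P.cons (P.lf 204575703 0 0) (P.cons (P.lf 0 41580336 0) (P.cons (P.lf 661803 0 0) (P.lf 220599 0 0)))) (P.cons (P.cons (P.lf 0 28968857 0) (P.cons (P.lf 0 5036828 0) (P.cons (P.lf 80161 0 0) (P.lf 26715 0 0)))) (P.cons (P.cons (P.lf 0 4103088 0) (P.cons (P.lf 362534 0 0) (P.cons (P.lf 0 5764 0) P.nil))) (P.cons (P.cons (P.lf 235518 0 0) (P.cons (P.lf 37421 0 0) P.nil)) (P.cons (P.cons (P.lf 25590 0 0) P.nil) P.nil)))))) 9582)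
 (EL.cons 5 (TM.mk (P.cons (P.cons (P.lf 0 158767455 0) (P.cons (P.lf 0 465017552 0) (P.cons (P.lf 7401370 0 0) (P.lf 2467122 0 0)))) (P.cons (P.cons (P.lf 0 115165447 0) (P.cons (P.lf 3247656 0 0) (P.cons (P.lf 0 51688 0) (P.lf 0 17224 0)))) (P.cons (P.cons (P.lf 7906843 0 0) (P.cons (P.lf 117336 0 0) (P.cons (P.lf 0 1872 0) (P.lf 0 630 0)))) (P.cons (P.cons (P.lf 0 259453 0) (P.cons (P.lf 0 183002 0) (P.cons (P.lf 2912 0 0) P.nil))) (P.cons (P.cons (P.lf 0 151725 0) (P.cons (P.lf 7446 0 0) P.nil)) (P.cons (P.cons (P.lf 5303 0 0) P.nil) P.nil)))))) 9168)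
 (EL.cons 9 (TM.mk (P.cons (P.cons (P.lf 105940419 0 0) (P.cons (P.lf 0 650369556 0) (P.cons (P.lf 10351488 0 0) (P.lf 3450492 0 0)))) (P.cons (P.cons (P.lf 0 224292699 0) (P.cons (P.lf 0 22926048 0) (P.cons (P.lf 364896 0 0) (P.lf 121632 0 0)))) (P.cons (P.cons (P.lf 0 15952431 0) (P.cons (P.lf 3244488 0 0) (P.cons (P.lf 0 51636 0) (P.lf 0 17208 0)))) (P.cons (P.cons (P.lf 1811992 0 0) (P.cons (P.lf 123204 0 0) (P.cons (P.lf 0 1956 0) P.nil))) (P.cons (P.cons (P.lf 71842 0 0) (P.cons (P.lf 0 7866 0) P.nil)) (P.cons (P.cons (P.lf 0 4108 0) P.nil) P.nil)))))) 1948)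
 (EL.cons 2 (TM.mk (P.cons (P.cons (P.lf 486612787 0 0) (P.cons (P.lf 0 18038070 0) (P.cons (P.lf 0 8937928 0) (P.cons (P.lf 81104 0 0) (P.lf 20275 0 0))))) (P.cons (P.cons (P.lf 0 140563155 0) (P.cons (P.lf 5210482 0 0) (P.cons (P.lf 2581813 0 0) (P.cons (P.lf 0 23428 0) (P.lf 0 5855 0))))) (P.cons (P.cons (P.lf 0 6593006 0) (P.cons (P.lf 244392 0 0) (P.cons (P.lf 121097 0 0) (P.cons (P.lf 0 1096 0) P.nil)))) (P.cons (P.cons (P.lf 586715 0 0) (P.cons (P.lf 0 21746 0) (P.cons (P.lf 0 10774 0) P.nil))) (P.cons (P.cons (P.lf 25520 0 0) (P.cons (P.lf 0 945 0) P.nil)) (P.cons (P.cons (P.lf 0 1209 0) P.nil) P.nil)))))) 1227)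
 (EL.cons 6 (TM.mk (P.cons (P.cons (P.lf 1496034807 0 0) (P.cons (P.lf 0 55455969 0) (P.cons (P.lf 0 27478629 0) (P.cons (P.lf 249351 0 0) (P.lf 62337 0 0))))) (P.cons (P.cons (P.lf 52736430 0 0) (P.cons (P.lf 0 1954866 0) (P.cons (P.lf 0 968643 0) (P.cons (P.lf 8787 0 0) (P.lf 2196 0 0))))) (P.cons (P.cons (P.lf 0 7463244 0) (P.cons (P.lf 276651 0 0) (P.cons (P.lf 137079 0 0) (P.cons (P.lf 0 1242 0) P.nil)))) (P.cons (P.cons (P.lf 0 283407 0) (P.cons (P.lf 10503 0 0) (P.cons (P.lf 5205 0 0) P.nil))) (P.cons (P.cons (P.lf 18108 0 0) (P.cons (P.lf 0 669 0) P.nil)) (P.cons (P.cons (P.lf 792 0 0) P.nil) P.nil)))))) 1155)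
 EL.nil))))))
noncomputable def S227_241_512_586_2 : EL := (EL.cons 0 (TM.mk (P.cons (P.cons (P.lf 23564265 0 0) (P.cons (P.lf 0 156153774 0) (P.cons (P.lf 73037468 0 0) (P.cons (P.lf 0 1417400 0) (P.cons (P.lf 0 730753 0) (P.cons (P.lf 11926 0 0) P.nil)))))) (P.cons (P.cons (P.lf 0 58071054 0) (P.cons (P.lf 67465022 0 0) (P.cons (P.lf 13658640 0 0) (P.cons (P.lf 0 826897 0) (P.cons (P.lf 0 152581 0) P.nil))))) (P.cons (P.cons (P.lf 11789243 0 0) (P.cons (P.lf 20864486 0 0) (P.cons (P.lf 0 1698689 0) (P.cons (P.lf 0 67187 0) P.nil)))) (P.cons (P.cons (P.lf 6006626 0 0) (P.cons (P.lf 0 1208325 0) (P.cons (P.lf 0 254260 0) P.nil))) (P.cons (P.cons (P.lf 0 166770 0) (P.cons (P.lf 0 350876 0) P.nil)) (P.cons (P.cons (P.lf 0 105529 0) P.nil) P.nil)))))) 155441)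
 (EL.cons 1 (TM.mk (P.cons (P.cons (P.lf 31383180 0 0) (P.cons (P.lf 0 188317811 0) (P.cons (P.lf 0 23670246 0) (P.cons (P.lf 1848006 0 0) (P.cons (P.lf 276207 0 0) (P.cons (P.lf 0 4501 0) P.nil)))))) (P.cons (P.cons (P.lf 0 60155169 0) (P.cons (P.lf 0 55661464 0) (P.cons (P.lf 6520503 0 0) (P.cons (P.lf 115939 0 0) (P.cons (P.lf 0 58357 0) P.nil))))) (P.cons (P.cons (P.lf 0 18904157 0) (P.cons (P.lf 6389667 0 0) (P.cons (P.lf 1116752 0 0) (P.cons (P.lf 0 72671 0) P.nil)))) (P.cons (P.cons (P.lf 1302656 0 0) (P.cons (P.lf 1694700 0 0) (P.cons (P.lf 0 85449 0) P.nil))) (P.cons (P.cons (P.lf 520712 0 0) (P.cons (P.lf 0 51970 0) P.nil)) (P.cons (P.cons (P.lf 0 7431 0) P.nil) P.nil)))))) 79012)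
 (EL.cons 5 (TM.mk (P.cons (P.cons (P.lf 0 6404020 0) (P.cons (P.lf 31279891 0 0) (P.cons (P.lf 48826199 0 0) (P.cons (P.lf 0 1736063 0) (P.cons (P.lf 0 510865 0) (P.cons (P.lf 8320 0 0) P.nil)))))) (P.cons (P.cons (P.lf 12287335 0 0) (P.cons (P.lf 26480898 0 0) (P.cons (P.lf 0 413706 0) (P.cons (P.lf 0 140750 0) (P.cons (P.lf 0 95 0) P.nil))))) (P.cons (P.cons (P.lf 4063546 0 0) (P.cons (P.lf 0 1838112 0) (P.cons (P.lf 0 134794 0) (P.cons (P.lf 14962 0 0) P.nil)))) (P.cons (P.cons (P.lf 0 809284 0) (P.cons (P.lf 0 107776 0) (P.cons (P.lf 44587 0 0) P.nil))) (P.cons (P.cons (P.lf 0 36258 0) (P.cons (P.lf 65473 0 0) P.nil)) (P.cons (P.cons (P.lf 21515 0 0) P.nil) P.nil)))))) 78463)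
 (EL.cons 9 (TM.mk (P.cons (P.cons (P.lf 1742095 0 0) (P.cons (P.lf 0 21389506 0) (P.cons (P.lf 65995665 0 0) (P.cons (P.lf 0 1976497 0) (P.cons (P.lf 0 680025 0) (P.cons (P.lf 11088 0 0) P.nil)))))) (P.cons (P.cons (P.lf 0 7376590 0) (P.cons (P.lf 44530986 0 0) (P.cons (P.lf 3920028 0 0) (P.cons (P.lf 0 383602 0) (P.cons (P.lf 0 47941 0) P.nil))))) (P.cons (P.cons (P.lf 7284060 0 0) (P.cons (P.lf 4923853 0 0) (P.cons (P.lf 0 651850 0) (P.cons (P.lf 0 7867 0) P.nil)))) (P.cons (P.cons (P.lf 1170354 0 0) (P.cons (P.lf 0 474166 0) (P.cons (P.lf 0 40419 0) P.nil))) (P.cons (P.cons (P.lf 0 84304 0) (P.cons (P.lf 0 52305 0) P.nil)) (P.cons (P.cons (P.lf 0 14110 0) P.nil) P.nil)))))) 28579)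
 (EL.cons 2 (TM.mk (P.cons (P.cons (P.lf 16003833 0 0) (P.cons (P.lf 0 98840981 0) (P.cons (P.lf 4911693 0 0) (P.cons (P.lf 2270525 0 0) (P.cons (P.lf 0 63748 0) (P.cons (P.lf 0 13404 0) P.nil)))))) (P.cons (P.cons (P.lf 0 38505532 0) (P.cons (P.lf 26343916 0 0) (P.cons (P.lf 0 612945 0) (P.cons (P.lf 0 581563 0) (P.cons (P.lf 14731 0 0) P.nil))))) (P.cons (P.cons (P.lf 7160675 0 0) (P.cons (P.lf 2556236 0 0) (P.cons (P.lf 0 281025 0) (P.cons (P.lf 0 63933 0) P.nil)))) (P.cons (P.cons (P.lf 1448195 0 0) (P.cons (P.lf 0 248180 0) (P.cons (P.lf 0 16290 0) P.nil))) (P.cons (P.cons (P.lf 0 75577 0) (P.cons (P.lf 0 19726 0) P.nil)) (P.cons (P.cons (P.lf 0 12183 0) P.nil) P.nil)))))) 23393)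
 (EL.cons 6 (TM.mk (P.cons (P.cons (P.lf 49201938 0 0) (P.cons (P.lf 0 303875190 0) (P.cons (P.lf 15100452 0 0) (P.cons (P.lf 6980472 0 0) (P.cons (P.lf 0 195996 0) (P.cons (P.lf 0 41214 0) P.nil)))))) (P.cons (P.cons (P.lf 0 102433920 0) (P.cons (P.lf 0 17498016 0) (P.cons (P.lf 3009786 0 0) (P.cons (P.lf 474480 0 0) (P.cons (P.lf 0 18228 0) P.nil))))) (P.cons (P.cons (P.lf 0 11326260 0) (P.cons (P.lf 3058188 0 0) (P.cons (P.lf 68244 0 0) (P.cons (P.lf 0 62778 0) P.nil)))) (P.cons (P.cons (P.lf 1090716 0 0) (P.cons (P.lf 180240 0 0) (P.cons (P.lf 0 31722 0) P.nil))) (P.cons (P.cons (P.lf 120318 0 0) (P.cons (P.lf 0 15252 0) P.nil)) (P.cons (P.cons (P.lf 0 4758 0) P.nil) P.nil)))))) 18912)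
 EL.nil))))))
noncomputable def S227_241_512_586_3 : EL := (EL.cons 0 (TM.mk (P.cons (P.lf 218965742 0 0) (P.cons (P.lf 0 136792680 0) (P.cons (P.lf 20162540 0 0) (P.cons (P.lf 495075 0 0) (P.cons (P.lf 0 33925 0) (P.cons (P.lf 0 991 0) P.nil)))))) 101)
 (EL.cons 1 (TM.mk (P.cons (P.lf 673184881 0 0) (P.cons (P.lf 0 202366545 0) (P.cons (P.lf 0 5530590 0) (P.cons (P.lf 526580 0 0) (P.cons (P.lf 13798 0 0) (P.cons (P.lf 0 714 0) P.nil)))))) 98)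
 (EL.cons 5 (TM.mk (P.cons (P.lf 2069629158 0 0) (P.cons (P.lf 48637396 0 0) (P.cons (P.lf 0 7168902 0) (P.cons (P.lf 0 176026 0) (P.cons (P.lf 12058 0 0) (P.cons (P.lf 354 0 0) P.nil)))))) 128)
 EL.nil)))
noncomputable def S227_241_512_586_4 : EL := (EL.cons 0 (TM.mk (P.cons (P.cons (P.lf 3600697 0 0) (P.cons (P.lf 0 22104731 0) (P.cons (P.lf 351824 0 0) (P.lf 117274 0 0)))) (P.cons (P.cons (P.lf 0 9872685 0) (P.cons (P.lf 13030098 0 0) (P.cons (P.lf 0 207390 0) (P.lf 0 69129 0)))) (P.cons (P.cons (P.lf 4551774 0 0) (P.cons (P.lf 0 1438358 0) (P.cons (P.lf 22891 0 0) (P.lf 7630 0 0)))) (P.cons (P.cons (P.lf 0 293508 0) (P.cons (P.lf 0 186430 0) (P.cons (P.lf 2967 0 0) P.nil))) (P.cons (P.cons (P.lf 0 103751 0) (P.cons (P.lf 8933 0 0) P.nil)) (P.cons (P.cons (P.lf 3944 0 0) P.nil) P.nil)))))) 3255)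
 (EL.cons 1 (TM.mk (P.cons (P.cons (P.lf 11069930 0 0) (P.cons (P.lf 0 67958445 0) (P.cons (P.lf 1081646 0 0) (P.lf 360547 0 0)))) (P.cons (P.cons (P.lf 0 26764541 0) (P.cons (P.lf 18033440 0 0) (P.cons (P.lf 0 287025 0) (P.lf 0 95673 0)))) (P.cons (P.cons (P.lf 5287503 0 0) (P.cons (P.lf 1617478 0 0) (P.cons (P.lf 0 25741 0) (P.lf 0 8580 0)))) (P.cons (P.cons (P.lf 891631 0 0) (P.cons (P.lf 0 122516 0) (P.cons (P.lf 1948 0 0) P.nil))) (P.cons (P.cons (P.lf 0 53820 0) (P.cons (P.lf 0 10741 0) P.nil)) (P.cons (P.cons (P.lf 0 6035 0) P.nil) P.nil)))))) 2683)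
 (EL.cons 5 (TM.mk (P.cons (P.cons (P.lf 34033224 0 0) (P.cons (P.lf 0 208930390 0) (P.cons (P.lf 3325400 0 0) (P.lf 1108464 0 0)))) (P.cons (P.cons (P.lf 0 71253944 0) (P.cons (P.lf 0 12274938 0) (P.cons (P.lf 195370 0 0) (P.lf 65122 0 0)))) (P.cons (P.cons (P.lf 0 6935884 0) (P.cons (P.lf 1592910 0 0) (P.cons (P.lf 0 25350 0) (P.lf 0 8448 0)))) (P.cons (P.cons (P.lf 708354 0 0) (P.cons (P.lf 107354 0 0) (P.cons (P.lf 0 1706 0) P.nil))) (P.cons (P.cons (P.lf 60836 0 0) (P.cons (P.lf 0 5796 0) P.nil)) (P.cons (P.cons (P.lf 0 2770 0) P.nil) P.nil)))))) 1808)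
 EL.nil)))
noncomputable def S227_241_512_586_5 : EL := (EL.cons 0 (TM.mk (P.cons (P.cons (P.lf 59210 0 0) (P.cons (P.lf 0 726985 0) (P.cons (P.lf 2243056 0 0) (P.cons (P.lf 0 67176 0) (P.cons (P.lf 0 23111 0) (P.cons (P.lf 376 0 0) P.nil)))))) (P.cons (P.cons (P.lf 0 287704 0) (P.cons (P.lf 1967679 0 0) (P.cons (P.lf 0 1268052 0) (P.cons (P.lf 28928 0 0) (P.cons (P.lf 12809 0 0) P.nil))))) (P.cons (P.cons (P.lf 409649 0 0) (P.cons (P.lf 0 845115 0) (P.cons (P.lf 101153 0 0) (P.cons (P.lf 1691 0 0) P.nil)))) (P.cons (P.cons (P.lf 0 137835 0) (P.cons (P.lf 17057 0 0) (P.cons (P.lf 29805 0 0) P.nil))) (P.cons (P.cons (P.lf 0 5494 0) (P.cons (P.lf 27233 0 0) P.nil)) (P.cons (P.cons (P.lf 5570 0 0) P.nil) P.nil)))))) 14910)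
 (EL.cons 1 (TM.mk (P.cons (P.cons (P.lf 182034 0 0) (P.cons (P.lf 0 2235031 0) (P.cons (P.lf 6896021 0 0) (P.cons (P.lf 0 206527 0) (P.cons (P.lf 0 71055 0) (P.cons (P.lf 1156 0 0) P.nil)))))) (P.cons (P.cons (P.lf 0 825515 0) (P.cons (P.lf 5325007 0 0) (P.cons (P.lf 0 1663404 0) (P.cons (P.lf 21999 0 0) (P.cons (P.lf 16350 0 0) P.nil))))) (P.cons (P.cons (P.lf 991338 0 0) (P.cons (P.lf 0 865914 0) (P.cons (P.lf 0 247901 0) (P.cons (P.lf 12922 0 0) P.nil)))) (P.cons (P.cons (P.lf 0 100033 0) (P.cons (P.lf 0 244186 0) (P.cons (P.lf 18279 0 0) P.nil))) (P.cons (P.cons (P.lf 0 52423 0) (P.cons (P.lf 8793 0 0) P.nil)) (P.cons (P.cons (P.lf 746 0 0) P.nil) P.nil)))))) 12961)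
 (EL.cons 5 (TM.mk (P.cons (P.cons (P.lf 559644 0 0) (P.cons (P.lf 0 6871350 0) (P.cons (P.lf 21201022 0 0) (P.cons (P.lf 0 634946 0) (P.cons (P.lf 0 218456 0) (P.cons (P.lf 3560 0 0) P.nil)))))) (P.cons (P.cons (P.lf 0 2356566 0) (P.cons (P.lf 14144040 0 0) (P.cons (P.lf 1757538 0 0) (P.cons (P.lf 0 138152 0) (P.cons (P.lf 0 20534 0) P.nil))))) (P.cons (P.cons (P.lf 2282366 0 0) (P.cons (P.lf 1941770 0 0) (P.cons (P.lf 0 253248 0) (P.cons (P.lf 0 3222 0) P.nil)))) (P.cons (P.cons (P.lf 439126 0 0) (P.cons (P.lf 0 164118 0) (P.cons (P.lf 0 24070 0) P.nil))) (P.cons (P.cons (P.lf 0 26146 0) (P.cons (P.lf 0 27118 0) P.nil)) (P.cons (P.cons (P.lf 0 6682 0) P.nil) P.nil)))))) 14268)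
 EL.nil)))
noncomputable def S227_241_512_586_6 : EL := (EL.cons 12 (TM.mk (P.lf 8589934592 0 0) 0)
 (EL.cons 3 (TM.mk (P.cons (P.lf 0 685729796 0) (P.cons (P.lf 214195188 0 0) (P.cons (P.lf 1881828 0 0) (P.cons (P.lf 0 187398 0) (P.cons (P.lf 0 2831 0) (P.cons (P.lf 153 0 0) P.nil)))))) 44)
 (EL.cons 7 (TM.mk (P.cons (P.lf 0 2108197044 0) (P.cons (P.lf 0 24771881 0) (P.cons (P.lf 3796786 0 0) (P.cons (P.lf 45040 0 0) (P.cons (P.lf 0 3252 0) (P.cons (P.lf 0 61 0) P.nil)))))) 51)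
 EL.nil)))
noncomputable def S227_241_512_586_7 : EL := (EL.cons 12 (TM.mk (P.cons (P.cons (P.lf 141253892 0 0) (P.cons (P.lf 0 867159408 0) (P.cons (P.lf 13801984 0 0) (P.lf 4600656 0 0)))) (P.cons (P.cons (P.lf 0 299056932 0) (P.cons (P.lf 0 30568064 0) (P.cons (P.lf 486528 0 0) (P.lf 162176 0 0)))) (P.cons (P.cons (P.lf 0 21269908 0) (P.cons (P.lf 4325984 0 0) (P.cons (P.lf 0 68848 0) (P.lf 0 22944 0)))) (P.cons (P.cons (P.lf 2415990 0 0) (P.cons (P.lf 164272 0 0) (P.cons (P.lf 0 2608 0) P.nil))) (P.cons (P.cons (P.lf 95790 0 0) (P.cons (P.lf 0 10488 0) P.nil)) (P.cons (P.cons (P.lf 0 5478 0) P.nil) P.nil)))))) 2572)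
 (EL.cons 3 (TM.mk (P.cons (P.cons (P.lf 0 2043021468 0) (P.cons (P.lf 0 138449724 0) (P.cons (P.lf 2203608 0 0) (P.lf 734534 0 0)))) (P.cons (P.cons (P.lf 0 273659889 0) (P.cons (P.lf 38365818 0 0) (P.cons (P.lf 0 610642 0) (P.lf 0 203546 0)))) (P.cons (P.cons (P.lf 43716570 0 0) (P.cons (P.lf 2595090 0 0) (P.cons (P.lf 0 41302 0) (P.lf 0 13766 0)))) (P.cons (P.cons (P.lf 2375802 0 0) (P.cons (P.lf 0 213956 0) (P.cons (P.lf 3404 0 0) P.nil))) (P.cons (P.cons (P.lf 0 163106 0) (P.cons (P.lf 0 13666 0) P.nil)) (P.cons (P.cons (P.lf 0 9428 0) P.nil) P.nil)))))) 7405)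
 (EL.cons 7 (TM.mk (P.cons (P.cons (P.lf 200305872 0 0) (P.cons (P.lf 236841619 0 0) (P.cons (P.lf 0 3769649 0) (P.lf 0 1256553 0)))) (P.cons (P.cons (P.lf 31649038 0 0) (P.cons (P.lf 0 4437042 0) (P.cons (P.lf 70621 0 0) (P.lf 23539 0 0)))) (P.cons (P.cons (P.lf 0 10184765 0) (P.cons (P.lf 418921 0 0) (P.cons (P.lf 0 6666 0) (P.lf 0 2218 0)))) (P.cons (P.cons (P.lf 847895 0 0) (P.cons (P.lf 85354 0 0) (P.cons (P.lf 0 1358 0) P.nil))) (P.cons (P.cons (P.lf 75858 0 0) (P.cons (P.lf 0 4502 0) P.nil)) (P.cons (P.cons (P.lf 0 3585 0) P.nil) P.nil)))))) 5299)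
 (EL.cons 10 (TM.mk (P.cons (P.cons (P.lf 0 3047827335 0) (P.cons (P.lf 112978803 0 0) (P.cons (P.lf 55981401 0 0) (P.cons (P.lf 0 507996 0) (P.lf 0 126999 0))))) (P.cons (P.cons (P.lf 0 71625576 0) (P.cons (P.lf 2655060 0 0) (P.cons (P.lf 1315593 0 0) (P.cons (P.lf 0 11937 0) (P.lf 0 2982 0))))) (P.cons (P.cons (P.lf 10557240 0 0) (P.cons (P.lf 0 391341 0) (P.cons (P.lf 0 193911 0) (P.cons (P.lf 1758 0 0) P.nil)))) (P.cons (P.cons (P.lf 259221 0 0) (P.cons (P.lf 0 9609 0) (P.cons (P.lf 0 4761 0) P.nil))) (P.cons (P.cons (P.lf 0 17757 0) (P.cons (P.lf 657 0 0) P.nil)) (P.cons (P.cons (P.lf 0 519 0) P.nil) P.nil)))))) 1161)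
 EL.nil))))
noncomputable def S227_241_512_586_8 : EL := (EL.cons 12 (TM.mk (P.cons (P.cons (P.lf 2322794 0 0) (P.cons (P.lf 0 28519342 0) (P.cons (P.lf 87994220 0 0) (P.cons (P.lf 0 2635330 0) (P.cons (P.lf 0 906700 0) (P.cons (P.lf 14784 0 0) P.nil)))))) (P.cons (P.cons (P.lf 0 9835454 0) (P.cons (P.lf 59374648 0 0) (P.cons (P.lf 5226704 0 0) (P.cons (P.lf 0 511470 0) (P.cons (P.lf 0 63922 0) P.nil))))) (P.cons (P.cons (P.lf 9712080 0 0) (P.cons (P.lf 6565138 0 0) (P.cons (P.lf 0 869134 0) (P.cons (P.lf 0 10490 0) P.nil)))) (P.cons (P.cons (P.lf 1560472 0 0) (P.cons (P.lf 0 632222 0) (P.cons (P.lf 0 53892 0) P.nil))) (P.cons (P.cons (P.lf 0 112406 0) (P.cons (P.lf 0 69740 0) P.nil)) (P.cons (P.cons (P.lf 0 18814 0) P.nil) P.nil)))))) 38076)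
 (EL.cons 3 (TM.mk (P.cons (P.cons (P.lf 0 67005939 0) (P.cons (P.lf 405658603 0 0) (P.cons (P.lf 28484880 0 0) (P.cons (P.lf 0 3264470 0) (P.cons (P.lf 0 361906 0) (P.cons (P.lf 5901 0 0) P.nil)))))) (P.cons (P.cons (P.lf 132411528 0 0) (P.cons (P.lf 86145812 0 0) (P.cons (P.lf 0 9822041 0) (P.cons (P.lf 0 188023 0) (P.cons (P.lf 87531 0 0) P.nil))))) (P.cons (P.cons (P.lf 31630273 0 0) (P.cons (P.lf 0 11787125 0) (P.cons (P.lf 0 982966 0) (P.cons (P.lf 99791 0 0) P.nil)))) (P.cons (P.cons (P.lf 0 2875224 0) (P.cons (P.lf 0 1828005 0) (P.cons (P.lf 101682 0 0) P.nil))) (P.cons (P.cons (P.lf 0 637015 0) (P.cons (P.lf 84708 0 0) P.nil)) (P.cons (P.cons (P.lf 21543 0 0) P.nil) P.nil)))))) 93008)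
 (EL.cons 7 (TM.mk (P.cons (P.cons (P.lf 7157781 0 0) (P.cons (P.lf 0 39652106 0) (P.cons (P.lf 0 25702801 0) (P.cons (P.lf 1048647 0 0) (P.cons (P.lf 272754 0 0) (P.cons (P.lf 0 4444 0) P.nil)))))) (P.cons (P.cons (P.lf 0 15313519 0) (P.cons (P.lf 0 9962851 0) (P.cons (P.lf 1135929 0 0) (P.cons (P.lf 21750 0 0) (P.cons (P.lf 0 10120 0) P.nil))))) (P.cons (P.cons (P.lf 0 1176434 0) (P.cons (P.lf 2977724 0 0) (P.cons (P.lf 0 70401 0) (P.cons (P.lf 0 15062 0) P.nil)))) (P.cons (P.cons (P.lf 1108310 0 0) (P.cons (P.lf 0 92651 0) (P.cons (P.lf 0 35238 0) P.nil))) (P.cons (P.cons (P.lf 0 11163 0) (P.cons (P.lf 0 58429 0) P.nil)) (P.cons (P.cons (P.lf 0 20559 0) P.nil) P.nil)))))) 42942)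
 (EL.cons 10 (TM.mk (P.cons (P.cons (P.lf 0 100237656 0) (P.cons (P.lf 619075920 0 0) (P.cons (P.lf 0 30763704 0) (P.cons (P.lf 0 14221116 0) (P.cons (P.lf 399300 0 0) (P.cons (P.lf 83970 0 0) P.nil)))))) (P.cons (P.cons (P.lf 209863410 0 0) (P.cons (P.lf 28373886 0 0) (P.cons (P.lf 0 5770266 0) (P.cons (P.lf 0 799548 0) (P.cons (P.lf 32448 0 0) P.nil))))) (P.cons (P.cons (P.lf 20428182 0 0) (P.cons (P.lf 0 5448828 0) (P.cons (P.lf 0 126636 0) (P.cons (P.lf 111690 0 0) P.nil)))) (P.cons (P.cons (P.lf 0 2086314 0) (P.cons (P.lf 0 238848 0) (P.cons (P.lf 55068 0 0) P.nil))) (P.cons (P.cons (P.lf 0 179178 0) (P.cons (P.lf 23718 0 0) P.nil)) (P.cons (P.cons (P.lf 8160 0 0) P.nil) P.nil)))))) 29604)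
 EL.nil))))
noncomputable def S227_241_512_586_9 : EL := (EL.cons 3 (TM.mk (P.cons (P.lf 0 685729796 0) (P.cons (P.lf 214195188 0 0) (P.cons (P.lf 1881828 0 0) (P.cons (P.lf 0 187398 0) (P.cons (P.lf 0 2831 0) (P.cons (P.lf 153 0 0) P.nil)))))) 44)
 (EL.cons 7 (TM.mk (P.cons (P.lf 0 2108197044 0) (P.cons (P.lf 0 24771881 0) (P.cons (P.lf 3796786 0 0) (P.cons (P.lf 45040 0 0) (P.cons (P.lf 0 3252 0) (P.cons (P.lf 0 61 0) P.nil)))))) 51)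
 EL.nil))
noncomputable def S227_241_512_586_10 : EL := (EL.cons 3 (TM.mk (P.cons (P.cons (P.lf 0 11276220 0) (P.cons (P.lf 69224862 0 0) (P.cons (P.lf 0 1101804 0) (P.lf 0 367267 0)))) (P.cons (P.cons (P.lf 27395802 0 0) (P.cons (P.lf 0 19182909 0) (P.cons (P.lf 305321 0 0) (P.lf 101773 0 0)))) (P.cons (P.cons (P.lf 0 5728254 0) (P.cons (P.lf 0 1297545 0) (P.cons (P.lf 20651 0 0) (P.lf 6883 0 0)))) (P.cons (P.cons (P.lf 0 791841 0) (P.cons (P.lf 106978 0 0) (P.cons (P.lf 0 1702 0) P.nil))) (P.cons (P.cons (P.lf 54415 0 0) (P.cons (P.lf 6833 0 0) P.nil)) (P.cons (P.cons (P.lf 3919 0 0) P.nil) P.nil)))))) 1782)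
 (EL.cons 7 (TM.mk (P.cons (P.cons (P.lf 0 34667439 0) (P.cons (P.lf 212823844 0 0) (P.cons (P.lf 0 3387371 0) (P.lf 0 1129122 0)))) (P.cons (P.cons (P.lf 72989125 0 0) (P.cons (P.lf 10002948 0 0) (P.cons (P.lf 0 159209 0) (P.lf 0 53069 0)))) (P.cons (P.cons (P.lf 6145060 0 0) (P.cons (P.lf 0 1356845 0) (P.cons (P.lf 21594 0 0) (P.lf 7196 0 0)))) (P.cons (P.cons (P.lf 0 663052 0) (P.cons (P.lf 0 70850 0) (P.cons (P.lf 1126 0 0) P.nil))) (P.cons (P.cons (P.lf 0 41499 0) (P.cons (P.lf 4180 0 0) P.nil)) (P.cons (P.cons (P.lf 2136 0 0) P.nil) P.nil)))))) 1125)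
 EL.nil))
noncomputable def S227_241_512_586_11 : EL := (EL.cons 3 (TM.mk (P.cons (P.cons (P.lf 0 185427 0) (P.cons (P.lf 2276683 0 0) (P.cons (P.lf 0 7024530 0) (P.cons (P.lf 210376 0 0) (P.cons (P.lf 72380 0 0) (P.cons (P.lf 0 1179 0) P.nil)))))) (P.cons (P.cons (P.lf 843078 0 0) (P.cons (P.lf 0 5450992 0) (P.cons (P.lf 1776943 0 0) (P.cons (P.lf 0 24883 0) (P.cons (P.lf 0 17505 0) P.nil))))) (P.cons (P.cons (P.lf 0 1020053 0) (P.cons (P.lf 950203 0 0) (P.cons (P.lf 218990 0 0) (P.cons (P.lf 0 12493 0) P.nil)))) (P.cons (P.cons (P.lf 115398 0 0) (P.cons (P.lf 227805 0 0) (P.cons (P.lf 0 18144 0) P.nil))) (P.cons (P.cons (P.lf 50225 0 0) (P.cons (P.lf 0 10044 0) P.nil)) (P.cons (P.cons (P.lf 0 1167 0) P.nil) P.nil)))))) 11014)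
 (EL.cons 7 (TM.mk (P.cons (P.cons (P.lf 0 570075 0) (P.cons (P.lf 6999400 0 0) (P.cons (P.lf 0 21596107 0) (P.cons (P.lf 646779 0 0) (P.cons (P.lf 222528 0 0) (P.cons (P.lf 0 3628 0) P.nil)))))) (P.cons (P.cons (P.lf 2407181 0 0) (P.cons (P.lf 0 14489863 0) (P.cons (P.lf 0 1536531 0) (P.cons (P.lf 133128 0 0) (P.cons (P.lf 18302 0 0) P.nil))))) (P.cons (P.cons (P.lf 0 2354210 0) (P.cons (P.lf 0 1795090 0) (P.cons (P.lf 237129 0 0) (P.cons (P.lf 2884 0 0) P.nil)))) (P.cons (P.cons (P.lf 0 415324 0) (P.cons (P.lf 162325 0 0) (P.cons (P.lf 18504 0 0) P.nil))) (P.cons (P.cons (P.lf 27327 0 0) (P.cons (P.lf 22163 0 0) P.nil)) (P.cons (P.cons (P.lf 5685 0 0) P.nil) P.nil)))))) 11774)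
 EL.nil))
noncomputable def S227_241_512_586_12 : EL := (EL.cons 4 (TM.mk (P.cons (P.lf 685729796 0 0) (P.cons (P.lf 0 214195188 0) (P.cons (P.lf 0 1881828 0) (P.cons (P.lf 187398 0 0) (P.cons (P.lf 2831 0 0) (P.cons (P.lf 0 153 0) P.nil)))))) 44)
 (EL.cons 8 (TM.mk (P.cons (P.lf 2108197044 0 0) (P.cons (P.lf 24771881 0 0) (P.cons (P.lf 0 3796786 0) (P.cons (P.lf 0 45040 0) (P.cons (P.lf 3252 0 0) (P.cons (P.lf 61 0 0) P.nil)))))) 51)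
 EL.nil))
noncomputable def S227_241_512_586_13 : EL := (EL.cons 4 (TM.mk (P.cons (P.cons (P.lf 11276220 0 0) (P.cons (P.lf 0 69224862 0) (P.cons (P.lf 1101804 0 0) (P.lf 367267 0 0)))) (P.cons (P.cons (P.lf 0 27395802 0) (P.cons (P.lf 19182909 0 0) (P.cons (P.lf 0 305321 0) (P.lf 0 101773 0)))) (P.cons (P.cons (P.lf 5728254 0 0) (P.cons (P.lf 1297545 0 0) (P.cons (P.lf 0 20651 0) (P.lf 0 6883 0)))) (P.cons (P.cons (P.lf 791841 0 0) (P.cons (P.lf 0 106978 0) (P.cons (P.lf 1702 0 0) P.nil))) (P.cons (P.cons (P.lf 0 54415 0) (P.cons (P.lf 0 6833 0) P.nil)) (P.cons (P.cons (P.lf 0 3919 0) P.nil) P.nil)))))) 1782)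
 (EL.cons 8 (TM.mk (P.cons (P.cons (P.lf 34667439 0 0) (P.cons (P.lf 0 212823844 0) (P.cons (P.lf 3387371 0 0) (P.lf 1129122 0 0)))) (P.cons (P.cons (P.lf 0 72989125 0) (P.cons (P.lf 0 10002948 0) (P.cons (P.lf 159209 0 0) (P.lf 53069 0 0)))) (P.cons (P.cons (P.lf 0 6145060 0) (P.cons (P.lf 1356845 0 0) (P.cons (P.lf 0 21594 0) (P.lf 0 7196 0)))) (P.cons (P.cons (P.lf 663052 0 0) (P.cons (P.lf 70850 0 0) (P.cons (P.lf 0 1126 0) P.nil))) (P.cons (P.cons (P.lf 41499 0 0) (P.cons (P.lf 0 4180 0) P.nil)) (P.cons (P.cons (P.lf 0 2136 0) P.nil) P.nil)))))) 1125)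
 EL.nil))
noncomputable def S227_241_512_586_14 : EL := (EL.cons 4 (TM.mk (P.cons (P.cons (P.lf 185427 0 0) (P.cons (P.lf 0 2276683 0) (P.cons (P.lf 7024530 0 0) (P.cons (P.lf 0 210376 0) (P.cons (P.lf 0 72380 0) (P.cons (P.lf 1179 0 0) P.nil)))))) (P.cons (P.cons (P.lf 0 843078 0) (P.cons (P.lf 5450992 0 0) (P.cons (P.lf 0 1776943 0) (P.cons (P.lf 24883 0 0) (P.cons (P.lf 17505 0 0) P.nil))))) (P.cons (P.cons (P.lf 1020053 0 0) (P.cons (P.lf 0 950203 0) (P.cons (P.lf 0 218990 0) (P.cons (P.lf 12493 0 0) P.nil)))) (P.cons (P.cons (P.lf 0 115398 0) (P.cons (P.lf 0 227805 0) (P.cons (P.lf 18144 0 0) P.nil))) (P.cons (P.cons (P.lf 0 50225 0) (P.cons (P.lf 10044 0 0) P.nil)) (P.cons (P.cons (P.lf 1167 0 0) P.nil) P.nil)))))) 11014)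
 (EL.cons 8 (TM.mk (P.cons (P.cons (P.lf 570075 0 0) (P.cons (P.lf 0 6999400 0) (P.cons (P.lf 21596107 0 0) (P.cons (P.lf 0 646779 0) (P.cons (P.lf 0 222528 0) (P.cons (P.lf 3628 0 0) P.nil)))))) (P.cons (P.cons (P.lf 0 2407181 0) (P.cons (P.lf 14489863 0 0) (P.cons (P.lf 1536531 0 0) (P.cons (P.lf 0 133128 0) (P.cons (P.lf 0 18302 0) P.nil))))) (P.cons (P.cons (P.lf 2354210 0 0) (P.cons (P.lf 1795090 0 0) (P.cons (P.lf 0 237129 0) (P.cons (P.lf 0 2884 0) P.nil)))) (P.cons (P.cons (P.lf 415324 0 0) (P.cons (P.lf 0 162325 0) (P.cons (P.lf 0 18504 0) P.nil))) (P.cons (P.cons (P.lf 0 27327 0) (P.cons (P.lf 0 22163 0) P.nil)) (P.cons (P.cons (P.lf 0 5685 0) P.nil) P.nil)))))) 11774)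
 EL.nil))
noncomputable def S227_241_512_586_15 : EL := (EL.cons 4 (TM.mk (P.cons (P.lf 0 116781729 0) (P.cons (P.lf 72956096 0 0) (P.cons (P.lf 0 10753354 0) (P.cons (P.lf 0 264040 0) (P.cons (P.lf 18093 0 0) (P.cons (P.lf 528 0 0) P.nil)))))) 57)
 (EL.cons 8 (TM.mk (P.cons (P.lf 0 359031937 0) (P.cons (P.lf 107928824 0 0) (P.cons (P.lf 2949648 0 0) (P.cons (P.lf 0 280843 0) (P.cons (P.lf 0 7359 0) (P.cons (P.lf 381 0 0) P.nil)))))) 49)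
 EL.nil))
noncomputable def S227_241_512_586_16 : EL := (EL.cons 4 (TM.mk (P.cons (P.cons (P.lf 0 1920372 0) (P.cons (P.lf 11789190 0 0) (P.cons (P.lf 0 187639 0) (P.lf 0 62546 0)))) (P.cons (P.cons (P.lf 5265432 0 0) (P.cons (P.lf 0 6949385 0) (P.cons (P.lf 110608 0 0) (P.lf 36869 0 0)))) (P.cons (P.cons (P.lf 0 2427613 0) (P.cons (P.lf 767124 0 0) (P.cons (P.lf 0 12209 0) (P.lf 0 4069 0)))) (P.cons (P.cons (P.lf 156538 0 0) (P.cons (P.lf 99429 0 0) (P.cons (P.lf 0 1582 0) P.nil))) (P.cons (P.cons (P.lf 55334 0 0) (P.cons (P.lf 0 4764 0) P.nil)) (P.cons (P.cons (P.lf 0 2103 0) P.nil) P.nil)))))) 1744)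
 (EL.cons 8 (TM.mk (P.cons (P.cons (P.lf 0 5903963 0) (P.cons (P.lf 36244504 0 0) (P.cons (P.lf 0 576878 0) (P.lf 0 192292 0)))) (P.cons (P.cons (P.lf 14274422 0 0) (P.cons (P.lf 0 9617835 0) (P.cons (P.lf 153080 0 0) (P.lf 51026 0 0)))) (P.cons (P.cons (P.lf 0 2820002 0) (P.cons (P.lf 0 862655 0) (P.cons (P.lf 13729 0 0) (P.lf 4576 0 0)))) (P.cons (P.cons (P.lf 0 475537 0) (P.cons (P.lf 65342 0 0) (P.cons (P.lf 0 1039 0) P.nil))) (P.cons (P.cons (P.lf 28704 0 0) (P.cons (P.lf 5729 0 0) P.nil)) (P.cons (P.cons (P.lf 3219 0 0) P.nil) P.nil)))))) 1421)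
 EL.nil))
noncomputable def S227_241_512_586_17 : EL := (EL.cons 4 (TM.mk (P.cons (P.cons (P.lf 0 31578 0) (P.cons (P.lf 387725 0 0) (P.cons (P.lf 0 1196296 0) (P.cons (P.lf 35827 0 0) (P.cons (P.lf 12326 0 0) (P.cons (P.lf 0 200 0) P.nil)))))) (P.cons (P.cons (P.lf 153442 0 0) (P.cons (P.lf 0 1049429 0) (P.cons (P.lf 676294 0 0) (P.cons (P.lf 0 15428 0) (P.cons (P.lf 0 6831 0) P.nil))))) (P.cons (P.cons (P.lf 0 218479 0) (P.cons (P.lf 450728 0 0) (P.cons (P.lf 0 53948 0) (P.cons (P.lf 0 901 0) P.nil)))) (P.cons (P.cons (P.lf 73512 0 0) (P.cons (P.lf 0 9097 0) (P.cons (P.lf 0 15896 0) P.nil))) (P.cons (P.cons (P.lf 2930 0 0) (P.cons (P.lf 0 14524 0) P.nil)) (P.cons (P.cons (P.lf 0 2970 0) P.nil) P.nil)))))) 7962)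
 (EL.cons 8 (TM.mk (P.cons (P.cons (P.lf 0 97085 0) (P.cons (P.lf 1192017 0 0) (P.cons (P.lf 0 3677878 0) (P.cons (P.lf 110148 0 0) (P.cons (P.lf 37896 0 0) (P.cons (P.lf 0 617 0) P.nil)))))) (P.cons (P.cons (P.lf 440275 0 0) (P.cons (P.lf 0 2840004 0) (P.cons (P.lf 887149 0 0) (P.cons (P.lf 0 11733 0) (P.cons (P.lf 0 8720 0) P.nil))))) (P.cons (P.cons (P.lf 0 528714 0) (P.cons (P.lf 461821 0 0) (P.cons (P.lf 132214 0 0) (P.cons (P.lf 0 6892 0) P.nil)))) (P.cons (P.cons (P.lf 53351 0 0) (P.cons (P.lf 130233 0 0) (P.cons (P.lf 0 9749 0) P.nil))) (P.cons (P.cons (P.lf 27959 0 0) (P.cons (P.lf 0 4690 0) P.nil)) (P.cons (P.cons (P.lf 0 398 0) P.nil) P.nil)))))) 6901)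
 EL.nil))
noncomputable def S227_241_512_586_18 : EL := (EL.cons 4 (TM.mk (P.cons (P.lf 19888259 0 0) (P.cons (P.lf 0 18636945 0) (P.cons (P.lf 5657716 0 0) (P.cons (P.lf 0 487535 0) (P.cons (P.lf 0 25466 0) (P.cons (P.lf 1193 0 0) P.nil)))))) 87)
 (EL.cons 8 (TM.mk (P.cons (P.lf 61144157 0 0) (P.cons (P.lf 0 37479629 0) (P.cons (P.lf 5071246 0 0) (P.cons (P.lf 271888 0 0) (P.cons (P.lf 0 17078 0) (P.cons (P.lf 0 814 0) P.nil)))))) 70)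
 EL.nil))
noncomputable def S227_241_512_586_19 : EL := (EL.cons 4 (TM.mk (P.cons (P.cons (P.lf 327044 0 0) (P.cons (P.lf 0 2007732 0) (P.cons (P.lf 31955 0 0) (P.lf 10651 0 0)))) (P.cons (P.cons (P.lf 0 998873 0) (P.cons (P.lf 1810636 0 0) (P.cons (P.lf 0 28817 0) (P.lf 0 9605 0)))) (P.cons (P.cons (P.lf 692631 0 0) (P.cons (P.lf 0 494812 0) (P.cons (P.lf 7875 0 0) (P.lf 2625 0 0)))) (P.cons (P.cons (P.lf 0 153247 0) (P.cons (P.lf 20077 0 0) (P.cons (P.lf 0 318 0) P.nil))) (P.cons (P.cons (P.lf 0 2474 0) (P.cons (P.lf 6773 0 0) P.nil)) (P.cons (P.cons (P.lf 3483 0 0) P.nil) P.nil)))))) 1609)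
 (EL.cons 8 (TM.mk (P.cons (P.cons (P.lf 1005461 0 0) (P.cons (P.lf 0 6172541 0) (P.cons (P.lf 98243 0 0) (P.lf 32747 0 0)))) (P.cons (P.cons (P.lf 0 2745041 0) (P.cons (P.lf 3566005 0 0) (P.cons (P.lf 0 56757 0) (P.lf 0 18918 0)))) (P.cons (P.cons (P.lf 1236836 0 0) (P.cons (P.lf 0 347777 0) (P.cons (P.lf 5534 0 0) (P.lf 1844 0 0)))) (P.cons (P.cons (P.lf 0 62081 0) (P.cons (P.lf 0 63199 0) (P.cons (P.lf 1005 0 0) P.nil))) (P.cons (P.cons (P.lf 0 32163 0) (P.cons (P.lf 2518 0 0) P.nil)) (P.cons (P.cons (P.lf 877 0 0) P.nil) P.nil)))))) 1240)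
 EL.nil))
noncomputable def S227_241_512_586_20 : EL := (EL.cons 4 (TM.mk (P.cons (P.cons (P.lf 5377 0 0) (P.cons (P.lf 0 66030 0) (P.cons (P.lf 203732 0 0) (P.cons (P.lf 0 6101 0) (P.cons (P.lf 0 2099 0) (P.cons (P.lf 33 0 0) P.nil)))))) (P.cons (P.cons (P.lf 0 27810 0) (P.cons (P.lf 199346 0 0) (P.cons (P.lf 0 178813 0) (P.cons (P.lf 4532 0 0) (P.cons (P.lf 1818 0 0) P.nil))))) (P.cons (P.cons (P.lf 45355 0 0) (P.cons (P.lf 0 132404 0) (P.cons (P.lf 44604 0 0) (P.cons (P.lf 0 649 0) P.nil)))) (P.cons (P.cons (P.lf 0 24068 0) (P.cons (P.lf 25017 0 0) (P.cons (P.lf 209 0 0) P.nil))) (P.cons (P.cons (P.lf 3301 0 0) (P.cons (P.lf 2248 0 0) P.nil)) (P.cons (P.cons (P.lf 705 0 0) P.nil) P.nil)))))) 4539)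
 (EL.cons 8 (TM.mk (P.cons (P.cons (P.lf 16533 0 0) (P.cons (P.lf 0 203003 0) (P.cons (P.lf 626352 0 0) (P.cons (P.lf 0 18758 0) (P.cons (P.lf 0 6453 0) (P.cons (P.lf 105 0 0) P.nil)))))) (P.cons (P.cons (P.lf 0 80144 0) (P.cons (P.lf 547070 0 0) (P.cons (P.lf 0 346732 0) (P.cons (P.lf 7857 0 0) (P.cons (P.lf 3501 0 0) P.nil))))) (P.cons (P.cons (P.lf 113417 0 0) (P.cons (P.lf 0 229168 0) (P.cons (P.lf 22957 0 0) (P.cons (P.lf 600 0 0) P.nil)))) (P.cons (P.cons (P.lf 0 37000 0) (P.cons (P.lf 1005 0 0) (P.cons (P.lf 9279 0 0) P.nil))) (P.cons (P.cons (P.lf 0 2190 0) (P.cons (P.lf 8073 0 0) P.nil)) (P.cons (P.cons (P.lf 1604 0 0) P.nil) P.nil)))))) 4636)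
 EL.nil))
noncomputable def S227_241_512_586_21 : EL := (EL.cons 4 (TM.mk (P.cons (P.cons (P.lf 2031745248 0 0) (P.cons (P.lf 207674586 0 0) (P.cons (P.lf 0 3305412 0) (P.lf 0 1101801 0)))) (P.cons (P.cons (P.lf 301055691 0 0) (P.cons (P.lf 0 57548727 0) (P.cons (P.lf 915963 0 0) (P.lf 305319 0 0)))) (P.cons (P.cons (P.lf 0 49444824 0) (P.cons (P.lf 0 3892635 0) (P.cons (P.lf 61953 0 0) (P.lf 20649 0 0)))) (P.cons (P.cons (P.lf 0 3167643 0) (P.cons (P.lf 320934 0 0) (P.cons (P.lf 0 5106 0) P.nil))) (P.cons (P.cons (P.lf 217521 0 0) (P.cons (P.lf 20499 0 0) P.nil)) (P.cons (P.cons (P.lf 13347 0 0) P.nil) P.nil)))))) 5604)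
 (EL.cons 8 (TM.mk (P.cons (P.cons (P.lf 0 234973311 0) (P.cons (P.lf 0 24017775 0) (P.cons (P.lf 382278 0 0) (P.lf 127431 0 0)))) (P.cons (P.cons (P.lf 41340087 0 0) (P.cons (P.lf 14439990 0 0) (P.cons (P.lf 0 229830 0) (P.lf 0 76608 0)))) (P.cons (P.cons (P.lf 16329825 0 0) (P.cons (P.lf 0 1775766 0) (P.cons (P.lf 28260 0 0) (P.lf 9414 0 0)))) (P.cons (P.cons (P.lf 0 1510947 0) (P.cons (P.lf 0 156204 0) (P.cons (P.lf 2484 0 0) P.nil))) (P.cons (P.cons (P.lf 0 117357 0) (P.cons (P.lf 8682 0 0) P.nil)) (P.cons (P.cons (P.lf 5721 0 0) P.nil) P.nil)))))) 4155)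
 (EL.cons 11 (TM.mk (P.cons (P.cons (P.lf 3047827335 0 0) (P.cons (P.lf 0 112978803 0) (P.cons (P.lf 0 55981401 0) (P.cons (P.lf 507996 0 0) (P.lf 126999 0 0))))) (P.cons (P.cons (P.lf 71625576 0 0) (P.cons (P.lf 0 2655060 0) (P.cons (P.lf 0 1315593 0) (P.cons (P.lf 11937 0 0) (P.lf 2982 0 0))))) (P.cons (P.cons (P.lf 0 10557240 0) (P.cons (P.lf 391341 0 0) (P.cons (P.lf 193911 0 0) (P.cons (P.lf 0 1758 0) P.nil)))) (P.cons (P.cons (P.lf 0 259221 0) (P.cons (P.lf 9609 0 0) (P.cons (P.lf 4761 0 0) P.nil))) (P.cons (P.cons (P.lf 17757 0 0) (P.cons (P.lf 0 657 0) P.nil)) (P.cons (P.cons (P.lf 519 0 0) P.nil) P.nil)))))) 1161)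
 EL.nil)))
noncomputable def S227_241_512_586_22 : EL := (EL.cons 4 (TM.mk (P.cons (P.cons (P.lf 33410256 0 0) (P.cons (P.lf 0 201690960 0) (P.cons (P.lf 0 17754705 0) (P.cons (P.lf 1737423 0 0) (P.cons (P.lf 217143 0 0) (P.cons (P.lf 0 3540 0) P.nil)))))) (P.cons (P.cons (P.lf 0 65784225 0) (P.cons (P.lf 0 45798402 0) (P.cons (P.lf 5799492 0 0) (P.cons (P.lf 81570 0 0) (P.cons (P.lf 0 52518 0) P.nil))))) (P.cons (P.cons (P.lf 0 16325163 0) (P.cons (P.lf 6368664 0 0) (P.cons (P.lf 600978 0 0) (P.cons (P.lf 0 56142 0) P.nil)))) (P.cons (P.cons (P.lf 1495311 0 0) (P.cons (P.lf 1027905 0 0) (P.cons (P.lf 0 59913 0) P.nil))) (P.cons (P.cons (P.lf 343620 0 0) (P.cons (P.lf 0 47376 0) P.nil)) (P.cons (P.cons (P.lf 0 11355 0) P.nil) P.nil)))))) 40986)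
 (EL.cons 8 (TM.mk (P.cons (P.cons (P.lf 0 3863928 0) (P.cons (P.lf 23325753 0 0) (P.cons (P.lf 2053347 0 0) (P.cons (P.lf 0 200934 0) (P.cons (P.lf 0 25113 0) (P.cons (P.lf 408 0 0) P.nil)))))) (P.cons (P.cons (P.lf 8860350 0 0) (P.cons (P.lf 0 2263506 0) (P.cons (P.lf 0 1336230 0) (P.cons (P.lf 55689 0 0) (P.cons (P.lf 14211 0 0) P.nil))))) (P.cons (P.cons (P.lf 0 588888 0) (P.cons (P.lf 0 2386407 0) (P.cons (P.lf 153765 0 0) (P.cons (P.lf 8973 0 0) P.nil)))) (P.cons (P.cons (P.lf 0 761817 0) (P.cons (P.lf 127488 0 0) (P.cons (P.lf 26871 0 0) P.nil))) (P.cons (P.cons (P.lf 19245 0 0) (P.cons (P.lf 40296 0 0) P.nil)) (P.cons (P.cons (P.lf 13122 0 0) P.nil) P.nil)))))) 15573)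
 (EL.cons 11 (TM.mk (P.cons (P.cons (P.lf 50118828 0 0) (P.cons (P.lf 0 309537960 0) (P.cons (P.lf 15381852 0 0) (P.cons (P.lf 7110558 0 0) (P.cons (P.lf 0 199650 0) (P.cons (P.lf 0 41985 0) P.nil)))))) (P.cons (P.cons (P.lf 0 104931705 0) (P.cons (P.lf 0 14186943 0) (P.cons (P.lf 2885133 0 0) (P.cons (P.lf 399774 0 0) (P.cons (P.lf 0 16224 0) P.nil))))) (P.cons (P.cons (P.lf 0 10214091 0) (P.cons (P.lf 2724414 0 0) (P.cons (P.lf 63318 0 0) (P.cons (P.lf 0 55845 0) P.nil)))) (P.cons (P.cons (P.lf 1043157 0 0) (P.cons (P.lf 119424 0 0) (P.cons (P.lf 0 27534 0) P.nil))) (P.cons (P.cons (P.lf 89589 0 0) (P.cons (P.lf 0 11859 0) P.nil)) (P.cons (P.cons (P.lf 0 4080 0) P.nil) P.nil)))))) 14802)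
 EL.nil)))
noncomputable def S227_241_512_586_23 : EL := (EL.cons 4 (TM.mk (P.cons (P.cons (P.lf 0 346011978 0) (P.cons (P.lf 0 35367570 0) (P.cons (P.lf 562920 0 0) (P.lf 187638 0 0)))) (P.cons (P.cons (P.lf 56809980 0 0) (P.cons (P.lf 20848158 0 0) (P.cons (P.lf 0 331824 0) (P.lf 0 110607 0)))) (P.cons (P.cons (P.lf 25385088 0 0) (P.cons (P.lf 0 2301372 0) (P.cons (P.lf 36627 0 0) (P.lf 12210 0 0)))) (P.cons (P.cons (P.lf 0 2044662 0) (P.cons (P.lf 0 298287 0) (P.cons (P.lf 4746 0 0) P.nil))) (P.cons (P.cons (P.lf 0 244098 0) (P.cons (P.lf 14292 0 0) P.nil)) (P.cons (P.cons (P.lf 9984 0 0) P.nil) P.nil)))))) 5532)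
 (EL.cons 8 (TM.mk (P.cons (P.cons (P.lf 40016619 0 0) (P.cons (P.lf 4090293 0 0) (P.cons (P.lf 0 65103 0) (P.lf 0 21699 0)))) (P.cons (P.cons (P.lf 0 19539960 0) (P.cons (P.lf 0 3736818 0) (P.cons (P.lf 59475 0 0) (P.lf 19824 0 0)))) (P.cons (P.cons (P.lf 0 691704 0) (P.cons (P.lf 1059342 0 0) (P.cons (P.lf 0 16860 0) (P.lf 0 5616 0)))) (P.cons (P.cons (P.lf 1156254 0 0) (P.cons (P.lf 0 59994 0) (P.cons (P.lf 954 0 0) P.nil))) (P.cons (P.cons (P.lf 0 54516 0) (P.cons (P.lf 0 11271 0) P.nil)) (P.cons (P.cons (P.lf 0 8721 0) P.nil) P.nil)))))) 2796)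
 (EL.cons 11 (TM.mk (P.cons (P.cons (P.lf 0 519053640 0) (P.cons (P.lf 19240608 0 0) (P.cons (P.lf 9533790 0 0) (P.cons (P.lf 0 86511 0) (P.lf 0 21627 0))))) (P.cons (P.cons (P.lf 149934033 0 0) (P.cons (P.lf 0 5557848 0) (P.cons (P.lf 0 2753934 0) (P.cons (P.lf 24990 0 0) (P.lf 6246 0 0))))) (P.cons (P.cons (P.lf 7032540 0 0) (P.cons (P.lf 0 260685 0) (P.cons (P.lf 0 129171 0) (P.cons (P.lf 1170 0 0) P.nil)))) (P.cons (P.cons (P.lf 0 625830 0) (P.cons (P.lf 23196 0 0) (P.cons (P.lf 11493 0 0) P.nil))) (P.cons (P.cons (P.lf 0 27222 0) (P.cons (P.lf 1008 0 0) P.nil)) (P.cons (P.cons (P.lf 1290 0 0) P.nil) P.nil)))))) 1287)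
 EL.nil)))
noncomputable def S227_241_512_586_24 : EL := (EL.cons 4 (TM.mk (P.cons (P.cons (P.lf 0 5689860 0) (P.cons (P.lf 34348542 0 0) (P.cons (P.lf 3023676 0 0) (P.cons (P.lf 0 295887 0) (P.cons (P.lf 0 36978 0) (P.cons (P.lf 600 0 0) P.nil)))))) (P.cons (P.cons (P.lf 12980529 0 0) (P.cons (P.lf 0 2929542 0) (P.cons (P.lf 0 1932147 0) (P.cons (P.lf 78531 0 0) (P.cons (P.lf 20493 0 0) P.nil))))) (P.cons (P.cons (P.lf 0 703617 0) (P.cons (P.lf 0 3615150 0) (P.cons (P.lf 197862 0 0) (P.cons (P.lf 14712 0 0) P.nil)))) (P.cons (P.cons (P.lf 0 1155387 0) (P.cons (P.lf 151713 0 0) (P.cons (P.lf 45708 0 0) P.nil))) (P.cons (P.cons (P.lf 16431 0 0) (P.cons (P.lf 67998 0 0) P.nil)) (P.cons (P.cons (P.lf 21717 0 0) P.nil) P.nil)))))) 27480)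
 (EL.cons 8 (TM.mk (P.cons (P.cons (P.lf 658038 0 0) (P.cons (P.lf 0 3972441 0) (P.cons (P.lf 0 349689 0) (P.cons (P.lf 34218 0 0) (P.cons (P.lf 4275 0 0) (P.cons (P.lf 0 69 0) P.nil)))))) (P.cons (P.cons (P.lf 0 1714488 0) (P.cons (P.lf 1626315 0 0) (P.cons (P.lf 336792 0 0) (P.cons (P.lf 0 20172 0) (P.cons (P.lf 0 3756 0) P.nil))))) (P.cons (P.cons (P.lf 569817 0 0) (P.cons (P.lf 296904 0 0) (P.cons (P.lf 0 96309 0) (P.cons (P.lf 1338 0 0) P.nil)))) (P.cons (P.cons (P.lf 102732 0 0) (P.cons (P.lf 0 150801 0) (P.cons (P.lf 2883 0 0) P.nil))) (P.cons (P.cons (P.lf 0 44487 0) (P.cons (P.lf 0 1107 0) P.nil)) (P.cons (P.cons (P.lf 0 1545 0) P.nil) P.nil)))))) 9339)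
 (EL.cons 11 (TM.mk (P.cons (P.cons (P.lf 0 8535378 0) (P.cons (P.lf 52715190 0 0) (P.cons (P.lf 0 2619570 0) (P.cons (P.lf 0 1210947 0) (P.cons (P.lf 33999 0 0) (P.cons (P.lf 7149 0 0) P.nil)))))) (P.cons (P.cons (P.lf 20536284 0 0) (P.cons (P.lf 0 14050089 0) (P.cons (P.lf 326904 0 0) (P.cons (P.lf 310167 0 0) (P.cons (P.lf 0 7857 0) P.nil))))) (P.cons (P.cons (P.lf 0 3819027 0) (P.cons (P.lf 0 1363326 0) (P.cons (P.lf 149880 0 0) (P.cons (P.lf 34098 0 0) P.nil)))) (P.cons (P.cons (P.lf 0 772371 0) (P.cons (P.lf 132363 0 0) (P.cons (P.lf 8688 0 0) P.nil))) (P.cons (P.cons (P.lf 40308 0 0) (P.cons (P.lf 10521 0 0) P.nil)) (P.cons (P.cons (P.lf 6498 0 0) P.nil) P.nil)))))) 12465)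
 EL.nil)))
noncomputable def S227_241_512_586_25 : EL := (EL.cons 4 (TM.mk (P.cons (P.cons (P.lf 58926819 0 0) (P.cons (P.lf 6023196 0 0) (P.cons (P.lf 0 95865 0) (P.lf 0 31953 0)))) (P.cons (P.cons (P.lf 0 28081335 0) (P.cons (P.lf 0 5431911 0) (P.cons (P.lf 86454 0 0) (P.lf 28818 0 0)))) (P.cons (P.cons (P.lf 0 1462800 0) (P.cons (P.lf 1484436 0 0) (P.cons (P.lf 0 23625 0) (P.lf 0 7875 0)))) (P.cons (P.cons (P.lf 1741248 0 0) (P.cons (P.lf 0 60234 0) (P.cons (P.lf 957 0 0) P.nil))) (P.cons (P.cons (P.lf 0 57732 0) (P.cons (P.lf 0 20322 0) P.nil)) (P.cons (P.cons (P.lf 0 16875 0) P.nil) P.nil)))))) 5307)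
 (EL.cons 8 (TM.mk (P.cons (P.cons (P.lf 0 6814944 0) (P.cons (P.lf 0 696588 0) (P.cons (P.lf 11085 0 0) (P.lf 3693 0 0)))) (P.cons (P.cons (P.lf 5456433 0 0) (P.cons (P.lf 853977 0 0) (P.cons (P.lf 0 13590 0) (P.lf 0 4530 0)))) (P.cons (P.cons (P.lf 0 902943 0) (P.cons (P.lf 0 377280 0) (P.cons (P.lf 6003 0 0) (P.lf 2001 0 0)))) (P.cons (P.cons (P.lf 0 244704 0) (P.cons (P.lf 64632 0 0) (P.cons (P.lf 0 1026 0) P.nil))) (P.cons (P.cons (P.lf 71349 0 0) (P.cons (P.lf 0 603 0) P.nil)) (P.cons (P.cons (P.lf 0 825 0) P.nil) P.nil)))))) 2262)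
 (EL.cons 11 (TM.mk (P.cons (P.cons (P.lf 88396305 0 0) (P.cons (P.lf 0 3276729 0) (P.cons (P.lf 0 1623630 0) (P.cons (P.lf 14733 0 0) (P.lf 3681 0 0))))) (P.cons (P.cons (P.lf 0 53145741 0) (P.cons (P.lf 1970040 0 0) (P.cons (P.lf 976161 0 0) (P.cons (P.lf 0 8856 0) (P.lf 0 2214 0))))) (P.cons (P.cons (P.lf 6535635 0 0) (P.cons (P.lf 0 242265 0) (P.cons (P.lf 0 120042 0) (P.cons (P.lf 1089 0 0) P.nil)))) (P.cons (P.cons (P.lf 574911 0 0) (P.cons (P.lf 0 21309 0) (P.cons (P.lf 0 10557 0) P.nil))) (P.cons (P.cons (P.lf 0 31980 0) (P.cons (P.lf 1185 0 0) P.nil)) (P.cons (P.cons (P.lf 0 2412 0) P.nil) P.nil)))))) 1890)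
 EL.nil)))
noncomputable def S227_241_512_586_26 : EL := (EL.cons 4 (TM.mk (P.cons (P.cons (P.lf 968997 0 0) (P.cons (P.lf 0 5849652 0) (P.cons (P.lf 0 514941 0) (P.cons (P.lf 50388 0 0) (P.cons (P.lf 6297 0 0) (P.cons (P.lf 0 102 0) P.nil)))))) (P.cons (P.cons (P.lf 0 2513298 0) (P.cons (P.lf 2326110 0 0) (P.cons (P.lf 489897 0 0) (P.cons (P.lf 0 29112 0) (P.cons (P.lf 0 5457 0) P.nil))))) (P.cons (P.cons (P.lf 807678 0 0) (P.cons (P.lf 475884 0 0) (P.cons (P.lf 0 135066 0) (P.cons (P.lf 1533 0 0) P.nil)))) (P.cons (P.cons (P.lf 165666 0 0) (P.cons (P.lf 0 221115 0) (P.cons (P.lf 1695 0 0) P.nil))) (P.cons (P.cons (P.lf 0 65187 0) (P.cons (P.lf 0 5085 0) P.nil)) (P.cons (P.cons (P.lf 0 3339 0) P.nil) P.nil)))))) 14577)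
 (EL.cons 8 (TM.mk (P.cons (P.cons (P.lf 0 112065 0) (P.cons (P.lf 676518 0 0) (P.cons (P.lf 59553 0 0) (P.cons (P.lf 0 5826 0) (P.cons (P.lf 0 726 0) (P.cons (P.lf 9 0 0) P.nil)))))) (P.cons (P.cons (P.lf 326985 0 0) (P.cons (P.lf 0 488283 0) (P.cons (P.lf 0 75957 0) (P.cons (P.lf 5253 0 0) (P.cons (P.lf 867 0 0) P.nil))))) (P.cons (P.cons (P.lf 0 187938 0) (P.cons (P.lf 34092 0 0) (P.cons (P.lf 34152 0 0) (P.cons (P.lf 0 1284 0) P.nil)))) (P.cons (P.cons (P.lf 11982 0 0) (P.cons (P.lf 42420 0 0) (P.cons (P.lf 0 5439 0) P.nil))) (P.cons (P.cons (P.lf 13386 0 0) (P.cons (P.lf 0 7767 0) P.nil)) (P.cons (P.cons (P.lf 0 2079 0) P.nil) P.nil)))))) 4509)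
 (EL.cons 11 (TM.mk (P.cons (P.cons (P.lf 1453599 0 0) (P.cons (P.lf 0 8977545 0) (P.cons (P.lf 446118 0 0) (P.cons (P.lf 206226 0 0) (P.cons (P.lf 0 5790 0) (P.cons (P.lf 0 1215 0) P.nil)))))) (P.cons (P.cons (P.lf 0 3951435 0) (P.cons (P.lf 5197002 0 0) (P.cons (P.lf 0 195021 0) (P.cons (P.lf 0 117240 0) (P.cons (P.lf 3144 0 0) P.nil))))) (P.cons (P.cons (P.lf 1738848 0 0) (P.cons (P.lf 0 490590 0) (P.cons (P.lf 0 9360 0) (P.cons (P.lf 10125 0 0) P.nil)))) (P.cons (P.cons (P.lf 0 61623 0) (P.cons (P.lf 0 104085 0) (P.cons (P.lf 6765 0 0) P.nil))) (P.cons (P.cons (P.lf 0 50685 0) (P.cons (P.lf 5226 0 0) P.nil)) (P.cons (P.cons (P.lf 837 0 0) P.nil) P.nil)))))) 7635)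
 EL.nil)))
noncomputable def S227_241_512_586_27 : EL := (EL.cons 13 (TM.mk (P.lf 0 4294967296 0) 0)
 EL.nil)
noncomputable def S227_241_512_586_28 : EL := (EL.cons 13 (TM.mk (P.cons (P.cons (P.lf 0 70626946 0) (P.cons (P.lf 433579704 0 0) (P.cons (P.lf 0 6900992 0) (P.lf 0 2300328 0)))) (P.cons (P.cons (P.lf 149528466 0 0) (P.cons (P.lf 15284032 0 0) (P.cons (P.lf 0 243264 0) (P.lf 0 81088 0)))) (P.cons (P.cons (P.lf 10634954 0 0) (P.cons (P.lf 0 2162992 0) (P.cons (P.lf 34424 0 0) (P.lf 11472 0 0)))) (P.cons (P.cons (P.lf 0 1207995 0) (P.cons (P.lf 0 82136 0) (P.cons (P.lf 1304 0 0) P.nil))) (P.cons (P.cons (P.lf 0 47895 0) (P.cons (P.lf 5244 0 0) P.nil)) (P.cons (P.cons (P.lf 2739 0 0) P.nil) P.nil)))))) 1286)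
 EL.nil)
noncomputable def S227_241_512_586_29 : EL := (EL.cons 13 (TM.mk (P.cons (P.cons (P.lf 0 1161397 0) (P.cons (P.lf 14259671 0 0) (P.cons (P.lf 0 43997110 0) (P.cons (P.lf 1317665 0 0) (P.cons (P.lf 453350 0 0) (P.cons (P.lf 0 7392 0) P.nil)))))) (P.cons (P.cons (P.lf 4917727 0 0) (P.cons (P.lf 0 29687324 0) (P.cons (P.lf 0 2613352 0) (P.cons (P.lf 255735 0 0) (P.cons (P.lf 31961 0 0) P.nil))))) (P.cons (P.cons (P.lf 0 4856040 0) (P.cons (P.lf 0 3282569 0) (P.cons (P.lf 434567 0 0) (P.cons (P.lf 5245 0 0) P.nil)))) (P.cons (P.cons (P.lf 0 780236 0) (P.cons (P.lf 316111 0 0) (P.cons (P.lf 26946 0 0) P.nil))) (P.cons (P.cons (P.lf 56203 0 0) (P.cons (P.lf 34870 0 0) P.nil)) (P.cons (P.cons (P.lf 9407 0 0) P.nil) P.nil)))))) 19038)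
 EL.nil)
noncomputable def S227_241_512_586_30 : EL := (EL.cons 13 (TM.mk (P.cons (P.lf 731445116 0 0) (P.cons (P.lf 0 228474868 0) (P.cons (P.lf 0 2007284 0) (P.cons (P.lf 199892 0 0) (P.cons (P.lf 3020 0 0) (P.cons (P.lf 0 164 0) P.nil)))))) 40)
 EL.nil)
noncomputable def S227_241_512_586_31 : EL := (EL.cons 13 (TM.mk (P.cons (P.cons (P.lf 12027969 0 0) (P.cons (P.lf 0 73839853 0) (P.cons (P.lf 1175258 0 0) (P.lf 391752 0 0)))) (P.cons (P.cons (P.lf 0 29222189 0) (P.cons (P.lf 20461770 0 0) (P.cons (P.lf 0 325676 0) (P.lf 0 108558 0)))) (P.cons (P.cons (P.lf 6110138 0 0) (P.cons (P.lf 1384048 0 0) (P.cons (P.lf 0 22028 0) (P.lf 0 7342 0)))) (P.cons (P.cons (P.lf 844631 0 0) (P.cons (P.lf 0 114110 0) (P.cons (P.lf 1816 0 0) P.nil))) (P.cons (P.cons (P.lf 0 58043 0) (P.cons (P.lf 0 7289 0) P.nil)) (P.cons (P.cons (P.lf 0 4181 0) P.nil) P.nil)))))) 1881)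
 EL.nil)
noncomputable def S227_241_512_586_32 : EL := (EL.cons 13 (TM.mk (P.cons (P.cons (P.lf 197789 0 0) (P.cons (P.lf 0 2428462 0) (P.cons (P.lf 7492832 0 0) (P.cons (P.lf 0 224402 0) (P.cons (P.lf 0 77206 0) (P.cons (P.lf 1258 0 0) P.nil)))))) (P.cons (P.cons (P.lf 0 899284 0) (P.cons (P.lf 5814392 0 0) (P.cons (P.lf 0 1895406 0) (P.cons (P.lf 26542 0 0) (P.cons (P.lf 18673 0 0) P.nil))))) (P.cons (P.cons (P.lf 1088057 0 0) (P.cons (P.lf 0 1013550 0) (P.cons (P.lf 0 233590 0) (P.cons (P.lf 13326 0 0) P.nil)))) (P.cons (P.cons (P.lf 0 123092 0) (P.cons (P.lf 0 242992 0) (P.cons (P.lf 19354 0 0) P.nil))) (P.cons (P.cons (P.lf 0 53574 0) (P.cons (P.lf 10714 0 0) P.nil)) (P.cons (P.cons (P.lf 1245 0 0) P.nil) P.nil)))))) 11725)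
 EL.nil)
noncomputable def S227_241_512_586_33 : EL := (EL.cons 14 (TM.mk (P.lf 8589934592 0 0) 0)
 EL.nil)
noncomputable def S227_241_512_586_34 : EL := (EL.cons 14 (TM.mk (P.cons (P.cons (P.lf 141253892 0 0) (P.cons (P.lf 0 867159408 0) (P.cons (P.lf 13801984 0 0) (P.lf 4600656 0 0)))) (P.cons (P.cons (P.lf 0 299056932 0) (P.cons (P.lf 0 30568064 0) (P.cons (P.lf 486528 0 0) (P.lf 162176 0 0)))) (P.cons (P.cons (P.lf 0 21269908 0) (P.cons (P.lf 4325984 0 0) (P.cons (P.lf 0 68848 0) (P.lf 0 22944 0)))) (P.cons (P.cons (P.lf 2415990 0 0) (P.cons (P.lf 164272 0 0) (P.cons (P.lf 0 2608 0) P.nil))) (P.cons (P.cons (P.lf 95790 0 0) (P.cons (P.lf 0 10488 0) P.nil)) (P.cons (P.cons (P.lf 0 5478 0) P.nil) P.nil)))))) 2572)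
 EL.nil)
noncomputable def S227_241_512_586_35 : EL := (EL.cons 14 (TM.mk (P.cons (P.cons (P.lf 2322794 0 0) (P.cons (P.lf 0 28519342 0) (P.cons (P.lf 87994220 0 0) (P.cons (P.lf 0 2635330 0) (P.cons (P.lf 0 906700 0) (P.cons (P.lf 14784 0 0) P.nil)))))) (P.cons (P.cons (P.lf 0 9835454 0) (P.cons (P.lf 59374648 0 0) (P.cons (P.lf 5226704 0 0) (P.cons (P.lf 0 511470 0) (P.cons (P.lf 0 63922 0) P.nil))))) (P.cons (P.cons (P.lf 9712080 0 0) (P.cons (P.lf 6565138 0 0) (P.cons (P.lf 0 869134 0) (P.cons (P.lf 0 10490 0) P.nil)))) (P.cons (P.cons (P.lf 1560472 0 0) (P.cons (P.lf 0 632222 0) (P.cons (P.lf 0 53892 0) P.nil))) (P.cons (P.cons (P.lf 0 112406 0) (P.cons (P.lf 0 69740 0) P.nil)) (P.cons (P.cons (P.lf 0 18814 0) P.nil) P.nil)))))) 38076)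
 EL.nil)
noncomputable def S227_241_512_586_36 : EL := (EL.cons 14 (TM.mk (P.cons (P.lf 0 1462890232 0) (P.cons (P.lf 456949736 0 0) (P.cons (P.lf 4014568 0 0) (P.cons (P.lf 0 399784 0) (P.cons (P.lf 0 6040 0) (P.cons (P.lf 328 0 0) P.nil)))))) 80)
 EL.nil)
noncomputable def S227_241_512_586_37 : EL := (EL.cons 14 (TM.mk (P.cons (P.cons (P.lf 0 24055938 0) (P.cons (P.lf 147679706 0 0) (P.cons (P.lf 0 2350516 0) (P.lf 0 783504 0)))) (P.cons (P.cons (P.lf 58444378 0 0) (P.cons (P.lf 0 40923540 0) (P.cons (P.lf 651352 0 0) (P.lf 217116 0 0)))) (P.cons (P.cons (P.lf 0 12220276 0) (P.cons (P.lf 0 2768096 0) (P.cons (P.lf 44056 0 0) (P.lf 14684 0 0)))) (P.cons (P.cons (P.lf 0 1689262 0) (P.cons (P.lf 228220 0 0) (P.cons (P.lf 0 3632 0) P.nil))) (P.cons (P.cons (P.lf 116086 0 0) (P.cons (P.lf 14578 0 0) P.nil)) (P.cons (P.cons (P.lf 8362 0 0) P.nil) P.nil)))))) 3762)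
 EL.nil)
noncomputable def S227_241_512_586_38 : EL := (EL.cons 14 (TM.mk (P.cons (P.cons (P.lf 0 395578 0) (P.cons (P.lf 4856924 0 0) (P.cons (P.lf 0 14985664 0) (P.cons (P.lf 448804 0 0) (P.cons (P.lf 154412 0 0) (P.cons (P.lf 0 2516 0) P.nil)))))) (P.cons (P.cons (P.lf 1798568 0 0) (P.cons (P.lf 0 11628784 0) (P.cons (P.lf 3790812 0 0) (P.cons (P.lf 0 53084 0) (P.cons (P.lf 0 37346 0) P.nil))))) (P.cons (P.cons (P.lf 0 2176114 0) (P.cons (P.lf 2027100 0 0) (P.cons (P.lf 467180 0 0) (P.cons (P.lf 0 26652 0) P.nil)))) (P.cons (P.cons (P.lf 246184 0 0) (P.cons (P.lf 485984 0 0) (P.cons (P.lf 0 38708 0) P.nil))) (P.cons (P.cons (P.lf 107148 0 0) (P.cons (P.lf 0 21428 0) P.nil)) (P.cons (P.cons (P.lf 0 2490 0) P.nil) P.nil)))))) 23450)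
 EL.nil)
noncomputable def S227_241_512_586_39 : EL := (EL.cons 14 (TM.mk (P.cons (P.lf 249134356 0 0) (P.cons (P.lf 0 155639672 0) (P.cons (P.lf 22940490 0 0) (P.cons (P.lf 563286 0 0) (P.cons (P.lf 0 38600 0) (P.cons (P.lf 0 1128 0) P.nil)))))) 108)
 EL.nil)
noncomputable def S227_241_512_586_40 : EL := (EL.cons 14 (TM.mk (P.cons (P.cons (P.lf 4096794 0 0) (P.cons (P.lf 0 25150272 0) (P.cons (P.lf 400298 0 0) (P.lf 133432 0 0)))) (P.cons (P.cons (P.lf 0 11232922 0) (P.cons (P.lf 14825356 0 0) (P.cons (P.lf 0 235964 0) (P.lf 0 78654 0)))) (P.cons (P.cons (P.lf 5178908 0 0) (P.cons (P.lf 0 1636532 0) (P.cons (P.lf 26046 0 0) (P.lf 8682 0 0)))) (P.cons (P.cons (P.lf 0 333948 0) (P.cons (P.lf 0 212116 0) (P.cons (P.lf 3376 0 0) P.nil))) (P.cons (P.cons (P.lf 0 118046 0) (P.cons (P.lf 10164 0 0) P.nil)) (P.cons (P.cons (P.lf 4488 0 0) P.nil) P.nil)))))) 3682)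
 EL.nil)
noncomputable def S227_241_512_586_41 : EL := (EL.cons 14 (TM.mk (P.cons (P.cons (P.lf 67368 0 0) (P.cons (P.lf 0 827148 0) (P.cons (P.lf 2552100 0 0) (P.cons (P.lf 0 76432 0) (P.cons (P.lf 0 26296 0) (P.cons (P.lf 428 0 0) P.nil)))))) (P.cons (P.cons (P.lf 0 327344 0) (P.cons (P.lf 2238782 0 0) (P.cons (P.lf 0 1442762 0) (P.cons (P.lf 32914 0 0) (P.cons (P.lf 14574 0 0) P.nil))))) (P.cons (P.cons (P.lf 466090 0 0) (P.cons (P.lf 0 961554 0) (P.cons (P.lf 115090 0 0) (P.cons (P.lf 1924 0 0) P.nil)))) (P.cons (P.cons (P.lf 0 156826 0) (P.cons (P.lf 19408 0 0) (P.cons (P.lf 33912 0 0) P.nil))) (P.cons (P.cons (P.lf 0 6252 0) (P.cons (P.lf 30986 0 0) P.nil)) (P.cons (P.cons (P.lf 6338 0 0) P.nil) P.nil)))))) 16940)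
 EL.nil)
noncomputable def S227_241_512_586_42 : EL := (EL.cons 14 (TM.mk (P.cons (P.lf 0 42428286 0) (P.cons (P.lf 39758816 0 0) (P.cons (P.lf 0 12069796 0) (P.cons (P.lf 1040076 0 0) (P.cons (P.lf 54328 0 0) (P.cons (P.lf 0 2546 0) P.nil)))))) 172)
 EL.nil)
noncomputable def S227_241_512_586_43 : EL := (EL.cons 14 (TM.mk (P.cons (P.cons (P.lf 0 697694 0) (P.cons (P.lf 4283162 0 0) (P.cons (P.lf 0 68172 0) (P.lf 0 22724 0)))) (P.cons (P.cons (P.lf 2130930 0 0) (P.cons (P.lf 0 3862692 0) (P.cons (P.lf 61478 0 0) (P.lf 20492 0 0)))) (P.cons (P.cons (P.lf 0 1477614 0) (P.cons (P.lf 1055600 0 0) (P.cons (P.lf 0 16800 0) (P.lf 0 5600 0)))) (P.cons (P.cons (P.lf 326928 0 0) (P.cons (P.lf 0 42832 0) (P.cons (P.lf 680 0 0) P.nil))) (P.cons (P.cons (P.lf 5278 0 0) (P.cons (P.lf 0 14450 0) P.nil)) (P.cons (P.cons (P.lf 0 7432 0) P.nil) P.nil)))))) 3392)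
 EL.nil)
noncomputable def S227_241_512_586_44 : EL := (EL.cons 14 (TM.mk (P.cons (P.cons (P.lf 0 11472 0) (P.cons (P.lf 140864 0 0) (P.cons (P.lf 0 434630 0) (P.cons (P.lf 13016 0 0) (P.cons (P.lf 4478 0 0) (P.cons (P.lf 0 72 0) P.nil)))))) (P.cons (P.cons (P.lf 59330 0 0) (P.cons (P.lf 0 425272 0) (P.cons (P.lf 381468 0 0) (P.cons (P.lf 0 9670 0) (P.cons (P.lf 0 3880 0) P.nil))))) (P.cons (P.cons (P.lf 0 96758 0) (P.cons (P.lf 282462 0 0) (P.cons (P.lf 0 95156 0) (P.cons (P.lf 1386 0 0) P.nil)))) (P.cons (P.cons (P.lf 51346 0 0) (P.cons (P.lf 0 53370 0) (P.cons (P.lf 0 446 0) P.nil))) (P.cons (P.cons (P.lf 0 7044 0) (P.cons (P.lf 0 4796 0) P.nil)) (P.cons (P.cons (P.lf 0 1506 0) P.nil) P.nil)))))) 9638)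
 EL.nil)
noncomputable def S227_241_512_586_45 : EL := (EL.cons 14 (TM.mk (P.cons (P.cons (P.lf 38196 0 0) (P.cons (P.lf 0 703462 0) (P.cons (P.lf 4329764 0 0) (P.cons (P.lf 0 8970988 0) (P.cons (P.lf 377238 0 0) (P.cons (P.lf 134668 0 0) P.nil)))))) (P.cons (P.cons (P.lf 0 242602 0) (P.cons (P.lf 2953888 0 0) (P.cons (P.lf 0 8885644 0) (P.cons (P.lf 0 668874 0) (P.cons (P.lf 136170 0 0) P.nil))))) (P.cons (P.cons (P.lf 496374 0 0) (P.cons (P.lf 0 2832810 0) (P.cons (P.lf 0 1287522 0) (P.cons (P.lf 156764 0 0) P.nil)))) (P.cons (P.cons (P.lf 0 287456 0) (P.cons (P.lf 0 591002 0) (P.cons (P.lf 114130 0 0) P.nil))) (P.cons (P.cons (P.lf 0 82964 0) (P.cons (P.lf 31482 0 0) P.nil)) (P.cons (P.cons (P.lf 2360 0 0) P.nil) P.nil)))))) 100266)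
 EL.nil)
noncomputable def S227_241_512_586_46 : EL := (EL.cons 15 (TM.mk (P.lf 4294967296 0 0) 0)
 EL.nil)
noncomputable def S227_241_512_586_47 : EL := (EL.cons 15 (TM.mk (P.cons (P.cons (P.lf 70626946 0 0) (P.cons (P.lf 0 433579704 0) (P.cons (P.lf 6900992 0 0) (P.lf 2300328 0 0)))) (P.cons (P.cons (P.lf 0 149528466 0) (P.cons (P.lf 0 15284032 0) (P.cons (P.lf 243264 0 0) (P.lf 81088 0 0)))) (P.cons (P.cons (P.lf 0 10634954 0) (P.cons (P.lf 2162992 0 0) (P.cons (P.lf 0 34424 0) (P.lf 0 11472 0)))) (P.cons (P.cons (P.lf 1207995 0 0) (P.cons (P.lf 82136 0 0) (P.cons (P.lf 0 1304 0) P.nil))) (P.cons (P.cons (P.lf 47895 0 0) (P.cons (P.lf 0 5244 0) P.nil)) (P.cons (P.cons (P.lf 0 2739 0) P.nil) P.nil)))))) 1286)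
 EL.nil)
noncomputable def S227_241_512_586_48 : EL := (EL.cons 15 (TM.mk (P.cons (P.cons (P.lf 1161397 0 0) (P.cons (P.lf 0 14259671 0) (P.cons (P.lf 43997110 0 0) (P.cons (P.lf 0 1317665 0) (P.cons (P.lf 0 453350 0) (P.cons (P.lf 7392 0 0) P.nil)))))) (P.cons (P.cons (P.lf 0 4917727 0) (P.cons (P.lf 29687324 0 0) (P.cons (P.lf 2613352 0 0) (P.cons (P.lf 0 255735 0) (P.cons (P.lf 0 31961 0) P.nil))))) (P.cons (P.cons (P.lf 4856040 0 0) (P.cons (P.lf 3282569 0 0) (P.cons (P.lf 0 434567 0) (P.cons (P.lf 0 5245 0) P.nil)))) (P.cons (P.cons (P.lf 780236 0 0) (P.cons (P.lf 0 316111 0) (P.cons (P.lf 0 26946 0) P.nil))) (P.cons (P.cons (P.lf 0 56203 0) (P.cons (P.lf 0 34870 0) P.nil)) (P.cons (P.cons (P.lf 0 9407 0) P.nil) P.nil)))))) 19038)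
 EL.nil)
noncomputable def S227_241_512_586 : SL := (SL.cons S227_241_512_586_0 (SL.cons S227_241_512_586_1 (SL.cons S227_241_512_586_2 (SL.cons S227_241_512_586_3 (SL.cons S227_241_512_586_4 (SL.cons S227_241_512_586_5 (SL.cons S227_241_512_586_6 (SL.cons S227_241_512_586_7 (SL.cons S227_241_512_586_8 (SL.cons S227_241_512_586_9 (SL.cons S227_241_512_586_10 (SL.cons S227_241_512_586_11 (SL.cons S227_241_512_586_12 (SL.cons S227_241_512_586_13 (SL.cons S227_241_512_586_14 (SL.cons S227_241_512_586_15 (SL.cons S227_241_512_586_16 (SL.cons S227_241_512_586_17 (SL.cons S227_241_512_586_18 (SL.cons S227_241_512_586_19 (SL.cons S227_241_512_586_20 (SL.cons S227_241_512_586_21 (SL.cons S227_241_512_586_22 (SL.cons S227_241_512_586_23 (SL.cons S227_241_512_586_24 (SL.cons S227_241_512_586_25 (SL.cons S227_241_512_586_26 (SL.cons S227_241_512_586_27 (SL.cons S227_241_512_586_28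 (SL.cons S227_241_512_586_29 (SL.cons S227_241_512_586_30 (SL.cons S227_241_512_586_31 (SL.cons S227_241_512_586_32 (SL.cons S227_241_512_586_33 (SL.cons S227_241_512_586_34 (SL.cons S227_241_512_586_35 (SL.cons S227_241_512_586_36 (SL.cons S227_241_512_586_37 (SL.cons S227_241_512_586_38 (SL.cons S227_241_512_586_39 (SL.cons S227_241_512_586_40 (SL.cons S227_241_512_586_41 (SL.cons S227_241_512_586_42 (SL.cons S227_241_512_586_43 (SL.cons S227_241_512_586_44 (SL.cons S227_241_512_586_45 (SL.cons S227_241_512_586_46 (SL.cons S227_241_512_586_47 (SL.cons S227_241_512_586_48 SL.nil)))))))))))))))))))))))))))))))))))))))))))))))))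
noncomputable def S227_241_512_660_0 : EL := (EL.cons 0 (TM.mk (P.cons (P.lf 8236751121 0 0) (P.cons (P.lf 136792680 0 0) (P.cons (P.lf 0 20162540 0) (P.cons (P.lf 0 495075 0) (P.cons (P.lf 33925 0 0) (P.cons (P.lf 991 0 0) P.nil)))))) 101)
 (EL.cons 1 (TM.mk (P.cons (P.lf 0 673184881 0) (P.cons (P.lf 202366545 0 0) (P.cons (P.lf 5530590 0 0) (P.cons (P.lf 0 526580 0) (P.cons (P.lf 0 13798 0) (P.cons (P.lf 714 0 0) P.nil)))))) 98)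
 (EL.cons 5 (TM.mk (P.cons (P.lf 4372821786 0 0) (P.cons (P.lf 0 48637396 0) (P.cons (P.lf 7168902 0 0) (P.cons (P.lf 176026 0 0) (P.cons (P.lf 0 12058 0) (P.cons (P.lf 0 354 0) P.nil)))))) 135)
 (EL.cons 9 (TM.mk (P.lf 6442450944 0 0) 2)
 EL.nil))))
noncomputable def S227_241_512_660_1 : EL := (EL.cons 0 (TM.mk (P.cons (P.cons (P.lf 35266148 0 0) (P.cons (P.lf 0 1457308072 0) (P.cons (P.lf 97432225 0 0) (P.lf 32477406 0 0)))) (P.cons (P.cons (P.lf 0 471496373 0) (P.cons (P.lf 0 156570705 0) (P.cons (P.lf 10467948 0 0) (P.lf 3489306 0 0)))) (P.cons (P.cons (P.lf 0 63287018 0) (P.cons (P.lf 19067532 0 0) (P.cons (P.lf 0 1274802 0) (P.lf 0 424932 0)))) (P.cons (P.cons (P.lf 7393662 0 0) (P.cons (P.lf 1728197 0 0) (P.cons (P.lf 0 115535 0) P.nil))) (P.cons (P.cons (P.lf 610628 0 0) (P.cons (P.lf 0 87726 0) P.nil)) (P.cons (P.cons (P.lf 0 32457 0) P.nil) P.nil))))))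 69127)
 (EL.cons 1 (TM.mk (P.cons (P.cons (P.lf 1111239824 0 0) (P.cons (P.lf 316264398 0 0) (P.cons (P.lf 0 21144699 0) (P.lf 0 7048229 0)))) (P.cons (P.cons (P.lf 163877775 0 0) (P.cons (P.lf 0 79189838 0) (P.cons (P.lf 5294445 0 0) (P.lf 1764817 0 0)))) (P.cons (P.cons (P.lf 0 33898796 0) (P.cons (P.lf 0 9592650 0) (P.cons (P.lf 641334 0 0) (P.lf 213775 0 0)))) (P.cons (P.cons (P.lf 0 3748241 0) (P.cons (P.lf 690452 0 0) (P.cons (P.lf 0 46157 0) P.nil))) (P.cons (P.cons (P.lf 272154 0 0) (P.cons (P.lf 71281 0 0) P.nil)) (P.cons (P.cons (P.lf 24304 0 0) P.nil) P.nil)))))) 42311)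
 (EL.cons 5 (TM.mk (P.cons (P.cons (P.lf 0 613916515 0) (P.cons (P.lf 0 885626888 0) (P.cons (P.lf 59210954 0 0) (P.lf 19736984 0 0)))) (P.cons (P.cons (P.lf 0 111986705 0) (P.cons (P.lf 6185176 0 0) (P.cons (P.lf 0 413518 0) (P.lf 0 137834 0)))) (P.cons (P.cons (P.lf 8021681 0 0) (P.cons (P.lf 223458 0 0) (P.cons (P.lf 0 14946 0) (P.lf 0 4988 0)))) (P.cons (P.cons (P.lf 0 438581 0) (P.cons (P.lf 0 348534 0) (P.cons (P.lf 23298 0 0) P.nil))) (P.cons (P.cons (P.lf 0 144425 0) (P.cons (P.lf 14192 0 0) P.nil)) (P.cons (P.cons (P.lf 6487 0 0) P.nil) P.nil)))))) 39044)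
 (EL.cons 9 (TM.mk (P.cons (P.cons (P.lf 0 530627149 0) (P.cons (P.lf 0 1238630172 0) (P.cons (P.lf 82811928 0 0) (P.lf 27603972 0 0)))) (P.cons (P.cons (P.lf 0 246732219 0) (P.cons (P.lf 0 43662708 0) (P.cons (P.lf 2919186 0 0) (P.lf 973056 0 0)))) (P.cons (P.cons (P.lf 0 12776793 0) (P.cons (P.lf 6179130 0 0) (P.cons (P.lf 0 413118 0) (P.lf 0 137706 0)))) (P.cons (P.cons (P.lf 1932580 0 0) (P.cons (P.lf 234642 0 0) (P.cons (P.lf 0 15684 0) P.nil))) (P.cons (P.cons (P.lf 64132 0 0) (P.cons (P.lf 0 14988 0) P.nil)) (P.cons (P.cons (P.lf 0 4444 0) P.nil) P.nil)))))) 8494)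
 (EL.cons 2 (TM.mk (P.cons (P.cons (P.lf 459738168 0 0) (P.cons (P.lf 0 71179011 0) (P.cons (P.lf 0 34291802 0) (P.cons (P.lf 1297701 0 0) (P.lf 324424 0 0))))) (P.cons (P.cons (P.lf 0 132800141 0) (P.cons (P.lf 20560795 0 0) (P.cons (P.lf 9905543 0 0) (P.cons (P.lf 0 374852 0) (P.lf 0 93712 0))))) (P.cons (P.cons (P.lf 0 6228888 0) (P.cons (P.lf 964386 0 0) (P.cons (P.lf 464610 0 0) (P.cons (P.lf 0 17580 0) P.nil)))) (P.cons (P.cons (P.lf 554312 0 0) (P.cons (P.lf 0 85820 0) (P.cons (P.lf 0 41343 0) P.nil))) (P.cons (P.cons (P.lf 24111 0 0) (P.cons (P.lf 0 3732 0) P.nil)) (P.cons (P.cons (P.lf 0 1141 0) P.nil) P.nil)))))) 9338)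
 (EL.cons 6 (TM.mk (P.cons (P.cons (P.lf 1413411894 0 0) (P.cons (P.lf 0 218831655 0) (P.cons (P.lf 0 105426189 0) (P.cons (P.lf 3989634 0 0) (P.lf 997407 0 0))))) (P.cons (P.cons (P.lf 49823907 0 0) (P.cons (P.lf 0 7713990 0) (P.cons (P.lf 0 3716355 0) (P.cons (P.lf 140637 0 0) (P.lf 35157 0 0))))) (P.cons (P.cons (P.lf 0 7051065 0) (P.cons (P.lf 1091679 0 0) (P.cons (P.lf 525936 0 0) (P.cons (P.lf 0 19902 0) P.nil)))) (P.cons (P.cons (P.lf 0 267756 0) (P.cons (P.lf 41454 0 0) (P.cons (P.lf 19971 0 0) P.nil))) (P.cons (P.cons (P.lf 17109 0 0) (P.cons (P.lf 0 2646 0) P.nil)) (P.cons (P.cons (P.lf 750 0 0) P.nil) P.nil)))))) 8619)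
 EL.nil))))))
noncomputable def S227_241_512_660_2 : EL := (EL.cons 0 (TM.mk (P.cons (P.cons (P.lf 0 61686265 0) (P.cons (P.lf 0 34365036 0) (P.cons (P.lf 258198984 0 0) (P.cons (P.lf 0 33452094 0) (P.cons (P.lf 0 10262116 0) (P.cons (P.lf 762585 0 0) P.nil)))))) (P.cons (P.cons (P.lf 22076029 0 0) (P.cons (P.lf 183412338 0 0) (P.cons (P.lf 41173938 0 0) (P.cons (P.lf 0 11232775 0) (P.cons (P.lf 0 2142887 0) P.nil))))) (P.cons (P.cons (P.lf 30901730 0 0) (P.cons (P.lf 34641513 0 0) (P.cons (P.lf 0 7272918 0) (P.cons (P.lf 0 109205 0) P.nil)))) (P.cons (P.cons (P.lf 4561912 0 0) (P.cons (P.lf 0 3320927 0) (P.cons (P.lf 0 769995 0) P.nil))) (P.cons (P.cons (P.lf 0 502657 0) (P.cons (P.lf 0 638845 0) P.nil)) (P.cons (P.cons (P.lf 0 97442 0) P.nil) P.nil)))))) 1509751)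
 (EL.cons 1 (TM.mk (P.cons (P.cons (P.lf 0 178485903 0) (P.cons (P.lf 0 458072922 0) (P.cons (P.lf 0 66101014 0) (P.cons (P.lf 23142398 0 0) (P.cons (P.lf 3878914 0 0) (P.cons (P.lf 0 288244 0) P.nil)))))) (P.cons (P.cons (P.lf 0 109237442 0) (P.cons (P.lf 0 85000702 0) (P.cons (P.lf 26120304 0 0) (P.cons (P.lf 0 838472 0) (P.cons (P.lf 0 819570 0) P.nil))))) (P.cons (P.cons (P.lf 0 11482804 0) (P.cons (P.lf 16711743 0 0) (P.cons (P.lf 3302174 0 0) (P.cons (P.lf 0 963379 0) P.nil)))) (P.cons (P.cons (P.lf 2905362 0 0) (P.cons (P.lf 3009540 0 0) (P.cons (P.lf 0 413325 0) P.nil))) (P.cons (P.cons (P.lf 455986 0 0) (P.cons (P.lf 0 152831 0) P.nil)) (P.cons (P.cons (P.lf 0 25174 0) P.nil) P.nil)))))) 719870)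
 (EL.cons 5 (TM.mk (P.cons (P.cons (P.lf 71464848 0 0) (P.cons (P.lf 243461183 0 0) (P.cons (P.lf 162627479 0 0) (P.cons (P.lf 0 29348051 0) (P.cons (P.lf 0 7174406 0) (P.cons (P.lf 533120 0 0) P.nil)))))) (P.cons (P.cons (P.lf 38213700 0 0) (P.cons (P.lf 50461884 0 0) (P.cons (P.lf 0 3345572 0) (P.cons (P.lf 0 1128363 0) (P.cons (P.lf 0 1144 0) P.nil))))) (P.cons (P.cons (P.lf 2107274 0 0) (P.cons (P.lf 0 4112268 0) (P.cons (P.lf 0 320067 0) (P.cons (P.lf 171200 0 0) P.nil)))) (P.cons (P.cons (P.lf 0 873675 0) (P.cons (P.lf 0 45365 0) (P.cons (P.lf 158565 0 0) P.nil))) (P.cons (P.cons (P.lf 27689 0 0) (P.cons (P.lf 124159 0 0) P.nil)) (P.cons (P.cons (P.lf 21212 0 0) P.nil) P.nil)))))) 892270)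
 (EL.cons 9 (TM.mk (P.cons (P.cons (P.lf 43704666 0 0) (P.cons (P.lf 204037501 0 0) (P.cons (P.lf 224498439 0 0) (P.cons (P.lf 0 36390115 0) (P.cons (P.lf 0 9549844 0) (P.cons (P.lf 709648 0 0) P.nil)))))) (P.cons (P.cons (P.lf 40643790 0 0) (P.cons (P.lf 102066306 0 0) (P.cons (P.lf 9965329 0 0) (P.cons (P.lf 0 4519615 0) (P.cons (P.lf 0 673276 0) P.nil))))) (P.cons (P.cons (P.lf 11554020 0 0) (P.cons (P.lf 7239450 0 0) (P.cons (P.lf 0 2564103 0) (P.cons (P.lf 116800 0 0) P.nil)))) (P.cons (P.cons (P.lf 660297 0 0) (P.cons (P.lf 0 1081879 0) (P.cons (P.lf 0 101649 0) P.nil))) (P.cons (P.cons (P.lf 0 133252 0) (P.cons (P.lf 0 90868 0) P.nil)) (P.cons (P.cons (P.lf 0 11845 0) P.nil) P.nil)))))) 420340)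
 (EL.cons 2 (TM.mk (P.cons (P.cons (P.lf 0 75731906 0) (P.cons (P.lf 0 165053964 0) (P.cons (P.lf 44837724 0 0) (P.cons (P.lf 15081958 0 0) (P.cons (P.lf 0 2043973 0) (P.cons (P.lf 0 385245 0) P.nil)))))) (P.cons (P.cons (P.lf 0 13338045 0) (P.cons (P.lf 46897953 0 0) (P.cons (P.lf 0 8943795 0) (P.cons (P.lf 0 3916788 0) (P.cons (P.lf 495405 0 0) P.nil))))) (P.cons (P.cons (P.lf 9374478 0 0) (P.cons (P.lf 3625695 0 0) (P.cons (P.lf 0 1824744 0) (P.cons (P.lf 0 412830 0) P.nil)))) (P.cons (P.cons (P.lf 1188354 0 0) (P.cons (P.lf 0 533953 0) (P.cons (P.lf 0 11053 0) P.nil))) (P.cons (P.cons (P.lf 0 92238 0) (P.cons (P.lf 0 26263 0) P.nil)) (P.cons (P.cons (P.lf 0 10867 0) P.nil) P.nil)))))) 347793)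
 (EL.cons 6 (TM.mk (P.cons (P.cons (P.lf 0 232828998 0) (P.cons (P.lf 0 507439356 0) (P.cons (P.lf 137848416 0 0) (P.cons (P.lf 46367742 0 0) (P.cons (P.lf 0 6283974 0) (P.cons (P.lf 0 1184394 0) P.nil)))))) (P.cons (P.cons (P.lf 0 116468766 0) (P.cons (P.lf 0 20284422 0) (P.cons (P.lf 17181540 0 0) (P.cons (P.lf 2986572 0 0) (P.cons (P.lf 0 513630 0) P.nil))))) (P.cons (P.cons (P.lf 0 8260998 0) (P.cons (P.lf 6026226 0 0) (P.cons (P.lf 0 436182 0) (P.cons (P.lf 0 434064 0) P.nil)))) (P.cons (P.cons (P.lf 1234542 0 0) (P.cons (P.lf 205920 0 0) (P.cons (P.lf 0 180102 0) P.nil))) (P.cons (P.cons (P.lf 103686 0 0) (P.cons (P.lf 0 35472 0) P.nil)) (P.cons (P.cons (P.lf 0 5556 0) P.nil) P.nil)))))) 340302)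
 EL.nil))))))
noncomputable def S227_241_512_660_3 : EL := (EL.cons 0 (TM.mk (P.cons (P.lf 218965742 0 0) (P.cons (P.lf 0 136792680 0) (P.cons (P.lf 20162540 0 0) (P.cons (P.lf 495075 0 0) (P.cons (P.lf 0 33925 0) (P.cons (P.lf 0 991 0) P.nil)))))) 101)
 (EL.cons 1 (TM.mk (P.cons (P.lf 673184881 0 0) (P.cons (P.lf 0 202366545 0) (P.cons (P.lf 0 5530590 0) (P.cons (P.lf 526580 0 0) (P.cons (P.lf 13798 0 0) (P.cons (P.lf 0 714 0) P.nil)))))) 98)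
 (EL.cons 5 (TM.mk (P.cons (P.lf 2069629158 0 0) (P.cons (P.lf 48637396 0 0) (P.cons (P.lf 0 7168902 0) (P.cons (P.lf 0 176026 0) (P.cons (P.lf 12058 0 0) (P.cons (P.lf 354 0 0) P.nil)))))) 128)
 EL.nil)))
noncomputable def S227_241_512_660_4 : EL := (EL.cons 0 (TM.mk (P.cons (P.cons (P.lf 0 18034931 0) (P.cons (P.lf 0 42098507 0) (P.cons (P.lf 2814607 0 0) (P.lf 938202 0 0)))) (P.cons (P.cons (P.lf 2880891 0 0) (P.cons (P.lf 24815851 0 0) (P.cons (P.lf 0 1659128 0) (P.lf 0 553042 0)))) (P.cons (P.cons (P.lf 3143940 0 0) (P.cons (P.lf 0 2739355 0) (P.cons (P.lf 183146 0 0) (P.lf 61048 0 0)))) (P.cons (P.cons (P.lf 0 475983 0) (P.cons (P.lf 0 355057 0) (P.cons (P.lf 23737 0 0) P.nil))) (P.cons (P.cons (P.lf 0 95006 0) (P.cons (P.lf 17013 0 0) P.nil)) (P.cons (P.cons (P.lf 4934 0 0) P.nil) P.nil)))))) 14376)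
 (EL.cons 1 (TM.mk (P.cons (P.cons (P.lf 0 55446315 0) (P.cons (P.lf 0 129426999 0) (P.cons (P.lf 8653186 0 0) (P.lf 2884395 0 0)))) (P.cons (P.cons (P.lf 0 9113799 0) (P.cons (P.lf 34344727 0 0) (P.cons (P.lf 0 2296207 0) (P.lf 0 765403 0)))) (P.cons (P.cons (P.lf 6870658 0 0) (P.cons (P.lf 3080491 0 0) (P.cons (P.lf 0 205953 0) (P.lf 0 68649 0)))) (P.cons (P.cons (P.lf 771714 0 0) (P.cons (P.lf 0 233334 0) (P.cons (P.lf 15600 0 0) P.nil))) (P.cons (P.cons (P.lf 0 64336 0) (P.cons (P.lf 0 20461 0) P.nil)) (P.cons (P.cons (P.lf 0 5649 0) P.nil) P.nil)))))) 12459)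
 (EL.cons 5 (TM.mk (P.cons (P.cons (P.lf 0 170463294 0) (P.cons (P.lf 0 397908364 0) (P.cons (P.lf 26603224 0 0) (P.lf 8867740 0 0)))) (P.cons (P.cons (P.lf 0 83268388 0) (P.cons (P.lf 0 23377648 0) (P.cons (P.lf 1562974 0 0) (P.lf 520988 0 0)))) (P.cons (P.cons (P.lf 0 5376776 0) (P.cons (P.lf 3033702 0 0) (P.cons (P.lf 0 202824 0) (P.lf 0 67606 0)))) (P.cons (P.cons (P.lf 813430 0 0) (P.cons (P.lf 204456 0 0) (P.cons (P.lf 0 13668 0) P.nil))) (P.cons (P.cons (P.lf 55156 0 0) (P.cons (P.lf 0 11042 0) P.nil)) (P.cons (P.cons (P.lf 0 3234 0) P.nil) P.nil)))))) 7828)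
 EL.nil)))
noncomputable def S227_241_512_660_5 : EL := (EL.cons 0 (TM.mk (P.cons (P.cons (P.lf 1485430 0 0) (P.cons (P.lf 6934816 0 0) (P.cons (P.lf 7630242 0 0) (P.cons (P.lf 0 1236825 0) (P.cons (P.lf 0 324578 0) (P.cons (P.lf 24118 0 0) P.nil)))))) (P.cons (P.cons (P.lf 453417 0 0) (P.cons (P.lf 0 863305 0) (P.cons (P.lf 0 4428077 0) (P.cons (P.lf 619059 0 0) (P.cons (P.lf 179887 0 0) P.nil))))) (P.cons (P.cons (P.lf 0 333511 0) (P.cons (P.lf 0 1282558 0) (P.cons (P.lf 403855 0 0) (P.cons (P.lf 0 13951 0) P.nil)))) (P.cons (P.cons (P.lf 0 92325 0) (P.cons (P.lf 144622 0 0) (P.cons (P.lf 99427 0 0) P.nil))) (P.cons (P.cons (P.lf 20503 0 0) (P.cons (P.lf 49308 0 0) P.nil)) (P.cons (P.cons (P.lf 5159 0 0) P.nil) P.nil)))))) 129948)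
 (EL.cons 1 (TM.mk (P.cons (P.cons (P.lf 4566789 0 0) (P.cons (P.lf 21320295 0 0) (P.cons (P.lf 23458299 0 0) (P.cons (P.lf 0 3802475 0) (P.cons (P.lf 0 997880 0) (P.cons (P.lf 74152 0 0) P.nil)))))) (P.cons (P.cons (P.lf 2874125 0 0) (P.cons (P.lf 4256008 0 0) (P.cons (P.lf 0 6010516 0) (P.cons (P.lf 670800 0 0) (P.cons (P.lf 229620 0 0) P.nil))))) (P.cons (P.cons (P.lf 0 106893 0) (P.cons (P.lf 0 2624739 0) (P.cons (P.lf 0 773675 0) (P.cons (P.lf 185409 0 0) P.nil)))) (P.cons (P.cons (P.lf 0 325248 0) (P.cons (P.lf 0 411390 0) (P.cons (P.lf 79713 0 0) P.nil))) (P.cons (P.cons (P.lf 0 41165 0) (P.cons (P.lf 27050 0 0) P.nil)) (P.cons (P.cons (P.lf 3406 0 0) P.nil) P.nil)))))) 136490)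
 (EL.cons 5 (TM.mk (P.cons (P.cons (P.lf 14040066 0 0) (P.cons (P.lf 65546786 0 0) (P.cons (P.lf 72119836 0 0) (P.cons (P.lf 0 11690276 0) (P.cons (P.lf 0 3067874 0) (P.cons (P.lf 227972 0 0) P.nil)))))) (P.cons (P.cons (P.lf 13386714 0 0) (P.cons (P.lf 34329054 0 0) (P.cons (P.lf 4896202 0 0) (P.cons (P.lf 0 1726648 0) (P.cons (P.lf 0 288384 0) P.nil))))) (P.cons (P.cons (P.lf 3969922 0 0) (P.cons (P.lf 2869170 0 0) (P.cons (P.lf 0 998292 0) (P.cons (P.lf 43892 0 0) P.nil)))) (P.cons (P.cons (P.lf 252924 0 0) (P.cons (P.lf 0 412046 0) (P.cons (P.lf 0 69234 0) P.nil))) (P.cons (P.cons (P.lf 0 51706 0) (P.cons (P.lf 0 47820 0) P.nil)) (P.cons (P.cons (P.lf 0 5782 0) P.nil) P.nil)))))) 177390)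
 EL.nil)))
noncomputable def S227_241_512_660_6 : EL := (EL.cons 12 (TM.mk (P.lf 8589934592 0 0) 0)
 (EL.cons 3 (TM.mk (P.cons (P.lf 0 685729796 0) (P.cons (P.lf 214195188 0 0) (P.cons (P.lf 1881828 0 0) (P.cons (P.lf 0 187398 0) (P.cons (P.lf 0 2831 0) (P.cons (P.lf 153 0 0) P.nil)))))) 44)
 (EL.cons 7 (TM.mk (P.cons (P.lf 0 2108197044 0) (P.cons (P.lf 0 24771881 0) (P.cons (P.lf 3796786 0 0) (P.cons (P.lf 45040 0 0) (P.cons (P.lf 0 3252 0) (P.cons (P.lf 0 61 0) P.nil)))))) 51)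
 EL.nil)))
noncomputable def S227_241_512_660_7 : EL := (EL.cons 12 (TM.mk (P.cons (P.cons (P.lf 0 707502866 0) (P.cons (P.lf 0 1651506896 0) (P.cons (P.lf 110415904 0 0) (P.lf 36805296 0 0)))) (P.cons (P.cons (P.lf 0 328976292 0) (P.cons (P.lf 0 58216944 0) (P.cons (P.lf 3892248 0 0) (P.lf 1297408 0 0)))) (P.cons (P.cons (P.lf 0 17035724 0) (P.cons (P.lf 8238840 0 0) (P.cons (P.lf 0 550824 0) (P.lf 0 183608 0)))) (P.cons (P.cons (P.lf 2576774 0 0) (P.cons (P.lf 312856 0 0) (P.cons (P.lf 0 20912 0) P.nil))) (P.cons (P.cons (P.lf 85510 0 0) (P.cons (P.lf 0 19984 0) P.nil)) (P.cons (P.cons (P.lf 0 5926 0) P.nil) P.nil)))))) 11300)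
 (EL.cons 3 (TM.mk (P.cons (P.cons (P.lf 0 2178533045 0) (P.cons (P.lf 0 263677788 0) (P.cons (P.lf 17628880 0 0) (P.lf 5876292 0 0)))) (P.cons (P.cons (P.lf 0 236108261 0) (P.cons (P.lf 73067782 0 0) (P.cons (P.lf 0 4885140 0) (P.lf 0 1628380 0)))) (P.cons (P.cons (P.lf 46256590 0 0) (P.cons (P.lf 4942354 0 0) (P.cons (P.lf 0 330432 0) (P.lf 0 110142 0)))) (P.cons (P.cons (P.lf 2166386 0 0) (P.cons (P.lf 0 407480 0) (P.cons (P.lf 27242 0 0) P.nil))) (P.cons (P.cons (P.lf 0 176484 0) (P.cons (P.lf 0 26030 0) P.nil)) (P.cons (P.cons (P.lf 0 8859 0) P.nil) P.nil)))))) 35561)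
 (EL.cons 7 (TM.mk (P.cons (P.cons (P.lf 432121296 0 0) (P.cons (P.lf 451065350 0 0) (P.cons (P.lf 0 30157181 0) (P.lf 0 10052395 0)))) (P.cons (P.cons (P.lf 27306155 0 0) (P.cons (P.lf 0 8450358 0) (P.cons (P.lf 564969 0 0) (P.lf 188321 0 0)))) (P.cons (P.cons (P.lf 0 9774731 0) (P.cons (P.lf 797837 0 0) (P.cons (P.lf 0 53338 0) (P.lf 0 17778 0)))) (P.cons (P.cons (P.lf 931438 0 0) (P.cons (P.lf 162558 0 0) (P.cons (P.lf 0 10867 0) P.nil))) (P.cons (P.cons (P.lf 71445 0 0) (P.cons (P.lf 0 8576 0) P.nil)) (P.cons (P.cons (P.lf 0 3974 0) P.nil) P.nil)))))) 23654)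
 (EL.cons 10 (TM.mk (P.cons (P.cons (P.lf 0 2879502123 0) (P.cons (P.lf 445819239 0 0) (P.cons (P.lf 214781649 0 0) (P.cons (P.lf 0 8127969 0) (P.lf 0 2031990 0))))) (P.cons (P.cons (P.lf 0 67669845 0) (P.cons (P.lf 10476990 0 0) (P.cons (P.lf 5047482 0 0) (P.cons (P.lf 0 191010 0) (P.lf 0 47751 0))))) (P.cons (P.cons (P.lf 9974187 0 0) (P.cons (P.lf 0 1544253 0) (P.cons (P.lf 0 743973 0) (P.cons (P.lf 28152 0 0) P.nil)))) (P.cons (P.cons (P.lf 244905 0 0) (P.cons (P.lf 0 37917 0) (P.cons (P.lf 0 18267 0) P.nil))) (P.cons (P.cons (P.lf 0 16776 0) (P.cons (P.lf 2595 0 0) P.nil)) (P.cons (P.cons (P.lf 0 492 0) P.nil) P.nil)))))) 9657)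
 EL.nil))))
noncomputable def S227_241_512_660_8 : EL := (EL.cons 12 (TM.mk (P.cons (P.cons (P.lf 58272888 0 0) (P.cons (P.lf 272050002 0 0) (P.cons (P.lf 299331252 0 0) (P.cons (P.lf 0 48520154 0) (P.cons (P.lf 0 12733126 0) (P.cons (P.lf 946198 0 0) P.nil)))))) (P.cons (P.cons (P.lf 54191720 0 0) (P.cons (P.lf 136088408 0 0) (P.cons (P.lf 13287106 0 0) (P.cons (P.lf 0 6026154 0) (P.cons (P.lf 0 897702 0) P.nil))))) (P.cons (P.cons (P.lf 15405360 0 0) (P.cons (P.lf 9652600 0 0) (P.cons (P.lf 0 3418804 0) (P.cons (P.lf 155734 0 0) P.nil)))) (P.cons (P.cons (P.lf 880396 0 0) (P.cons (P.lf 0 1442506 0) (P.cons (P.lf 0 135532 0) P.nil))) (P.cons (P.cons (P.lf 0 177670 0) (P.cons (P.lf 0 121158 0) P.nil)) (P.cons (P.cons (P.lf 0 15794 0) P.nil) P.nil)))))) 560424)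
 (EL.cons 3 (TM.mk (P.cons (P.cons (P.lf 363518038 0 0) (P.cons (P.lf 902845414 0 0) (P.cons (P.lf 66375054 0 0) (P.cons (P.lf 0 37067412 0) (P.cons (P.lf 0 5082391 0) (P.cons (P.lf 377670 0 0) P.nil)))))) (P.cons (P.cons (P.lf 208633143 0 0) (P.cons (P.lf 132558414 0 0) (P.cons (P.lf 0 39515112 0) (P.cons (P.lf 1144536 0 0) (P.cons (P.lf 1229220 0 0) P.nil))))) (P.cons (P.cons (P.lf 18971866 0 0) (P.cons (P.lf 0 26812702 0) (P.cons (P.lf 0 2453182 0) (P.cons (P.lf 1165274 0 0) P.nil)))) (P.cons (P.cons (P.lf 0 4594892 0) (P.cons (P.lf 0 3210801 0) (P.cons (P.lf 477971 0 0) P.nil))) (P.cons (P.cons (P.lf 0 543673 0) (P.cons (P.lf 201888 0 0) P.nil)) (P.cons (P.cons (P.lf 35767 0 0) P.nil) P.nil)))))) 970102)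
 (EL.cons 7 (TM.mk (P.cons (P.cons (P.lf 0 56880917 0) (P.cons (P.lf 0 173694874 0) (P.cons (P.lf 0 83903670 0) (P.cons (P.lf 16642968 0 0) (P.cons (P.lf 3830387 0 0) (P.cons (P.lf 0 284632 0) P.nil)))))) (P.cons (P.cons (P.lf 0 24128623 0) (P.cons (P.lf 0 15330516 0) (P.cons (P.lf 4569960 0 0) (P.cons (P.lf 0 132361 0) (P.cons (P.lf 0 142159 0) P.nil))))) (P.cons (P.cons (P.lf 1716061 0 0) (P.cons (P.lf 5585305 0 0) (P.cons (P.lf 0 456872 0) (P.cons (P.lf 0 113310 0) P.nil)))) (P.cons (P.cons (P.lf 982450 0 0) (P.cons (P.lf 0 313330 0) (P.cons (P.lf 0 112216 0) P.nil))) (P.cons (P.cons (P.lf 0 67489 0) (P.cons (P.lf 0 107934 0) P.nil)) (P.cons (P.cons (P.lf 0 19265 0) P.nil) P.nil)))))) 433581)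
 (EL.cons 10 (TM.mk (P.cons (P.cons (P.lf 474335622 0 0) (P.cons (P.lf 1033791156 0 0) (P.cons (P.lf 0 280834500 0) (P.cons (P.lf 0 94463628 0) (P.cons (P.lf 12802158 0 0) (P.cons (P.lf 2412936 0 0) P.nil)))))) (P.cons (P.cons (P.lf 231704796 0 0) (P.cons (P.lf 29177532 0 0) (P.cons (P.lf 0 31703568 0) (P.cons (P.lf 0 4974486 0) (P.cons (P.lf 895980 0 0) P.nil))))) (P.cons (P.cons (P.lf 14961558 0 0) (P.cons (P.lf 0 10758084 0) (P.cons (P.lf 755382 0 0) (P.cons (P.lf 772638 0 0) P.nil)))) (P.cons (P.cons (P.lf 0 2263476 0) (P.cons (P.lf 0 218478 0) (P.cons (P.lf 294948 0 0) P.nil))) (P.cons (P.cons (P.lf 0 153480 0) (P.cons (P.lf 54492 0 0) P.nil)) (P.cons (P.cons (P.lf 9000 0 0) P.nil) P.nil)))))) 586518)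
 EL.nil))))
noncomputable def S227_241_512_660_9 : EL := (EL.cons 3 (TM.mk (P.cons (P.lf 0 685729796 0) (P.cons (P.lf 214195188 0 0) (P.cons (P.lf 1881828 0 0) (P.cons (P.lf 0 187398 0) (P.cons (P.lf 0 2831 0) (P.cons (P.lf 153 0 0) P.nil)))))) 44)
 (EL.cons 7 (TM.mk (P.cons (P.lf 0 2108197044 0) (P.cons (P.lf 0 24771881 0) (P.cons (P.lf 3796786 0 0) (P.cons (P.lf 45040 0 0) (P.cons (P.lf 0 3252 0) (P.cons (P.lf 0 61 0) P.nil)))))) 51)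
 EL.nil))
noncomputable def S227_241_512_660_10 : EL := (EL.cons 3 (TM.mk (P.cons (P.cons (P.lf 56479567 0 0) (P.cons (P.lf 131838894 0 0) (P.cons (P.lf 0 8814440 0) (P.lf 0 2938146 0)))) (P.cons (P.cons (P.lf 8619988 0 0) (P.cons (P.lf 0 36533891 0) (P.cons (P.lf 2442570 0 0) (P.lf 814190 0 0)))) (P.cons (P.cons (P.lf 0 6998264 0) (P.cons (P.lf 0 2471177 0) (P.cons (P.lf 165216 0 0) (P.lf 55071 0 0)))) (P.cons (P.cons (P.lf 0 687133 0) (P.cons (P.lf 203740 0 0) (P.cons (P.lf 0 13621 0) P.nil))) (P.cons (P.cons (P.lf 61104 0 0) (P.cons (P.lf 13015 0 0) P.nil)) (P.cons (P.cons (P.lf 3636 0 0) P.nil) P.nil)))))) 8821)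
 (EL.cons 7 (TM.mk (P.cons (P.cons (P.lf 173639907 0 0) (P.cons (P.lf 405323453 0 0) (P.cons (P.lf 0 27098981 0) (P.lf 0 9032992 0)))) (P.cons (P.cons (P.lf 82779794 0 0) (P.cons (P.lf 19050636 0 0) (P.cons (P.lf 0 1273680 0) (P.lf 0 424558 0)))) (P.cons (P.cons (P.lf 4817008 0 0) (P.cons (P.lf 0 2584114 0) (P.cons (P.lf 172766 0 0) (P.lf 57588 0 0)))) (P.cons (P.cons (P.lf 0 732398 0) (P.cons (P.lf 0 134934 0) (P.cons (P.lf 9020 0 0) P.nil))) (P.cons (P.cons (P.lf 0 37404 0) (P.cons (P.lf 7963 0 0) P.nil)) (P.cons (P.cons (P.lf 2386 0 0) P.nil) P.nil)))))) 4996)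
 EL.nil))
noncomputable def S227_241_512_660_11 : EL := (EL.cons 3 (TM.mk (P.cons (P.cons (P.lf 0 4651892 0) (P.cons (P.lf 0 21717602 0) (P.cons (P.lf 0 23895450 0) (P.cons (P.lf 3873336 0 0) (P.cons (P.lf 1016477 0 0) (P.cons (P.lf 0 75534 0) P.nil)))))) (P.cons (P.cons (P.lf 0 2873025 0) (P.cons (P.lf 0 4080132 0) (P.cons (P.lf 6403302 0 0) (P.cons (P.lf 0 728814 0) (P.cons (P.lf 0 245844 0) P.nil))))) (P.cons (P.cons (P.lf 134266 0 0) (P.cons (P.lf 2682482 0 0) (P.cons (P.lf 669818 0 0) (P.cons (P.lf 0 173326 0) P.nil)))) (P.cons (P.cons (P.lf 324460 0 0) (P.cons (P.lf 379725 0 0) (P.cons (P.lf 0 78049 0) P.nil))) (P.cons (P.cons (P.lf 38309 0 0) (P.cons (P.lf 0 27240 0) P.nil)) (P.cons (P.cons (P.lf 0 3329 0) P.nil) P.nil)))))) 123606)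
 (EL.cons 7 (TM.mk (P.cons (P.cons (P.lf 0 14301707 0) (P.cons (P.lf 0 66768262 0) (P.cons (P.lf 0 73463802 0) (P.cons (P.lf 11908128 0 0) (P.cons (P.lf 3125045 0 0) (P.cons (P.lf 0 232222 0) P.nil)))))) (P.cons (P.cons (P.lf 0 13468129 0) (P.cons (P.lf 0 34184238 0) (P.cons (P.lf 0 4124226 0) (P.cons (P.lf 1618901 0 0) (P.cons (P.lf 257039 0 0) P.nil))))) (P.cons (P.cons (P.lf 0 3911405 0) (P.cons (P.lf 0 2641211 0) (P.cons (P.lf 933052 0 0) (P.cons (P.lf 0 42288 0) P.nil)))) (P.cons (P.cons (P.lf 0 236240 0) (P.cons (P.lf 387770 0 0) (P.cons (P.lf 50564 0 0) P.nil))) (P.cons (P.cons (P.lf 48137 0 0) (P.cons (P.lf 38772 0 0) P.nil)) (P.cons (P.cons (P.lf 4837 0 0) P.nil) P.nil)))))) 158243)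
 EL.nil))
noncomputable def S227_241_512_660_12 : EL := (EL.cons 4 (TM.mk (P.cons (P.lf 685729796 0 0) (P.cons (P.lf 0 214195188 0) (P.cons (P.lf 0 1881828 0) (P.cons (P.lf 187398 0 0) (P.cons (P.lf 2831 0 0) (P.cons (P.lf 0 153 0) P.nil)))))) 44)
 (EL.cons 8 (TM.mk (P.cons (P.lf 2108197044 0 0) (P.cons (P.lf 24771881 0 0) (P.cons (P.lf 0 3796786 0) (P.cons (P.lf 0 45040 0) (P.cons (P.lf 3252 0 0) (P.cons (P.lf 61 0 0) P.nil)))))) 51)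
 EL.nil))
noncomputable def S227_241_512_660_13 : EL := (EL.cons 4 (TM.mk (P.cons (P.cons (P.lf 0 56479567 0) (P.cons (P.lf 0 131838894 0) (P.cons (P.lf 8814440 0 0) (P.lf 2938146 0 0)))) (P.cons (P.cons (P.lf 0 8619988 0) (P.cons (P.lf 36533891 0 0) (P.cons (P.lf 0 2442570 0) (P.lf 0 814190 0)))) (P.cons (P.cons (P.lf 6998264 0 0) (P.cons (P.lf 2471177 0 0) (P.cons (P.lf 0 165216 0) (P.lf 0 55071 0)))) (P.cons (P.cons (P.lf 687133 0 0) (P.cons (P.lf 0 203740 0) (P.cons (P.lf 13621 0 0) P.nil))) (P.cons (P.cons (P.lf 0 61104 0) (P.cons (P.lf 0 13015 0) P.nil)) (P.cons (P.cons (P.lf 0 3636 0) P.nil) P.nil)))))) 8821)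
 (EL.cons 8 (TM.mk (P.cons (P.cons (P.lf 0 173639907 0) (P.cons (P.lf 0 405323453 0) (P.cons (P.lf 27098981 0 0) (P.lf 9032992 0 0)))) (P.cons (P.cons (P.lf 0 82779794 0) (P.cons (P.lf 0 19050636 0) (P.cons (P.lf 1273680 0 0) (P.lf 424558 0 0)))) (P.cons (P.cons (P.lf 0 4817008 0) (P.cons (P.lf 2584114 0 0) (P.cons (P.lf 0 172766 0) (P.lf 0 57588 0)))) (P.cons (P.cons (P.lf 732398 0 0) (P.cons (P.lf 134934 0 0) (P.cons (P.lf 0 9020 0) P.nil))) (P.cons (P.cons (P.lf 37404 0 0) (P.cons (P.lf 0 7963 0) P.nil)) (P.cons (P.cons (P.lf 0 2386 0) P.nil) P.nil)))))) 4996)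
 EL.nil))
noncomputable def S227_241_512_660_14 : EL := (EL.cons 4 (TM.mk (P.cons (P.cons (P.lf 4651892 0 0) (P.cons (P.lf 21717602 0 0) (P.cons (P.lf 23895450 0 0) (P.cons (P.lf 0 3873336 0) (P.cons (P.lf 0 1016477 0) (P.cons (P.lf 75534 0 0) P.nil)))))) (P.cons (P.cons (P.lf 2873025 0 0) (P.cons (P.lf 4080132 0 0) (P.cons (P.lf 0 6403302 0) (P.cons (P.lf 728814 0 0) (P.cons (P.lf 245844 0 0) P.nil))))) (P.cons (P.cons (P.lf 0 134266 0) (P.cons (P.lf 0 2682482 0) (P.cons (P.lf 0 669818 0) (P.cons (P.lf 173326 0 0) P.nil)))) (P.cons (P.cons (P.lf 0 324460 0) (P.cons (P.lf 0 379725 0) (P.cons (P.lf 78049 0 0) P.nil))) (P.cons (P.cons (P.lf 0 38309 0) (P.cons (P.lf 27240 0 0) P.nil)) (P.cons (P.cons (P.lf 3329 0 0) P.nil) P.nil)))))) 123606)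
 (EL.cons 8 (TM.mk (P.cons (P.cons (P.lf 14301707 0 0) (P.cons (P.lf 66768262 0 0) (P.cons (P.lf 73463802 0 0) (P.cons (P.lf 0 11908128 0) (P.cons (P.lf 0 3125045 0) (P.cons (P.lf 232222 0 0) P.nil)))))) (P.cons (P.cons (P.lf 13468129 0 0) (P.cons (P.lf 34184238 0 0) (P.cons (P.lf 4124226 0 0) (P.cons (P.lf 0 1618901 0) (P.cons (P.lf 0 257039 0) P.nil))))) (P.cons (P.cons (P.lf 3911405 0 0) (P.cons (P.lf 2641211 0 0) (P.cons (P.lf 0 933052 0) (P.cons (P.lf 42288 0 0) P.nil)))) (P.cons (P.cons (P.lf 236240 0 0) (P.cons (P.lf 0 387770 0) (P.cons (P.lf 0 50564 0) P.nil))) (P.cons (P.cons (P.lf 0 48137 0) (P.cons (P.lf 0 38772 0) P.nil)) (P.cons (P.cons (P.lf 0 4837 0) P.nil) P.nil)))))) 158243)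
 EL.nil))
noncomputable def S227_241_512_660_15 : EL := (EL.cons 4 (TM.mk (P.cons (P.lf 0 116781729 0) (P.cons (P.lf 72956096 0 0) (P.cons (P.lf 0 10753354 0) (P.cons (P.lf 0 264040 0) (P.cons (P.lf 18093 0 0) (P.cons (P.lf 528 0 0) P.nil)))))) 57)
 (EL.cons 8 (TM.mk (P.cons (P.lf 0 359031937 0) (P.cons (P.lf 107928824 0 0) (P.cons (P.lf 2949648 0 0) (P.cons (P.lf 0 280843 0) (P.cons (P.lf 0 7359 0) (P.cons (P.lf 381 0 0) P.nil)))))) 49)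
 EL.nil))
noncomputable def S227_241_512_660_16 : EL := (EL.cons 4 (TM.mk (P.cons (P.cons (P.lf 9618630 0 0) (P.cons (P.lf 22452537 0 0) (P.cons (P.lf 0 1501124 0) (P.lf 0 500374 0)))) (P.cons (P.cons (P.lf 0 1536475 0) (P.cons (P.lf 0 13235120 0) (P.cons (P.lf 884868 0 0) (P.lf 294956 0 0)))) (P.cons (P.cons (P.lf 0 1676768 0) (P.cons (P.lf 1460989 0 0) (P.cons (P.lf 0 97678 0) (P.lf 0 32559 0)))) (P.cons (P.cons (P.lf 253858 0 0) (P.cons (P.lf 189363 0 0) (P.cons (P.lf 0 12660 0) P.nil))) (P.cons (P.cons (P.lf 50670 0 0) (P.cons (P.lf 0 9074 0) P.nil)) (P.cons (P.cons (P.lf 0 2631 0) P.nil) P.nil)))))) 7676)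
 (EL.cons 8 (TM.mk (P.cons (P.cons (P.lf 29571368 0 0) (P.cons (P.lf 69027733 0 0) (P.cons (P.lf 0 4615033 0) (P.lf 0 1538344 0)))) (P.cons (P.cons (P.lf 4860693 0 0) (P.cons (P.lf 0 18317188 0) (P.cons (P.lf 1224644 0 0) (P.lf 408215 0 0)))) (P.cons (P.cons (P.lf 0 3664351 0) (P.cons (P.lf 0 1642929 0) (P.cons (P.lf 109842 0 0) (P.lf 36613 0 0)))) (P.cons (P.cons (P.lf 0 411581 0) (P.cons (P.lf 124445 0 0) (P.cons (P.lf 0 8320 0) P.nil))) (P.cons (P.cons (P.lf 34313 0 0) (P.cons (P.lf 10913 0 0) P.nil)) (P.cons (P.cons (P.lf 3013 0 0) P.nil) P.nil)))))) 6635)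
 EL.nil))
noncomputable def S227_241_512_660_17 : EL := (EL.cons 4 (TM.mk (P.cons (P.cons (P.lf 0 792229 0) (P.cons (P.lf 0 3698568 0) (P.cons (P.lf 0 4069462 0) (P.cons (P.lf 659640 0 0) (P.cons (P.lf 173108 0 0) (P.cons (P.lf 0 12863 0) P.nil)))))) (P.cons (P.cons (P.lf 0 241822 0) (P.cons (P.lf 460429 0 0) (P.cons (P.lf 2361641 0 0) (P.cons (P.lf 0 330165 0) (P.cons (P.lf 0 95940 0) P.nil))))) (P.cons (P.cons (P.lf 177872 0 0) (P.cons (P.lf 684030 0 0) (P.cons (P.lf 0 215389 0) (P.cons (P.lf 7440 0 0) P.nil)))) (P.cons (P.cons (P.lf 49240 0 0) (P.cons (P.lf 0 77131 0) (P.cons (P.lf 0 53027 0) P.nil))) (P.cons (P.cons (P.lf 0 10935 0) (P.cons (P.lf 0 26297 0) P.nil)) (P.cons (P.cons (P.lf 0 2751 0) P.nil) P.nil)))))) 69316)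
 (EL.cons 8 (TM.mk (P.cons (P.cons (P.lf 0 2435621 0) (P.cons (P.lf 0 11370824 0) (P.cons (P.lf 0 12511093 0) (P.cons (P.lf 2027987 0 0) (P.cons (P.lf 532203 0 0) (P.cons (P.lf 0 39548 0) P.nil)))))) (P.cons (P.cons (P.lf 0 1532867 0) (P.cons (P.lf 0 2269871 0) (P.cons (P.lf 3205609 0 0) (P.cons (P.lf 0 357760 0) (P.cons (P.lf 0 122464 0) P.nil))))) (P.cons (P.cons (P.lf 57010 0 0) (P.cons (P.lf 1399861 0 0) (P.cons (P.lf 412627 0 0) (P.cons (P.lf 0 98885 0) P.nil)))) (P.cons (P.cons (P.lf 173466 0 0) (P.cons (P.lf 219408 0 0) (P.cons (P.lf 0 42514 0) P.nil))) (P.cons (P.cons (P.lf 21955 0 0) (P.cons (P.lf 0 14427 0) P.nil)) (P.cons (P.cons (P.lf 0 1817 0) P.nil) P.nil)))))) 72783)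
 EL.nil))
noncomputable def S227_241_512_660_18 : EL := (EL.cons 4 (TM.mk (P.cons (P.lf 19888259 0 0) (P.cons (P.lf 0 18636945 0) (P.cons (P.lf 5657716 0 0) (P.cons (P.lf 0 487535 0) (P.cons (P.lf 0 25466 0) (P.cons (P.lf 1193 0 0) P.nil)))))) 87)
 (EL.cons 8 (TM.mk (P.cons (P.lf 61144157 0 0) (P.cons (P.lf 0 37479629 0) (P.cons (P.lf 5071246 0 0) (P.cons (P.lf 271888 0 0) (P.cons (P.lf 0 17078 0) (P.cons (P.lf 0 814 0) P.nil)))))) 70)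
 EL.nil))
noncomputable def S227_241_512_660_19 : EL := (EL.cons 4 (TM.mk (P.cons (P.cons (P.lf 0 1638079 0) (P.cons (P.lf 0 3823730 0) (P.cons (P.lf 255645 0 0) (P.lf 85215 0 0)))) (P.cons (P.cons (P.lf 773338 0 0) (P.cons (P.lf 3448362 0 0) (P.cons (P.lf 0 230549 0) (P.lf 0 76849 0)))) (P.cons (P.cons (P.lf 208319 0 0) (P.cons (P.lf 0 942372 0) (P.cons (P.lf 63004 0 0) (P.lf 21000 0 0)))) (P.cons (P.cons (P.lf 0 133595 0) (P.cons (P.lf 38238 0 0) (P.cons (P.lf 0 2555 0) P.nil))) (P.cons (P.cons (P.lf 4155 0 0) (P.cons (P.lf 12900 0 0) P.nil)) (P.cons (P.cons (P.lf 3341 0 0) P.nil) P.nil)))))) 6337)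
 (EL.cons 8 (TM.mk (P.cons (P.cons (P.lf 0 5036087 0) (P.cons (P.lf 0 11755618 0) (P.cons (P.lf 785953 0 0) (P.lf 261984 0 0)))) (P.cons (P.cons (P.lf 745286 0 0) (P.cons (P.lf 6791465 0 0) (P.cons (P.lf 0 454061 0) (P.lf 0 151353 0)))) (P.cons (P.cons (P.lf 896438 0 0) (P.cons (P.lf 0 662343 0) (P.cons (P.lf 44282 0 0) (P.lf 14760 0 0)))) (P.cons (P.cons (P.lf 0 123939 0) (P.cons (P.lf 0 120363 0) (P.cons (P.lf 8046 0 0) P.nil))) (P.cons (P.cons (P.lf 0 29697 0) (P.cons (P.lf 4797 0 0) P.nil)) (P.cons (P.cons (P.lf 1287 0 0) P.nil) P.nil)))))) 5143)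
 EL.nil))
noncomputable def S227_241_512_660_20 : EL := (EL.cons 4 (TM.mk (P.cons (P.cons (P.lf 134918 0 0) (P.cons (P.lf 629876 0 0) (P.cons (P.lf 693040 0 0) (P.cons (P.lf 0 112337 0) (P.cons (P.lf 0 29480 0) (P.cons (P.lf 2190 0 0) P.nil)))))) (P.cons (P.cons (P.lf 0 960 0) (P.cons (P.lf 0 275160 0) (P.cons (P.lf 0 618673 0) (P.cons (P.lf 91318 0 0) (P.cons (P.lf 25546 0 0) P.nil))))) (P.cons (P.cons (P.lf 0 43526 0) (P.cons (P.lf 0 93727 0) (P.cons (P.lf 160409 0 0) (P.cons (P.lf 0 18522 0) P.nil)))) (P.cons (P.cons (P.lf 999 0 0) (P.cons (P.lf 49910 0 0) (P.cons (P.lf 0 1133 0) P.nil))) (P.cons (P.cons (P.lf 4575 0 0) (P.cons (P.lf 675 0 0) P.nil)) (P.cons (P.cons (P.lf 0 97 0) P.nil) P.nil)))))) 32403)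
 (EL.cons 8 (TM.mk (P.cons (P.cons (P.lf 414792 0 0) (P.cons (P.lf 1936483 0 0) (P.cons (P.lf 2130674 0 0) (P.cons (P.lf 0 345371 0) (P.cons (P.lf 0 90635 0) (P.cons (P.lf 6734 0 0) P.nil)))))) (P.cons (P.cons (P.lf 131486 0 0) (P.cons (P.lf 0 218315 0) (P.cons (P.lf 0 1211463 0) (P.cons (P.lf 168808 0 0) (P.cons (P.lf 49166 0 0) P.nil))))) (P.cons (P.cons (P.lf 0 92389 0) (P.cons (P.lf 0 364462 0) (P.cons (P.lf 94406 0 0) (P.cons (P.lf 0 1242 0) P.nil)))) (P.cons (P.cons (P.lf 0 27112 0) (P.cons (P.lf 36568 0 0) (P.cons (P.lf 31270 0 0) P.nil))) (P.cons (P.cons (P.lf 5588 0 0) (P.cons (P.lf 14896 0 0) P.nil)) (P.cons (P.cons (P.lf 1556 0 0) P.nil) P.nil)))))) 39024)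
 EL.nil))
noncomputable def S227_241_512_660_21 : EL := (EL.cons 4 (TM.mk (P.cons (P.cons (P.lf 2235012612 0 0) (P.cons (P.lf 395516682 0 0) (P.cons (P.lf 0 26443320 0) (P.lf 0 8814438 0)))) (P.cons (P.cons (P.lf 244728249 0 0) (P.cons (P.lf 0 109601673 0) (P.cons (P.lf 7327710 0 0) (P.lf 2442570 0 0)))) (P.cons (P.cons (P.lf 0 53254854 0) (P.cons (P.lf 0 7413531 0) (P.cons (P.lf 495648 0 0) (P.lf 165213 0 0)))) (P.cons (P.cons (P.lf 0 2853519 0) (P.cons (P.lf 611220 0 0) (P.cons (P.lf 0 40863 0) P.nil))) (P.cons (P.cons (P.lf 237588 0 0) (P.cons (P.lf 39045 0 0) P.nil)) (P.cons (P.cons (P.lf 12495 0 0) P.nil) P.nil)))))) 26721)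
 (EL.cons 8 (TM.mk (P.cons (P.cons (P.lf 0 258481389 0) (P.cons (P.lf 0 45741897 0) (P.cons (P.lf 3058200 0 0) (P.lf 1019403 0 0)))) (P.cons (P.cons (P.lf 55473639 0 0) (P.cons (P.lf 27500994 0 0) (P.cons (P.lf 0 1838649 0) (P.lf 0 612879 0)))) (P.cons (P.cons (P.lf 14591739 0 0) (P.cons (P.lf 0 3381951 0) (P.cons (P.lf 226104 0 0) (P.lf 75366 0 0)))) (P.cons (P.cons (P.lf 0 1663836 0) (P.cons (P.lf 0 297492 0) (P.cons (P.lf 19887 0 0) P.nil))) (P.cons (P.cons (P.lf 0 108849 0) (P.cons (P.lf 16539 0 0) P.nil)) (P.cons (P.cons (P.lf 6360 0 0) P.nil) P.nil)))))) 18639)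
 (EL.cons 11 (TM.mk (P.cons (P.cons (P.lf 2879502123 0 0) (P.cons (P.lf 0 445819239 0) (P.cons (P.lf 0 214781649 0) (P.cons (P.lf 8127969 0 0) (P.lf 2031990 0 0))))) (P.cons (P.cons (P.lf 67669845 0 0) (P.cons (P.lf 0 10476990 0) (P.cons (P.lf 0 5047482 0) (P.cons (P.lf 191010 0 0) (P.lf 47751 0 0))))) (P.cons (P.cons (P.lf 0 9974187 0) (P.cons (P.lf 1544253 0 0) (P.cons (P.lf 743973 0 0) (P.cons (P.lf 0 28152 0) P.nil)))) (P.cons (P.cons (P.lf 0 244905 0) (P.cons (P.lf 37917 0 0) (P.cons (P.lf 18267 0 0) P.nil))) (P.cons (P.cons (P.lf 16776 0 0) (P.cons (P.lf 0 2595 0) P.nil)) (P.cons (P.cons (P.lf 492 0 0) P.nil) P.nil)))))) 9657)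
 EL.nil)))
noncomputable def S227_241_512_660_22 : EL := (EL.cons 4 (TM.mk (P.cons (P.cons (P.lf 0 184084965 0) (P.cons (P.lf 0 462281508 0) (P.cons (P.lf 0 45135252 0) (P.cons (P.lf 20470374 0 0) (P.cons (P.lf 3049434 0 0) (P.cons (P.lf 0 226602 0) P.nil)))))) (P.cons (P.cons (P.lf 0 105753084 0) (P.cons (P.lf 0 68319273 0) (P.cons (P.lf 22959207 0 0) (P.cons (P.lf 0 936675 0) (P.cons (P.lf 0 737532 0) P.nil))))) (P.cons (P.cons (P.lf 0 9418800 0) (P.cons (P.lf 14747592 0 0) (P.cons (P.lf 1561500 0 0) (P.cons (P.lf 0 669300 0) P.nil)))) (P.cons (P.cons (P.lf 2459676 0 0) (P.cons (P.lf 1795263 0 0) (P.cons (P.lf 0 278010 0) P.nil))) (P.cons (P.cons (P.lf 290991 0 0) (P.cons (P.lf 0 114564 0) P.nil)) (P.cons (P.cons (P.lf 0 19548 0) P.nil) P.nil)))))) 423237)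
 (EL.cons 8 (TM.mk (P.cons (P.cons (P.lf 21289605 0 0) (P.cons (P.lf 53463306 0 0) (P.cons (P.lf 5219934 0 0) (P.cons (P.lf 0 2367420 0) (P.cons (P.lf 0 352671 0) (P.cons (P.lf 26205 0 0) P.nil)))))) (P.cons (P.cons (P.lf 5330247 0 0) (P.cons (P.lf 0 9426861 0) (P.cons (P.lf 0 4347093 0) (P.cons (P.lf 875631 0 0) (P.cons (P.lf 199599 0 0) P.nil))))) (P.cons (P.cons (P.lf 0 2813733 0) (P.cons (P.lf 0 4113258 0) (P.cons (P.lf 694962 0 0) (P.cons (P.lf 35511 0 0) P.nil)))) (P.cons (P.cons (P.lf 0 609345 0) (P.cons (P.lf 350550 0 0) (P.cons (P.lf 81390 0 0) P.nil))) (P.cons (P.cons (P.lf 57813 0 0) (P.cons (P.lf 73353 0 0) P.nil)) (P.cons (P.cons (P.lf 12051 0 0) P.nil) P.nil)))))) 137658)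
 (EL.cons 11 (TM.mk (P.cons (P.cons (P.lf 0 237167811 0) (P.cons (P.lf 0 516895578 0) (P.cons (P.lf 140417250 0 0) (P.cons (P.lf 47231814 0 0) (P.cons (P.lf 0 6401079 0) (P.cons (P.lf 0 1206468 0) P.nil)))))) (P.cons (P.cons (P.lf 0 115852398 0) (P.cons (P.lf 0 14588766 0) (P.cons (P.lf 15851784 0 0) (P.cons (P.lf 2487243 0 0) (P.cons (P.lf 0 447990 0) P.nil))))) (P.cons (P.cons (P.lf 0 7480779 0) (P.cons (P.lf 5379042 0 0) (P.cons (P.lf 0 377691 0) (P.cons (P.lf 0 386319 0) P.nil)))) (P.cons (P.cons (P.lf 1131738 0 0) (P.cons (P.lf 109239 0 0) (P.cons (P.lf 0 147474 0) P.nil))) (P.cons (P.cons (P.lf 76740 0 0) (P.cons (P.lf 0 27246 0) P.nil)) (P.cons (P.cons (P.lf 0 4500 0) P.nil) P.nil)))))) 293259)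
 EL.nil)))
noncomputable def S227_241_512_660_23 : EL := (EL.cons 4 (TM.mk (P.cons (P.cons (P.lf 0 380628987 0) (P.cons (P.lf 0 67357611 0) (P.cons (P.lf 4503372 0 0) (P.lf 1501122 0 0)))) (P.cons (P.cons (P.lf 77215704 0 0) (P.cons (P.lf 39705360 0 0) (P.cons (P.lf 0 2654607 0) (P.lf 0 884868 0)))) (P.cons (P.cons (P.lf 23132553 0 0) (P.cons (P.lf 0 4382970 0) (P.cons (P.lf 293034 0 0) (P.lf 97677 0 0)))) (P.cons (P.cons (P.lf 0 2336622 0) (P.cons (P.lf 0 568092 0) (P.cons (P.lf 37980 0 0) P.nil))) (P.cons (P.cons (P.lf 0 230106 0) (P.cons (P.lf 27222 0 0) P.nil)) (P.cons (P.cons (P.lf 11568 0 0) P.nil) P.nil)))))) 23268)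
 (EL.cons 8 (TM.mk (P.cons (P.cons (P.lf 44020113 0 0) (P.cons (P.lf 7789974 0 0) (P.cons (P.lf 0 520818 0) (P.lf 0 173607 0)))) (P.cons (P.cons (P.lf 0 23197479 0) (P.cons (P.lf 0 7116780 0) (P.cons (P.lf 475809 0 0) (P.lf 158601 0 0)))) (P.cons (P.cons (P.lf 345153 0 0) (P.cons (P.lf 2017518 0 0) (P.cons (P.lf 0 134883 0) (P.lf 0 44961 0)))) (P.cons (P.cons (P.lf 1097532 0 0) (P.cons (P.lf 0 114258 0) (P.cons (P.lf 7638 0 0) P.nil))) (P.cons (P.cons (P.lf 0 65550 0) (P.cons (P.lf 0 21468 0) P.nil)) (P.cons (P.cons (P.lf 0 8379 0) P.nil) P.nil)))))) 11634)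
 (EL.cons 11 (TM.mk (P.cons (P.cons (P.lf 0 490387380 0) (P.cons (P.lf 75924279 0 0) (P.cons (P.lf 36577923 0 0) (P.cons (P.lf 0 1384215 0) (P.lf 0 346053 0))))) (P.cons (P.cons (P.lf 141653484 0 0) (P.cons (P.lf 0 21931515 0) (P.cons (P.lf 0 10565913 0) (P.cons (P.lf 399843 0 0) (P.lf 99960 0 0))))) (P.cons (P.cons (P.lf 6644148 0 0) (P.cons (P.lf 0 1028679 0) (P.cons (P.lf 0 495585 0) (P.cons (P.lf 18753 0 0) P.nil)))) (P.cons (P.cons (P.lf 0 591267 0) (P.cons (P.lf 91542 0 0) (P.cons (P.lf 44100 0 0) P.nil))) (P.cons (P.cons (P.lf 0 25719 0) (P.cons (P.lf 3981 0 0) P.nil)) (P.cons (P.cons (P.lf 1218 0 0) P.nil) P.nil)))))) 9939)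
 EL.nil)))
noncomputable def S227_241_512_660_24 : EL := (EL.cons 4 (TM.mk (P.cons (P.cons (P.lf 31350189 0 0) (P.cons (P.lf 78727851 0 0) (P.cons (P.lf 7686660 0 0) (P.cons (P.lf 0 3486162 0) (P.cons (P.lf 0 519327 0) (P.cons (P.lf 38589 0 0) P.nil)))))) (P.cons (P.cons (P.lf 8217474 0 0) (P.cons (P.lf 0 12956535 0) (P.cons (P.lf 0 6311031 0) (P.cons (P.lf 1248459 0 0) (P.cons (P.lf 287820 0 0) P.nil))))) (P.cons (P.cons (P.lf 0 4107618 0) (P.cons (P.lf 0 6361914 0) (P.cons (P.lf 934314 0 0) (P.cons (P.lf 73722 0 0) P.nil)))) (P.cons (P.cons (P.lf 0 960786 0) (P.cons (P.lf 468357 0 0) (P.cons (P.lf 143241 0 0) P.nil))) (P.cons (P.cons (P.lf 81936 0 0) (P.cons (P.lf 125406 0 0) P.nil)) (P.cons (P.cons (P.lf 20463 0 0) P.nil) P.nil)))))) 220836)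
 (EL.cons 8 (TM.mk (P.cons (P.cons (P.lf 0 3625680 0) (P.cons (P.lf 0 9104952 0) (P.cons (P.lf 0 888969 0) (P.cons (P.lf 403176 0 0) (P.cons (P.lf 60060 0 0) (P.cons (P.lf 0 4461 0) P.nil)))))) (P.cons (P.cons (P.lf 224763 0 0) (P.cons (P.lf 4449450 0 0) (P.cons (P.lf 1017999 0 0) (P.cons (P.lf 0 275058 0) (P.cons (P.lf 0 52752 0) P.nil))))) (P.cons (P.cons (P.lf 772683 0 0) (P.cons (P.lf 224013 0 0) (P.cons (P.lf 0 347160 0) (P.cons (P.lf 39423 0 0) P.nil)))) (P.cons (P.cons (P.lf 0 44403 0) (P.cons (P.lf 0 285402 0) (P.cons (P.lf 20832 0 0) P.nil))) (P.cons (P.cons (P.lf 0 43836 0) (P.cons (P.lf 4632 0 0) P.nil)) (P.cons (P.cons (P.lf 864 0 0) P.nil) P.nil)))))) 63786)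
 (EL.cons 11 (TM.mk (P.cons (P.cons (P.lf 40390350 0 0) (P.cons (P.lf 88028781 0 0) (P.cons (P.lf 0 23913453 0) (P.cons (P.lf 0 8043711 0) (P.cons (P.lf 1090119 0 0) (P.cons (P.lf 205464 0 0) P.nil)))))) (P.cons (P.cons (P.lf 7113624 0 0) (P.cons (P.lf 0 25012242 0) (P.cons (P.lf 4770024 0 0) (P.cons (P.lf 2088954 0 0) (P.cons (P.lf 0 264216 0) P.nil))))) (P.cons (P.cons (P.lf 0 4999722 0) (P.cons (P.lf 0 1933704 0) (P.cons (P.lf 973197 0 0) (P.cons (P.lf 220176 0 0) P.nil)))) (P.cons (P.cons (P.lf 0 633789 0) (P.cons (P.lf 284775 0 0) (P.cons (P.lf 5895 0 0) P.nil))) (P.cons (P.cons (P.lf 49194 0 0) (P.cons (P.lf 14007 0 0) P.nil)) (P.cons (P.cons (P.lf 5796 0 0) P.nil) P.nil)))))) 185478)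
 EL.nil)))
noncomputable def S227_241_512_660_25 : EL := (EL.cons 4 (TM.mk (P.cons (P.cons (P.lf 64822194 0 0) (P.cons (P.lf 11471190 0 0) (P.cons (P.lf 0 766935 0) (P.lf 0 255645 0)))) (P.cons (P.cons (P.lf 0 33397974 0) (P.cons (P.lf 0 10345086 0) (P.cons (P.lf 691647 0 0) (P.lf 230547 0 0)))) (P.cons (P.cons (P.lf 0 9864 0) (P.cons (P.lf 2827116 0 0) (P.cons (P.lf 0 189012 0) (P.lf 0 63003 0)))) (P.cons (P.cons (P.lf 1682292 0 0) (P.cons (P.lf 0 114717 0) (P.cons (P.lf 7668 0 0) P.nil))) (P.cons (P.cons (P.lf 0 77625 0) (P.cons (P.lf 0 38703 0) P.nil)) (P.cons (P.cons (P.lf 0 16446 0) P.nil) P.nil)))))) 19995)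
 (EL.cons 8 (TM.mk (P.cons (P.cons (P.lf 0 7496748 0) (P.cons (P.lf 0 1326654 0) (P.cons (P.lf 88695 0 0) (P.lf 29565 0 0)))) (P.cons (P.cons (P.lf 6292287 0 0) (P.cons (P.lf 1626402 0 0) (P.cons (P.lf 0 108735 0) (P.lf 0 36243 0)))) (P.cons (P.cons (P.lf 0 1272219 0) (P.cons (P.lf 0 718530 0) (P.cons (P.lf 48039 0 0) (P.lf 16011 0 0)))) (P.cons (P.cons (P.lf 0 181440 0) (P.cons (P.lf 123093 0 0) (P.cons (P.lf 0 8229 0) P.nil))) (P.cons (P.cons (P.lf 70758 0 0) (P.cons (P.lf 0 1152 0) P.nil)) (P.cons (P.cons (P.lf 0 1545 0) P.nil) P.nil)))))) 7644)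
 (EL.cons 11 (TM.mk (P.cons (P.cons (P.lf 83514360 0 0) (P.cons (P.lf 0 12930120 0) (P.cons (P.lf 0 6229323 0) (P.cons (P.lf 235734 0 0) (P.lf 58932 0 0))))) (P.cons (P.cons (P.lf 0 50210613 0) (P.cons (P.lf 7773861 0 0) (P.cons (P.lf 3745200 0 0) (P.cons (P.lf 0 141729 0) (P.lf 0 35430 0))))) (P.cons (P.cons (P.lf 6174687 0 0) (P.cons (P.lf 0 955995 0) (P.cons (P.lf 0 460569 0) (P.cons (P.lf 17427 0 0) P.nil)))) (P.cons (P.cons (P.lf 543162 0 0) (P.cons (P.lf 0 84093 0) (P.cons (P.lf 0 40512 0) P.nil))) (P.cons (P.cons (P.lf 0 30213 0) (P.cons (P.lf 4677 0 0) P.nil)) (P.cons (P.cons (P.lf 0 2280 0) P.nil) P.nil)))))) 13104)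
 EL.nil)))
noncomputable def S227_241_512_660_26 : EL := (EL.cons 4 (TM.mk (P.cons (P.cons (P.lf 0 5339025 0) (P.cons (P.lf 0 13407576 0) (P.cons (P.lf 0 1309059 0) (P.cons (P.lf 593703 0 0) (P.cons (P.lf 88440 0 0) (P.cons (P.lf 0 6570 0) P.nil)))))) (P.cons (P.cons (P.lf 268242 0 0) (P.cons (P.lf 6394536 0 0) (P.cons (P.lf 1483686 0 0) (P.cons (P.lf 0 398064 0) (P.cons (P.lf 0 76641 0) P.nil))))) (P.cons (P.cons (P.lf 1151325 0 0) (P.cons (P.lf 431010 0 0) (P.cons (P.lf 0 491244 0) (P.cons (P.lf 52227 0 0) P.nil)))) (P.cons (P.cons (P.lf 0 52500 0) (P.cons (P.lf 0 427908 0) (P.cons (P.lf 21999 0 0) P.nil))) (P.cons (P.cons (P.lf 0 67386 0) (P.cons (P.lf 1131 0 0) P.nil)) (P.cons (P.cons (P.lf 609 0 0) P.nil) P.nil)))))) 94464)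
 (EL.cons 8 (TM.mk (P.cons (P.cons (P.lf 617463 0 0) (P.cons (P.lf 1550598 0 0) (P.cons (P.lf 151392 0 0) (P.cons (P.lf 0 68661 0) (P.cons (P.lf 0 10227 0) (P.cons (P.lf 759 0 0) P.nil)))))) (P.cons (P.cons (P.lf 0 231147 0) (P.cons (P.lf 0 1242099 0) (P.cons (P.lf 0 220656 0) (P.cons (P.lf 68289 0 0) (P.cons (P.lf 12177 0 0) P.nil))))) (P.cons (P.cons (P.lf 0 121326 0) (P.cons (P.lf 194286 0 0) (P.cons (P.lf 112860 0 0) (P.cons (P.lf 0 21156 0) P.nil)))) (P.cons (P.cons (P.lf 48939 0 0) (P.cons (P.lf 63024 0 0) (P.cons (P.lf 0 21498 0) P.nil))) (P.cons (P.cons (P.lf 5454 0 0) (P.cons (P.lf 0 16065 0) P.nil)) (P.cons (P.cons (P.lf 0 2535 0) P.nil) P.nil)))))) 25248)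
 (EL.cons 11 (TM.mk (P.cons (P.cons (P.lf 0 6878589 0) (P.cons (P.lf 0 14991549 0) (P.cons (P.lf 4072527 0 0) (P.cons (P.lf 1369866 0 0) (P.cons (P.lf 0 185649 0) (P.cons (P.lf 0 34989 0) P.nil)))))) (P.cons (P.cons (P.lf 937131 0 0) (P.cons (P.lf 8942430 0 0) (P.cons (P.lf 0 2084445 0) (P.cons (P.lf 0 783648 0) (P.cons (P.lf 102984 0 0) P.nil))))) (P.cons (P.cons (P.lf 1248759 0 0) (P.cons (P.lf 0 960093 0) (P.cons (P.lf 76830 0 0) (P.cons (P.lf 69867 0 0) P.nil)))) (P.cons (P.cons (P.lf 0 156582 0) (P.cons (P.lf 0 167148 0) (P.cons (P.lf 54105 0 0) P.nil))) (P.cons (P.cons (P.lf 0 44787 0) (P.cons (P.lf 12960 0 0) P.nil)) (P.cons (P.cons (P.lf 1560 0 0) P.nil) P.nil)))))) 84987)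
 EL.nil)))
noncomputable def S227_241_512_660_27 : EL := (EL.cons 13 (TM.mk (P.lf 0 4294967296 0) 0)
 EL.nil)
noncomputable def S227_241_512_660_28 : EL := (EL.cons 13 (TM.mk (P.cons (P.cons (P.lf 353751433 0 0) (P.cons (P.lf 825753448 0 0) (P.cons (P.lf 0 55207952 0) (P.lf 0 18402648 0)))) (P.cons (P.cons (P.lf 164488146 0 0) (P.cons (P.lf 29108472 0 0) (P.cons (P.lf 0 1946124 0) (P.lf 0 648704 0)))) (P.cons (P.cons (P.lf 8517862 0 0) (P.cons (P.lf 0 4119420 0) (P.cons (P.lf 275412 0 0) (P.lf 91804 0 0)))) (P.cons (P.cons (P.lf 0 1288387 0) (P.cons (P.lf 0 156428 0) (P.cons (P.lf 10456 0 0) P.nil))) (P.cons (P.cons (P.lf 0 42755 0) (P.cons (P.lf 9992 0 0) P.nil)) (P.cons (P.cons (P.lf 2963 0 0) P.nil) P.nil)))))) 5650)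
 EL.nil)
noncomputable def S227_241_512_660_29 : EL := (EL.cons 13 (TM.mk (P.cons (P.cons (P.lf 0 29136444 0) (P.cons (P.lf 0 136025001 0) (P.cons (P.lf 0 149665626 0) (P.cons (P.lf 24260077 0 0) (P.cons (P.lf 6366563 0 0) (P.cons (P.lf 0 473099 0) P.nil)))))) (P.cons (P.cons (P.lf 0 27095860 0) (P.cons (P.lf 0 68044204 0) (P.cons (P.lf 0 6643553 0) (P.cons (P.lf 3013077 0 0) (P.cons (P.lf 448851 0 0) P.nil))))) (P.cons (P.cons (P.lf 0 7702680 0) (P.cons (P.lf 0 4826300 0) (P.cons (P.lf 1709402 0 0) (P.cons (P.lf 0 77867 0) P.nil)))) (P.cons (P.cons (P.lf 0 440198 0) (P.cons (P.lf 721253 0 0) (P.cons (P.lf 67766 0 0) P.nil))) (P.cons (P.cons (P.lf 88835 0 0) (P.cons (P.lf 60579 0 0) P.nil)) (P.cons (P.cons (P.lf 7897 0 0) P.nil) P.nil)))))) 280212)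
 EL.nil)
noncomputable def S227_241_512_660_30 : EL := (EL.cons 13 (TM.mk (P.cons (P.lf 731445116 0 0) (P.cons (P.lf 0 228474868 0) (P.cons (P.lf 0 2007284 0) (P.cons (P.lf 199892 0 0) (P.cons (P.lf 3020 0 0) (P.cons (P.lf 0 164 0) P.nil)))))) 40)
 EL.nil)
noncomputable def S227_241_512_660_31 : EL := (EL.cons 13 (TM.mk (P.cons (P.cons (P.lf 0 60244872 0) (P.cons (P.lf 0 140628154 0) (P.cons (P.lf 9402070 0 0) (P.lf 3134023 0 0)))) (P.cons (P.cons (P.lf 0 9194654 0) (P.cons (P.lf 38969484 0 0) (P.cons (P.lf 0 2605409 0) (P.lf 0 868470 0)))) (P.cons (P.cons (P.lf 7464815 0 0) (P.cons (P.lf 2635923 0 0) (P.cons (P.lf 0 176231 0) (P.lf 0 58743 0)))) (P.cons (P.cons (P.lf 732942 0 0) (P.cons (P.lf 0 217323 0) (P.cons (P.lf 14530 0 0) P.nil))) (P.cons (P.cons (P.lf 0 65178 0) (P.cons (P.lf 0 13883 0) P.nil)) (P.cons (P.cons (P.lf 0 3879 0) P.nil) P.nil)))))) 9389)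
 EL.nil)
noncomputable def S227_241_512_660_32 : EL := (EL.cons 13 (TM.mk (P.cons (P.cons (P.lf 4962019 0 0) (P.cons (P.lf 23165443 0 0) (P.cons (P.lf 25488480 0 0) (P.cons (P.lf 0 4131559 0) (P.cons (P.lf 0 1084243 0) (P.cons (P.lf 80570 0 0) P.nil)))))) (P.cons (P.cons (P.lf 3064560 0 0) (P.cons (P.lf 4352141 0 0) (P.cons (P.lf 0 6830189 0) (P.cons (P.lf 777402 0 0) (P.cons (P.lf 262234 0 0) P.nil))))) (P.cons (P.cons (P.lf 0 143218 0) (P.cons (P.lf 0 2861315 0) (P.cons (P.lf 0 714473 0) (P.cons (P.lf 184882 0 0) P.nil)))) (P.cons (P.cons (P.lf 0 346091 0) (P.cons (P.lf 0 405041 0) (P.cons (P.lf 83253 0 0) P.nil))) (P.cons (P.cons (P.lf 0 40863 0) (P.cons (P.lf 29057 0 0) P.nil)) (P.cons (P.cons (P.lf 3551 0 0) P.nil) P.nil)))))) 131823)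
 EL.nil)
noncomputable def S227_241_512_660_33 : EL := (EL.cons 14 (TM.mk (P.lf 8589934592 0 0) 0)
 EL.nil)
noncomputable def S227_241_512_660_34 : EL := (EL.cons 14 (TM.mk (P.cons (P.cons (P.lf 0 707502866 0) (P.cons (P.lf 0 1651506896 0) (P.cons (P.lf 110415904 0 0) (P.lf 36805296 0 0)))) (P.cons (P.cons (P.lf 0 328976292 0) (P.cons (P.lf 0 58216944 0) (P.cons (P.lf 3892248 0 0) (P.lf 1297408 0 0)))) (P.cons (P.cons (P.lf 0 17035724 0) (P.cons (P.lf 8238840 0 0) (P.cons (P.lf 0 550824 0) (P.lf 0 183608 0)))) (P.cons (P.cons (P.lf 2576774 0 0) (P.cons (P.lf 312856 0 0) (P.cons (P.lf 0 20912 0) P.nil))) (P.cons (P.cons (P.lf 85510 0 0) (P.cons (P.lf 0 19984 0) P.nil)) (P.cons (P.cons (P.lf 0 5926 0) P.nil) P.nil)))))) 11300)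
 EL.nil)
noncomputable def S227_241_512_660_35 : EL := (EL.cons 14 (TM.mk (P.cons (P.cons (P.lf 58272888 0 0) (P.cons (P.lf 272050002 0 0) (P.cons (P.lf 299331252 0 0) (P.cons (P.lf 0 48520154 0) (P.cons (P.lf 0 12733126 0) (P.cons (P.lf 946198 0 0) P.nil)))))) (P.cons (P.cons (P.lf 54191720 0 0) (P.cons (P.lf 136088408 0 0) (P.cons (P.lf 13287106 0 0) (P.cons (P.lf 0 6026154 0) (P.cons (P.lf 0 897702 0) P.nil))))) (P.cons (P.cons (P.lf 15405360 0 0) (P.cons (P.lf 9652600 0 0) (P.cons (P.lf 0 3418804 0) (P.cons (P.lf 155734 0 0) P.nil)))) (P.cons (P.cons (P.lf 880396 0 0) (P.cons (P.lf 0 1442506 0) (P.cons (P.lf 0 135532 0) P.nil))) (P.cons (P.cons (P.lf 0 177670 0) (P.cons (P.lf 0 121158 0) P.nil)) (P.cons (P.cons (P.lf 0 15794 0) P.nil) P.nil)))))) 560424)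
 EL.nil)
noncomputable def S227_241_512_660_36 : EL := (EL.cons 14 (TM.mk (P.cons (P.lf 0 1462890232 0) (P.cons (P.lf 456949736 0 0) (P.cons (P.lf 4014568 0 0) (P.cons (P.lf 0 399784 0) (P.cons (P.lf 0 6040 0) (P.cons (P.lf 328 0 0) P.nil)))))) 80)
 EL.nil)
noncomputable def S227_241_512_660_37 : EL := (EL.cons 14 (TM.mk (P.cons (P.cons (P.lf 120489744 0 0) (P.cons (P.lf 281256308 0 0) (P.cons (P.lf 0 18804140 0) (P.lf 0 6268046 0)))) (P.cons (P.cons (P.lf 18389308 0 0) (P.cons (P.lf 0 77938968 0) (P.cons (P.lf 5210818 0 0) (P.lf 1736940 0 0)))) (P.cons (P.cons (P.lf 0 14929630 0) (P.cons (P.lf 0 5271846 0) (P.cons (P.lf 352462 0 0) (P.lf 117486 0 0)))) (P.cons (P.cons (P.lf 0 1465884 0) (P.cons (P.lf 434646 0 0) (P.cons (P.lf 0 29060 0) P.nil))) (P.cons (P.cons (P.lf 130356 0 0) (P.cons (P.lf 27766 0 0) P.nil)) (P.cons (P.cons (P.lf 7758 0 0) P.nil) P.nil))))))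 18778)
 EL.nil)
noncomputable def S227_241_512_660_38 : EL := (EL.cons 14 (TM.mk (P.cons (P.cons (P.lf 0 9924038 0) (P.cons (P.lf 0 46330886 0) (P.cons (P.lf 0 50976960 0) (P.cons (P.lf 8263118 0 0) (P.cons (P.lf 2168486 0 0) (P.cons (P.lf 0 161140 0) P.nil)))))) (P.cons (P.cons (P.lf 0 6129120 0) (P.cons (P.lf 0 8704282 0) (P.cons (P.lf 13660378 0 0) (P.cons (P.lf 0 1554804 0) (P.cons (P.lf 0 524468 0) P.nil))))) (P.cons (P.cons (P.lf 286436 0 0) (P.cons (P.lf 5722630 0 0) (P.cons (P.lf 1428946 0 0) (P.cons (P.lf 0 369764 0) P.nil)))) (P.cons (P.cons (P.lf 692182 0 0) (P.cons (P.lf 810082 0 0) (P.cons (P.lf 0 166506 0) P.nil))) (P.cons (P.cons (P.lf 81726 0 0) (P.cons (P.lf 0 58114 0) P.nil)) (P.cons (P.cons (P.lf 0 7102 0) P.nil) P.nil)))))) 263646)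
 EL.nil)
noncomputable def S227_241_512_660_39 : EL := (EL.cons 14 (TM.mk (P.cons (P.lf 249134356 0 0) (P.cons (P.lf 0 155639672 0) (P.cons (P.lf 22940490 0 0) (P.cons (P.lf 563286 0 0) (P.cons (P.lf 0 38600 0) (P.cons (P.lf 0 1128 0) P.nil)))))) 108)
 EL.nil)
noncomputable def S227_241_512_660_40 : EL := (EL.cons 14 (TM.mk (P.cons (P.cons (P.lf 0 20519744 0) (P.cons (P.lf 0 47898746 0) (P.cons (P.lf 3202398 0 0) (P.lf 1067466 0 0)))) (P.cons (P.cons (P.lf 3277814 0 0) (P.cons (P.lf 28234924 0 0) (P.cons (P.lf 0 1887720 0) (P.lf 0 629240 0)))) (P.cons (P.cons (P.lf 3577106 0 0) (P.cons (P.lf 0 3116778 0) (P.cons (P.lf 208380 0 0) (P.lf 69460 0 0)))) (P.cons (P.cons (P.lf 0 541564 0) (P.cons (P.lf 0 403976 0) (P.cons (P.lf 27008 0 0) P.nil))) (P.cons (P.cons (P.lf 0 108096 0) (P.cons (P.lf 19358 0 0) P.nil)) (P.cons (P.cons (P.lf 5614 0 0) P.nil) P.nil))))))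 16336)
 EL.nil)
noncomputable def S227_241_512_660_41 : EL := (EL.cons 14 (TM.mk (P.cons (P.cons (P.lf 1690090 0 0) (P.cons (P.lf 7890280 0 0) (P.cons (P.lf 8681520 0 0) (P.cons (P.lf 0 1407232 0) (P.cons (P.lf 0 369298 0) (P.cons (P.lf 27442 0 0) P.nil)))))) (P.cons (P.cons (P.lf 515888 0 0) (P.cons (P.lf 0 982250 0) (P.cons (P.lf 0 5038168 0) (P.cons (P.lf 704352 0 0) (P.cons (P.lf 204672 0 0) P.nil))))) (P.cons (P.cons (P.lf 0 379462 0) (P.cons (P.lf 0 1459266 0) (P.cons (P.lf 459498 0 0) (P.cons (P.lf 0 15874 0) P.nil)))) (P.cons (P.cons (P.lf 0 105046 0) (P.cons (P.lf 164548 0 0) (P.cons (P.lf 113126 0 0) P.nil))) (P.cons (P.cons (P.lf 23328 0 0) (P.cons (P.lf 56102 0 0) P.nil)) (P.cons (P.cons (P.lf 5870 0 0) P.nil) P.nil)))))) 147828)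
 EL.nil)
noncomputable def S227_241_512_660_42 : EL := (EL.cons 14 (TM.mk (P.cons (P.lf 0 42428286 0) (P.cons (P.lf 39758816 0 0) (P.cons (P.lf 0 12069796 0) (P.cons (P.lf 1040076 0 0) (P.cons (P.lf 54328 0 0) (P.cons (P.lf 0 2546 0) P.nil)))))) 172)
 EL.nil)
noncomputable def S227_241_512_660_43 : EL := (EL.cons 14 (TM.mk (P.cons (P.cons (P.lf 3494570 0 0) (P.cons (P.lf 8157292 0 0) (P.cons (P.lf 0 545376 0) (P.lf 0 181792 0)))) (P.cons (P.cons (P.lf 0 1649788 0) (P.cons (P.lf 0 7356506 0) (P.cons (P.lf 491838 0 0) (P.lf 163946 0 0)))) (P.cons (P.cons (P.lf 0 444414 0) (P.cons (P.lf 2010394 0 0) (P.cons (P.lf 0 134410 0) (P.lf 0 44802 0)))) (P.cons (P.cons (P.lf 285004 0 0) (P.cons (P.lf 0 81576 0) (P.cons (P.lf 5452 0 0) P.nil))) (P.cons (P.cons (P.lf 0 8866 0) (P.cons (P.lf 0 27522 0) P.nil)) (P.cons (P.cons (P.lf 0 7128 0) P.nil) P.nil)))))) 13480)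
 EL.nil)
noncomputable def S227_241_512_660_44 : EL := (EL.cons 14 (TM.mk (P.cons (P.cons (P.lf 0 287826 0) (P.cons (P.lf 0 1343736 0) (P.cons (P.lf 0 1478486 0) (P.cons (P.lf 239654 0 0) (P.cons (P.lf 62892 0 0) (P.cons (P.lf 0 4672 0) P.nil)))))) (P.cons (P.cons (P.lf 2048 0 0) (P.cons (P.lf 587010 0 0) (P.cons (P.lf 1319836 0 0) (P.cons (P.lf 0 194812 0) (P.cons (P.lf 0 54500 0) P.nil))))) (P.cons (P.cons (P.lf 92856 0 0) (P.cons (P.lf 199952 0 0) (P.cons (P.lf 0 342206 0) (P.cons (P.lf 39514 0 0) P.nil)))) (P.cons (P.cons (P.lf 0 2132 0) (P.cons (P.lf 0 106476 0) (P.cons (P.lf 2418 0 0) P.nil))) (P.cons (P.cons (P.lf 0 9762 0) (P.cons (P.lf 0 1442 0) P.nil)) (P.cons (P.cons (P.lf 208 0 0) P.nil) P.nil)))))) 69080)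
 EL.nil)
noncomputable def S227_241_512_660_45 : EL := (EL.cons 14 (TM.mk (P.cons (P.cons (P.lf 0 4799598 0) (P.cons (P.lf 0 33610760 0) (P.cons (P.lf 0 76209650 0) (P.cons (P.lf 0 49806674 0) (P.cons (P.lf 15390558 0 0) (P.cons (P.lf 3029008 0 0) P.nil)))))) (P.cons (P.cons (P.lf 0 6695184 0) (P.cons (P.lf 0 32441620 0) (P.cons (P.lf 0 39843372 0) (P.cons (P.lf 0 115138 0) (P.cons (P.lf 2979634 0 0) P.nil))))) (P.cons (P.cons (P.lf 0 3459844 0) (P.cons (P.lf 0 9819690 0) (P.cons (P.lf 0 3119282 0) (P.cons (P.lf 1409776 0 0) P.nil)))) (P.cons (P.cons (P.lf 0 752498 0) (P.cons (P.lf 0 658720 0) (P.cons (P.lf 572568 0 0) P.nil))) (P.cons (P.cons (P.lf 0 32798 0) (P.cons (P.lf 134418 0 0) P.nil)) (P.cons (P.cons (P.lf 11478 0 0) P.nil) P.nil)))))) 2036928)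
 EL.nil)
noncomputable def S227_241_512_660_46 : EL := (EL.cons 15 (TM.mk (P.lf 4294967296 0 0) 0)
 EL.nil)
noncomputable def S227_241_512_660_47 : EL := (EL.cons 15 (TM.mk (P.cons (P.cons (P.lf 0 353751433 0) (P.cons (P.lf 0 825753448 0) (P.cons (P.lf 55207952 0 0) (P.lf 18402648 0 0)))) (P.cons (P.cons (P.lf 0 164488146 0) (P.cons (P.lf 0 29108472 0) (P.cons (P.lf 1946124 0 0) (P.lf 648704 0 0)))) (P.cons (P.cons (P.lf 0 8517862 0) (P.cons (P.lf 4119420 0 0) (P.cons (P.lf 0 275412 0) (P.lf 0 91804 0)))) (P.cons (P.cons (P.lf 1288387 0 0) (P.cons (P.lf 156428 0 0) (P.cons (P.lf 0 10456 0) P.nil))) (P.cons (P.cons (P.lf 42755 0 0) (P.cons (P.lf 0 9992 0) P.nil)) (P.cons (P.cons (P.lf 0 2963 0) P.nil) P.nil)))))) 5650)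
 EL.nil)
noncomputable def S227_241_512_660_48 : EL := (EL.cons 15 (TM.mk (P.cons (P.cons (P.lf 29136444 0 0) (P.cons (P.lf 136025001 0 0) (P.cons (P.lf 149665626 0 0) (P.cons (P.lf 0 24260077 0) (P.cons (P.lf 0 6366563 0) (P.cons (P.lf 473099 0 0) P.nil)))))) (P.cons (P.cons (P.lf 27095860 0 0) (P.cons (P.lf 68044204 0 0) (P.cons (P.lf 6643553 0 0) (P.cons (P.lf 0 3013077 0) (P.cons (P.lf 0 448851 0) P.nil))))) (P.cons (P.cons (P.lf 7702680 0 0) (P.cons (P.lf 4826300 0 0) (P.cons (P.lf 0 1709402 0) (P.cons (P.lf 77867 0 0) P.nil)))) (P.cons (P.cons (P.lf 440198 0 0) (P.cons (P.lf 0 721253 0) (P.cons (P.lf 0 67766 0) P.nil))) (P.cons (P.cons (P.lf 0 88835 0) (P.cons (P.lf 0 60579 0) P.nil)) (P.cons (P.cons (P.lf 0 7897 0) P.nil) P.nil)))))) 280212)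
 EL.nil)
noncomputable def S227_241_512_660 : SL := (SL.cons S227_241_512_660_0 (SL.cons S227_241_512_660_1 (SL.cons S227_241_512_660_2 (SL.cons S227_241_512_660_3 (SL.cons S227_241_512_660_4 (SL.cons S227_241_512_660_5 (SL.cons S227_241_512_660_6 (SL.cons S227_241_512_660_7 (SL.cons S227_241_512_660_8 (SL.cons S227_241_512_660_9 (SL.cons S227_241_512_660_10 (SL.cons S227_241_512_660_11 (SL.cons S227_241_512_660_12 (SL.cons S227_241_512_660_13 (SL.cons S227_241_512_660_14 (SL.cons S227_241_512_660_15 (SL.cons S227_241_512_660_16 (SL.cons S227_241_512_660_17 (SL.cons S227_241_512_660_18 (SL.cons S227_241_512_660_19 (SL.cons S227_241_512_660_20 (SL.cons S227_241_512_660_21 (SL.cons S227_241_512_660_22 (SL.cons S227_241_512_660_23 (SL.cons S227_241_512_660_24 (SL.cons S227_241_512_660_25 (SL.cons S227_241_512_660_26 (SL.cons S227_241_512_660_27 (SL.cons S227_241_512_660_28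 (SL.cons S227_241_512_660_29 (SL.cons S227_241_512_660_30 (SL.cons S227_241_512_660_31 (SL.cons S227_241_512_660_32 (SL.cons S227_241_512_660_33 (SL.cons S227_241_512_660_34 (SL.cons S227_241_512_660_35 (SL.cons S227_241_512_660_36 (SL.cons S227_241_512_660_37 (SL.cons S227_241_512_660_38 (SL.cons S227_241_512_660_39 (SL.cons S227_241_512_660_40 (SL.cons S227_241_512_660_41 (SL.cons S227_241_512_660_42 (SL.cons S227_241_512_660_43 (SL.cons S227_241_512_660_44 (SL.cons S227_241_512_660_45 (SL.cons S227_241_512_660_46 (SL.cons S227_241_512_660_47 (SL.cons S227_241_512_660_48 SL.nil)))))))))))))))))))))))))))))))))))))))))))))))))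
noncomputable def S227_241_586_660_0 : EL := (EL.cons 0 (TM.mk (P.cons (P.lf 8236751121 0 0) (P.cons (P.lf 136792680 0 0) (P.cons (P.lf 0 20162540 0) (P.cons (P.lf 0 495075 0) (P.cons (P.lf 33925 0 0) (P.cons (P.lf 991 0 0) P.nil)))))) 101)
 (EL.cons 1 (TM.mk (P.cons (P.lf 0 673184881 0) (P.cons (P.lf 202366545 0 0) (P.cons (P.lf 5530590 0 0) (P.cons (P.lf 0 526580 0) (P.cons (P.lf 0 13798 0) (P.cons (P.lf 714 0 0) P.nil)))))) 98)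
 (EL.cons 5 (TM.mk (P.cons (P.lf 4372821786 0 0) (P.cons (P.lf 0 48637396 0) (P.cons (P.lf 7168902 0 0) (P.cons (P.lf 176026 0 0) (P.cons (P.lf 0 12058 0) (P.cons (P.lf 0 354 0) P.nil)))))) 135)
 (EL.cons 9 (TM.mk (P.lf 6442450944 0 0) 2)
 EL.nil))))
noncomputable def S227_241_586_660_1 : EL := (EL.cons 0 (TM.mk (P.cons (P.cons (P.lf 0 664970159 0) (P.cons (P.lf 0 667758897 0) (P.cons (P.lf 36537084 0 0) (P.lf 4059675 0 0)))) (P.cons (P.cons (P.lf 0 546728571 0) (P.cons (P.lf 0 71742878 0) (P.cons (P.lf 3925466 0 0) (P.lf 436159 0 0)))) (P.cons (P.cons (P.lf 0 54125069 0) (P.cons (P.lf 8737002 0 0) (P.cons (P.lf 0 478050 0) (P.lf 0 53109 0)))) (P.cons (P.cons (P.lf 8224072 0 0) (P.cons (P.lf 791880 0 0) (P.cons (P.lf 0 43320 0) P.nil))) (P.cons (P.cons (P.lf 568478 0 0) (P.cons (P.lf 0 40193 0) P.nil)) (P.cons (P.cons (P.lf 0 36572 0) P.nil) P.nil)))))) 18231)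
 (EL.cons 1 (TM.mk (P.cons (P.cons (P.lf 1263204823 0 0) (P.cons (P.lf 144916757 0 0) (P.cons (P.lf 0 7929261 0) (P.lf 0 881026 0)))) (P.cons (P.cons (P.lf 125827074 0 0) (P.cons (P.lf 0 36285888 0) (P.cons (P.lf 1985419 0 0) (P.lf 220599 0 0)))) (P.cons (P.cons (P.lf 0 38508067 0) (P.cons (P.lf 0 4395480 0) (P.cons (P.lf 240495 0 0) (P.lf 26715 0 0)))) (P.cons (P.cons (P.lf 0 3416481 0) (P.cons (P.lf 316374 0 0) (P.cons (P.lf 0 17303 0) P.nil))) (P.cons (P.cons (P.lf 306411 0 0) (P.cons (P.lf 32658 0 0) P.nil)) (P.cons (P.cons (P.lf 23108 0 0) P.nil) P.nil)))))) 10878)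
 (EL.cons 5 (TM.mk (P.cons (P.cons (P.lf 0 1039460099 0) (P.cons (P.lf 0 405806594 0) (P.cons (P.lf 22204108 0 0) (P.lf 2467122 0 0)))) (P.cons (P.cons (P.lf 0 109014727 0) (P.cons (P.lf 2834132 0 0) (P.cons (P.lf 0 155066 0) (P.lf 0 17224 0)))) (P.cons (P.cons (P.lf 8129045 0 0) (P.cons (P.lf 102394 0 0) (P.cons (P.lf 0 5608 0) (P.lf 0 630 0)))) (P.cons (P.cons (P.lf 0 606053 0) (P.cons (P.lf 0 159700 0) (P.cons (P.lf 8736 0 0) P.nil))) (P.cons (P.cons (P.lf 0 137601 0) (P.cons (P.lf 6498 0 0) P.nil)) (P.cons (P.cons (P.lf 7595 0 0) P.nil) P.nil)))))) 10812)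
 (EL.cons 9 (TM.mk (P.cons (P.cons (P.lf 0 1125788761 0) (P.cons (P.lf 0 567557628 0) (P.cons (P.lf 31054470 0 0) (P.lf 3450492 0 0)))) (P.cons (P.cons (P.lf 0 267712143 0) (P.cons (P.lf 0 20006862 0) (P.cons (P.lf 1094688 0 0) (P.lf 121632 0 0)))) (P.cons (P.cons (P.lf 0 9807723 0) (P.cons (P.lf 2831358 0 0) (P.cons (P.lf 0 154920 0) (P.lf 0 17208 0)))) (P.cons (P.cons (P.lf 2045332 0 0) (P.cons (P.lf 107514 0 0) (P.cons (P.lf 0 5880 0) P.nil))) (P.cons (P.cons (P.lf 56932 0 0) (P.cons (P.lf 0 6864 0) P.nil)) (P.cons (P.cons (P.lf 0 4762 0) P.nil) P.nil)))))) 2356)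
 (EL.cons 2 (TM.mk (P.cons (P.cons (P.lf 415758200 0 0) (P.cons (P.lf 0 52167661 0) (P.cons (P.lf 0 7964651 0) (P.cons (P.lf 243317 0 0) (P.lf 20275 0 0))))) (P.cons (P.cons (P.lf 0 120096070 0) (P.cons (P.lf 15069169 0 0) (P.cons (P.lf 2300670 0 0) (P.cons (P.lf 0 70284 0) (P.lf 0 5855 0))))) (P.cons (P.cons (P.lf 0 5633015 0) (P.cons (P.lf 706806 0 0) (P.cons (P.lf 107910 0 0) (P.cons (P.lf 0 3296 0) P.nil)))) (P.cons (P.cons (P.lf 501283 0 0) (P.cons (P.lf 0 62898 0) (P.cons (P.lf 0 9601 0) P.nil))) (P.cons (P.cons (P.lf 21805 0 0) (P.cons (P.lf 0 2733 0) P.nil)) (P.cons (P.cons (P.lf 0 1035 0) P.nil) P.nil)))))) 1534)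
 (EL.cons 6 (TM.mk (P.cons (P.cons (P.lf 1278200562 0 0) (P.cons (P.lf 0 160383456 0) (P.cons (P.lf 0 24486402 0) (P.cons (P.lf 748056 0 0) (P.lf 62337 0 0))))) (P.cons (P.cons (P.lf 45057597 0 0) (P.cons (P.lf 0 5653644 0) (P.cons (P.lf 0 863163 0) (P.cons (P.lf 26367 0 0) (P.lf 2196 0 0))))) (P.cons (P.cons (P.lf 0 6376536 0) (P.cons (P.lf 800100 0 0) (P.cons (P.lf 122151 0 0) (P.cons (P.lf 0 3729 0) P.nil)))) (P.cons (P.cons (P.lf 0 242142 0) (P.cons (P.lf 30381 0 0) (P.cons (P.lf 4638 0 0) P.nil))) (P.cons (P.cons (P.lf 15471 0 0) (P.cons (P.lf 0 1938 0) P.nil)) (P.cons (P.cons (P.lf 678 0 0) P.nil) P.nil)))))) 1254)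
 EL.nil))))))
noncomputable def S227_241_586_660_2 : EL := (EL.cons 0 (TM.mk (P.cons (P.cons (P.lf 0 19116126 0) (P.cons (P.lf 96937986 0 0) (P.cons (P.lf 48425012 0 0) (P.cons (P.lf 0 6469028 0) (P.cons (P.lf 0 492450 0) (P.cons (P.lf 35756 0 0) P.nil)))))) (P.cons (P.cons (P.lf 122543050 0 0) (P.cons (P.lf 107572492 0 0) (P.cons (P.lf 5333582 0 0) (P.cons (P.lf 0 1881750 0) (P.cons (P.lf 0 102817 0) P.nil))))) (P.cons (P.cons (P.lf 46402546 0 0) (P.cons (P.lf 13690496 0 0) (P.cons (P.lf 0 1789826 0) (P.cons (P.lf 30668 0 0) P.nil)))) (P.cons (P.cons (P.lf 2737163 0 0) (P.cons (P.lf 0 1958525 0) (P.cons (P.lf 0 101116 0) P.nil))) (P.cons (P.cons (P.lf 0 803030 0) (P.cons (P.lf 0 280130 0) P.nil)) (P.cons (P.cons (P.lf 0 86030 0) P.nil) P.nil)))))) 179788)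
 (EL.cons 1 (TM.mk (P.cons (P.cons (P.lf 0 420922150 0) (P.cons (P.lf 0 252488376 0) (P.cons (P.lf 0 6493595 0) (P.cons (P.lf 3757436 0 0) (P.cons (P.lf 186129 0 0) (P.cons (P.lf 0 13508 0) P.nil)))))) (P.cons (P.cons (P.lf 0 145361692 0) (P.cons (P.lf 0 29949054 0) (P.cons (P.lf 5929710 0 0) (P.cons (P.lf 0 287495 0) (P.cons (P.lf 0 39329 0) P.nil))))) (P.cons (P.cons (P.lf 0 2432439 0) (P.cons (P.lf 9603637 0 0) (P.cons (P.lf 402434 0 0) (P.cons (P.lf 0 159918 0) P.nil)))) (P.cons (P.cons (P.lf 4302476 0 0) (P.cons (P.lf 1285597 0 0) (P.cons (P.lf 0 114872 0) P.nil))) (P.cons (P.cons (P.lf 370456 0 0) (P.cons (P.lf 0 93089 0) P.nil)) (P.cons (P.cons (P.lf 0 41421 0) P.nil) P.nil)))))) 89875)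
 (EL.cons 5 (TM.mk (P.cons (P.cons (P.lf 229753455 0 0) (P.cons (P.lf 190336835 0 0) (P.cons (P.lf 27148372 0 0) (P.cons (P.lf 0 5267733 0) (P.cons (P.lf 0 344262 0) (P.cons (P.lf 24980 0 0) P.nil)))))) (P.cons (P.cons (P.lf 62467140 0 0) (P.cons (P.lf 23134751 0 0) (P.cons (P.lf 0 1259907 0) (P.cons (P.lf 0 141301 0) (P.cons (P.lf 0 61 0) P.nil))))) (P.cons (P.cons (P.lf 0 6035 0) (P.cons (P.lf 0 2146293 0) (P.cons (P.lf 0 7498 0) (P.cons (P.lf 26714 0 0) P.nil)))) (P.cons (P.cons (P.lf 0 859557 0) (P.cons (P.lf 47699 0 0) (P.cons (P.lf 30031 0 0) P.nil))) (P.cons (P.cons (P.lf 87227 0 0) (P.cons (P.lf 56648 0 0) P.nil)) (P.cons (P.cons (P.lf 20054 0 0) P.nil) P.nil)))))) 94262)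
 (EL.cons 9 (TM.mk (P.cons (P.cons (P.lf 196726423 0 0) (P.cons (P.lf 198356185 0 0) (P.cons (P.lf 39146608 0 0) (P.cons (P.lf 0 6677497 0) (P.cons (P.lf 0 458260 0) (P.cons (P.lf 33264 0 0) P.nil)))))) (P.cons (P.cons (P.lf 93562938 0 0) (P.cons (P.lf 54161241 0 0) (P.cons (P.lf 561586 0 0) (P.cons (P.lf 0 715029 0) (P.cons (P.lf 0 32307 0) P.nil))))) (P.cons (P.cons (P.lf 14552325 0 0) (P.cons (P.lf 2401264 0 0) (P.cons (P.lf 0 568122 0) (P.cons (P.lf 33192 0 0) P.nil)))) (P.cons (P.cons (P.lf 100282 0 0) (P.cons (P.lf 0 572343 0) (P.cons (P.lf 0 5212 0) P.nil))) (P.cons (P.cons (P.lf 0 174951 0) (P.cons (P.lf 0 37891 0) P.nil)) (P.cons (P.cons (P.lf 0 9294 0) P.nil) P.nil)))))) 34724)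
 (EL.cons 2 (TM.mk (P.cons (P.cons (P.lf 0 145303678 0) (P.cons (P.lf 0 55021595 0) (P.cons (P.lf 15983302 0 0) (P.cons (P.lf 1260697 0 0) (P.cons (P.lf 0 182621 0) (P.cons (P.lf 0 9753 0) P.nil)))))) (P.cons (P.cons (P.lf 7419313 0 0) (P.cons (P.lf 17646896 0 0) (P.cons (P.lf 0 3489705 0) (P.cons (P.lf 0 336948 0) (P.cons (P.lf 44876 0 0) P.nil))))) (P.cons (P.cons (P.lf 10683855 0 0) (P.cons (P.lf 763278 0 0) (P.cons (P.lf 0 583762 0) (P.cons (P.lf 0 32394 0) P.nil)))) (P.cons (P.cons (P.lf 922601 0 0) (P.cons (P.lf 0 260780 0) (P.cons (P.lf 8454 0 0) P.nil))) (P.cons (P.cons (P.lf 0 101036 0) (P.cons (P.lf 0 4123 0) P.nil)) (P.cons (P.cons (P.lf 0 9286 0) P.nil) P.nil)))))) 30267)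
 (EL.cons 6 (TM.mk (P.cons (P.cons (P.lf 0 446719368 0) (P.cons (P.lf 0 169157538 0) (P.cons (P.lf 49138812 0 0) (P.cons (P.lf 3875880 0 0) (P.cons (P.lf 0 561444 0) (P.cons (P.lf 0 29994 0) P.nil)))))) (P.cons (P.cons (P.lf 0 121976910 0) (P.cons (P.lf 0 572502 0) (P.cons (P.lf 5197728 0 0) (P.cons (P.lf 220296 0 0) (P.cons (P.lf 0 43992 0) P.nil))))) (P.cons (P.cons (P.lf 0 5407896 0) (P.cons (P.lf 2645706 0 0) (P.cons (P.lf 0 250860 0) (P.cons (P.lf 0 39294 0) P.nil)))) (P.cons (P.cons (P.lf 1288980 0 0) (P.cons (P.lf 2796 0 0) (P.cons (P.lf 0 54336 0) P.nil))) (P.cons (P.cons (P.lf 85326 0 0) (P.cons (P.lf 0 18750 0) P.nil)) (P.cons (P.cons (P.lf 0 5922 0) P.nil) P.nil)))))) 25560)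
 EL.nil))))))
noncomputable def S227_241_586_660_3 : EL := (EL.cons 0 (TM.mk (P.cons (P.lf 218965742 0 0) (P.cons (P.lf 0 136792680 0) (P.cons (P.lf 20162540 0 0) (P.cons (P.lf 495075 0 0) (P.cons (P.lf 0 33925 0) (P.cons (P.lf 0 991 0) P.nil)))))) 101)
 (EL.cons 1 (TM.mk (P.cons (P.lf 673184881 0 0) (P.cons (P.lf 0 202366545 0) (P.cons (P.lf 0 5530590 0) (P.cons (P.lf 526580 0 0) (P.cons (P.lf 13798 0 0) (P.cons (P.lf 0 714 0) P.nil)))))) 98)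
 (EL.cons 5 (TM.mk (P.cons (P.lf 2069629158 0 0) (P.cons (P.lf 48637396 0 0) (P.cons (P.lf 0 7168902 0) (P.cons (P.lf 0 176026 0) (P.cons (P.lf 12058 0 0) (P.cons (P.lf 354 0 0) P.nil)))))) 128)
 EL.nil)))
noncomputable def S227_241_586_660_4 : EL := (EL.cons 0 (TM.mk (P.cons (P.cons (P.lf 0 38263259 0) (P.cons (P.lf 0 19290123 0) (P.cons (P.lf 1055476 0 0) (P.lf 117274 0 0)))) (P.cons (P.cons (P.lf 14804903 0 0) (P.cons (P.lf 11370969 0 0) (P.cons (P.lf 0 622172 0) (P.lf 0 69129 0)))) (P.cons (P.cons (P.lf 1827680 0 0) (P.cons (P.lf 0 1255211 0) (P.cons (P.lf 68679 0 0) (P.lf 7630 0 0)))) (P.cons (P.cons (P.lf 0 646588 0) (P.cons (P.lf 0 162692 0) (P.cons (P.lf 8901 0 0) P.nil))) (P.cons (P.cons (P.lf 0 86830 0) (P.cons (P.lf 7795 0 0) P.nil)) (P.cons (P.cons (P.lf 5858 0 0) P.nil) P.nil)))))) 3717)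
 (EL.cons 1 (TM.mk (P.cons (P.cons (P.lf 0 117635970 0) (P.cons (P.lf 0 59305256 0) (P.cons (P.lf 3244944 0 0) (P.lf 360547 0 0)))) (P.cons (P.cons (P.lf 7388835 0 0) (P.cons (P.lf 15737233 0 0) (P.cons (P.lf 0 861078 0) (P.lf 0 95673 0)))) (P.cons (P.cons (P.lf 8350833 0 0) (P.cons (P.lf 1411522 0 0) (P.cons (P.lf 0 77231 0) (P.lf 0 8580 0)))) (P.cons (P.cons (P.lf 659596 0 0) (P.cons (P.lf 0 106916 0) (P.cons (P.lf 5848 0 0) P.nil))) (P.cons (P.cons (P.lf 0 74171 0) (P.cons (P.lf 0 9375 0) P.nil)) (P.cons (P.cons (P.lf 0 5291 0) P.nil) P.nil)))))) 3017)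
 (EL.cons 5 (TM.mk (P.cons (P.cons (P.lf 0 361658204 0) (P.cons (P.lf 0 182327164 0) (P.cons (P.lf 9976208 0 0) (P.lf 1108464 0 0)))) (P.cons (P.cons (P.lf 0 94501346 0) (P.cons (P.lf 0 10711964 0) (P.cons (P.lf 586112 0 0) (P.lf 65122 0 0)))) (P.cons (P.cons (P.lf 0 3919082 0) (P.cons (P.lf 1390082 0 0) (P.cons (P.lf 0 76058 0) (P.lf 0 8448 0)))) (P.cons (P.cons (P.lf 911674 0 0) (P.cons (P.lf 93682 0 0) (P.cons (P.lf 0 5124 0) P.nil))) (P.cons (P.cons (P.lf 49850 0 0) (P.cons (P.lf 0 5058 0) P.nil)) (P.cons (P.cons (P.lf 0 3670 0) P.nil) P.nil)))))) 2114)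
 EL.nil)))
noncomputable def S227_241_586_660_5 : EL := (EL.cons 0 (TM.mk (P.cons (P.cons (P.lf 6686328 0 0) (P.cons (P.lf 6741720 0 0) (P.cons (P.lf 1330512 0 0) (P.cons (P.lf 0 226952 0) (P.cons (P.lf 0 15574 0) (P.cons (P.lf 1130 0 0) P.nil)))))) (P.cons (P.cons (P.lf 0 997082 0) (P.cons (P.lf 0 2370868 0) (P.cons (P.lf 0 812112 0) (P.cons (P.lf 117479 0 0) (P.cons (P.lf 8630 0 0) P.nil))))) (P.cons (P.cons (P.lf 0 876336 0) (P.cons (P.lf 0 447609 0) (P.cons (P.lf 91279 0 0) (P.cons (P.lf 0 4586 0) P.nil)))) (P.cons (P.cons (P.lf 2353 0 0) (P.cons (P.lf 114308 0 0) (P.cons (P.lf 16650 0 0) P.nil))) (P.cons (P.cons (P.lf 43621 0 0) (P.cons (P.lf 21496 0 0) P.nil)) (P.cons (P.cons (P.lf 4306 0 0) P.nil) P.nil)))))) 15216)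
 (EL.cons 1 (TM.mk (P.cons (P.cons (P.lf 20556345 0 0) (P.cons (P.lf 20726641 0 0) (P.cons (P.lf 4090507 0 0) (P.cons (P.lf 0 697743 0) (P.cons (P.lf 0 47883 0) (P.cons (P.lf 3474 0 0) P.nil)))))) (P.cons (P.cons (P.lf 3597123 0 0) (P.cons (P.lf 0 571230 0) (P.cons (P.lf 0 1170967 0) (P.cons (P.lf 135033 0 0) (P.cons (P.lf 11017 0 0) P.nil))))) (P.cons (P.cons (P.lf 0 1587223 0) (P.cons (P.lf 0 1620648 0) (P.cons (P.lf 0 110608 0) (P.cons (P.lf 31659 0 0) P.nil)))) (P.cons (P.cons (P.lf 0 510870 0) (P.cons (P.lf 0 165513 0) (P.cons (P.lf 20017 0 0) P.nil))) (P.cons (P.cons (P.lf 0 25854 0) (P.cons (P.lf 16807 0 0) P.nil)) (P.cons (P.cons (P.lf 5805 0 0) P.nil) P.nil)))))) 13169)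
 (EL.cons 5 (TM.mk (P.cons (P.cons (P.lf 63198112 0 0) (P.cons (P.lf 63721670 0 0) (P.cons (P.lf 12575796 0 0) (P.cons (P.lf 0 2145136 0) (P.cons (P.lf 0 147214 0) (P.cons (P.lf 10684 0 0) P.nil)))))) (P.cons (P.cons (P.lf 31542162 0 0) (P.cons (P.lf 18896722 0 0) (P.cons (P.lf 475946 0 0) (P.cons (P.lf 0 280112 0) (P.cons (P.lf 0 13838 0) P.nil))))) (P.cons (P.cons (P.lf 5162360 0 0) (P.cons (P.lf 959570 0 0) (P.cons (P.lf 0 221828 0) (P.cons (P.lf 12694 0 0) P.nil)))) (P.cons (P.cons (P.lf 32588 0 0) (P.cons (P.lf 0 231422 0) (P.cons (P.lf 0 7656 0) P.nil))) (P.cons (P.cons (P.lf 0 73826 0) (P.cons (P.lf 0 20272 0) P.nil)) (P.cons (P.cons (P.lf 0 4628 0) P.nil) P.nil)))))) 16338)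
 EL.nil)))
noncomputable def S227_241_586_660_6 : EL := (EL.cons 12 (TM.mk (P.lf 8589934592 0 0) 0)
 (EL.cons 3 (TM.mk (P.cons (P.lf 0 685729796 0) (P.cons (P.lf 214195188 0 0) (P.cons (P.lf 1881828 0 0) (P.cons (P.lf 0 187398 0) (P.cons (P.lf 0 2831 0) (P.cons (P.lf 153 0 0) P.nil)))))) 44)
 (EL.cons 7 (TM.mk (P.cons (P.lf 0 2108197044 0) (P.cons (P.lf 0 24771881 0) (P.cons (P.lf 3796786 0 0) (P.cons (P.lf 45040 0 0) (P.cons (P.lf 0 3252 0) (P.cons (P.lf 0 61 0) P.nil)))))) 51)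
 EL.nil)))
noncomputable def S227_241_586_660_7 : EL := (EL.cons 12 (TM.mk (P.cons (P.cons (P.lf 0 1501051682 0) (P.cons (P.lf 0 756743504 0) (P.cons (P.lf 41405960 0 0) (P.lf 4600656 0 0)))) (P.cons (P.cons (P.lf 0 356949524 0) (P.cons (P.lf 0 26675816 0) (P.cons (P.lf 1459584 0 0) (P.lf 162176 0 0)))) (P.cons (P.cons (P.lf 0 13076964 0) (P.cons (P.lf 3775144 0 0) (P.cons (P.lf 0 206560 0) (P.lf 0 22944 0)))) (P.cons (P.cons (P.lf 2727110 0 0) (P.cons (P.lf 143352 0 0) (P.cons (P.lf 0 7840 0) P.nil))) (P.cons (P.cons (P.lf 75910 0 0) (P.cons (P.lf 0 9152 0) P.nil)) (P.cons (P.cons (P.lf 0 6350 0) P.nil) P.nil)))))) 3116)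
 (EL.cons 3 (TM.mk (P.cons (P.cons (P.lf 0 2305230185 0) (P.cons (P.lf 0 120820840 0) (P.cons (P.lf 6610830 0 0) (P.lf 734534 0 0)))) (P.cons (P.cons (P.lf 0 200999202 0) (P.cons (P.lf 33480676 0 0) (P.cons (P.lf 0 1831928 0) (P.lf 0 203546 0)))) (P.cons (P.cons (P.lf 48631392 0 0) (P.cons (P.lf 2264654 0 0) (P.cons (P.lf 0 123910 0) (P.lf 0 13766 0)))) (P.cons (P.cons (P.lf 1970592 0 0) (P.cons (P.lf 0 186712 0) (P.cons (P.lf 10214 0 0) P.nil))) (P.cons (P.cons (P.lf 0 188994 0) (P.cons (P.lf 0 11926 0) P.nil)) (P.cons (P.cons (P.lf 0 8333 0) P.nil) P.nil)))))) 8313)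
 (EL.cons 7 (TM.mk (P.cons (P.cons (P.lf 648858124 0 0) (P.cons (P.lf 206684437 0 0) (P.cons (P.lf 0 11308945 0) (P.lf 0 1256553 0)))) (P.cons (P.cons (P.lf 23245760 0 0) (P.cons (P.lf 0 3872071 0) (P.cons (P.lf 211862 0 0) (P.lf 23539 0 0)))) (P.cons (P.cons (P.lf 0 9391372 0) (P.cons (P.lf 365578 0 0) (P.cons (P.lf 0 20002 0) (P.lf 0 2218 0)))) (P.cons (P.cons (P.lf 1009550 0 0) (P.cons (P.lf 74484 0 0) (P.cons (P.lf 0 4076 0) P.nil))) (P.cons (P.cons (P.lf 67324 0 0) (P.cons (P.lf 0 3928 0) P.nil)) (P.cons (P.cons (P.lf 0 4344 0) P.nil) P.nil)))))) 6333)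
 (EL.cons 10 (TM.mk (P.cons (P.cons (P.lf 0 2604040086 0) (P.cons (P.lf 326744457 0 0) (P.cons (P.lf 49885425 0 0) (P.cons (P.lf 0 1523994 0) (P.lf 0 126999 0))))) (P.cons (P.cons (P.lf 0 61196337 0) (P.cons (P.lf 7678668 0 0) (P.cons (P.lf 1172334 0 0) (P.cons (P.lf 0 35814 0) (P.lf 0 2982 0))))) (P.cons (P.cons (P.lf 9020025 0 0) (P.cons (P.lf 0 1131795 0) (P.cons (P.lf 0 172794 0) (P.cons (P.lf 5277 0 0) P.nil)))) (P.cons (P.cons (P.lf 221478 0 0) (P.cons (P.lf 0 27789 0) (P.cons (P.lf 0 4242 0) P.nil))) (P.cons (P.cons (P.lf 0 15171 0) (P.cons (P.lf 1902 0 0) P.nil)) (P.cons (P.cons (P.lf 0 444 0) P.nil) P.nil)))))) 1239)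
 EL.nil))))
noncomputable def S227_241_586_660_8 : EL := (EL.cons 12 (TM.mk (P.cons (P.cons (P.lf 262301898 0 0) (P.cons (P.lf 264474914 0 0) (P.cons (P.lf 52195478 0 0) (P.cons (P.lf 0 8903330 0) (P.cons (P.lf 0 611014 0) (P.cons (P.lf 44352 0 0) P.nil)))))) (P.cons (P.cons (P.lf 124750584 0 0) (P.cons (P.lf 72214988 0 0) (P.cons (P.lf 748782 0 0) (P.cons (P.lf 0 953372 0) (P.cons (P.lf 0 43076 0) P.nil))))) (P.cons (P.cons (P.lf 19403100 0 0) (P.cons (P.lf 3201686 0 0) (P.cons (P.lf 0 757496 0) (P.cons (P.lf 44256 0 0) P.nil)))) (P.cons (P.cons (P.lf 133710 0 0) (P.cons (P.lf 0 763124 0) (P.cons (P.lf 0 6950 0) P.nil))) (P.cons (P.cons (P.lf 0 233268 0) (P.cons (P.lf 0 50522 0) P.nil)) (P.cons (P.cons (P.lf 0 12392 0) P.nil) P.nil)))))) 46270)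
 (EL.cons 3 (TM.mk (P.cons (P.cons (P.lf 826596224 0 0) (P.cons (P.lf 469504262 0 0) (P.cons (P.lf 920359 0 0) (P.cons (P.lf 0 5766325 0) (P.cons (P.lf 0 243880 0) (P.cons (P.lf 17700 0 0) P.nil)))))) (P.cons (P.cons (P.lf 265250378 0 0) (P.cons (P.lf 47242453 0 0) (P.cons (P.lf 0 9020722 0) (P.cons (P.lf 417072 0 0) (P.cons (P.lf 58986 0 0) P.nil))))) (P.cons (P.cons (P.lf 5108092 0 0) (P.cons (P.lf 0 14155566 0) (P.cons (P.lf 0 116917 0) (P.cons (P.lf 183607 0 0) P.nil)))) (P.cons (P.cons (P.lf 0 6076890 0) (P.cons (P.lf 0 1355284 0) (P.cons (P.lf 129439 0 0) P.nil))) (P.cons (P.cons (P.lf 0 437558 0) (P.cons (P.lf 109876 0 0) P.nil)) (P.cons (P.cons (P.lf 48611 0 0) P.nil) P.nil)))))) 109803)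
 (EL.cons 7 (TM.mk (P.cons (P.cons (P.lf 0 162394142 0) (P.cons (P.lf 0 121649485 0) (P.cons (P.lf 0 13398474 0) (P.cons (P.lf 2934194 0 0) (P.cons (P.lf 183804 0 0) (P.cons (P.lf 0 13339 0) P.nil)))))) (P.cons (P.cons (P.lf 0 30676468 0) (P.cons (P.lf 0 5463640 0) (P.cons (P.lf 1043253 0 0) (P.cons (P.lf 0 48232 0) (P.cons (P.lf 0 6818 0) P.nil))))) (P.cons (P.cons (P.lf 4380534 0 0) (P.cons (P.lf 2522520 0 0) (P.cons (P.lf 0 155544 0) (P.cons (P.lf 0 13415 0) P.nil)))) (P.cons (P.cons (P.lf 801151 0 0) (P.cons (P.lf 0 202211 0) (P.cons (P.lf 0 16890 0) P.nil))) (P.cons (P.cons (P.lf 0 118601 0) (P.cons (P.lf 0 48021 0) P.nil)) (P.cons (P.cons (P.lf 0 17487 0) P.nil) P.nil)))))) 52733)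
 (EL.cons 10 (TM.mk (P.cons (P.cons (P.lf 910088124 0 0) (P.cons (P.lf 344619642 0 0) (P.cons (P.lf 0 100109052 0) (P.cons (P.lf 0 7896216 0) (P.cons (P.lf 1143822 0 0) (P.cons (P.lf 61116 0 0) P.nil)))))) (P.cons (P.cons (P.lf 237806172 0 0) (P.cons (P.lf 0 2883030 0) (P.cons (P.lf 0 9412872 0) (P.cons (P.lf 0 356028 0) (P.cons (P.lf 76188 0 0) P.nil))))) (P.cons (P.cons (P.lf 9862104 0 0) (P.cons (P.lf 0 4735506 0) (P.cons (P.lf 441390 0 0) (P.cons (P.lf 70026 0 0) P.nil)))) (P.cons (P.cons (P.lf 0 2294166 0) (P.cons (P.lf 52110 0 0) (P.cons (P.lf 86424 0 0) P.nil))) (P.cons (P.cons (P.lf 0 125448 0) (P.cons (P.lf 28470 0 0) P.nil)) (P.cons (P.cons (P.lf 9234 0 0) P.nil) P.nil)))))) 42084)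
 EL.nil))))
noncomputable def S227_241_586_660_9 : EL := (EL.cons 3 (TM.mk (P.cons (P.lf 0 685729796 0) (P.cons (P.lf 214195188 0 0) (P.cons (P.lf 1881828 0 0) (P.cons (P.lf 0 187398 0) (P.cons (P.lf 0 2831 0) (P.cons (P.lf 153 0 0) P.nil)))))) 44)
 (EL.cons 7 (TM.mk (P.cons (P.lf 0 2108197044 0) (P.cons (P.lf 0 24771881 0) (P.cons (P.lf 3796786 0 0) (P.cons (P.lf 45040 0 0) (P.cons (P.lf 0 3252 0) (P.cons (P.lf 0 61 0) P.nil)))))) 51)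
 EL.nil))
noncomputable def S227_241_586_660_10 : EL := (EL.cons 3 (TM.mk (P.cons (P.cons (P.lf 119828137 0 0) (P.cons (P.lf 60410420 0 0) (P.cons (P.lf 0 3305415 0) (P.lf 0 367267 0)))) (P.cons (P.cons (P.lf 0 8934540 0) (P.cons (P.lf 0 16740338 0) (P.cons (P.lf 915964 0 0) (P.lf 101773 0 0)))) (P.cons (P.cons (P.lf 0 8185665 0) (P.cons (P.lf 0 1132327 0) (P.cons (P.lf 61955 0 0) (P.lf 6883 0 0)))) (P.cons (P.cons (P.lf 0 589236 0) (P.cons (P.lf 93356 0 0) (P.cons (P.lf 0 5107 0) P.nil))) (P.cons (P.cons (P.lf 67359 0 0) (P.cons (P.lf 5963 0 0) P.nil)) (P.cons (P.cons (P.lf 3373 0 0) P.nil) P.nil)))))) 2009)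
 (EL.cons 7 (TM.mk (P.cons (P.cons (P.lf 368397766 0 0) (P.cons (P.lf 185724862 0 0) (P.cons (P.lf 0 10162117 0) (P.lf 0 1129122 0)))) (P.cons (P.cons (P.lf 91933622 0 0) (P.cons (P.lf 8729267 0 0) (P.cons (P.lf 0 477628 0) (P.lf 0 53069 0)))) (P.cons (P.cons (P.lf 3575342 0 0) (P.cons (P.lf 0 1184075 0) (P.cons (P.lf 64787 0 0) (P.lf 7196 0 0)))) (P.cons (P.cons (P.lf 0 797236 0) (P.cons (P.lf 0 61827 0) (P.cons (P.lf 3382 0 0) P.nil))) (P.cons (P.cons (P.lf 0 33578 0) (P.cons (P.lf 3647 0 0) P.nil)) (P.cons (P.cons (P.lf 2622 0 0) P.nil) P.nil)))))) 1337)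
 EL.nil))
noncomputable def S227_241_586_660_11 : EL := (EL.cons 3 (TM.mk (P.cons (P.cons (P.lf 0 20939416 0) (P.cons (P.lf 0 21112888 0) (P.cons (P.lf 0 4166735 0) (P.cons (P.lf 710747 0 0) (P.cons (P.lf 48776 0 0) (P.cons (P.lf 0 3540 0) P.nil)))))) (P.cons (P.cons (P.lf 0 3418114 0) (P.cons (P.lf 829957 0 0) (P.cons (P.lf 1241750 0 0) (P.cons (P.lf 0 145902 0) (P.cons (P.lf 0 11796 0) P.nil))))) (P.cons (P.cons (P.lf 1619254 0 0) (P.cons (P.lf 1603074 0 0) (P.cons (P.lf 90575 0 0) (P.cons (P.lf 0 29255 0) P.nil)))) (P.cons (P.cons (P.lf 494760 0 0) (P.cons (P.lf 150806 0 0) (P.cons (P.lf 0 19307 0) P.nil))) (P.cons (P.cons (P.lf 23398 0 0) (P.cons (P.lf 0 15956 0) P.nil)) (P.cons (P.cons (P.lf 0 5257 0) P.nil) P.nil)))))) 11123)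
 (EL.cons 7 (TM.mk (P.cons (P.cons (P.lf 0 64375820 0) (P.cons (P.lf 0 64909135 0) (P.cons (P.lf 0 12810150 0) (P.cons (P.lf 2185112 0 0) (P.cons (P.lf 149958 0 0) (P.cons (P.lf 0 10885 0) P.nil)))))) (P.cons (P.cons (P.lf 0 31373524 0) (P.cons (P.lf 0 18486166 0) (P.cons (P.lf 0 334293 0) (P.cons (P.lf 259658 0 0) (P.cons (P.lf 12334 0 0) P.nil))))) (P.cons (P.cons (P.lf 0 5005854 0) (P.cons (P.lf 0 877134 0) (P.cons (P.lf 206820 0 0) (P.cons (P.lf 0 12047 0) P.nil)))) (P.cons (P.cons (P.lf 0 32255 0) (P.cons (P.lf 211363 0 0) (P.cons (P.lf 4494 0 0) P.nil))) (P.cons (P.cons (P.lf 65995 0 0) (P.cons (P.lf 16293 0 0) P.nil)) (P.cons (P.cons (P.lf 3825 0 0) P.nil) P.nil)))))) 13825)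
 EL.nil))
noncomputable def S227_241_586_660_12 : EL := (EL.cons 4 (TM.mk (P.cons (P.lf 685729796 0 0) (P.cons (P.lf 0 214195188 0) (P.cons (P.lf 0 1881828 0) (P.cons (P.lf 187398 0 0) (P.cons (P.lf 2831 0 0) (P.cons (P.lf 0 153 0) P.nil)))))) 44)
 (EL.cons 8 (TM.mk (P.cons (P.lf 2108197044 0 0) (P.cons (P.lf 24771881 0 0) (P.cons (P.lf 0 3796786 0) (P.cons (P.lf 0 45040 0) (P.cons (P.lf 3252 0 0) (P.cons (P.lf 61 0 0) P.nil)))))) 51)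
 EL.nil))
noncomputable def S227_241_586_660_13 : EL := (EL.cons 4 (TM.mk (P.cons (P.cons (P.lf 0 119828137 0) (P.cons (P.lf 0 60410420 0) (P.cons (P.lf 3305415 0 0) (P.lf 367267 0 0)))) (P.cons (P.cons (P.lf 8934540 0 0) (P.cons (P.lf 16740338 0 0) (P.cons (P.lf 0 915964 0) (P.lf 0 101773 0)))) (P.cons (P.cons (P.lf 8185665 0 0) (P.cons (P.lf 1132327 0 0) (P.cons (P.lf 0 61955 0) (P.lf 0 6883 0)))) (P.cons (P.cons (P.lf 589236 0 0) (P.cons (P.lf 0 93356 0) (P.cons (P.lf 5107 0 0) P.nil))) (P.cons (P.cons (P.lf 0 67359 0) (P.cons (P.lf 0 5963 0) P.nil)) (P.cons (P.cons (P.lf 0 3373 0) P.nil) P.nil)))))) 2009)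
 (EL.cons 8 (TM.mk (P.cons (P.cons (P.lf 0 368397766 0) (P.cons (P.lf 0 185724862 0) (P.cons (P.lf 10162117 0 0) (P.lf 1129122 0 0)))) (P.cons (P.cons (P.lf 0 91933622 0) (P.cons (P.lf 0 8729267 0) (P.cons (P.lf 477628 0 0) (P.lf 53069 0 0)))) (P.cons (P.cons (P.lf 0 3575342 0) (P.cons (P.lf 1184075 0 0) (P.cons (P.lf 0 64787 0) (P.lf 0 7196 0)))) (P.cons (P.cons (P.lf 797236 0 0) (P.cons (P.lf 61827 0 0) (P.cons (P.lf 0 3382 0) P.nil))) (P.cons (P.cons (P.lf 33578 0 0) (P.cons (P.lf 0 3647 0) P.nil)) (P.cons (P.cons (P.lf 0 2622 0) P.nil) P.nil)))))) 1337)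
 EL.nil))
noncomputable def S227_241_586_660_14 : EL := (EL.cons 4 (TM.mk (P.cons (P.cons (P.lf 20939416 0 0) (P.cons (P.lf 21112888 0 0) (P.cons (P.lf 4166735 0 0) (P.cons (P.lf 0 710747 0) (P.cons (P.lf 0 48776 0) (P.cons (P.lf 3540 0 0) P.nil)))))) (P.cons (P.cons (P.lf 3418114 0 0) (P.cons (P.lf 0 829957 0) (P.cons (P.lf 0 1241750 0) (P.cons (P.lf 145902 0 0) (P.cons (P.lf 11796 0 0) P.nil))))) (P.cons (P.cons (P.lf 0 1619254 0) (P.cons (P.lf 0 1603074 0) (P.cons (P.lf 0 90575 0) (P.cons (P.lf 29255 0 0) P.nil)))) (P.cons (P.cons (P.lf 0 494760 0) (P.cons (P.lf 0 150806 0) (P.cons (P.lf 19307 0 0) P.nil))) (P.cons (P.cons (P.lf 0 23398 0) (P.cons (P.lf 15956 0 0) P.nil)) (P.cons (P.cons (P.lf 5257 0 0) P.nil) P.nil)))))) 11123)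
 (EL.cons 8 (TM.mk (P.cons (P.cons (P.lf 64375820 0 0) (P.cons (P.lf 64909135 0 0) (P.cons (P.lf 12810150 0 0) (P.cons (P.lf 0 2185112 0) (P.cons (P.lf 0 149958 0) (P.cons (P.lf 10885 0 0) P.nil)))))) (P.cons (P.cons (P.lf 31373524 0 0) (P.cons (P.lf 18486166 0 0) (P.cons (P.lf 334293 0 0) (P.cons (P.lf 0 259658 0) (P.cons (P.lf 0 12334 0) P.nil))))) (P.cons (P.cons (P.lf 5005854 0 0) (P.cons (P.lf 877134 0 0) (P.cons (P.lf 0 206820 0) (P.cons (P.lf 12047 0 0) P.nil)))) (P.cons (P.cons (P.lf 32255 0 0) (P.cons (P.lf 0 211363 0) (P.cons (P.lf 0 4494 0) P.nil))) (P.cons (P.cons (P.lf 0 65995 0) (P.cons (P.lf 0 16293 0) P.nil)) (P.cons (P.cons (P.lf 0 3825 0) P.nil) P.nil)))))) 13825)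
 EL.nil))
noncomputable def S227_241_586_660_15 : EL := (EL.cons 4 (TM.mk (P.cons (P.lf 0 116781729 0) (P.cons (P.lf 72956096 0 0) (P.cons (P.lf 0 10753354 0) (P.cons (P.lf 0 264040 0) (P.cons (P.lf 18093 0 0) (P.cons (P.lf 528 0 0) P.nil)))))) 57)
 (EL.cons 8 (TM.mk (P.cons (P.lf 0 359031937 0) (P.cons (P.lf 107928824 0 0) (P.cons (P.lf 2949648 0 0) (P.cons (P.lf 0 280843 0) (P.cons (P.lf 0 7359 0) (P.cons (P.lf 381 0 0) P.nil)))))) 49)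
 EL.nil))
noncomputable def S227_241_586_660_16 : EL := (EL.cons 4 (TM.mk (P.cons (P.cons (P.lf 20407071 0 0) (P.cons (P.lf 10288065 0 0) (P.cons (P.lf 0 562920 0) (P.lf 0 62546 0)))) (P.cons (P.cons (P.lf 0 7895948 0) (P.cons (P.lf 0 6064516 0) (P.cons (P.lf 331825 0 0) (P.lf 36869 0 0)))) (P.cons (P.cons (P.lf 0 974762 0) (P.cons (P.lf 669446 0 0) (P.cons (P.lf 0 36629 0) (P.lf 0 4069 0)))) (P.cons (P.cons (P.lf 344847 0 0) (P.cons (P.lf 86769 0 0) (P.cons (P.lf 0 4747 0) P.nil))) (P.cons (P.cons (P.lf 46309 0 0) (P.cons (P.lf 0 4157 0) P.nil)) (P.cons (P.cons (P.lf 0 3124 0) P.nil) P.nil)))))) 1991)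
 (EL.cons 8 (TM.mk (P.cons (P.cons (P.lf 62739184 0 0) (P.cons (P.lf 31629470 0 0) (P.cons (P.lf 0 1730637 0) (P.lf 0 192292 0)))) (P.cons (P.cons (P.lf 0 3940712 0) (P.cons (P.lf 0 8393191 0) (P.cons (P.lf 459242 0 0) (P.lf 51026 0 0)))) (P.cons (P.cons (P.lf 0 4453778 0) (P.cons (P.lf 0 752812 0) (P.cons (P.lf 41190 0 0) (P.lf 4576 0 0)))) (P.cons (P.cons (P.lf 0 351785 0) (P.cons (P.lf 57022 0 0) (P.cons (P.lf 0 3119 0) P.nil))) (P.cons (P.cons (P.lf 39558 0 0) (P.cons (P.lf 5000 0 0) P.nil)) (P.cons (P.cons (P.lf 2822 0 0) P.nil) P.nil)))))) 1599)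
 EL.nil))
noncomputable def S227_241_586_660_17 : EL := (EL.cons 4 (TM.mk (P.cons (P.cons (P.lf 0 3566041 0) (P.cons (P.lf 0 3595584 0) (P.cons (P.lf 0 709606 0) (P.cons (P.lf 121041 0 0) (P.cons (P.lf 8306 0 0) (P.cons (P.lf 0 602 0) P.nil)))))) (P.cons (P.cons (P.lf 531777 0 0) (P.cons (P.lf 1264463 0 0) (P.cons (P.lf 433126 0 0) (P.cons (P.lf 0 62655 0) (P.cons (P.lf 0 4603 0) P.nil))))) (P.cons (P.cons (P.lf 467379 0 0) (P.cons (P.lf 238725 0 0) (P.cons (P.lf 0 48682 0) (P.cons (P.lf 2445 0 0) P.nil)))) (P.cons (P.cons (P.lf 0 1255 0) (P.cons (P.lf 0 60964 0) (P.cons (P.lf 0 8880 0) P.nil))) (P.cons (P.cons (P.lf 0 23265 0) (P.cons (P.lf 0 11464 0) P.nil)) (P.cons (P.cons (P.lf 0 2296 0) P.nil) P.nil)))))) 8125)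
 (EL.cons 8 (TM.mk (P.cons (P.cons (P.lf 0 10963384 0) (P.cons (P.lf 0 11054209 0) (P.cons (P.lf 0 2181604 0) (P.cons (P.lf 372130 0 0) (P.cons (P.lf 25538 0 0) (P.cons (P.lf 0 1853 0) P.nil)))))) (P.cons (P.cons (P.lf 0 1918466 0) (P.cons (P.lf 304656 0 0) (P.cons (P.lf 624516 0 0) (P.cons (P.lf 0 72018 0) (P.cons (P.lf 0 5876 0) P.nil))))) (P.cons (P.cons (P.lf 846519 0 0) (P.cons (P.lf 864346 0 0) (P.cons (P.lf 58991 0 0) (P.cons (P.lf 0 16885 0) P.nil)))) (P.cons (P.cons (P.lf 272464 0 0) (P.cons (P.lf 88274 0 0) (P.cons (P.lf 0 10676 0) P.nil))) (P.cons (P.cons (P.lf 13789 0 0) (P.cons (P.lf 0 8964 0) P.nil)) (P.cons (P.cons (P.lf 0 3096 0) P.nil) P.nil)))))) 7012)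
 EL.nil))
noncomputable def S227_241_586_660_18 : EL := (EL.cons 4 (TM.mk (P.cons (P.lf 19888259 0 0) (P.cons (P.lf 0 18636945 0) (P.cons (P.lf 5657716 0 0) (P.cons (P.lf 0 487535 0) (P.cons (P.lf 0 25466 0) (P.cons (P.lf 1193 0 0) P.nil)))))) 87)
 (EL.cons 8 (TM.mk (P.cons (P.lf 61144157 0 0) (P.cons (P.lf 0 37479629 0) (P.cons (P.lf 5071246 0 0) (P.cons (P.lf 271888 0 0) (P.cons (P.lf 0 17078 0) (P.cons (P.lf 0 814 0) P.nil)))))) 70)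
 EL.nil))
noncomputable def S227_241_586_660_19 : EL := (EL.cons 4 (TM.mk (P.cons (P.cons (P.lf 0 3475381 0) (P.cons (P.lf 0 1752086 0) (P.cons (P.lf 95866 0 0) (P.lf 10651 0 0)))) (P.cons (P.cons (P.lf 2430275 0 0) (P.cons (P.lf 1580087 0 0) (P.cons (P.lf 0 86455 0) (P.lf 0 9605 0)))) (P.cons (P.cons (P.lf 0 244489 0) (P.cons (P.lf 0 431807 0) (P.cons (P.lf 23625 0 0) (P.lf 2625 0 0)))) (P.cons (P.cons (P.lf 0 115221 0) (P.cons (P.lf 17520 0 0) (P.cons (P.lf 0 958 0) P.nil))) (P.cons (P.cons (P.lf 10354 0 0) (P.cons (P.lf 5910 0 0) P.nil)) (P.cons (P.cons (P.lf 3208 0 0) P.nil) P.nil)))))) 1792)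
 (EL.cons 8 (TM.mk (P.cons (P.cons (P.lf 0 10684661 0) (P.cons (P.lf 0 5386588 0) (P.cons (P.lf 294732 0 0) (P.lf 32747 0 0)))) (P.cons (P.cons (P.lf 4008584 0 0) (P.cons (P.lf 3111944 0 0) (P.cons (P.lf 0 170272 0) (P.lf 0 18918 0)))) (P.cons (P.cons (P.lf 578182 0 0) (P.cons (P.lf 0 303495 0) (P.cons (P.lf 16605 0 0) (P.lf 1844 0 0)))) (P.cons (P.cons (P.lf 0 181774 0) (P.cons (P.lf 0 55152 0) (P.cons (P.lf 3017 0 0) P.nil))) (P.cons (P.cons (P.lf 0 27392 0) (P.cons (P.lf 2198 0 0) P.nil)) (P.cons (P.cons (P.lf 1671 0 0) P.nil) P.nil)))))) 1401)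
 EL.nil))
noncomputable def S227_241_586_660_20 : EL := (EL.cons 4 (TM.mk (P.cons (P.cons (P.lf 607306 0 0) (P.cons (P.lf 612337 0 0) (P.cons (P.lf 120847 0 0) (P.cons (P.lf 0 20613 0) (P.cons (P.lf 0 1413 0) (P.cons (P.lf 102 0 0) P.nil)))))) (P.cons (P.cons (P.lf 0 280261 0) (P.cons (P.lf 0 406611 0) (P.cons (P.lf 0 111510 0) (P.cons (P.lf 17109 0 0) (P.cons (P.lf 1225 0 0) P.nil))))) (P.cons (P.cons (P.lf 0 52973 0) (P.cons (P.lf 24928 0 0) (P.cons (P.lf 30999 0 0) (P.cons (P.lf 0 3692 0) P.nil)))) (P.cons (P.cons (P.lf 25490 0 0) (P.cons (P.lf 23839 0 0) (P.cons (P.lf 0 840 0) P.nil))) (P.cons (P.cons (P.lf 4091 0 0) (P.cons (P.lf 0 1234 0) P.nil)) (P.cons (P.cons (P.lf 0 869 0) P.nil) P.nil)))))) 4535)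
 (EL.cons 8 (TM.mk (P.cons (P.cons (P.lf 1867095 0 0) (P.cons (P.lf 1882563 0 0) (P.cons (P.lf 371533 0 0) (P.cons (P.lf 0 63374 0) (P.cons (P.lf 0 4348 0) (P.cons (P.lf 315 0 0) P.nil)))))) (P.cons (P.cons (P.lf 0 256487 0) (P.cons (P.lf 0 639922 0) (P.cons (P.lf 0 222409 0) (P.cons (P.lf 32060 0 0) (P.cons (P.lf 2358 0 0) P.nil))))) (P.cons (P.cons (P.lf 0 251342 0) (P.cons (P.lf 0 136160 0) (P.cons (P.lf 22155 0 0) (P.cons (P.lf 0 781 0) P.nil)))) (P.cons (P.cons (P.lf 0 1756 0) (P.cons (P.lf 31603 0 0) (P.cons (P.lf 5349 0 0) P.nil))) (P.cons (P.cons (P.lf 12638 0 0) (P.cons (P.lf 6619 0 0) P.nil)) (P.cons (P.cons (P.lf 1349 0 0) P.nil) P.nil)))))) 4744)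
 EL.nil))
noncomputable def S227_241_586_660_21 : EL := (EL.cons 4 (TM.mk (P.cons (P.cons (P.lf 2425058322 0 0) (P.cons (P.lf 181231260 0 0) (P.cons (P.lf 0 9916245 0) (P.lf 0 1101801 0)))) (P.cons (P.cons (P.lf 192064662 0 0) (P.cons (P.lf 0 50221014 0) (P.cons (P.lf 2747892 0 0) (P.lf 305319 0 0)))) (P.cons (P.cons (P.lf 0 56817057 0) (P.cons (P.lf 0 3396981 0) (P.cons (P.lf 185865 0 0) (P.lf 20649 0 0)))) (P.cons (P.cons (P.lf 0 2559828 0) (P.cons (P.lf 280068 0 0) (P.cons (P.lf 0 15321 0) P.nil))) (P.cons (P.cons (P.lf 256353 0 0) (P.cons (P.lf 17889 0 0) P.nil)) (P.cons (P.cons (P.lf 11706 0 0) P.nil) P.nil)))))) 6285)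
 (EL.cons 8 (TM.mk (P.cons (P.cons (P.lf 0 280460358 0) (P.cons (P.lf 0 20959575 0) (P.cons (P.lf 1146828 0 0) (P.lf 127431 0 0)))) (P.cons (P.cons (P.lf 68687862 0 0) (P.cons (P.lf 12601338 0 0) (P.cons (P.lf 0 689490 0) (P.lf 0 76608 0)))) (P.cons (P.cons (P.lf 12966714 0 0) (P.cons (P.lf 0 1549653 0) (P.cons (P.lf 84789 0 0) (P.lf 9414 0 0)))) (P.cons (P.cons (P.lf 0 1806786 0) (P.cons (P.lf 0 136311 0) (P.cons (P.lf 7458 0 0) P.nil))) (P.cons (P.cons (P.lf 0 100902 0) (P.cons (P.lf 7575 0 0) P.nil)) (P.cons (P.cons (P.lf 6966 0 0) P.nil) P.nil)))))) 4977)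
 (EL.cons 11 (TM.mk (P.cons (P.cons (P.lf 2604040086 0 0) (P.cons (P.lf 0 326744457 0) (P.cons (P.lf 0 49885425 0) (P.cons (P.lf 1523994 0 0) (P.lf 126999 0 0))))) (P.cons (P.cons (P.lf 61196337 0 0) (P.cons (P.lf 0 7678668 0) (P.cons (P.lf 0 1172334 0) (P.cons (P.lf 35814 0 0) (P.lf 2982 0 0))))) (P.cons (P.cons (P.lf 0 9020025 0) (P.cons (P.lf 1131795 0 0) (P.cons (P.lf 172794 0 0) (P.cons (P.lf 0 5277 0) P.nil)))) (P.cons (P.cons (P.lf 0 221478 0) (P.cons (P.lf 27789 0 0) (P.cons (P.lf 4242 0 0) P.nil))) (P.cons (P.cons (P.lf 15171 0 0) (P.cons (P.lf 0 1902 0) P.nil)) (P.cons (P.cons (P.lf 444 0 0) P.nil) P.nil)))))) 1239)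
 EL.nil)))
noncomputable def S227_241_586_660_22 : EL := (EL.cons 4 (TM.mk (P.cons (P.cons (P.lf 0 423767820 0) (P.cons (P.lf 0 245308575 0) (P.cons (P.lf 0 2543547 0) (P.cons (P.lf 3238536 0 0) (P.cons (P.lf 146328 0 0) (P.cons (P.lf 0 10620 0) P.nil)))))) (P.cons (P.cons (P.lf 0 134334246 0) (P.cons (P.lf 0 23206248 0) (P.cons (P.lf 5131236 0 0) (P.cons (P.lf 0 281487 0) (P.cons (P.lf 0 35391 0) P.nil))))) (P.cons (P.cons (P.lf 0 1744419 0) (P.cons (P.lf 7879320 0 0) (P.cons (P.lf 103746 0 0) (P.cons (P.lf 0 106431 0) P.nil)))) (P.cons (P.cons (P.lf 3285825 0 0) (P.cons (P.lf 753045 0 0) (P.cons (P.lf 0 74373 0) P.nil))) (P.cons (P.cons (P.lf 230478 0 0) (P.cons (P.lf 0 62916 0) P.nil)) (P.cons (P.cons (P.lf 0 26934 0) P.nil) P.nil)))))) 49329)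
 (EL.cons 8 (TM.mk (P.cons (P.cons (P.lf 49009161 0 0) (P.cons (P.lf 28370175 0 0) (P.cons (P.lf 294162 0 0) (P.cons (P.lf 0 374541 0) (P.cons (P.lf 0 16923 0) (P.cons (P.lf 1227 0 0) P.nil)))))) (P.cons (P.cons (P.lf 0 348528 0) (P.cons (P.lf 0 6511263 0) (P.cons (P.lf 0 688773 0) (P.cons (P.lf 153945 0 0) (P.cons (P.lf 9576 0 0) P.nil))))) (P.cons (P.cons (P.lf 0 4693194 0) (P.cons (P.lf 0 1699827 0) (P.cons (P.lf 181182 0 0) (P.cons (P.lf 684 0 0) P.nil)))) (P.cons (P.cons (P.lf 0 416703 0) (P.cons (P.lf 206787 0 0) (P.cons (P.lf 10692 0 0) P.nil))) (P.cons (P.cons (P.lf 92298 0 0) (P.cons (P.lf 32157 0 0) P.nil)) (P.cons (P.cons (P.lf 10656 0 0) P.nil) P.nil)))))) 19443)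
 (EL.cons 11 (TM.mk (P.cons (P.cons (P.lf 0 455044062 0) (P.cons (P.lf 0 172309821 0) (P.cons (P.lf 50054526 0 0) (P.cons (P.lf 3948108 0 0) (P.cons (P.lf 0 571911 0) (P.cons (P.lf 0 30558 0) P.nil)))))) (P.cons (P.cons (P.lf 0 118903086 0) (P.cons (P.lf 1441515 0 0) (P.cons (P.lf 4706436 0 0) (P.cons (P.lf 178014 0 0) (P.cons (P.lf 0 38094 0) P.nil))))) (P.cons (P.cons (P.lf 0 4931052 0) (P.cons (P.lf 2367753 0 0) (P.cons (P.lf 0 220695 0) (P.cons (P.lf 0 35013 0) P.nil)))) (P.cons (P.cons (P.lf 1147083 0 0) (P.cons (P.lf 0 26055 0) (P.cons (P.lf 0 43212 0) P.nil))) (P.cons (P.cons (P.lf 62724 0 0) (P.cons (P.lf 0 14235 0) P.nil)) (P.cons (P.cons (P.lf 0 4617 0) P.nil) P.nil)))))) 21042)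
 EL.nil)))
noncomputable def S227_241_586_660_23 : EL := (EL.cons 4 (TM.mk (P.cons (P.cons (P.lf 0 412994310 0) (P.cons (P.lf 0 30864195 0) (P.cons (P.lf 1688763 0 0) (P.lf 187638 0 0)))) (P.cons (P.cons (P.lf 96294123 0 0) (P.cons (P.lf 18193548 0 0) (P.cons (P.lf 0 995475 0) (P.lf 0 110607 0)))) (P.cons (P.cons (P.lf 21026535 0 0) (P.cons (P.lf 0 2008338 0) (P.cons (P.lf 109887 0 0) (P.lf 12210 0 0)))) (P.cons (P.cons (P.lf 0 2609592 0) (P.cons (P.lf 0 260307 0) (P.cons (P.lf 14241 0 0) P.nil))) (P.cons (P.cons (P.lf 0 217026 0) (P.cons (P.lf 12474 0 0) P.nil)) (P.cons (P.cons (P.lf 13047 0 0) P.nil) P.nil)))))) 6105)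
 (EL.cons 8 (TM.mk (P.cons (P.cons (P.lf 47763192 0 0) (P.cons (P.lf 3569475 0 0) (P.cons (P.lf 0 195306 0) (P.lf 0 21699 0)))) (P.cons (P.cons (P.lf 0 26617092 0) (P.cons (P.lf 0 3261006 0) (P.cons (P.lf 178428 0 0) (P.lf 19824 0 0)))) (P.cons (P.cons (P.lf 1314570 0 0) (P.cons (P.lf 924453 0 0) (P.cons (P.lf 0 50580 0) (P.lf 0 5616 0)))) (P.cons (P.cons (P.lf 1042632 0 0) (P.cons (P.lf 0 52356 0) (P.cons (P.lf 2862 0 0) P.nil))) (P.cons (P.cons (P.lf 0 75867 0) (P.cons (P.lf 0 9837 0) P.nil)) (P.cons (P.cons (P.lf 0 8058 0) P.nil) P.nil)))))) 3288)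
 (EL.cons 11 (TM.mk (P.cons (P.cons (P.lf 0 443475414 0) (P.cons (P.lf 55645506 0 0) (P.cons (P.lf 8495628 0 0) (P.cons (P.lf 0 259539 0) (P.lf 0 21627 0))))) (P.cons (P.cons (P.lf 128102475 0 0) (P.cons (P.lf 0 16073781 0) (P.cons (P.lf 0 2454048 0) (P.cons (P.lf 74970 0 0) (P.lf 6246 0 0))))) (P.cons (P.cons (P.lf 6008550 0 0) (P.cons (P.lf 0 753927 0) (P.cons (P.lf 0 115104 0) (P.cons (P.lf 3516 0 0) P.nil)))) (P.cons (P.cons (P.lf 0 534702 0) (P.cons (P.lf 67092 0 0) (P.cons (P.lf 10242 0 0) P.nil))) (P.cons (P.cons (P.lf 0 23259 0) (P.cons (P.lf 2916 0 0) P.nil)) (P.cons (P.cons (P.lf 1104 0 0) P.nil) P.nil)))))) 1614)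
 EL.nil)))
noncomputable def S227_241_586_660_24 : EL := (EL.cons 4 (TM.mk (P.cons (P.cons (P.lf 72168861 0 0) (P.cons (P.lf 41776743 0 0) (P.cons (P.lf 433173 0 0) (P.cons (P.lf 0 551529 0) (P.cons (P.lf 0 24918 0) (P.cons (P.lf 1806 0 0) P.nil)))))) (P.cons (P.cons (P.lf 334770 0 0) (P.cons (P.lf 0 9097332 0) (P.cons (P.lf 0 1009170 0) (P.cons (P.lf 220212 0 0) (P.cons (P.lf 13809 0 0) P.nil))))) (P.cons (P.cons (P.lf 0 7047009 0) (P.cons (P.lf 0 2690994 0) (P.cons (P.lf 254103 0 0) (P.cons (P.lf 4662 0 0) P.nil)))) (P.cons (P.cons (P.lf 0 695439 0) (P.cons (P.lf 291471 0 0) (P.cons (P.lf 20700 0 0) P.nil))) (P.cons (P.cons (P.lf 141276 0 0) (P.cons (P.lf 55707 0 0) P.nil)) (P.cons (P.cons (P.lf 18540 0 0) P.nil) P.nil)))))) 31740)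
 (EL.cons 8 (TM.mk (P.cons (P.cons (P.lf 0 8346399 0) (P.cons (P.lf 0 4831521 0) (P.cons (P.lf 0 50094 0) (P.cons (P.lf 63783 0 0) (P.cons (P.lf 2880 0 0) (P.cons (P.lf 0 207 0) P.nil)))))) (P.cons (P.cons (P.lf 2666442 0 0) (P.cons (P.lf 2618064 0 0) (P.cons (P.lf 132948 0 0) (P.cons (P.lf 0 46140 0) (P.cons (P.lf 0 2529 0) P.nil))))) (P.cons (P.cons (P.lf 803628 0 0) (P.cons (P.lf 0 43626 0) (P.cons (P.lf 0 67356 0) (P.cons (P.lf 7896 0 0) P.nil)))) (P.cons (P.cons (P.lf 0 181134 0) (P.cons (P.lf 0 130002 0) (P.cons (P.lf 7479 0 0) P.nil))) (P.cons (P.cons (P.lf 0 40095 0) (P.cons (P.lf 5010 0 0) P.nil)) (P.cons (P.cons (P.lf 3120 0 0) P.nil) P.nil)))))) 10692)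
 (EL.cons 11 (TM.mk (P.cons (P.cons (P.lf 77495295 0 0) (P.cons (P.lf 29344851 0 0) (P.cons (P.lf 0 8524428 0) (P.cons (P.lf 0 672372 0) (P.cons (P.lf 97398 0 0) (P.cons (P.lf 5202 0 0) P.nil)))))) (P.cons (P.cons (P.lf 0 3956967 0) (P.cons (P.lf 0 9411678 0) (P.cons (P.lf 1861176 0 0) (P.cons (P.lf 179706 0 0) (P.cons (P.lf 0 23934 0) P.nil))))) (P.cons (P.cons (P.lf 0 5698056 0) (P.cons (P.lf 0 407082 0) (P.cons (P.lf 311340 0 0) (P.cons (P.lf 17277 0 0) P.nil)))) (P.cons (P.cons (P.lf 0 492054 0) (P.cons (P.lf 139083 0 0) (P.cons (P.lf 0 4509 0) P.nil))) (P.cons (P.cons (P.lf 53886 0 0) (P.cons (P.lf 2199 0 0) P.nil)) (P.cons (P.cons (P.lf 4953 0 0) P.nil) P.nil)))))) 16131)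
 EL.nil)))
noncomputable def S227_241_586_660_25 : EL := (EL.cons 4 (TM.mk (P.cons (P.cons (P.lf 70334100 0 0) (P.cons (P.lf 5256258 0 0) (P.cons (P.lf 0 287601 0) (P.lf 0 31953 0)))) (P.cons (P.cons (P.lf 0 38368785 0) (P.cons (P.lf 0 4740261 0) (P.cons (P.lf 259368 0 0) (P.lf 28818 0 0)))) (P.cons (P.cons (P.lf 1348560 0 0) (P.cons (P.lf 1295424 0 0) (P.cons (P.lf 0 70878 0) (P.lf 0 7875 0)))) (P.cons (P.cons (P.lf 1627170 0 0) (P.cons (P.lf 0 52563 0) (P.cons (P.lf 2874 0 0) P.nil))) (P.cons (P.cons (P.lf 0 96222 0) (P.cons (P.lf 0 17733 0) P.nil)) (P.cons (P.cons (P.lf 0 16047 0) P.nil) P.nil)))))) 5868)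
 (EL.cons 8 (TM.mk (P.cons (P.cons (P.lf 0 8134206 0) (P.cons (P.lf 0 607890 0) (P.cons (P.lf 33261 0 0) (P.lf 3693 0 0)))) (P.cons (P.cons (P.lf 7073772 0 0) (P.cons (P.lf 745239 0 0) (P.cons (P.lf 0 40776 0) (P.lf 0 4530 0)))) (P.cons (P.cons (P.lf 0 1617474 0) (P.cons (P.lf 0 329241 0) (P.cons (P.lf 18012 0 0) (P.lf 2001 0 0)))) (P.cons (P.cons (P.lf 0 122295 0) (P.cons (P.lf 56403 0 0) (P.cons (P.lf 0 3084 0) P.nil))) (P.cons (P.cons (P.lf 70203 0 0) (P.cons (P.lf 0 528 0) P.nil)) (P.cons (P.cons (P.lf 0 2214 0) P.nil) P.nil)))))) 2484)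
 (EL.cons 11 (TM.mk (P.cons (P.cons (P.lf 75525120 0 0) (P.cons (P.lf 0 9476586 0) (P.cons (P.lf 0 1446828 0) (P.cons (P.lf 44199 0 0) (P.lf 3681 0 0))))) (P.cons (P.cons (P.lf 0 45407310 0) (P.cons (P.lf 5697525 0 0) (P.cons (P.lf 869862 0 0) (P.cons (P.lf 0 26574 0) (P.lf 0 2214 0))))) (P.cons (P.cons (P.lf 5583996 0 0) (P.cons (P.lf 0 700656 0) (P.cons (P.lf 0 106971 0) (P.cons (P.lf 3267 0 0) P.nil)))) (P.cons (P.cons (P.lf 491199 0 0) (P.cons (P.lf 0 61632 0) (P.cons (P.lf 0 9408 0) P.nil))) (P.cons (P.cons (P.lf 0 27324 0) (P.cons (P.lf 3426 0 0) P.nil)) (P.cons (P.cons (P.lf 0 2061 0) P.nil) P.nil)))))) 2151)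
 EL.nil)))
noncomputable def S227_241_586_660_26 : EL := (EL.cons 4 (TM.mk (P.cons (P.cons (P.lf 0 12290559 0) (P.cons (P.lf 0 7114698 0) (P.cons (P.lf 0 73770 0) (P.cons (P.lf 93927 0 0) (P.cons (P.lf 4242 0 0) (P.cons (P.lf 0 306 0) P.nil)))))) (P.cons (P.cons (P.lf 3782076 0 0) (P.cons (P.lf 3771654 0 0) (P.cons (P.lf 194907 0 0) (P.cons (P.lf 0 66840 0) (P.cons (P.lf 0 3675 0) P.nil))))) (P.cons (P.cons (P.lf 1251660 0 0) (P.cons (P.lf 0 6132 0) (P.cons (P.lf 0 96756 0) (P.cons (P.lf 10662 0 0) P.nil)))) (P.cons (P.cons (P.lf 0 259638 0) (P.cons (P.lf 0 198984 0) (P.cons (P.lf 9498 0 0) P.nil))) (P.cons (P.cons (P.lf 0 64413 0) (P.cons (P.lf 5154 0 0) P.nil)) (P.cons (P.cons (P.lf 4362 0 0) P.nil) P.nil)))))) 16308)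
 (EL.cons 8 (TM.mk (P.cons (P.cons (P.lf 1421415 0 0) (P.cons (P.lf 822819 0 0) (P.cons (P.lf 8529 0 0) (P.cons (P.lf 0 10860 0) (P.cons (P.lf 0 489 0) (P.cons (P.lf 33 0 0) P.nil)))))) (P.cons (P.cons (P.lf 0 898095 0) (P.cons (P.lf 0 702879 0) (P.cons (P.lf 0 25305 0) (P.cons (P.lf 11250 0 0) (P.cons (P.lf 582 0 0) P.nil))))) (P.cons (P.cons (P.lf 1083 0 0) (P.cons (P.lf 144441 0 0) (P.cons (P.lf 18519 0 0) (P.cons (P.lf 0 3768 0) P.nil)))) (P.cons (P.cons (P.lf 75231 0 0) (P.cons (P.lf 21267 0 0) (P.cons (P.lf 0 4791 0) P.nil))) (P.cons (P.cons (P.lf 0 2547 0) (P.cons (P.lf 0 7908 0) P.nil)) (P.cons (P.cons (P.lf 0 2787 0) P.nil) P.nil)))))) 4974)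
 (EL.cons 11 (TM.mk (P.cons (P.cons (P.lf 0 13197666 0) (P.cons (P.lf 0 4997511 0) (P.cons (P.lf 1451733 0 0) (P.cons (P.lf 114504 0 0) (P.cons (P.lf 0 16587 0) (P.cons (P.lf 0 885 0) P.nil)))))) (P.cons (P.cons (P.lf 4796316 0 0) (P.cons (P.lf 3163860 0 0) (P.cons (P.lf 0 770427 0) (P.cons (P.lf 0 66369 0) (P.cons (P.lf 9255 0 0) P.nil))))) (P.cons (P.cons (P.lf 796116 0 0) (P.cons (P.lf 0 417621 0) (P.cons (P.lf 42000 0 0) (P.cons (P.lf 6300 0 0) P.nil)))) (P.cons (P.cons (P.lf 0 224769 0) (P.cons (P.lf 0 51105 0) (P.cons (P.lf 18594 0 0) P.nil))) (P.cons (P.cons (P.lf 0 37884 0) (P.cons (P.lf 7251 0 0) P.nil)) (P.cons (P.cons (P.lf 2061 0 0) P.nil) P.nil)))))) 9423)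
 EL.nil)))
noncomputable def S227_241_586_660_27 : EL := (EL.cons 13 (TM.mk (P.lf 0 4294967296 0) 0)
 EL.nil)
noncomputable def S227_241_586_660_28 : EL := (EL.cons 13 (TM.mk (P.cons (P.cons (P.lf 750525841 0 0) (P.cons (P.lf 378371752 0 0) (P.cons (P.lf 0 20702980 0) (P.lf 0 2300328 0)))) (P.cons (P.cons (P.lf 178474762 0 0) (P.cons (P.lf 13337908 0 0) (P.cons (P.lf 0 729792 0) (P.lf 0 81088 0)))) (P.cons (P.cons (P.lf 6538482 0 0) (P.cons (P.lf 0 1887572 0) (P.cons (P.lf 103280 0 0) (P.lf 11472 0 0)))) (P.cons (P.cons (P.lf 0 1363555 0) (P.cons (P.lf 0 71676 0) (P.cons (P.lf 3920 0 0) P.nil))) (P.cons (P.cons (P.lf 0 37955 0) (P.cons (P.lf 4576 0 0) P.nil)) (P.cons (P.cons (P.lf 3175 0 0) P.nil) P.nil)))))) 1558)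
 EL.nil)
noncomputable def S227_241_586_660_29 : EL := (EL.cons 13 (TM.mk (P.cons (P.cons (P.lf 0 131150949 0) (P.cons (P.lf 0 132237457 0) (P.cons (P.lf 0 26097739 0) (P.cons (P.lf 4451665 0 0) (P.cons (P.lf 305507 0 0) (P.cons (P.lf 0 22176 0) P.nil)))))) (P.cons (P.cons (P.lf 0 62375292 0) (P.cons (P.lf 0 36107494 0) (P.cons (P.lf 0 374391 0) (P.cons (P.lf 476686 0 0) (P.cons (P.lf 21538 0 0) P.nil))))) (P.cons (P.cons (P.lf 0 9701550 0) (P.cons (P.lf 0 1600843 0) (P.cons (P.lf 378748 0 0) (P.cons (P.lf 0 22128 0) P.nil)))) (P.cons (P.cons (P.lf 0 66855 0) (P.cons (P.lf 381562 0 0) (P.cons (P.lf 3475 0 0) P.nil))) (P.cons (P.cons (P.lf 116634 0 0) (P.cons (P.lf 25261 0 0) P.nil)) (P.cons (P.cons (P.lf 6196 0 0) P.nil) P.nil)))))) 23135)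
 EL.nil)
noncomputable def S227_241_586_660_30 : EL := (EL.cons 13 (TM.mk (P.cons (P.lf 731445116 0 0) (P.cons (P.lf 0 228474868 0) (P.cons (P.lf 0 2007284 0) (P.cons (P.lf 199892 0 0) (P.cons (P.lf 3020 0 0) (P.cons (P.lf 0 164 0) P.nil)))))) 40)
 EL.nil)
noncomputable def S227_241_586_660_31 : EL := (EL.cons 13 (TM.mk (P.cons (P.cons (P.lf 0 127816680 0) (P.cons (P.lf 0 64437782 0) (P.cons (P.lf 3525776 0 0) (P.lf 391752 0 0)))) (P.cons (P.cons (P.lf 9530177 0 0) (P.cons (P.lf 17856361 0 0) (P.cons (P.lf 0 977029 0) (P.lf 0 108558 0)))) (P.cons (P.cons (P.lf 8731376 0 0) (P.cons (P.lf 1207816 0 0) (P.cons (P.lf 0 66086 0) (P.lf 0 7342 0)))) (P.cons (P.cons (P.lf 628519 0 0) (P.cons (P.lf 0 99580 0) (P.cons (P.lf 5448 0 0) P.nil))) (P.cons (P.cons (P.lf 0 71850 0) (P.cons (P.lf 0 6361 0) P.nil)) (P.cons (P.cons (P.lf 0 3598 0) P.nil) P.nil)))))) 2123)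
 EL.nil)
noncomputable def S227_241_586_660_32 : EL := (EL.cons 13 (TM.mk (P.cons (P.cons (P.lf 22335378 0 0) (P.cons (P.lf 22520414 0 0) (P.cons (P.lf 4444518 0 0) (P.cons (P.lf 0 758131 0) (P.cons (P.lf 0 52028 0) (P.cons (P.lf 3776 0 0) P.nil)))))) (P.cons (P.cons (P.lf 3645989 0 0) (P.cons (P.lf 0 885288 0) (P.cons (P.lf 0 1324534 0) (P.cons (P.lf 155629 0 0) (P.cons (P.lf 12583 0 0) P.nil))))) (P.cons (P.cons (P.lf 0 1727205 0) (P.cons (P.lf 0 1709946 0) (P.cons (P.lf 0 96614 0) (P.cons (P.lf 31206 0 0) P.nil)))) (P.cons (P.cons (P.lf 0 527745 0) (P.cons (P.lf 0 160860 0) (P.cons (P.lf 20595 0 0) P.nil))) (P.cons (P.cons (P.lf 0 24958 0) (P.cons (P.lf 17020 0 0) P.nil)) (P.cons (P.cons (P.lf 5608 0 0) P.nil) P.nil)))))) 11842)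
 EL.nil)
noncomputable def S227_241_586_660_33 : EL := (EL.cons 14 (TM.mk (P.lf 8589934592 0 0) 0)
 EL.nil)
noncomputable def S227_241_586_660_34 : EL := (EL.cons 14 (TM.mk (P.cons (P.cons (P.lf 0 1501051682 0) (P.cons (P.lf 0 756743504 0) (P.cons (P.lf 41405960 0 0) (P.lf 4600656 0 0)))) (P.cons (P.cons (P.lf 0 356949524 0) (P.cons (P.lf 0 26675816 0) (P.cons (P.lf 1459584 0 0) (P.lf 162176 0 0)))) (P.cons (P.cons (P.lf 0 13076964 0) (P.cons (P.lf 3775144 0 0) (P.cons (P.lf 0 206560 0) (P.lf 0 22944 0)))) (P.cons (P.cons (P.lf 2727110 0 0) (P.cons (P.lf 143352 0 0) (P.cons (P.lf 0 7840 0) P.nil))) (P.cons (P.cons (P.lf 75910 0 0) (P.cons (P.lf 0 9152 0) P.nil)) (P.cons (P.cons (P.lf 0 6350 0) P.nil) P.nil)))))) 3116)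
 EL.nil)
noncomputable def S227_241_586_660_35 : EL := (EL.cons 14 (TM.mk (P.cons (P.cons (P.lf 262301898 0 0) (P.cons (P.lf 264474914 0 0) (P.cons (P.lf 52195478 0 0) (P.cons (P.lf 0 8903330 0) (P.cons (P.lf 0 611014 0) (P.cons (P.lf 44352 0 0) P.nil)))))) (P.cons (P.cons (P.lf 124750584 0 0) (P.cons (P.lf 72214988 0 0) (P.cons (P.lf 748782 0 0) (P.cons (P.lf 0 953372 0) (P.cons (P.lf 0 43076 0) P.nil))))) (P.cons (P.cons (P.lf 19403100 0 0) (P.cons (P.lf 3201686 0 0) (P.cons (P.lf 0 757496 0) (P.cons (P.lf 44256 0 0) P.nil)))) (P.cons (P.cons (P.lf 133710 0 0) (P.cons (P.lf 0 763124 0) (P.cons (P.lf 0 6950 0) P.nil))) (P.cons (P.cons (P.lf 0 233268 0) (P.cons (P.lf 0 50522 0) P.nil)) (P.cons (P.cons (P.lf 0 12392 0) P.nil) P.nil)))))) 46270)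
 EL.nil)
noncomputable def S227_241_586_660_36 : EL := (EL.cons 14 (TM.mk (P.cons (P.lf 0 1462890232 0) (P.cons (P.lf 456949736 0 0) (P.cons (P.lf 4014568 0 0) (P.cons (P.lf 0 399784 0) (P.cons (P.lf 0 6040 0) (P.cons (P.lf 328 0 0) P.nil)))))) 80)
 EL.nil)
noncomputable def S227_241_586_660_37 : EL := (EL.cons 14 (TM.mk (P.cons (P.cons (P.lf 255633360 0 0) (P.cons (P.lf 128875564 0 0) (P.cons (P.lf 0 7051552 0) (P.lf 0 783504 0)))) (P.cons (P.cons (P.lf 0 19060354 0) (P.cons (P.lf 0 35712722 0) (P.cons (P.lf 1954058 0 0) (P.lf 217116 0 0)))) (P.cons (P.cons (P.lf 0 17462752 0) (P.cons (P.lf 0 2415632 0) (P.cons (P.lf 132172 0 0) (P.lf 14684 0 0)))) (P.cons (P.cons (P.lf 0 1257038 0) (P.cons (P.lf 199160 0 0) (P.cons (P.lf 0 10896 0) P.nil))) (P.cons (P.cons (P.lf 143700 0 0) (P.cons (P.lf 12722 0 0) P.nil)) (P.cons (P.cons (P.lf 7196 0 0) P.nil) P.nil))))))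 4246)
 EL.nil)
noncomputable def S227_241_586_660_38 : EL := (EL.cons 14 (TM.mk (P.cons (P.cons (P.lf 0 44670756 0) (P.cons (P.lf 0 45040828 0) (P.cons (P.lf 0 8889036 0) (P.cons (P.lf 1516262 0 0) (P.cons (P.lf 104056 0 0) (P.cons (P.lf 0 7552 0) P.nil)))))) (P.cons (P.cons (P.lf 0 7291978 0) (P.cons (P.lf 1770576 0 0) (P.cons (P.lf 2649068 0 0) (P.cons (P.lf 0 311258 0) (P.cons (P.lf 0 25166 0) P.nil))))) (P.cons (P.cons (P.lf 3454410 0 0) (P.cons (P.lf 3419892 0 0) (P.cons (P.lf 193228 0 0) (P.cons (P.lf 0 62412 0) P.nil)))) (P.cons (P.cons (P.lf 1055490 0 0) (P.cons (P.lf 321720 0 0) (P.cons (P.lf 0 41190 0) P.nil))) (P.cons (P.cons (P.lf 49916 0 0) (P.cons (P.lf 0 34040 0) P.nil)) (P.cons (P.cons (P.lf 0 11216 0) P.nil) P.nil)))))) 23684)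
 EL.nil)
noncomputable def S227_241_586_660_39 : EL := (EL.cons 14 (TM.mk (P.cons (P.lf 249134356 0 0) (P.cons (P.lf 0 155639672 0) (P.cons (P.lf 22940490 0 0) (P.cons (P.lf 563286 0 0) (P.cons (P.lf 0 38600 0) (P.cons (P.lf 0 1128 0) P.nil)))))) 108)
 EL.nil)
noncomputable def S227_241_586_660_40 : EL := (EL.cons 14 (TM.mk (P.cons (P.cons (P.lf 0 43535086 0) (P.cons (P.lf 0 21947874 0) (P.cons (P.lf 1200898 0 0) (P.lf 133432 0 0)))) (P.cons (P.cons (P.lf 16844690 0 0) (P.cons (P.lf 12937636 0 0) (P.cons (P.lf 0 707894 0) (P.lf 0 78654 0)))) (P.cons (P.cons (P.lf 2079494 0 0) (P.cons (P.lf 0 1428152 0) (P.cons (P.lf 78142 0 0) (P.lf 8682 0 0)))) (P.cons (P.cons (P.lf 0 735674 0) (P.cons (P.lf 0 185108 0) (P.cons (P.lf 10128 0 0) P.nil))) (P.cons (P.cons (P.lf 0 98794 0) (P.cons (P.lf 8870 0 0) P.nil)) (P.cons (P.cons (P.lf 6666 0 0) P.nil) P.nil)))))) 4208)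
 EL.nil)
noncomputable def S227_241_586_660_41 : EL := (EL.cons 14 (TM.mk (P.cons (P.cons (P.lf 7607556 0 0) (P.cons (P.lf 7670580 0 0) (P.cons (P.lf 1513828 0 0) (P.cons (P.lf 0 258222 0) (P.cons (P.lf 0 17720 0) (P.cons (P.lf 1286 0 0) P.nil)))))) (P.cons (P.cons (P.lf 0 1134458 0) (P.cons (P.lf 0 2697522 0) (P.cons (P.lf 0 924004 0) (P.cons (P.lf 133666 0 0) (P.cons (P.lf 9820 0 0) P.nil))))) (P.cons (P.cons (P.lf 0 997076 0) (P.cons (P.lf 0 509280 0) (P.cons (P.lf 103856 0 0) (P.cons (P.lf 0 5218 0) P.nil)))) (P.cons (P.cons (P.lf 2678 0 0) (P.cons (P.lf 130058 0 0) (P.cons (P.lf 18944 0 0) P.nil))) (P.cons (P.cons (P.lf 49632 0 0) (P.cons (P.lf 24458 0 0) P.nil)) (P.cons (P.cons (P.lf 4900 0 0) P.nil) P.nil)))))) 17288)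
 EL.nil)
noncomputable def S227_241_586_660_42 : EL := (EL.cons 14 (TM.mk (P.cons (P.lf 0 42428286 0) (P.cons (P.lf 39758816 0 0) (P.cons (P.lf 0 12069796 0) (P.cons (P.lf 1040076 0 0) (P.cons (P.lf 54328 0 0) (P.cons (P.lf 0 2546 0) P.nil)))))) 172)
 EL.nil)
noncomputable def S227_241_586_660_43 : EL := (EL.cons 14 (TM.mk (P.cons (P.cons (P.lf 7414148 0 0) (P.cons (P.lf 3737784 0 0) (P.cons (P.lf 0 204516 0) (P.lf 0 22724 0)))) (P.cons (P.cons (P.lf 0 5184588 0) (P.cons (P.lf 0 3370854 0) (P.cons (P.lf 184438 0 0) (P.lf 20492 0 0)))) (P.cons (P.cons (P.lf 521578 0 0) (P.cons (P.lf 921190 0 0) (P.cons (P.lf 0 50402 0) (P.lf 0 5600 0)))) (P.cons (P.cons (P.lf 245806 0 0) (P.cons (P.lf 0 37378 0) (P.cons (P.lf 2044 0 0) P.nil))) (P.cons (P.cons (P.lf 0 22090 0) (P.cons (P.lf 0 12610 0) P.nil)) (P.cons (P.cons (P.lf 0 6844 0) P.nil) P.nil)))))) 3784)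
 EL.nil)
noncomputable def S227_241_586_660_44 : EL := (EL.cons 14 (TM.mk (P.cons (P.cons (P.lf 0 1295588 0) (P.cons (P.lf 0 1306320 0) (P.cons (P.lf 0 257808 0) (P.cons (P.lf 43976 0 0) (P.cons (P.lf 3016 0 0) (P.cons (P.lf 0 218 0) P.nil)))))) (P.cons (P.cons (P.lf 597892 0 0) (P.cons (P.lf 867438 0 0) (P.cons (P.lf 237890 0 0) (P.cons (P.lf 0 36500 0) (P.cons (P.lf 0 2614 0) P.nil))))) (P.cons (P.cons (P.lf 113010 0 0) (P.cons (P.lf 0 53180 0) (P.cons (P.lf 0 66132 0) (P.cons (P.lf 7878 0 0) P.nil)))) (P.cons (P.cons (P.lf 0 54380 0) (P.cons (P.lf 0 50858 0) (P.cons (P.lf 1794 0 0) P.nil))) (P.cons (P.cons (P.lf 0 8728 0) (P.cons (P.lf 2634 0 0) P.nil)) (P.cons (P.cons (P.lf 1854 0 0) P.nil) P.nil)))))) 9628)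
 EL.nil)
noncomputable def S227_241_586_660_45 : EL := (EL.cons 14 (TM.mk (P.cons (P.cons (P.lf 0 45836052 0) (P.cons (P.lf 0 69323666 0) (P.cons (P.lf 0 31155874 0) (P.cons (P.lf 0 1627094 0) (P.cons (P.lf 1284370 0 0) (P.cons (P.lf 31116 0 0) P.nil)))))) (P.cons (P.cons (P.lf 0 32699388 0) (P.cons (P.lf 0 35413998 0) (P.cons (P.lf 0 8837104 0) (P.cons (P.lf 773316 0 0) (P.cons (P.lf 200704 0 0) P.nil))))) (P.cons (P.cons (P.lf 0 8973854 0) (P.cons (P.lf 0 5944432 0) (P.cons (P.lf 0 259874 0) (P.cons (P.lf 166174 0 0) P.nil)))) (P.cons (P.cons (P.lf 0 936288 0) (P.cons (P.lf 0 38494 0) (P.cons (P.lf 142260 0 0) P.nil))) (P.cons (P.cons (P.lf 47590 0 0) (P.cons (P.lf 91392 0 0) P.nil)) (P.cons (P.cons (P.lf 18722 0 0) P.nil) P.nil)))))) 112394)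
 EL.nil)
noncomputable def S227_241_586_660_46 : EL := (EL.cons 15 (TM.mk (P.lf 4294967296 0 0) 0)
 EL.nil)
noncomputable def S227_241_586_660_47 : EL := (EL.cons 15 (TM.mk (P.cons (P.cons (P.lf 0 750525841 0) (P.cons (P.lf 0 378371752 0) (P.cons (P.lf 20702980 0 0) (P.lf 2300328 0 0)))) (P.cons (P.cons (P.lf 0 178474762 0) (P.cons (P.lf 0 13337908 0) (P.cons (P.lf 729792 0 0) (P.lf 81088 0 0)))) (P.cons (P.cons (P.lf 0 6538482 0) (P.cons (P.lf 1887572 0 0) (P.cons (P.lf 0 103280 0) (P.lf 0 11472 0)))) (P.cons (P.cons (P.lf 1363555 0 0) (P.cons (P.lf 71676 0 0) (P.cons (P.lf 0 3920 0) P.nil))) (P.cons (P.cons (P.lf 37955 0 0) (P.cons (P.lf 0 4576 0) P.nil)) (P.cons (P.cons (P.lf 0 3175 0) P.nil) P.nil)))))) 1558)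
 EL.nil)
noncomputable def S227_241_586_660_48 : EL := (EL.cons 15 (TM.mk (P.cons (P.cons (P.lf 131150949 0 0) (P.cons (P.lf 132237457 0 0) (P.cons (P.lf 26097739 0 0) (P.cons (P.lf 0 4451665 0) (P.cons (P.lf 0 305507 0) (P.cons (P.lf 22176 0 0) P.nil)))))) (P.cons (P.cons (P.lf 62375292 0 0) (P.cons (P.lf 36107494 0 0) (P.cons (P.lf 374391 0 0) (P.cons (P.lf 0 476686 0) (P.cons (P.lf 0 21538 0) P.nil))))) (P.cons (P.cons (P.lf 9701550 0 0) (P.cons (P.lf 1600843 0 0) (P.cons (P.lf 0 378748 0) (P.cons (P.lf 22128 0 0) P.nil)))) (P.cons (P.cons (P.lf 66855 0 0) (P.cons (P.lf 0 381562 0) (P.cons (P.lf 0 3475 0) P.nil))) (P.cons (P.cons (P.lf 0 116634 0) (P.cons (P.lf 0 25261 0) P.nil)) (P.cons (P.cons (P.lf 0 6196 0) P.nil) P.nil)))))) 23135)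
 EL.nil)
noncomputable def S227_241_586_660 : SL := (SL.cons S227_241_586_660_0 (SL.cons S227_241_586_660_1 (SL.cons S227_241_586_660_2 (SL.cons S227_241_586_660_3 (SL.cons S227_241_586_660_4 (SL.cons S227_241_586_660_5 (SL.cons S227_241_586_660_6 (SL.cons S227_241_586_660_7 (SL.cons S227_241_586_660_8 (SL.cons S227_241_586_660_9 (SL.cons S227_241_586_660_10 (SL.cons S227_241_586_660_11 (SL.cons S227_241_586_660_12 (SL.cons S227_241_586_660_13 (SL.cons S227_241_586_660_14 (SL.cons S227_241_586_660_15 (SL.cons S227_241_586_660_16 (SL.cons S227_241_586_660_17 (SL.cons S227_241_586_660_18 (SL.cons S227_241_586_660_19 (SL.cons S227_241_586_660_20 (SL.cons S227_241_586_660_21 (SL.cons S227_241_586_660_22 (SL.cons S227_241_586_660_23 (SL.cons S227_241_586_660_24 (SL.cons S227_241_586_660_25 (SL.cons S227_241_586_660_26 (SL.cons S227_241_586_660_27 (SL.cons S227_241_586_660_28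 (SL.cons S227_241_586_660_29 (SL.cons S227_241_586_660_30 (SL.cons S227_241_586_660_31 (SL.cons S227_241_586_660_32 (SL.cons S227_241_586_660_33 (SL.cons S227_241_586_660_34 (SL.cons S227_241_586_660_35 (SL.cons S227_241_586_660_36 (SL.cons S227_241_586_660_37 (SL.cons S227_241_586_660_38 (SL.cons S227_241_586_660_39 (SL.cons S227_241_586_660_40 (SL.cons S227_241_586_660_41 (SL.cons S227_241_586_660_42 (SL.cons S227_241_586_660_43 (SL.cons S227_241_586_660_44 (SL.cons S227_241_586_660_45 (SL.cons S227_241_586_660_46 (SL.cons S227_241_586_660_47 (SL.cons S227_241_586_660_48 SL.nil)))))))))))))))))))))))))))))))))))))))))))))))))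
theorem S227_241_364_438_ok : band (seq (shp 5 227 241 364 438) S227_241_364_438) (sok S227_241_364_438) = true := by decide +kernel

theorem S227_241_364_512_ok : band (seq (shp 5 227 241 364 512) S227_241_364_512) (sok S227_241_364_512) = true := by decide +kernel

theorem S227_241_438_512_ok : band (seq (shp 5 227 241 438 512) S227_241_438_512) (sok S227_241_438_512) = true := by decide +kernel

theorem S227_241_512_586_ok : band (seq (shp 5 227 241 512 586) S227_241_512_586) (sok S227_241_512_586) = true := by decide +kernel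

theorem S227_241_512_660_ok : band (seq (shp 5 227 241 512 660) S227_241_512_660) (sok S227_241_512_660) = true := by decide +kernel

theorem S227_241_586_660_ok : band (seq (shp 5 227 241 586 660) S227_241_586_660) (sok S227_241_586_660) = true := by decide +kernel

end Vale.Agent.P098.Ck
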