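import Vale.Agent.P098.CkDefs

namespace Vale.Agent.P098.Ck

noncomputable def S183_198_512_586_0 : EL := (EL.cons 0 (TM.mk (P.cons (P.lf 6766532673 0 0) (P.cons (P.lf 328315225 0 0) (P.cons (P.lf 0 6915520 0) (P.cons (P.lf 0 1047332 0) (P.cons (P.lf 0 7546 0) (P.cons (P.lf 1573 0 0) P.nil)))))) 161)
 (EL.cons 1 (TM.mk (P.cons (P.lf 0 1616469420 0) (P.cons (P.lf 96098353 0 0) (P.cons (P.lf 12687056 0 0) (P.cons (P.lf 0 51723 0) (P.cons (P.lf 0 25867 0) (P.cons (P.lf 0 433 0) P.nil)))))) 140)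
 (EL.cons 5 (TM.mk (P.cons (P.lf 4895566122 0 0) (P.cons (P.lf 0 116734300 0) (P.cons (P.lf 2458850 0 0) (P.cons (P.lf 372384 0 0) (P.cons (P.lf 2686 0 0) (P.cons (P.lf 0 556 0) P.nil)))))) 123)
 (EL.cons 9 (TM.mk (P.lf 6442450944 0 0) 2)
 EL.nil))))
noncomputable def S183_198_512_586_1 : EL := (EL.cons 0 (TM.mk (P.cons (P.cons (P.lf 0 100751961 0) (P.cons (P.lf 0 110826999 0) (P.cons (P.lf 1763964 0 0) (P.lf 587992 0 0)))) (P.cons (P.cons (P.lf 636366071 0 0) (P.cons (P.lf 0 98211142 0) (P.cons (P.lf 1563159 0 0) (P.lf 521048 0 0)))) (P.cons (P.cons (P.lf 0 44440944 0) (P.cons (P.lf 0 7865046 0) (P.cons (P.lf 125178 0 0) (P.lf 41719 0 0)))) (P.cons (P.cons (P.lf 0 9310703 0) (P.cons (P.lf 551803 0 0) (P.cons (P.lf 0 8778 0) P.nil))) (P.cons (P.cons (P.lf 136661 0 0) (P.cons (P.lf 74811 0 0) P.nil)) (P.cons (P.cons (P.lf 55089 0 0) P.nil) P.nil)))))) 19268)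
 (EL.cons 1 (TM.mk (P.cons (P.cons (P.lf 0 354664848 0) (P.cons (P.lf 202201254 0 0) (P.cons (P.lf 0 3218296 0) (P.lf 0 1072762 0)))) (P.cons (P.cons (P.lf 65173483 0 0) (P.cons (P.lf 27437854 0 0) (P.cons (P.lf 0 436702 0) (P.lf 0 145556 0)))) (P.cons (P.cons (P.lf 46541778 0 0) (P.cons (P.lf 0 3706897 0) (P.cons (P.lf 58990 0 0) (P.lf 19662 0 0)))) (P.cons (P.cons (P.lf 0 1008620 0) (P.cons (P.lf 0 504281 0) (P.cons (P.lf 8016 0 0) P.nil))) (P.cons (P.cons (P.lf 0 439787 0) (P.cons (P.lf 8382 0 0) P.nil)) (P.cons (P.cons (P.lf 0 3128 0) P.nil) P.nil)))))) 11494)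
 (EL.cons 5 (TM.mk (P.cons (P.cons (P.lf 695877268 0 0) (P.cons (P.lf 0 436878894 0) (P.cons (P.lf 6953502 0 0) (P.lf 2317834 0 0)))) (P.cons (P.cons (P.lf 0 110066005 0) (P.cons (P.lf 0 18994016 0) (P.cons (P.lf 302316 0 0) (P.lf 100778 0 0)))) (P.cons (P.cons (P.lf 0 20430912 0) (P.cons (P.lf 2914938 0 0) (P.cons (P.lf 0 46382 0) (P.lf 0 15456 0)))) (P.cons (P.cons (P.lf 2522407 0 0) (P.cons (P.lf 31432 0 0) (P.cons (P.lf 0 504 0) P.nil))) (P.cons (P.cons (P.lf 72383 0 0) (P.cons (P.lf 0 20488 0) P.nil)) (P.cons (P.cons (P.lf 0 14907 0) P.nil) P.nil)))))) 10625)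
 (EL.cons 9 (TM.mk (P.cons (P.cons (P.lf 582400894 0 0) (P.cons (P.lf 0 420250626 0) (P.cons (P.lf 6688842 0 0) (P.lf 2229612 0 0)))) (P.cons (P.cons (P.lf 102527194 0 0) (P.cons (P.lf 0 47570760 0) (P.cons (P.lf 757146 0 0) (P.lf 252378 0 0)))) (P.cons (P.cons (P.lf 0 31969528 0) (P.cons (P.lf 104538 0 0) (P.cons (P.lf 0 1656 0) (P.lf 0 552 0)))) (P.cons (P.cons (P.lf 0 695344 0) (P.cons (P.lf 200844 0 0) (P.cons (P.lf 0 3192 0) P.nil))) (P.cons (P.cons (P.lf 106729 0 0) (P.cons (P.lf 5388 0 0) P.nil)) (P.cons (P.cons (P.lf 4120 0 0) P.nil) P.nil)))))) 2483)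
 (EL.cons 2 (TM.mk (P.cons (P.cons (P.lf 1010181422 0 0) (P.cons (P.lf 0 37446046 0) (P.cons (P.lf 0 18554650 0) (P.cons (P.lf 168370 0 0) (P.lf 42091 0 0))))) (P.cons (P.cons (P.lf 0 21938591 0) (P.cons (P.lf 813234 0 0) (P.cons (P.lf 402958 0 0) (P.cons (P.lf 0 3656 0) (P.lf 0 914 0))))) (P.cons (P.cons (P.lf 0 11716489 0) (P.cons (P.lf 434311 0 0) (P.cons (P.lf 215201 0 0) (P.cons (P.lf 0 1951 0) P.nil)))) (P.cons (P.cons (P.lf 0 240516 0) (P.cons (P.lf 8915 0 0) (P.cons (P.lf 4415 0 0) P.nil))) (P.cons (P.cons (P.lf 33541 0 0) (P.cons (P.lf 0 1243 0) P.nil)) (P.cons (P.cons (P.lf 1378 0 0) P.nil) P.nil)))))) 1711)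
 (EL.cons 6 (TM.mk (P.cons (P.cons (P.lf 966695871 0 0) (P.cons (P.lf 0 35834097 0) (P.cons (P.lf 0 17755923 0) (P.cons (P.lf 161121 0 0) (P.lf 40278 0 0))))) (P.cons (P.cons (P.lf 109426275 0 0) (P.cons (P.lf 0 4056279 0) (P.cons (P.lf 0 2009901 0) (P.cons (P.lf 18237 0 0) (P.lf 4557 0 0))))) (P.cons (P.cons (P.lf 0 240474 0) (P.cons (P.lf 8910 0 0) (P.cons (P.lf 4413 0 0) (P.cons (P.lf 0 39 0) P.nil)))) (P.cons (P.cons (P.lf 0 462003 0) (P.cons (P.lf 17124 0 0) (P.cons (P.lf 8484 0 0) P.nil))) (P.cons (P.cons (P.lf 0 12396 0) (P.cons (P.lf 456 0 0) P.nil)) (P.cons (P.cons (P.lf 825 0 0) P.nil) P.nil)))))) 975)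
 EL.nil))))))
noncomputable def S183_198_512_586_2 : EL := (EL.cons 0 (TM.mk (P.cons (P.cons (P.lf 0 73513870 0) (P.cons (P.lf 72910701 0 0) (P.cons (P.lf 0 15494227 0) (P.cons (P.lf 69451 0 0) (P.cons (P.lf 148461 0 0) (P.cons (P.lf 0 2416 0) P.nil)))))) (P.cons (P.cons (P.lf 89696259 0 0) (P.cons (P.lf 0 75863957 0) (P.cons (P.lf 7741634 0 0) (P.cons (P.lf 194494 0 0) (P.cons (P.lf 0 67684 0) P.nil))))) (P.cons (P.cons (P.lf 16688620 0 0) (P.cons (P.lf 0 8822994 0) (P.cons (P.lf 1971838 0 0) (P.cons (P.lf 0 11493 0) P.nil)))) (P.cons (P.cons (P.lf 0 7951187 0) (P.cons (P.lf 1928349 0 0) (P.cons (P.lf 26423 0 0) P.nil))) (P.cons (P.cons (P.lf 0 78041 0) (P.cons (P.lf 250108 0 0) P.nil)) (P.cons (P.cons (P.lf 115829 0 0) P.nil) P.nil)))))) 126422)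
 (EL.cons 1 (TM.mk (P.cons (P.cons (P.lf 0 50913570 0) (P.cons (P.lf 63764312 0 0) (P.cons (P.lf 0 20516353 0) (P.cons (P.lf 282480 0 0) (P.cons (P.lf 201986 0 0) (P.cons (P.lf 0 3290 0) P.nil)))))) (P.cons (P.cons (P.lf 4360703 0 0) (P.cons (P.lf 3750699 0 0) (P.cons (P.lf 0 5477112 0) (P.cons (P.lf 152548 0 0) (P.cons (P.lf 56100 0 0) P.nil))))) (P.cons (P.cons (P.lf 12588023 0 0) (P.cons (P.lf 0 7700853 0) (P.cons (P.lf 145694 0 0) (P.cons (P.lf 40106 0 0) P.nil)))) (P.cons (P.cons (P.lf 467682 0 0) (P.cons (P.lf 0 946919 0) (P.cons (P.lf 125093 0 0) P.nil))) (P.cons (P.cons (P.lf 0 534665 0) (P.cons (P.lf 86215 0 0) P.nil)) (P.cons (P.cons (P.lf 0 10152 0) P.nil) P.nil)))))) 70375)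
 (EL.cons 5 (TM.mk (P.cons (P.cons (P.lf 85807511 0 0) (P.cons (P.lf 0 112036449 0) (P.cons (P.lf 37948370 0 0) (P.cons (P.lf 0 556822 0) (P.cons (P.lf 0 374570 0) (P.cons (P.lf 6099 0 0) P.nil)))))) (P.cons (P.cons (P.lf 0 10883375 0) (P.cons (P.lf 2066756 0 0) (P.cons (P.lf 4677571 0 0) (P.cons (P.lf 0 160898 0) (P.cons (P.lf 0 48789 0) P.nil))))) (P.cons (P.cons (P.lf 0 10635325 0) (P.cons (P.lf 6169438 0 0) (P.cons (P.lf 0 366717 0) (P.cons (P.lf 0 24170 0) P.nil)))) (P.cons (P.cons (P.lf 1531388 0 0) (P.cons (P.lf 0 2812 0) (P.cons (P.lf 0 51699 0) P.nil))) (P.cons (P.cons (P.lf 204336 0 0) (P.cons (P.lf 0 85893 0) P.nil)) (P.cons (P.cons (P.lf 0 28655 0) P.nil) P.nil)))))) 66271)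
 (EL.cons 9 (TM.mk (P.cons (P.cons (P.lf 52649341 0 0) (P.cons (P.lf 0 75981747 0) (P.cons (P.lf 28622920 0 0) (P.cons (P.lf 0 469530 0) (P.cons (P.lf 0 283936 0) (P.cons (P.lf 4629 0 0) P.nil)))))) (P.cons (P.cons (P.lf 18537022 0 0) (P.cons (P.lf 0 21976843 0) (P.cons (P.lf 6556011 0 0) (P.cons (P.lf 0 80964 0) (P.cons (P.lf 0 64279 0) P.nil))))) (P.cons (P.cons (P.lf 0 4148473 0) (P.cons (P.lf 2675626 0 0) (P.cons (P.lf 295036 0 0) (P.cons (P.lf 0 24942 0) P.nil)))) (P.cons (P.cons (P.lf 0 1143264 0) (P.cons (P.lf 602479 0 0) (P.cons (P.lf 0 37333 0) P.nil))) (P.cons (P.cons (P.lf 155808 0 0) (P.cons (P.lf 2673 0 0) P.nil)) (P.cons (P.cons (P.lf 11043 0 0) P.nil) P.nil)))))) 21461)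
 (EL.cons 2 (TM.mk (P.cons (P.cons (P.lf 182641843 0 0) (P.cons (P.lf 0 138561541 0) (P.cons (P.lf 3628248 0 0) (P.cons (P.lf 3072588 0 0) (P.cons (P.lf 0 78800 0) (P.cons (P.lf 0 17983 0) P.nil)))))) (P.cons (P.cons (P.lf 28186166 0 0) (P.cons (P.lf 0 13100911 0) (P.cons (P.lf 121072 0 0) (P.cons (P.lf 282982 0 0) (P.cons (P.lf 0 6727 0) P.nil))))) (P.cons (P.cons (P.lf 0 12842319 0) (P.cons (P.lf 2361380 0 0) (P.cons (P.lf 135990 0 0) (P.cons (P.lf 0 45658 0) P.nil)))) (P.cons (P.cons (P.lf 0 416733 0) (P.cons (P.lf 282121 0 0) (P.cons (P.lf 0 6468 0) P.nil))) (P.cons (P.cons (P.lf 152893 0 0) (P.cons (P.lf 0 6547 0) P.nil)) (P.cons (P.cons (P.lf 6795 0 0) P.nil) P.nil)))))) 19765)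
 (EL.cons 6 (TM.mk (P.cons (P.cons (P.lf 174779610 0 0) (P.cons (P.lf 0 132596844 0) (P.cons (P.lf 3472062 0 0) (P.cons (P.lf 2940318 0 0) (P.cons (P.lf 0 75408 0) (P.cons (P.lf 0 17208 0) P.nil)))))) (P.cons (P.cons (P.lf 50552988 0 0) (P.cons (P.lf 0 30426078 0) (P.cons (P.lf 584292 0 0) (P.cons (P.lf 667488 0 0) (P.cons (P.lf 0 16608 0) P.nil))))) (P.cons (P.cons (P.lf 0 6154704 0) (P.cons (P.lf 0 1325100 0) (P.cons (P.lf 195348 0 0) (P.cons (P.lf 34824 0 0) P.nil)))) (P.cons (P.cons (P.lf 0 1385874 0) (P.cons (P.lf 179016 0 0) (P.cons (P.lf 18690 0 0) P.nil))) (P.cons (P.cons (P.lf 0 6150 0) (P.cons (P.lf 17094 0 0) P.nil)) (P.cons (P.cons (P.lf 9246 0 0) P.nil) P.nil)))))) 17418)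
 EL.nil))))))
noncomputable def S183_198_512_586_3 : EL := (EL.cons 0 (TM.mk (P.cons (P.lf 1689184190 0 0) (P.cons (P.lf 0 328315225 0) (P.cons (P.lf 6915520 0 0) (P.cons (P.lf 1047332 0 0) (P.cons (P.lf 7546 0 0) (P.cons (P.lf 0 1573 0) P.nil)))))) 161)
 (EL.cons 1 (TM.mk (P.cons (P.lf 1616469420 0 0) (P.cons (P.lf 0 96098353 0) (P.cons (P.lf 0 12687056 0) (P.cons (P.lf 51723 0 0) (P.cons (P.lf 25867 0 0) (P.cons (P.lf 433 0 0) P.nil)))))) 140)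
 (EL.cons 5 (TM.mk (P.cons (P.lf 1546884822 0 0) (P.cons (P.lf 116734300 0 0) (P.cons (P.lf 0 2458850 0) (P.cons (P.lf 0 372384 0) (P.cons (P.lf 0 2686 0) (P.cons (P.lf 556 0 0) P.nil)))))) 116)
 EL.nil)))
noncomputable def S183_198_512_586_4 : EL := (EL.cons 0 (TM.mk (P.cons (P.cons (P.lf 152703123 0 0) (P.cons (P.lf 0 110187987 0) (P.cons (P.lf 1753785 0 0) (P.lf 584593 0 0)))) (P.cons (P.cons (P.lf 0 2797655 0) (P.cons (P.lf 8943630 0 0) (P.cons (P.lf 0 142349 0) (P.lf 0 47450 0)))) (P.cons (P.cons (P.lf 0 12982023 0) (P.cons (P.lf 2000562 0 0) (P.cons (P.lf 0 31839 0) (P.lf 0 10611 0)))) (P.cons (P.cons (P.lf 1651624 0 0) (P.cons (P.lf 0 72049 0) (P.cons (P.lf 1146 0 0) P.nil))) (P.cons (P.cons (P.lf 46451 0 0) (P.cons (P.lf 0 16934 0) P.nil)) (P.cons (P.cons (P.lf 0 10323 0) P.nil) P.nil)))))) 3112)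
 (EL.cons 1 (TM.mk (P.cons (P.cons (P.lf 146129670 0 0) (P.cons (P.lf 0 105444695 0) (P.cons (P.lf 1678290 0 0) (P.lf 559428 0 0)))) (P.cons (P.cons (P.lf 17037661 0 0) (P.cons (P.lf 0 5667296 0) (P.cons (P.lf 90200 0 0) (P.lf 30063 0 0)))) (P.cons (P.cons (P.lf 0 10697700 0) (P.cons (P.lf 1563410 0 0) (P.cons (P.lf 0 24879 0) (P.lf 0 8293 0)))) (P.cons (P.cons (P.lf 105172 0 0) (P.cons (P.lf 139140 0 0) (P.cons (P.lf 0 2212 0) P.nil))) (P.cons (P.cons (P.lf 103269 0 0) (P.cons (P.lf 0 3916 0) P.nil)) (P.cons (P.cons (P.lf 1005 0 0) P.nil) P.nil)))))) 2713)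
 (EL.cons 5 (TM.mk (P.cons (P.cons (P.lf 139839186 0 0) (P.cons (P.lf 0 100905588 0) (P.cons (P.lf 1606044 0 0) (P.lf 535346 0 0)))) (P.cons (P.cons (P.lf 35170452 0 0) (P.cons (P.lf 0 19036876 0) (P.cons (P.lf 302994 0 0) (P.lf 100996 0 0)))) (P.cons (P.cons (P.lf 0 6040678 0) (P.cons (P.lf 0 676464 0) (P.cons (P.lf 10766 0 0) (P.lf 3588 0 0)))) (P.cons (P.cons (P.lf 0 819024 0) (P.cons (P.lf 92564 0 0) (P.cons (P.lf 0 1470 0) P.nil))) (P.cons (P.cons (P.lf 19058 0 0) (P.cons (P.lf 7816 0 0) P.nil)) (P.cons (P.cons (P.lf 5042 0 0) P.nil) P.nil)))))) 1902)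
 EL.nil)))
noncomputable def S183_198_512_586_5 : EL := (EL.cons 0 (TM.mk (P.cons (P.cons (P.lf 13804440 0 0) (P.cons (P.lf 0 19922101 0) (P.cons (P.lf 7504811 0 0) (P.cons (P.lf 0 123108 0) (P.cons (P.lf 0 74446 0) (P.cons (P.lf 1212 0 0) P.nil)))))) (P.cons (P.cons (P.lf 2177254 0 0) (P.cons (P.lf 0 1890114 0) (P.cons (P.lf 260298 0 0) (P.cons (P.lf 2698 0 0) (P.cons (P.lf 0 2383 0) P.nil))))) (P.cons (P.cons (P.lf 0 1975865 0) (P.cons (P.lf 1739942 0 0) (P.cons (P.lf 0 226019 0) (P.cons (P.lf 0 2916 0) P.nil)))) (P.cons (P.cons (P.lf 0 59890 0) (P.cons (P.lf 0 14327 0) (P.cons (P.lf 0 13132 0) P.nil))) (P.cons (P.cons (P.lf 97736 0 0) (P.cons (P.lf 0 30791 0) P.nil)) (P.cons (P.cons (P.lf 0 6936 0) P.nil) P.nil)))))) 18002)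
 (EL.cons 1 (TM.mk (P.cons (P.cons (P.lf 13210196 0 0) (P.cons (P.lf 0 19064508 0) (P.cons (P.lf 7181748 0 0) (P.cons (P.lf 0 117808 0) (P.cons (P.lf 0 71240 0) (P.cons (P.lf 1160 0 0) P.nil)))))) (P.cons (P.cons (P.lf 3865766 0 0) (P.cons (P.lf 0 4380811 0) (P.cons (P.lf 1218009 0 0) (P.cons (P.lf 0 13308 0) (P.cons (P.lf 0 11891 0) P.nil))))) (P.cons (P.cons (P.lf 0 1421075 0) (P.cons (P.lf 1148784 0 0) (P.cons (P.lf 0 80130 0) (P.cons (P.lf 0 4125 0) P.nil)))) (P.cons (P.cons (P.lf 0 261056 0) (P.cons (P.lf 153924 0 0) (P.cons (P.lf 0 26448 0) P.nil))) (P.cons (P.cons (P.lf 64674 0 0) (P.cons (P.lf 0 14066 0) P.nil)) (P.cons (P.cons (P.lf 2743 0 0) P.nil) P.nil)))))) 13964)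
 (EL.cons 5 (TM.mk (P.cons (P.cons (P.lf 12641534 0 0) (P.cons (P.lf 0 18243834 0) (P.cons (P.lf 6872594 0 0) (P.cons (P.lf 0 112736 0) (P.cons (P.lf 0 68174 0) (P.cons (P.lf 1110 0 0) P.nil)))))) (P.cons (P.cons (P.lf 5404870 0 0) (P.cons (P.lf 0 6653572 0) (P.cons (P.lf 2092784 0 0) (P.cons (P.lf 0 27946 0) (P.cons (P.lf 0 20578 0) P.nil))))) (P.cons (P.cons (P.lf 0 680292 0) (P.cons (P.lf 273228 0 0) (P.cons (P.lf 178706 0 0) (P.cons (P.lf 0 7276 0) P.nil)))) (P.cons (P.cons (P.lf 0 359792 0) (P.cons (P.lf 205920 0 0) (P.cons (P.lf 0 7774 0) P.nil))) (P.cons (P.cons (P.lf 17184 0 0) (P.cons (P.lf 11838 0 0) P.nil)) (P.cons (P.cons (P.lf 6146 0 0) P.nil) P.nil)))))) 10382)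
 EL.nil)))
noncomputable def S183_198_512_586_6 : EL := (EL.cons 12 (TM.mk (P.lf 8589934592 0 0) 0)
 (EL.cons 3 (TM.mk (P.cons (P.lf 0 1904598495 0) (P.cons (P.lf 185091918 0 0) (P.cons (P.lf 5095050 0 0) (P.cons (P.lf 0 95302 0) (P.cons (P.lf 0 6701 0) (P.cons (P.lf 0 18 0) P.nil)))))) 59)
 (EL.cons 7 (TM.mk (P.cons (P.lf 0 1822610727 0) (P.cons (P.lf 0 68770857 0) (P.cons (P.lf 2745999 0 0) (P.cons (P.lf 115768 0 0) (P.cons (P.lf 0 717 0) (P.cons (P.lf 0 127 0) P.nil)))))) 49)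
 EL.nil)))
noncomputable def S183_198_512_586_7 : EL := (EL.cons 12 (TM.mk (P.cons (P.cons (P.lf 776534526 0 0) (P.cons (P.lf 0 560334168 0) (P.cons (P.lf 8918456 0 0) (P.lf 2972816 0 0)))) (P.cons (P.cons (P.lf 136702926 0 0) (P.cons (P.lf 0 63427680 0) (P.cons (P.lf 1009528 0 0) (P.lf 336504 0 0)))) (P.cons (P.cons (P.lf 0 42626038 0) (P.cons (P.lf 139384 0 0) (P.cons (P.lf 0 2208 0) (P.lf 0 736 0)))) (P.cons (P.cons (P.lf 0 927126 0) (P.cons (P.lf 267792 0 0) (P.cons (P.lf 0 4256 0) P.nil))) (P.cons (P.cons (P.lf 142306 0 0) (P.cons (P.lf 7184 0 0) P.nil)) (P.cons (P.cons (P.lf 5494 0 0) P.nil) P.nil)))))) 3286)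
 (EL.cons 3 (TM.mk (P.cons (P.cons (P.lf 631128977 0 0) (P.cons (P.lf 0 248479564 0) (P.cons (P.lf 3954878 0 0) (P.lf 1318290 0 0)))) (P.cons (P.cons (P.lf 0 498148408 0) (P.cons (P.lf 0 3979292 0) (P.cons (P.lf 63330 0 0) (P.lf 21106 0 0)))) (P.cons (P.cons (P.lf 0 14650049 0) (P.cons (P.lf 3459944 0 0) (P.cons (P.lf 0 55062 0) (P.lf 0 18354 0)))) (P.cons (P.cons (P.lf 2956631 0 0) (P.cons (P.lf 175554 0 0) (P.cons (P.lf 0 2790 0) P.nil))) (P.cons (P.cons (P.lf 169948 0 0) (P.cons (P.lf 0 10800 0) P.nil)) (P.cons (P.cons (P.lf 0 5835 0) P.nil) P.nil)))))) 7706)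
 (EL.cons 7 (TM.mk (P.cons (P.cons (P.lf 0 463232977 0) (P.cons (P.lf 257375391 0 0) (P.cons (P.lf 0 4096470 0) (P.lf 0 1365492 0)))) (P.cons (P.cons (P.lf 185086924 0 0) (P.cons (P.lf 1478508 0 0) (P.cons (P.lf 0 23534 0) (P.lf 0 7848 0)))) (P.cons (P.cons (P.lf 0 7042150 0) (P.cons (P.lf 0 1385277 0) (P.cons (P.lf 22049 0 0) (P.lf 7347 0 0)))) (P.cons (P.cons (P.lf 0 1346136 0) (P.cons (P.lf 52329 0 0) (P.cons (P.lf 0 830 0) P.nil))) (P.cons (P.cons (P.lf 47679 0 0) (P.cons (P.lf 8004 0 0) P.nil)) (P.cons (P.cons (P.lf 6225 0 0) P.nil) P.nil)))))) 6112)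
 (EL.cons 10 (TM.mk (P.cons (P.cons (P.lf 0 2278010928 0) (P.cons (P.lf 84442758 0 0) (P.cons (P.lf 41841690 0 0) (P.cons (P.lf 0 379686 0) (P.lf 0 94920 0))))) (P.cons (P.cons (P.lf 0 171908085 0) (P.cons (P.lf 6372396 0 0) (P.cons (P.lf 3157545 0 0) (P.cons (P.lf 0 28650 0) (P.lf 0 7161 0))))) (P.cons (P.cons (P.lf 3621009 0 0) (P.cons (P.lf 0 134223 0) (P.cons (P.lf 0 66507 0) (P.cons (P.lf 603 0 0) P.nil)))) (P.cons (P.cons (P.lf 548388 0 0) (P.cons (P.lf 0 20328 0) (P.cons (P.lf 0 10071 0) P.nil))) (P.cons (P.cons (P.lf 3954 0 0) (P.cons (P.lf 0 144 0) P.nil)) (P.cons (P.cons (P.lf 0 816 0) P.nil) P.nil)))))) 672)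
 EL.nil))))
noncomputable def S183_198_512_586_8 : EL := (EL.cons 12 (TM.mk (P.cons (P.cons (P.lf 70199122 0 0) (P.cons (P.lf 0 101308996 0) (P.cons (P.lf 38163894 0 0) (P.cons (P.lf 0 626040 0) (P.cons (P.lf 0 378582 0) (P.cons (P.lf 6172 0 0) P.nil)))))) (P.cons (P.cons (P.lf 24716030 0 0) (P.cons (P.lf 0 29302458 0) (P.cons (P.lf 8741348 0 0) (P.cons (P.lf 0 107952 0) (P.cons (P.lf 0 85706 0) P.nil))))) (P.cons (P.cons (P.lf 0 5531298 0) (P.cons (P.lf 3567502 0 0) (P.cons (P.lf 393382 0 0) (P.cons (P.lf 0 33256 0) P.nil)))) (P.cons (P.cons (P.lf 0 1524352 0) (P.cons (P.lf 803306 0 0) (P.cons (P.lf 0 49778 0) P.nil))) (P.cons (P.cons (P.lf 207744 0 0) (P.cons (P.lf 3564 0 0) P.nil)) (P.cons (P.cons (P.lf 14724 0 0) P.nil) P.nil)))))) 28586)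
 (EL.cons 3 (TM.mk (P.cons (P.cons (P.lf 129673630 0 0) (P.cons (P.lf 0 149727000 0) (P.cons (P.lf 42904829 0 0) (P.cons (P.lf 0 495542 0) (P.cons (P.lf 0 419706 0) (P.cons (P.lf 6841 0 0) P.nil)))))) (P.cons (P.cons (P.lf 0 66010242 0) (P.cons (P.lf 42727125 0 0) (P.cons (P.lf 4555776 0 0) (P.cons (P.lf 0 393355 0) (P.cons (P.lf 0 54225 0) P.nil))))) (P.cons (P.cons (P.lf 0 26568486 0) (P.cons (P.lf 13735846 0 0) (P.cons (P.lf 0 719485 0) (P.cons (P.lf 0 56927 0) P.nil)))) (P.cons (P.cons (P.lf 4643292 0 0) (P.cons (P.lf 206299 0 0) (P.cons (P.lf 0 115310 0) P.nil))) (P.cons (P.cons (P.lf 481190 0 0) (P.cons (P.lf 0 153426 0) P.nil)) (P.cons (P.cons (P.lf 0 37872 0) P.nil) P.nil)))))) 69732)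
 (EL.cons 7 (TM.mk (P.cons (P.cons (P.lf 0 68858158 0) (P.cons (P.lf 85472757 0 0) (P.cons (P.lf 0 27182887 0) (P.cons (P.lf 368525 0 0) (P.cons (P.lf 267455 0 0) (P.cons (P.lf 0 4357 0) P.nil)))))) (P.cons (P.cons (P.lf 24526091 0 0) (P.cons (P.lf 0 15875248 0) (P.cons (P.lf 0 1692703 0) (P.cons (P.lf 146147 0 0) (P.cons (P.lf 20154 0 0) P.nil))))) (P.cons (P.cons (P.lf 8217058 0 0) (P.cons (P.lf 0 4032655 0) (P.cons (P.lf 381506 0 0) (P.cons (P.lf 11290 0 0) P.nil)))) (P.cons (P.cons (P.lf 0 2581019 0) (P.cons (P.lf 361617 0 0) (P.cons (P.lf 16583 0 0) P.nil))) (P.cons (P.cons (P.lf 13676 0 0) (P.cons (P.lf 55697 0 0) P.nil)) (P.cons (P.cons (P.lf 28410 0 0) P.nil) P.nil)))))) 40734)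
 (EL.cons 10 (TM.mk (P.cons (P.cons (P.lf 0 411866730 0) (P.cons (P.lf 312463392 0 0) (P.cons (P.lf 0 8181894 0) (P.cons (P.lf 0 6928848 0) (P.cons (P.lf 177702 0 0) (P.cons (P.lf 40554 0 0) P.nil)))))) (P.cons (P.cons (P.lf 0 103587126 0) (P.cons (P.lf 59908926 0 0) (P.cons (P.lf 0 1068162 0) (P.cons (P.lf 0 1311504 0) (P.cons (P.lf 32442 0 0) P.nil))))) (P.cons (P.cons (P.lf 17791536 0 0) (P.cons (P.lf 1332876 0 0) (P.cons (P.lf 0 432360 0) (P.cons (P.lf 0 43026 0) P.nil)))) (P.cons (P.cons (P.lf 2412264 0 0) (P.cons (P.lf 0 362046 0) (P.cons (P.lf 0 29862 0) P.nil))) (P.cons (P.cons (P.lf 0 56136 0) (P.cons (P.lf 0 20940 0) P.nil)) (P.cons (P.cons (P.lf 0 14850 0) P.nil) P.nil)))))) 27984)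
 EL.nil))))
noncomputable def S183_198_512_586_9 : EL := (EL.cons 3 (TM.mk (P.cons (P.lf 0 1904598495 0) (P.cons (P.lf 185091918 0 0) (P.cons (P.lf 5095050 0 0) (P.cons (P.lf 0 95302 0) (P.cons (P.lf 0 6701 0) (P.cons (P.lf 0 18 0) P.nil)))))) 59)
 (EL.cons 7 (TM.mk (P.cons (P.lf 0 1822610727 0) (P.cons (P.lf 0 68770857 0) (P.cons (P.lf 2745999 0 0) (P.cons (P.lf 115768 0 0) (P.cons (P.lf 0 717 0) (P.cons (P.lf 0 127 0) P.nil)))))) 49)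
 EL.nil))
noncomputable def S183_198_512_586_10 : EL := (EL.cons 3 (TM.mk (P.cons (P.cons (P.lf 0 172176688 0) (P.cons (P.lf 124239782 0 0) (P.cons (P.lf 0 1977439 0) (P.lf 0 659145 0)))) (P.cons (P.cons (P.lf 0 13577974 0) (P.cons (P.lf 1989646 0 0) (P.cons (P.lf 0 31665 0) (P.lf 0 10553 0)))) (P.cons (P.cons (P.lf 12857440 0 0) (P.cons (P.lf 0 1729972 0) (P.cons (P.lf 27531 0 0) (P.lf 9177 0 0)))) (P.cons (P.cons (P.lf 0 640450 0) (P.cons (P.lf 0 87777 0) (P.cons (P.lf 1395 0 0) P.nil))) (P.cons (P.cons (P.lf 0 78935 0) (P.cons (P.lf 5400 0 0) P.nil)) (P.cons (P.cons (P.lf 1662 0 0) P.nil) P.nil)))))) 1843)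
 (EL.cons 7 (TM.mk (P.cons (P.cons (P.lf 0 164764951 0) (P.cons (P.lf 118891599 0 0) (P.cons (P.lf 0 1892316 0) (P.lf 0 630771 0)))) (P.cons (P.cons (P.lf 0 35222522 0) (P.cons (P.lf 17944098 0 0) (P.cons (P.lf 0 285602 0) (P.lf 0 95199 0)))) (P.cons (P.cons (P.lf 8198183 0 0) (P.cons (P.lf 299100 0 0) (P.cons (P.lf 0 4762 0) (P.lf 0 1587 0)))) (P.cons (P.cons (P.lf 592146 0 0) (P.cons (P.lf 0 85764 0) (P.cons (P.lf 1363 0 0) P.nil))) (P.cons (P.cons (P.lf 0 34620 0) (P.cons (P.lf 0 4431 0) P.nil)) (P.cons (P.cons (P.lf 0 3198 0) P.nil) P.nil)))))) 1239)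
 EL.nil))
noncomputable def S183_198_512_586_11 : EL := (EL.cons 3 (TM.mk (P.cons (P.cons (P.lf 0 15564860 0) (P.cons (P.lf 22462680 0 0) (P.cons (P.lf 0 8461867 0) (P.cons (P.lf 138808 0 0) (P.cons (P.lf 83940 0 0) (P.cons (P.lf 0 1367 0) P.nil)))))) (P.cons (P.cons (P.lf 0 3967530 0) (P.cons (P.lf 4314111 0 0) (P.cons (P.lf 0 1115832 0) (P.cons (P.lf 10445 0 0) (P.cons (P.lf 10845 0 0) P.nil))))) (P.cons (P.cons (P.lf 1800630 0 0) (P.cons (P.lf 0 1482488 0) (P.cons (P.lf 123767 0 0) (P.cons (P.lf 4675 0 0) P.nil)))) (P.cons (P.cons (P.lf 232680 0 0) (P.cons (P.lf 0 117497 0) (P.cons (P.lf 24274 0 0) P.nil))) (P.cons (P.cons (P.lf 0 82516 0) (P.cons (P.lf 19038 0 0) P.nil)) (P.cons (P.cons (P.lf 348 0 0) P.nil) P.nil)))))) 12668)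
 (EL.cons 7 (TM.mk (P.cons (P.cons (P.lf 0 14894836 0) (P.cons (P.lf 21495723 0 0) (P.cons (P.lf 0 8097607 0) (P.cons (P.lf 132833 0 0) (P.cons (P.lf 80327 0 0) (P.cons (P.lf 0 1309 0) P.nil)))))) (P.cons (P.cons (P.lf 0 5806255 0) (P.cons (P.lf 7028468 0 0) (P.cons (P.lf 0 2160277 0) (P.cons (P.lf 27917 0 0) (P.cons (P.lf 21216 0 0) P.nil))))) (P.cons (P.cons (P.lf 998194 0 0) (P.cons (P.lf 0 554743 0) (P.cons (P.lf 0 141250 0) (P.cons (P.lf 7720 0 0) P.nil)))) (P.cons (P.cons (P.lf 376567 0 0) (P.cons (P.lf 0 209739 0) (P.cons (P.lf 10721 0 0) P.nil))) (P.cons (P.cons (P.lf 0 33316 0) (P.cons (P.lf 0 6433 0) P.nil)) (P.cons (P.cons (P.lf 0 5352 0) P.nil) P.nil)))))) 8774)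
 EL.nil))
noncomputable def S183_198_512_586_12 : EL := (EL.cons 4 (TM.mk (P.cons (P.lf 1904598495 0 0) (P.cons (P.lf 0 185091918 0) (P.cons (P.lf 0 5095050 0) (P.cons (P.lf 95302 0 0) (P.cons (P.lf 6701 0 0) (P.cons (P.lf 18 0 0) P.nil)))))) 59)
 (EL.cons 8 (TM.mk (P.cons (P.lf 1822610727 0 0) (P.cons (P.lf 68770857 0 0) (P.cons (P.lf 0 2745999 0) (P.cons (P.lf 0 115768 0) (P.cons (P.lf 717 0 0) (P.cons (P.lf 127 0 0) P.nil)))))) 49)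
 EL.nil))
noncomputable def S183_198_512_586_13 : EL := (EL.cons 4 (TM.mk (P.cons (P.cons (P.lf 172176688 0 0) (P.cons (P.lf 0 124239782 0) (P.cons (P.lf 1977439 0 0) (P.lf 659145 0 0)))) (P.cons (P.cons (P.lf 13577974 0 0) (P.cons (P.lf 0 1989646 0) (P.cons (P.lf 31665 0 0) (P.lf 10553 0 0)))) (P.cons (P.cons (P.lf 0 12857440 0) (P.cons (P.lf 1729972 0 0) (P.cons (P.lf 0 27531 0) (P.lf 0 9177 0)))) (P.cons (P.cons (P.lf 640450 0 0) (P.cons (P.lf 87777 0 0) (P.cons (P.lf 0 1395 0) P.nil))) (P.cons (P.cons (P.lf 78935 0 0) (P.cons (P.lf 0 5400 0) P.nil)) (P.cons (P.cons (P.lf 0 1662 0) P.nil) P.nil)))))) 1843)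
 (EL.cons 8 (TM.mk (P.cons (P.cons (P.lf 164764951 0 0) (P.cons (P.lf 0 118891599 0) (P.cons (P.lf 1892316 0 0) (P.lf 630771 0 0)))) (P.cons (P.cons (P.lf 35222522 0 0) (P.cons (P.lf 0 17944098 0) (P.cons (P.lf 285602 0 0) (P.lf 95199 0 0)))) (P.cons (P.cons (P.lf 0 8198183 0) (P.cons (P.lf 0 299100 0) (P.cons (P.lf 4762 0 0) (P.lf 1587 0 0)))) (P.cons (P.cons (P.lf 0 592146 0) (P.cons (P.lf 85764 0 0) (P.cons (P.lf 0 1363 0) P.nil))) (P.cons (P.cons (P.lf 34620 0 0) (P.cons (P.lf 4431 0 0) P.nil)) (P.cons (P.cons (P.lf 3198 0 0) P.nil) P.nil)))))) 1239)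
 EL.nil))
noncomputable def S183_198_512_586_14 : EL := (EL.cons 4 (TM.mk (P.cons (P.cons (P.lf 15564860 0 0) (P.cons (P.lf 0 22462680 0) (P.cons (P.lf 8461867 0 0) (P.cons (P.lf 0 138808 0) (P.cons (P.lf 0 83940 0) (P.cons (P.lf 1367 0 0) P.nil)))))) (P.cons (P.cons (P.lf 3967530 0 0) (P.cons (P.lf 0 4314111 0) (P.cons (P.lf 1115832 0 0) (P.cons (P.lf 0 10445 0) (P.cons (P.lf 0 10845 0) P.nil))))) (P.cons (P.cons (P.lf 0 1800630 0) (P.cons (P.lf 1482488 0 0) (P.cons (P.lf 0 123767 0) (P.cons (P.lf 0 4675 0) P.nil)))) (P.cons (P.cons (P.lf 0 232680 0) (P.cons (P.lf 117497 0 0) (P.cons (P.lf 0 24274 0) P.nil))) (P.cons (P.cons (P.lf 82516 0 0) (P.cons (P.lf 0 19038 0) P.nil)) (P.cons (P.cons (P.lf 0 348 0) P.nil) P.nil)))))) 12668)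
 (EL.cons 8 (TM.mk (P.cons (P.cons (P.lf 14894836 0 0) (P.cons (P.lf 0 21495723 0) (P.cons (P.lf 8097607 0 0) (P.cons (P.lf 0 132833 0) (P.cons (P.lf 0 80327 0) (P.cons (P.lf 1309 0 0) P.nil)))))) (P.cons (P.cons (P.lf 5806255 0 0) (P.cons (P.lf 0 7028468 0) (P.cons (P.lf 2160277 0 0) (P.cons (P.lf 0 27917 0) (P.cons (P.lf 0 21216 0) P.nil))))) (P.cons (P.cons (P.lf 0 998194 0) (P.cons (P.lf 554743 0 0) (P.cons (P.lf 141250 0 0) (P.cons (P.lf 0 7720 0) P.nil)))) (P.cons (P.cons (P.lf 0 376567 0) (P.cons (P.lf 209739 0 0) (P.cons (P.lf 0 10721 0) P.nil))) (P.cons (P.cons (P.lf 33316 0 0) (P.cons (P.lf 6433 0 0) P.nil)) (P.cons (P.cons (P.lf 5352 0 0) P.nil) P.nil)))))) 8774)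
 EL.nil))
noncomputable def S183_198_512_586_15 : EL := (EL.cons 4 (TM.mk (P.cons (P.lf 0 900898234 0) (P.cons (P.lf 175101453 0 0) (P.cons (P.lf 0 3688277 0) (P.cons (P.lf 0 558577 0) (P.cons (P.lf 0 4024 0) (P.cons (P.lf 839 0 0) P.nil)))))) 89)
 (EL.cons 8 (TM.mk (P.cons (P.lf 0 862117024 0) (P.cons (P.lf 51252455 0 0) (P.cons (P.lf 6766430 0 0) (P.cons (P.lf 0 27586 0) (P.cons (P.lf 0 13796 0) (P.cons (P.lf 0 231 0) P.nil)))))) 71)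
 EL.nil))
noncomputable def S183_198_512_586_16 : EL := (EL.cons 4 (TM.mk (P.cons (P.cons (P.lf 0 81441665 0) (P.cons (P.lf 58766926 0 0) (P.cons (P.lf 0 935352 0) (P.lf 0 311783 0)))) (P.cons (P.cons (P.lf 1492082 0 0) (P.cons (P.lf 0 4769936 0) (P.cons (P.lf 75919 0 0) (P.lf 25306 0 0)))) (P.cons (P.cons (P.lf 6923745 0 0) (P.cons (P.lf 0 1066966 0) (P.cons (P.lf 16980 0 0) (P.lf 5659 0 0)))) (P.cons (P.cons (P.lf 0 880866 0) (P.cons (P.lf 38426 0 0) (P.cons (P.lf 0 611 0) P.nil))) (P.cons (P.cons (P.lf 0 24774 0) (P.cons (P.lf 9031 0 0) P.nil)) (P.cons (P.cons (P.lf 5505 0 0) P.nil) P.nil)))))) 1669)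
 (EL.cons 8 (TM.mk (P.cons (P.cons (P.lf 0 77935824 0) (P.cons (P.lf 56237171 0 0) (P.cons (P.lf 0 895088 0) (P.lf 0 298362 0)))) (P.cons (P.cons (P.lf 0 9086753 0) (P.cons (P.lf 3022558 0 0) (P.cons (P.lf 0 48107 0) (P.lf 0 16034 0)))) (P.cons (P.cons (P.lf 5705440 0 0) (P.cons (P.lf 0 833819 0) (P.cons (P.lf 13269 0 0) (P.lf 4423 0 0)))) (P.cons (P.cons (P.lf 0 56092 0) (P.cons (P.lf 0 74208 0) (P.cons (P.lf 1180 0 0) P.nil))) (P.cons (P.cons (P.lf 0 55077 0) (P.cons (P.lf 2089 0 0) P.nil)) (P.cons (P.cons (P.lf 0 536 0) P.nil) P.nil)))))) 1437)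
 EL.nil))
noncomputable def S183_198_512_586_17 : EL := (EL.cons 4 (TM.mk (P.cons (P.cons (P.lf 0 7362368 0) (P.cons (P.lf 10625120 0 0) (P.cons (P.lf 0 4002566 0) (P.cons (P.lf 65657 0 0) (P.cons (P.lf 39705 0 0) (P.cons (P.lf 0 646 0) P.nil)))))) (P.cons (P.cons (P.lf 0 1161202 0) (P.cons (P.lf 1008060 0 0) (P.cons (P.lf 0 138825 0) (P.cons (P.lf 0 1439 0) (P.cons (P.lf 1271 0 0) P.nil))))) (P.cons (P.cons (P.lf 1053795 0 0) (P.cons (P.lf 0 927969 0) (P.cons (P.lf 120543 0 0) (P.cons (P.lf 1555 0 0) P.nil)))) (P.cons (P.cons (P.lf 31941 0 0) (P.cons (P.lf 7641 0 0) (P.cons (P.lf 7004 0 0) P.nil))) (P.cons (P.cons (P.lf 0 52125 0) (P.cons (P.lf 16422 0 0) P.nil)) (P.cons (P.cons (P.lf 3699 0 0) P.nil) P.nil)))))) 9611)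
 (EL.cons 8 (TM.mk (P.cons (P.cons (P.lf 0 7045438 0) (P.cons (P.lf 10167738 0 0) (P.cons (P.lf 0 3830266 0) (P.cons (P.lf 62831 0 0) (P.cons (P.lf 37995 0 0) (P.cons (P.lf 0 619 0) P.nil)))))) (P.cons (P.cons (P.lf 0 2061742 0) (P.cons (P.lf 2336433 0 0) (P.cons (P.lf 0 649605 0) (P.cons (P.lf 7098 0 0) (P.cons (P.lf 6342 0 0) P.nil))))) (P.cons (P.cons (P.lf 757907 0 0) (P.cons (P.lf 0 612685 0) (P.cons (P.lf 42736 0 0) (P.cons (P.lf 2200 0 0) P.nil)))) (P.cons (P.cons (P.lf 139230 0 0) (P.cons (P.lf 0 82093 0) (P.cons (P.lf 14106 0 0) P.nil))) (P.cons (P.cons (P.lf 0 34493 0) (P.cons (P.lf 7502 0 0) P.nil)) (P.cons (P.cons (P.lf 0 1463 0) P.nil) P.nil)))))) 7436)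
 EL.nil))
noncomputable def S183_198_512_586_18 : EL := (EL.cons 4 (TM.mk (P.cons (P.lf 426135812 0 0) (P.cons (P.lf 0 124237673 0) (P.cons (P.lf 8653707 0 0) (P.cons (P.lf 337561 0 0) (P.cons (P.lf 0 31084 0) (P.cons (P.lf 0 1487 0) P.nil)))))) 136)
 (EL.cons 8 (TM.mk (P.cons (P.lf 407791829 0 0) (P.cons (P.lf 0 63872894 0) (P.cons (P.lf 0 1935523 0) (P.cons (P.lf 409346 0 0) (P.cons (P.lf 14041 0 0) (P.cons (P.lf 0 800 0) P.nil)))))) 99)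
 EL.nil))
noncomputable def S183_198_512_586_19 : EL := (EL.cons 4 (TM.mk (P.cons (P.cons (P.lf 38522896 0 0) (P.cons (P.lf 0 27797470 0) (P.cons (P.lf 442432 0 0) (P.lf 147477 0 0)))) (P.cons (P.cons (P.lf 0 4449489 0) (P.cons (P.lf 4957639 0 0) (P.cons (P.lf 0 78907 0) (P.lf 0 26302 0)))) (P.cons (P.cons (P.lf 0 3309480 0) (P.cons (P.lf 359785 0 0) (P.cons (P.lf 0 5725 0) (P.lf 0 1907 0)))) (P.cons (P.cons (P.lf 738747 0 0) (P.cons (P.lf 0 74648 0) (P.cons (P.lf 1187 0 0) P.nil))) (P.cons (P.cons (P.lf 0 19911 0) (P.cons (P.lf 0 3840 0) P.nil)) (P.cons (P.cons (P.lf 0 5023 0) P.nil) P.nil)))))) 2109)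
 (EL.cons 8 (TM.mk (P.cons (P.cons (P.lf 36864591 0 0) (P.cons (P.lf 0 26600865 0) (P.cons (P.lf 423387 0 0) (P.lf 141128 0 0)))) (P.cons (P.cons (P.lf 715585 0 0) (P.cons (P.lf 1155407 0 0) (P.cons (P.lf 0 18389 0) (P.lf 0 6130 0)))) (P.cons (P.cons (P.lf 0 3215060 0) (P.cons (P.lf 604508 0 0) (P.cons (P.lf 0 9620 0) (P.lf 0 3206 0)))) (P.cons (P.cons (P.lf 279146 0 0) (P.cons (P.lf 0 733 0) (P.cons (P.lf 11 0 0) P.nil))) (P.cons (P.cons (P.lf 31038 0 0) (P.cons (P.lf 0 5619 0) P.nil)) (P.cons (P.cons (P.lf 0 2468 0) P.nil) P.nil)))))) 1314)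
 EL.nil))
noncomputable def S183_198_512_586_20 : EL := (EL.cons 4 (TM.mk (P.cons (P.cons (P.lf 3482489 0 0) (P.cons (P.lf 0 5025810 0) (P.cons (P.lf 1893262 0 0) (P.cons (P.lf 0 31056 0) (P.cons (P.lf 0 18780 0) (P.cons (P.lf 305 0 0) P.nil)))))) (P.cons (P.cons (P.lf 210828 0 0) (P.cons (P.lf 11590 0 0) (P.cons (P.lf 0 118322 0) (P.cons (P.lf 3698 0 0) (P.cons (P.lf 1223 0 0) P.nil))))) (P.cons (P.cons (P.lf 0 561151 0) (P.cons (P.lf 498723 0 0) (P.cons (P.lf 0 68464 0) (P.cons (P.lf 0 719 0) P.nil)))) (P.cons (P.cons (P.lf 32036 0 0) (P.cons (P.lf 0 45247 0) (P.cons (P.lf 2146 0 0) P.nil))) (P.cons (P.cons (P.lf 27496 0 0) (P.cons (P.lf 0 8631 0) P.nil)) (P.cons (P.cons (P.lf 0 4128 0) P.nil) P.nil)))))) 7813)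
 (EL.cons 8 (TM.mk (P.cons (P.cons (P.lf 3332578 0 0) (P.cons (P.lf 0 4809463 0) (P.cons (P.lf 1811762 0 0) (P.cons (P.lf 0 29720 0) (P.cons (P.lf 0 17972 0) (P.cons (P.lf 292 0 0) P.nil)))))) (P.cons (P.cons (P.lf 651363 0 0) (P.cons (P.lf 0 637770 0) (P.cons (P.lf 131201 0 0) (P.cons (P.lf 0 470 0) (P.cons (P.lf 0 1253 0) P.nil))))) (P.cons (P.cons (P.lf 0 462188 0) (P.cons (P.lf 410074 0 0) (P.cons (P.lf 0 54922 0) (P.cons (P.lf 0 634 0) P.nil)))) (P.cons (P.cons (P.lf 0 33460 0) (P.cons (P.lf 13383 0 0) (P.cons (P.lf 0 5438 0) P.nil))) (P.cons (P.cons (P.lf 23735 0 0) (P.cons (P.lf 0 8169 0) P.nil)) (P.cons (P.cons (P.lf 0 731 0) P.nil) P.nil)))))) 5270)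
 EL.nil))
noncomputable def S183_198_512_586_21 : EL := (EL.cons 4 (TM.mk (P.cons (P.cons (P.lf 0 803305665 0) (P.cons (P.lf 372719346 0 0) (P.cons (P.lf 0 5932317 0) (P.lf 0 1977435 0)))) (P.cons (P.cons (P.lf 484570434 0 0) (P.cons (P.lf 5968938 0 0) (P.cons (P.lf 0 94995 0) (P.lf 0 31659 0)))) (P.cons (P.cons (P.lf 27507489 0 0) (P.cons (P.lf 0 5189916 0) (P.cons (P.lf 82593 0 0) (P.lf 27531 0 0)))) (P.cons (P.cons (P.lf 0 3597081 0) (P.cons (P.lf 0 263331 0) (P.cons (P.lf 4185 0 0) P.nil))) (P.cons (P.cons (P.lf 0 248883 0) (P.cons (P.lf 16200 0 0) P.nil)) (P.cons (P.cons (P.lf 7497 0 0) P.nil) P.nil)))))) 5844)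
 (EL.cons 8 (TM.mk (P.cons (P.cons (P.lf 298468026 0 0) (P.cons (P.lf 0 138483792 0) (P.cons (P.lf 2204154 0 0) (P.lf 734721 0 0)))) (P.cons (P.cons (P.lf 0 220309446 0) (P.cons (P.lf 16465590 0 0) (P.cons (P.lf 0 262068 0) (P.lf 0 87351 0)))) (P.cons (P.cons (P.lf 15240333 0 0) (P.cons (P.lf 1684377 0 0) (P.cons (P.lf 0 26811 0) (P.lf 0 8934 0)))) (P.cons (P.cons (P.lf 1938282 0 0) (P.cons (P.lf 0 138093 0) (P.cons (P.lf 2193 0 0) P.nil))) (P.cons (P.cons (P.lf 0 82299 0) (P.cons (P.lf 0 12435 0) P.nil)) (P.cons (P.cons (P.lf 0 9423 0) P.nil) P.nil)))))) 4854)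
 (EL.cons 11 (TM.mk (P.cons (P.cons (P.lf 2278010928 0 0) (P.cons (P.lf 0 84442758 0) (P.cons (P.lf 0 41841690 0) (P.cons (P.lf 379686 0 0) (P.lf 94920 0 0))))) (P.cons (P.cons (P.lf 171908085 0 0) (P.cons (P.lf 0 6372396 0) (P.cons (P.lf 0 3157545 0) (P.cons (P.lf 28650 0 0) (P.lf 7161 0 0))))) (P.cons (P.cons (P.lf 0 3621009 0) (P.cons (P.lf 134223 0 0) (P.cons (P.lf 66507 0 0) (P.cons (P.lf 0 603 0) P.nil)))) (P.cons (P.cons (P.lf 0 548388 0) (P.cons (P.lf 20328 0 0) (P.cons (P.lf 10071 0 0) P.nil))) (P.cons (P.cons (P.lf 0 3954 0) (P.cons (P.lf 144 0 0) P.nil)) (P.cons (P.cons (P.lf 816 0 0) P.nil) P.nil)))))) 672)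
 EL.nil)))
noncomputable def S183_198_512_586_22 : EL := (EL.cons 4 (TM.mk (P.cons (P.cons (P.lf 0 72619245 0) (P.cons (P.lf 86094840 0 0) (P.cons (P.lf 0 25683348 0) (P.cons (P.lf 317175 0 0) (P.cons (P.lf 251823 0 0) (P.cons (P.lf 0 4104 0) P.nil)))))) (P.cons (P.cons (P.lf 31021356 0 0) (P.cons (P.lf 0 19206507 0) (P.cons (P.lf 0 2835804 0) (P.cons (P.lf 201900 0 0) (P.cons (P.lf 32535 0 0) P.nil))))) (P.cons (P.cons (P.lf 14184558 0 0) (P.cons (P.lf 0 7609167 0) (P.cons (P.lf 421626 0 0) (P.cons (P.lf 30801 0 0) P.nil)))) (P.cons (P.cons (P.lf 0 2205306 0) (P.cons (P.lf 0 161898 0) (P.cons (P.lf 69792 0 0) P.nil))) (P.cons (P.cons (P.lf 0 281853 0) (P.cons (P.lf 86232 0 0) P.nil)) (P.cons (P.cons (P.lf 19110 0 0) P.nil) P.nil)))))) 28521)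
 (EL.cons 8 (TM.mk (P.cons (P.cons (P.lf 26981661 0 0) (P.cons (P.lf 0 31988517 0) (P.cons (P.lf 9542640 0 0) (P.cons (P.lf 0 117846 0) (P.cons (P.lf 0 93564 0) (P.cons (P.lf 1524 0 0) P.nil)))))) (P.cons (P.cons (P.lf 0 15166173 0) (P.cons (P.lf 11451858 0 0) (P.cons (P.lf 0 233787 0) (P.cons (P.lf 0 59115 0) (P.cons (P.lf 531 0 0) P.nil))))) (P.cons (P.cons (P.lf 0 3609432 0) (P.cons (P.lf 1738956 0 0) (P.cons (P.lf 0 261378 0) (P.cons (P.lf 0 1785 0) P.nil)))) (P.cons (P.cons (P.lf 1478793 0 0) (P.cons (P.lf 0 285678 0) (P.cons (P.lf 0 2931 0) P.nil))) (P.cons (P.cons (P.lf 0 23496 0) (P.cons (P.lf 0 31065 0) P.nil)) (P.cons (P.cons (P.lf 0 16881 0) P.nil) P.nil)))))) 15969)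
 (EL.cons 11 (TM.mk (P.cons (P.cons (P.lf 205933365 0 0) (P.cons (P.lf 0 156231696 0) (P.cons (P.lf 4090947 0 0) (P.cons (P.lf 3464424 0 0) (P.cons (P.lf 0 88851 0) (P.cons (P.lf 0 20277 0) P.nil)))))) (P.cons (P.cons (P.lf 51793563 0 0) (P.cons (P.lf 0 29954463 0) (P.cons (P.lf 534081 0 0) (P.cons (P.lf 655752 0 0) (P.cons (P.lf 0 16221 0) P.nil))))) (P.cons (P.cons (P.lf 0 8895768 0) (P.cons (P.lf 0 666438 0) (P.cons (P.lf 216180 0 0) (P.cons (P.lf 21513 0 0) P.nil)))) (P.cons (P.cons (P.lf 0 1206132 0) (P.cons (P.lf 181023 0 0) (P.cons (P.lf 14931 0 0) P.nil))) (P.cons (P.cons (P.lf 28068 0 0) (P.cons (P.lf 10470 0 0) P.nil)) (P.cons (P.cons (P.lf 7425 0 0) P.nil) P.nil)))))) 13992)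
 EL.nil)))
noncomputable def S183_198_512_586_23 : EL := (EL.cons 4 (TM.mk (P.cons (P.cons (P.lf 379973340 0 0) (P.cons (P.lf 0 176300778 0) (P.cons (P.lf 2806056 0 0) (P.lf 935349 0 0)))) (P.cons (P.cons (P.lf 0 266134119 0) (P.cons (P.lf 14309808 0 0) (P.cons (P.lf 0 227763 0) (P.lf 0 75921 0)))) (P.cons (P.cons (P.lf 8246913 0 0) (P.cons (P.lf 3200901 0 0) (P.cons (P.lf 0 50940 0) (P.lf 0 16977 0)))) (P.cons (P.cons (P.lf 3598101 0 0) (P.cons (P.lf 0 115278 0) (P.cons (P.lf 1836 0 0) P.nil))) (P.cons (P.cons (P.lf 0 22950 0) (P.cons (P.lf 0 27096 0) P.nil)) (P.cons (P.cons (P.lf 0 20991 0) P.nil) P.nil)))))) 6891)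
 (EL.cons 8 (TM.mk (P.cons (P.cons (P.lf 0 141179001 0) (P.cons (P.lf 65504514 0 0) (P.cons (P.lf 0 1042590 0) (P.lf 0 347529 0)))) (P.cons (P.cons (P.lf 117929046 0 0) (P.cons (P.lf 0 14154255 0) (P.cons (P.lf 225282 0 0) (P.lf 75090 0 0)))) (P.cons (P.cons (P.lf 0 16958391 0) (P.cons (P.lf 0 215070 0) (P.cons (P.lf 3423 0 0) (P.lf 1140 0 0)))) (P.cons (P.cons (P.lf 0 502098 0) (P.cons (P.lf 166860 0 0) (P.cons (P.lf 0 2652 0) P.nil))) (P.cons (P.cons (P.lf 152028 0 0) (P.cons (P.lf 1506 0 0) P.nil)) (P.cons (P.cons (P.lf 3129 0 0) P.nil) P.nil)))))) 4755)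
 (EL.cons 11 (TM.mk (P.cons (P.cons (P.lf 0 1077526851 0) (P.cons (P.lf 39942450 0 0) (P.cons (P.lf 19791627 0 0) (P.cons (P.lf 0 179595 0) (P.lf 0 44898 0))))) (P.cons (P.cons (P.lf 23401164 0 0) (P.cons (P.lf 0 867450 0) (P.cons (P.lf 0 429822 0) (P.cons (P.lf 3900 0 0) (P.lf 975 0 0))))) (P.cons (P.cons (P.lf 12497589 0 0) (P.cons (P.lf 0 463266 0) (P.cons (P.lf 0 229548 0) (P.cons (P.lf 2082 0 0) P.nil)))) (P.cons (P.cons (P.lf 256551 0 0) (P.cons (P.lf 0 9510 0) (P.cons (P.lf 0 4710 0) P.nil))) (P.cons (P.cons (P.lf 0 35778 0) (P.cons (P.lf 1326 0 0) P.nil)) (P.cons (P.cons (P.lf 0 1470 0) P.nil) P.nil)))))) 1803)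
 EL.nil)))
noncomputable def S183_198_512_586_24 : EL := (EL.cons 4 (TM.mk (P.cons (P.cons (P.lf 34349784 0 0) (P.cons (P.lf 0 40723905 0) (P.cons (P.lf 12148533 0 0) (P.cons (P.lf 0 150027 0) (P.cons (P.lf 0 119115 0) (P.cons (P.lf 1941 0 0) P.nil)))))) (P.cons (P.cons (P.lf 0 18011646 0) (P.cons (P.lf 13042524 0 0) (P.cons (P.lf 160755 0 0) (P.cons (P.lf 0 80922 0) (P.cons (P.lf 0 3813 0) P.nil))))) (P.cons (P.cons (P.lf 0 5375367 0) (P.cons (P.lf 2825283 0 0) (P.cons (P.lf 0 362289 0) (P.cons (P.lf 0 4887 0) P.nil)))) (P.cons (P.cons (P.lf 1736145 0 0) (P.cons (P.lf 0 299538 0) (P.cons (P.lf 0 16611 0) P.nil))) (P.cons (P.cons (P.lf 49281 0 0) (P.cons (P.lf 0 57549 0) P.nil)) (P.cons (P.cons (P.lf 0 25173 0) P.nil) P.nil)))))) 21408)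
 (EL.cons 8 (TM.mk (P.cons (P.cons (P.lf 0 12762654 0) (P.cons (P.lf 15130956 0 0) (P.cons (P.lf 0 4513785 0) (P.cons (P.lf 55743 0 0) (P.cons (P.lf 44256 0 0) (P.cons (P.lf 0 720 0) P.nil)))))) (P.cons (P.cons (P.lf 8414079 0 0) (P.cons (P.lf 0 6887319 0) (P.cons (P.lf 549240 0 0) (P.cons (P.lf 22545 0 0) (P.cons (P.lf 0 4551 0) P.nil))))) (P.cons (P.cons (P.lf 1044288 0 0) (P.cons (P.lf 0 336603 0) (P.cons (P.lf 124962 0 0) (P.cons (P.lf 0 2019 0) P.nil)))) (P.cons (P.cons (P.lf 0 885234 0) (P.cons (P.lf 230313 0 0) (P.cons (P.lf 0 11148 0) P.nil))) (P.cons (P.cons (P.lf 74838 0 0) (P.cons (P.lf 3543 0 0) P.nil)) (P.cons (P.cons (P.lf 8886 0 0) P.nil) P.nil)))))) 10953)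
 (EL.cons 11 (TM.mk (P.cons (P.cons (P.lf 0 97408983 0) (P.cons (P.lf 73899489 0 0) (P.cons (P.lf 0 1935066 0) (P.cons (P.lf 0 1638714 0) (P.cons (P.lf 42027 0 0) (P.cons (P.lf 9591 0 0) P.nil)))))) (P.cons (P.cons (P.lf 0 15032622 0) (P.cons (P.lf 6987153 0 0) (P.cons (P.lf 0 64572 0) (P.cons (P.lf 0 150924 0) (P.cons (P.lf 3588 0 0) P.nil))))) (P.cons (P.cons (P.lf 6849237 0 0) (P.cons (P.lf 0 1259403 0) (P.cons (P.lf 0 72528 0) (P.cons (P.lf 24351 0 0) P.nil)))) (P.cons (P.cons (P.lf 222258 0 0) (P.cons (P.lf 0 150465 0) (P.cons (P.lf 3450 0 0) P.nil))) (P.cons (P.cons (P.lf 0 81543 0) (P.cons (P.lf 3492 0 0) P.nil)) (P.cons (P.cons (P.lf 0 3624 0) P.nil) P.nil)))))) 10530)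
 EL.nil)))
noncomputable def S183_198_512_586_25 : EL := (EL.cons 4 (TM.mk (P.cons (P.cons (P.lf 0 179732007 0) (P.cons (P.lf 83392410 0 0) (P.cons (P.lf 0 1327299 0) (P.lf 0 442431 0)))) (P.cons (P.cons (P.lf 143351316 0 0) (P.cons (P.lf 0 14872920 0) (P.cons (P.lf 236721 0 0) (P.lf 78909 0 0)))) (P.cons (P.cons (P.lf 0 15653757 0) (P.cons (P.lf 0 1079355 0) (P.cons (P.lf 17175 0 0) (P.lf 5724 0 0)))) (P.cons (P.cons (P.lf 0 1668603 0) (P.cons (P.lf 223947 0 0) (P.cons (P.lf 0 3564 0) P.nil))) (P.cons (P.cons (P.lf 192354 0 0) (P.cons (P.lf 11520 0 0) P.nil)) (P.cons (P.cons (P.lf 13671 0 0) P.nil) P.nil)))))) 6534)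
 (EL.cons 8 (TM.mk (P.cons (P.cons (P.lf 66779382 0 0) (P.cons (P.lf 0 30984432 0) (P.cons (P.lf 493158 0 0) (P.lf 164385 0 0)))) (P.cons (P.cons (P.lf 0 62271597 0) (P.cons (P.lf 9706251 0 0) (P.cons (P.lf 0 154485 0) (P.lf 0 51492 0)))) (P.cons (P.cons (P.lf 13263852 0 0) (P.cons (P.lf 0 466023 0) (P.cons (P.lf 7416 0 0) (P.lf 2472 0 0)))) (P.cons (P.cons (P.lf 0 389478 0) (P.cons (P.lf 0 108273 0) (P.cons (P.lf 1722 0 0) P.nil))) (P.cons (P.cons (P.lf 0 119007 0) (P.cons (P.lf 6909 0 0) P.nil)) (P.cons (P.cons (P.lf 5076 0 0) P.nil) P.nil)))))) 3957)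
 (EL.cons 11 (TM.mk (P.cons (P.cons (P.lf 509683296 0 0) (P.cons (P.lf 0 18893262 0) (P.cons (P.lf 0 9361680 0) (P.cons (P.lf 84951 0 0) (P.lf 21237 0 0))))) (P.cons (P.cons (P.lf 0 60600870 0) (P.cons (P.lf 2246391 0 0) (P.cons (P.lf 1113093 0 0) (P.cons (P.lf 0 10101 0) (P.lf 0 2523 0))))) (P.cons (P.cons (P.lf 0 6199275 0) (P.cons (P.lf 229797 0 0) (P.cons (P.lf 113865 0 0) (P.cons (P.lf 0 1032 0) P.nil)))) (P.cons (P.cons (P.lf 508251 0 0) (P.cons (P.lf 0 18840 0) (P.cons (P.lf 0 9333 0) P.nil))) (P.cons (P.cons (P.lf 45768 0 0) (P.cons (P.lf 0 1695 0) P.nil)) (P.cons (P.cons (P.lf 0 951 0) P.nil) P.nil)))))) 2064)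
 EL.nil)))
noncomputable def S183_198_512_586_26 : EL := (EL.cons 4 (TM.mk (P.cons (P.cons (P.lf 0 16247865 0) (P.cons (P.lf 19262901 0 0) (P.cons (P.lf 0 5746404 0) (P.cons (P.lf 70965 0 0) (P.cons (P.lf 56340 0 0) (P.cons (P.lf 0 918 0) P.nil)))))) (P.cons (P.cons (P.lf 10098720 0 0) (P.cons (P.lf 0 8041272 0) (P.cons (P.lf 482403 0 0) (P.cons (P.lf 31380 0 0) (P.cons (P.lf 0 3669 0) P.nil))))) (P.cons (P.cons (P.lf 1758117 0 0) (P.cons (P.lf 0 788382 0) (P.cons (P.lf 194127 0 0) (P.cons (P.lf 0 1596 0) P.nil)))) (P.cons (P.cons (P.lf 0 1091916 0) (P.cons (P.lf 289026 0 0) (P.cons (P.lf 0 8880 0) P.nil))) (P.cons (P.cons (P.lf 50061 0 0) (P.cons (P.lf 16785 0 0) P.nil)) (P.cons (P.cons (P.lf 16524 0 0) P.nil) P.nil)))))) 16683)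
 (EL.cons 8 (TM.mk (P.cons (P.cons (P.lf 6036888 0 0) (P.cons (P.lf 0 7157124 0) (P.cons (P.lf 2135073 0 0) (P.cons (P.lf 0 26367 0) (P.cons (P.lf 0 20934 0) (P.cons (P.lf 339 0 0) P.nil)))))) (P.cons (P.cons (P.lf 0 4566636 0) (P.cons (P.lf 3953325 0 0) (P.cons (P.lf 0 467286 0) (P.cons (P.lf 0 8100 0) (P.cons (P.lf 4188 0 0) P.nil))))) (P.cons (P.cons (P.lf 0 123330 0) (P.cons (P.lf 0 138231 0) (P.cons (P.lf 0 39573 0) (P.cons (P.lf 2061 0 0) P.nil)))) (P.cons (P.cons (P.lf 477678 0 0) (P.cons (P.lf 0 133485 0) (P.cons (P.lf 11817 0 0) P.nil))) (P.cons (P.cons (P.lf 0 74946 0) (P.cons (P.lf 8622 0 0) P.nil)) (P.cons (P.cons (P.lf 0 1920 0) P.nil) P.nil)))))) 8151)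
 (EL.cons 11 (TM.mk (P.cons (P.cons (P.lf 46075632 0 0) (P.cons (P.lf 0 34955355 0) (P.cons (P.lf 915309 0 0) (P.cons (P.lf 775131 0 0) (P.cons (P.lf 0 19878 0) (P.cons (P.lf 0 4536 0) P.nil)))))) (P.cons (P.cons (P.lf 2632908 0 0) (P.cons (P.lf 92007 0 0) (P.cons (P.lf 0 58404 0) (P.cons (P.lf 0 3936 0) (P.cons (P.lf 234 0 0) P.nil))))) (P.cons (P.cons (P.lf 0 4054050 0) (P.cons (P.lf 1010409 0 0) (P.cons (P.lf 28890 0 0) (P.cons (P.lf 0 20529 0) P.nil)))) (P.cons (P.cons (P.lf 192999 0 0) (P.cons (P.lf 20373 0 0) (P.cons (P.lf 0 5001 0) P.nil))) (P.cons (P.cons (P.lf 57972 0 0) (P.cons (P.lf 0 10449 0) P.nil)) (P.cons (P.cons (P.lf 0 1887 0) P.nil) P.nil)))))) 7839)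
 EL.nil)))
noncomputable def S183_198_512_586_27 : EL := (EL.cons 13 (TM.mk (P.lf 0 4294967296 0) 0)
 EL.nil)
noncomputable def S183_198_512_586_28 : EL := (EL.cons 13 (TM.mk (P.cons (P.cons (P.lf 0 388267263 0) (P.cons (P.lf 280167084 0 0) (P.cons (P.lf 0 4459228 0) (P.lf 0 1486408 0)))) (P.cons (P.cons (P.lf 0 68351463 0) (P.cons (P.lf 31713840 0 0) (P.cons (P.lf 0 504764 0) (P.lf 0 168252 0)))) (P.cons (P.cons (P.lf 21313019 0 0) (P.cons (P.lf 0 69692 0) (P.cons (P.lf 1104 0 0) (P.lf 368 0 0)))) (P.cons (P.cons (P.lf 463563 0 0) (P.cons (P.lf 0 133896 0) (P.cons (P.lf 2128 0 0) P.nil))) (P.cons (P.cons (P.lf 0 71153 0) (P.cons (P.lf 0 3592 0) P.nil)) (P.cons (P.cons (P.lf 0 2747 0) P.nil) P.nil)))))) 1643)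
 EL.nil)
noncomputable def S183_198_512_586_29 : EL := (EL.cons 13 (TM.mk (P.cons (P.cons (P.lf 0 35099561 0) (P.cons (P.lf 50654498 0 0) (P.cons (P.lf 0 19081947 0) (P.cons (P.lf 313020 0 0) (P.cons (P.lf 189291 0 0) (P.cons (P.lf 0 3086 0) P.nil)))))) (P.cons (P.cons (P.lf 0 12358015 0) (P.cons (P.lf 14651229 0 0) (P.cons (P.lf 0 4370674 0) (P.cons (P.lf 53976 0 0) (P.cons (P.lf 42853 0 0) P.nil))))) (P.cons (P.cons (P.lf 2765649 0 0) (P.cons (P.lf 0 1783751 0) (P.cons (P.lf 0 196691 0) (P.cons (P.lf 16628 0 0) P.nil)))) (P.cons (P.cons (P.lf 762176 0 0) (P.cons (P.lf 0 401653 0) (P.cons (P.lf 24889 0 0) P.nil))) (P.cons (P.cons (P.lf 0 103872 0) (P.cons (P.lf 0 1782 0) P.nil)) (P.cons (P.cons (P.lf 0 7362 0) P.nil) P.nil)))))) 14293)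
 EL.nil)
noncomputable def S183_198_512_586_30 : EL := (EL.cons 13 (TM.mk (P.cons (P.lf 2031571728 0 0) (P.cons (P.lf 0 197431380 0) (P.cons (P.lf 0 5434720 0) (P.cons (P.lf 101656 0 0) (P.cons (P.lf 7148 0 0) (P.cons (P.lf 20 0 0) P.nil)))))) 56)
 EL.nil)
noncomputable def S183_198_512_586_31 : EL := (EL.cons 13 (TM.mk (P.cons (P.cons (P.lf 183655134 0 0) (P.cons (P.lf 0 132522435 0) (P.cons (P.lf 2109269 0 0) (P.lf 703089 0 0)))) (P.cons (P.cons (P.lf 14483173 0 0) (P.cons (P.lf 0 2122290 0) (P.cons (P.lf 33777 0 0) (P.lf 11257 0 0)))) (P.cons (P.cons (P.lf 0 13714603 0) (P.cons (P.lf 1845304 0 0) (P.cons (P.lf 0 29367 0) (P.lf 0 9789 0)))) (P.cons (P.cons (P.lf 683147 0 0) (P.cons (P.lf 93629 0 0) (P.cons (P.lf 0 1488 0) P.nil))) (P.cons (P.cons (P.lf 84198 0 0) (P.cons (P.lf 0 5760 0) P.nil)) (P.cons (P.cons (P.lf 0 1773 0) P.nil) P.nil)))))) 1946)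
 EL.nil)
noncomputable def S183_198_512_586_32 : EL := (EL.cons 13 (TM.mk (P.cons (P.cons (P.lf 16602518 0 0) (P.cons (P.lf 0 23960193 0) (P.cons (P.lf 9025992 0 0) (P.cons (P.lf 0 148062 0) (P.cons (P.lf 0 89536 0) (P.cons (P.lf 1459 0 0) P.nil)))))) (P.cons (P.cons (P.lf 4232032 0 0) (P.cons (P.lf 0 4601719 0) (P.cons (P.lf 1190221 0 0) (P.cons (P.lf 0 11142 0) (P.cons (P.lf 0 11568 0) P.nil))))) (P.cons (P.cons (P.lf 0 1920673 0) (P.cons (P.lf 1581321 0 0) (P.cons (P.lf 0 132019 0) (P.cons (P.lf 0 4987 0) P.nil)))) (P.cons (P.cons (P.lf 0 248193 0) (P.cons (P.lf 125331 0 0) (P.cons (P.lf 0 25893 0) P.nil))) (P.cons (P.cons (P.lf 88018 0 0) (P.cons (P.lf 0 20308 0) P.nil)) (P.cons (P.cons (P.lf 0 372 0) P.nil) P.nil)))))) 13490)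
 EL.nil)
noncomputable def S183_198_512_586_33 : EL := (EL.cons 14 (TM.mk (P.lf 8589934592 0 0) 0)
 EL.nil)
noncomputable def S183_198_512_586_34 : EL := (EL.cons 14 (TM.mk (P.cons (P.cons (P.lf 776534526 0 0) (P.cons (P.lf 0 560334168 0) (P.cons (P.lf 8918456 0 0) (P.lf 2972816 0 0)))) (P.cons (P.cons (P.lf 136702926 0 0) (P.cons (P.lf 0 63427680 0) (P.cons (P.lf 1009528 0 0) (P.lf 336504 0 0)))) (P.cons (P.cons (P.lf 0 42626038 0) (P.cons (P.lf 139384 0 0) (P.cons (P.lf 0 2208 0) (P.lf 0 736 0)))) (P.cons (P.cons (P.lf 0 927126 0) (P.cons (P.lf 267792 0 0) (P.cons (P.lf 0 4256 0) P.nil))) (P.cons (P.cons (P.lf 142306 0 0) (P.cons (P.lf 7184 0 0) P.nil)) (P.cons (P.cons (P.lf 5494 0 0) P.nil) P.nil)))))) 3286)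
 EL.nil)
noncomputable def S183_198_512_586_35 : EL := (EL.cons 14 (TM.mk (P.cons (P.cons (P.lf 70199122 0 0) (P.cons (P.lf 0 101308996 0) (P.cons (P.lf 38163894 0 0) (P.cons (P.lf 0 626040 0) (P.cons (P.lf 0 378582 0) (P.cons (P.lf 6172 0 0) P.nil)))))) (P.cons (P.cons (P.lf 24716030 0 0) (P.cons (P.lf 0 29302458 0) (P.cons (P.lf 8741348 0 0) (P.cons (P.lf 0 107952 0) (P.cons (P.lf 0 85706 0) P.nil))))) (P.cons (P.cons (P.lf 0 5531298 0) (P.cons (P.lf 3567502 0 0) (P.cons (P.lf 393382 0 0) (P.cons (P.lf 0 33256 0) P.nil)))) (P.cons (P.cons (P.lf 0 1524352 0) (P.cons (P.lf 803306 0 0) (P.cons (P.lf 0 49778 0) P.nil))) (P.cons (P.cons (P.lf 207744 0 0) (P.cons (P.lf 3564 0 0) P.nil)) (P.cons (P.cons (P.lf 14724 0 0) P.nil) P.nil)))))) 28586)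
 EL.nil)
noncomputable def S183_198_512_586_36 : EL := (EL.cons 14 (TM.mk (P.cons (P.lf 0 4063143456 0) (P.cons (P.lf 394862760 0 0) (P.cons (P.lf 10869440 0 0) (P.cons (P.lf 0 203312 0) (P.cons (P.lf 0 14296 0) (P.cons (P.lf 0 40 0) P.nil)))))) 112)
 EL.nil)
noncomputable def S183_198_512_586_37 : EL := (EL.cons 14 (TM.mk (P.cons (P.cons (P.lf 0 367310268 0) (P.cons (P.lf 265044870 0 0) (P.cons (P.lf 0 4218538 0) (P.lf 0 1406178 0)))) (P.cons (P.cons (P.lf 0 28966346 0) (P.cons (P.lf 4244580 0 0) (P.cons (P.lf 0 67554 0) (P.lf 0 22514 0)))) (P.cons (P.cons (P.lf 27429206 0 0) (P.cons (P.lf 0 3690608 0) (P.cons (P.lf 58734 0 0) (P.lf 19578 0 0)))) (P.cons (P.cons (P.lf 0 1366294 0) (P.cons (P.lf 0 187258 0) (P.cons (P.lf 2976 0 0) P.nil))) (P.cons (P.cons (P.lf 0 168396 0) (P.cons (P.lf 11520 0 0) P.nil)) (P.cons (P.cons (P.lf 3546 0 0) P.nil) P.nil)))))) 3892)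
 EL.nil)
noncomputable def S183_198_512_586_38 : EL := (EL.cons 14 (TM.mk (P.cons (P.cons (P.lf 0 33205036 0) (P.cons (P.lf 47920386 0 0) (P.cons (P.lf 0 18051984 0) (P.cons (P.lf 296124 0 0) (P.cons (P.lf 179072 0 0) (P.cons (P.lf 0 2918 0) P.nil)))))) (P.cons (P.cons (P.lf 0 8464064 0) (P.cons (P.lf 9203438 0 0) (P.cons (P.lf 0 2380442 0) (P.cons (P.lf 22284 0 0) (P.cons (P.lf 23136 0 0) P.nil))))) (P.cons (P.cons (P.lf 3841346 0 0) (P.cons (P.lf 0 3162642 0) (P.cons (P.lf 264038 0 0) (P.cons (P.lf 9974 0 0) P.nil)))) (P.cons (P.cons (P.lf 496386 0 0) (P.cons (P.lf 0 250662 0) (P.cons (P.lf 51786 0 0) P.nil))) (P.cons (P.cons (P.lf 0 176036 0) (P.cons (P.lf 40616 0 0) P.nil)) (P.cons (P.cons (P.lf 744 0 0) P.nil) P.nil)))))) 26980)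
 EL.nil)
noncomputable def S183_198_512_586_39 : EL := (EL.cons 14 (TM.mk (P.cons (P.lf 1921916234 0 0) (P.cons (P.lf 0 373549768 0) (P.cons (P.lf 7868326 0 0) (P.cons (P.lf 1191632 0 0) (P.cons (P.lf 8586 0 0) (P.cons (P.lf 0 1790 0) P.nil)))))) 176)
 EL.nil)
noncomputable def S183_198_512_586_40 : EL := (EL.cons 14 (TM.mk (P.cons (P.cons (P.lf 173742220 0 0) (P.cons (P.lf 0 125369444 0) (P.cons (P.lf 1995418 0 0) (P.lf 665138 0 0)))) (P.cons (P.cons (P.lf 0 3183110 0) (P.cons (P.lf 10175864 0 0) (P.cons (P.lf 0 161962 0) (P.lf 0 53988 0)))) (P.cons (P.cons (P.lf 0 14770658 0) (P.cons (P.lf 2276196 0 0) (P.cons (P.lf 0 36226 0) (P.lf 0 12074 0)))) (P.cons (P.cons (P.lf 1879182 0 0) (P.cons (P.lf 0 81976 0) (P.cons (P.lf 1304 0 0) P.nil))) (P.cons (P.cons (P.lf 52852 0 0) (P.cons (P.lf 0 19268 0) P.nil)) (P.cons (P.cons (P.lf 0 11746 0) P.nil) P.nil)))))) 3520)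
 EL.nil)
noncomputable def S183_198_512_586_41 : EL := (EL.cons 14 (TM.mk (P.cons (P.cons (P.lf 15706386 0 0) (P.cons (P.lf 0 22666924 0) (P.cons (P.lf 8538808 0 0) (P.cons (P.lf 0 140070 0) (P.cons (P.lf 0 84704 0) (P.cons (P.lf 1380 0 0) P.nil)))))) (P.cons (P.cons (P.lf 2477232 0 0) (P.cons (P.lf 0 2150530 0) (P.cons (P.lf 296162 0 0) (P.cons (P.lf 3070 0 0) (P.cons (P.lf 0 2712 0) P.nil))))) (P.cons (P.cons (P.lf 0 2248096 0) (P.cons (P.lf 1979668 0 0) (P.cons (P.lf 0 257160 0) (P.cons (P.lf 0 3318 0) P.nil)))) (P.cons (P.cons (P.lf 0 68142 0) (P.cons (P.lf 0 16302 0) (P.cons (P.lf 0 14942 0) P.nil))) (P.cons (P.cons (P.lf 111202 0 0) (P.cons (P.lf 0 35034 0) P.nil)) (P.cons (P.cons (P.lf 0 7892 0) P.nil) P.nil)))))) 20458)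
 EL.nil)
noncomputable def S183_198_512_586_42 : EL := (EL.cons 14 (TM.mk (P.cons (P.lf 0 909089734 0) (P.cons (P.lf 265040370 0 0) (P.cons (P.lf 0 18461242 0) (P.cons (P.lf 0 720132 0) (P.cons (P.lf 66314 0 0) (P.cons (P.lf 3174 0 0) P.nil)))))) 276)
 EL.nil)
noncomputable def S183_198_512_586_43 : EL := (EL.cons 14 (TM.mk (P.cons (P.cons (P.lf 0 82182180 0) (P.cons (P.lf 59301270 0 0) (P.cons (P.lf 0 943856 0) (P.lf 0 314618 0)))) (P.cons (P.cons (P.lf 9492244 0 0) (P.cons (P.lf 0 10576298 0) (P.cons (P.lf 168336 0 0) (P.lf 56112 0 0)))) (P.cons (P.cons (P.lf 7060226 0 0) (P.cons (P.lf 0 767542 0) (P.cons (P.lf 12214 0 0) (P.lf 4070 0 0)))) (P.cons (P.cons (P.lf 0 1575994 0) (P.cons (P.lf 159250 0 0) (P.cons (P.lf 0 2534 0) P.nil))) (P.cons (P.cons (P.lf 42478 0 0) (P.cons (P.lf 8194 0 0) P.nil)) (P.cons (P.cons (P.lf 10716 0 0) P.nil) P.nil)))))) 4460)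
 EL.nil)
noncomputable def S183_198_512_586_44 : EL := (EL.cons 14 (TM.mk (P.cons (P.cons (P.lf 0 7429310 0) (P.cons (P.lf 10721730 0 0) (P.cons (P.lf 0 4038960 0) (P.cons (P.lf 66254 0 0) (P.cons (P.lf 40066 0 0) (P.cons (P.lf 0 652 0) P.nil)))))) (P.cons (P.cons (P.lf 0 449768 0) (P.cons (P.lf 0 24726 0) (P.cons (P.lf 252422 0 0) (P.cons (P.lf 0 7890 0) (P.cons (P.lf 0 2610 0) P.nil))))) (P.cons (P.cons (P.lf 1197124 0 0) (P.cons (P.lf 0 1063944 0) (P.cons (P.lf 146058 0 0) (P.cons (P.lf 1534 0 0) P.nil)))) (P.cons (P.cons (P.lf 0 68344 0) (P.cons (P.lf 96528 0 0) (P.cons (P.lf 0 4580 0) P.nil))) (P.cons (P.cons (P.lf 0 58660 0) (P.cons (P.lf 18414 0 0) P.nil)) (P.cons (P.cons (P.lf 8808 0 0) P.nil) P.nil)))))) 16622)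
 EL.nil)
noncomputable def S183_198_512_586_45 : EL := (EL.cons 14 (TM.mk (P.cons (P.cons (P.lf 6346036 0 0) (P.cons (P.lf 0 13737578 0) (P.cons (P.lf 10131454 0 0) (P.cons (P.lf 0 2626970 0) (P.cons (P.lf 11174 0 0) (P.cons (P.lf 37810 0 0) P.nil)))))) (P.cons (P.cons (P.lf 3351512 0 0) (P.cons (P.lf 0 6391830 0) (P.cons (P.lf 4090988 0 0) (P.cons (P.lf 0 902758 0) (P.cons (P.lf 0 2656 0) P.nil))))) (P.cons (P.cons (P.lf 0 455044 0) (P.cons (P.lf 538354 0 0) (P.cons (P.lf 0 35552 0) (P.cons (P.lf 0 91870 0) P.nil)))) (P.cons (P.cons (P.lf 0 356054 0) (P.cons (P.lf 428604 0 0) (P.cons (P.lf 0 130386 0) P.nil))) (P.cons (P.cons (P.lf 20464 0 0) (P.cons (P.lf 0 4668 0) P.nil)) (P.cons (P.cons (P.lf 13252 0 0) P.nil) P.nil)))))) 67004)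
 EL.nil)
noncomputable def S183_198_512_586_46 : EL := (EL.cons 15 (TM.mk (P.lf 4294967296 0 0) 0)
 EL.nil)
noncomputable def S183_198_512_586_47 : EL := (EL.cons 15 (TM.mk (P.cons (P.cons (P.lf 388267263 0 0) (P.cons (P.lf 0 280167084 0) (P.cons (P.lf 4459228 0 0) (P.lf 1486408 0 0)))) (P.cons (P.cons (P.lf 68351463 0 0) (P.cons (P.lf 0 31713840 0) (P.cons (P.lf 504764 0 0) (P.lf 168252 0 0)))) (P.cons (P.cons (P.lf 0 21313019 0) (P.cons (P.lf 69692 0 0) (P.cons (P.lf 0 1104 0) (P.lf 0 368 0)))) (P.cons (P.cons (P.lf 0 463563 0) (P.cons (P.lf 133896 0 0) (P.cons (P.lf 0 2128 0) P.nil))) (P.cons (P.cons (P.lf 71153 0 0) (P.cons (P.lf 3592 0 0) P.nil)) (P.cons (P.cons (P.lf 2747 0 0) P.nil) P.nil)))))) 1643)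
 EL.nil)
noncomputable def S183_198_512_586_48 : EL := (EL.cons 15 (TM.mk (P.cons (P.cons (P.lf 35099561 0 0) (P.cons (P.lf 0 50654498 0) (P.cons (P.lf 19081947 0 0) (P.cons (P.lf 0 313020 0) (P.cons (P.lf 0 189291 0) (P.cons (P.lf 3086 0 0) P.nil)))))) (P.cons (P.cons (P.lf 12358015 0 0) (P.cons (P.lf 0 14651229 0) (P.cons (P.lf 4370674 0 0) (P.cons (P.lf 0 53976 0) (P.cons (P.lf 0 42853 0) P.nil))))) (P.cons (P.cons (P.lf 0 2765649 0) (P.cons (P.lf 1783751 0 0) (P.cons (P.lf 196691 0 0) (P.cons (P.lf 0 16628 0) P.nil)))) (P.cons (P.cons (P.lf 0 762176 0) (P.cons (P.lf 401653 0 0) (P.cons (P.lf 0 24889 0) P.nil))) (P.cons (P.cons (P.lf 103872 0 0) (P.cons (P.lf 1782 0 0) P.nil)) (P.cons (P.cons (P.lf 7362 0 0) P.nil) P.nil)))))) 14293)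
 EL.nil)
noncomputable def S183_198_512_586 : SL := (SL.cons S183_198_512_586_0 (SL.cons S183_198_512_586_1 (SL.cons S183_198_512_586_2 (SL.cons S183_198_512_586_3 (SL.cons S183_198_512_586_4 (SL.cons S183_198_512_586_5 (SL.cons S183_198_512_586_6 (SL.cons S183_198_512_586_7 (SL.cons S183_198_512_586_8 (SL.cons S183_198_512_586_9 (SL.cons S183_198_512_586_10 (SL.cons S183_198_512_586_11 (SL.cons S183_198_512_586_12 (SL.cons S183_198_512_586_13 (SL.cons S183_198_512_586_14 (SL.cons S183_198_512_586_15 (SL.cons S183_198_512_586_16 (SL.cons S183_198_512_586_17 (SL.cons S183_198_512_586_18 (SL.cons S183_198_512_586_19 (SL.cons S183_198_512_586_20 (SL.cons S183_198_512_586_21 (SL.cons S183_198_512_586_22 (SL.cons S183_198_512_586_23 (SL.cons S183_198_512_586_24 (SL.cons S183_198_512_586_25 (SL.cons S183_198_512_586_26 (SL.cons S183_198_512_586_27 (SL.cons S183_198_512_586_28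 (SL.cons S183_198_512_586_29 (SL.cons S183_198_512_586_30 (SL.cons S183_198_512_586_31 (SL.cons S183_198_512_586_32 (SL.cons S183_198_512_586_33 (SL.cons S183_198_512_586_34 (SL.cons S183_198_512_586_35 (SL.cons S183_198_512_586_36 (SL.cons S183_198_512_586_37 (SL.cons S183_198_512_586_38 (SL.cons S183_198_512_586_39 (SL.cons S183_198_512_586_40 (SL.cons S183_198_512_586_41 (SL.cons S183_198_512_586_42 (SL.cons S183_198_512_586_43 (SL.cons S183_198_512_586_44 (SL.cons S183_198_512_586_45 (SL.cons S183_198_512_586_46 (SL.cons S183_198_512_586_47 (SL.cons S183_198_512_586_48 SL.nil)))))))))))))))))))))))))))))))))))))))))))))))))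
noncomputable def S183_198_512_660_0 : EL := (EL.cons 0 (TM.mk (P.cons (P.lf 6766532673 0 0) (P.cons (P.lf 328315225 0 0) (P.cons (P.lf 0 6915520 0) (P.cons (P.lf 0 1047332 0) (P.cons (P.lf 0 7546 0) (P.cons (P.lf 1573 0 0) P.nil)))))) 161)
 (EL.cons 1 (TM.mk (P.cons (P.lf 0 1616469420 0) (P.cons (P.lf 96098353 0 0) (P.cons (P.lf 12687056 0 0) (P.cons (P.lf 0 51723 0) (P.cons (P.lf 0 25867 0) (P.cons (P.lf 0 433 0) P.nil)))))) 140)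
 (EL.cons 5 (TM.mk (P.cons (P.lf 4895566122 0 0) (P.cons (P.lf 0 116734300 0) (P.cons (P.lf 2458850 0 0) (P.cons (P.lf 372384 0 0) (P.cons (P.lf 2686 0 0) (P.cons (P.lf 0 556 0) P.nil)))))) 123)
 (EL.cons 9 (TM.mk (P.lf 6442450944 0 0) 2)
 EL.nil))))
noncomputable def S183_198_512_660_1 : EL := (EL.cons 0 (TM.mk (P.cons (P.cons (P.lf 0 209227011 0) (P.cons (P.lf 0 211070242 0) (P.cons (P.lf 14111669 0 0) (P.lf 4703892 0 0)))) (P.cons (P.cons (P.lf 540239135 0 0) (P.cons (P.lf 0 187043334 0) (P.cons (P.lf 12505279 0 0) (P.lf 4168421 0 0)))) (P.cons (P.cons (P.lf 0 52139087 0) (P.cons (P.lf 0 14978999 0) (P.cons (P.lf 1001454 0 0) (P.lf 333817 0 0)))) (P.cons (P.cons (P.lf 0 8770603 0) (P.cons (P.lf 1050917 0 0) (P.cons (P.lf 0 70260 0) P.nil))) (P.cons (P.cons (P.lf 209892 0 0) (P.cons (P.lf 142481 0 0) P.nil)) (P.cons (P.cons (P.lf 54977 0 0) P.nil) P.nil))))))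 83743)
 (EL.cons 1 (TM.mk (P.cons (P.cons (P.lf 0 156754650 0) (P.cons (P.lf 385092720 0 0) (P.cons (P.lf 0 25746398 0) (P.lf 0 8582127 0)))) (P.cons (P.cons (P.lf 92029073 0 0) (P.cons (P.lf 52255457 0 0) (P.cons (P.lf 0 3493671 0) (P.lf 0 1164551 0)))) (P.cons (P.cons (P.lf 42913543 0 0) (P.cons (P.lf 0 7059791 0) (P.cons (P.lf 471996 0 0) (P.lf 157329 0 0)))) (P.cons (P.cons (P.lf 0 1502202 0) (P.cons (P.lf 0 960407 0) (P.cons (P.lf 64201 0 0) P.nil))) (P.cons (P.cons (P.lf 0 431581 0) (P.cons (P.lf 15969 0 0) P.nil)) (P.cons (P.cons (P.lf 0 346 0) P.nil) P.nil)))))) 47144)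
 (EL.cons 5 (TM.mk (P.cons (P.cons (P.lf 268269716 0 0) (P.cons (P.lf 0 832036758 0) (P.cons (P.lf 55628038 0 0) (P.lf 18542678 0 0)))) (P.cons (P.cons (P.lf 0 128656935 0) (P.cons (P.lf 0 36174146 0) (P.cons (P.lf 2418524 0 0) (P.lf 806178 0 0)))) (P.cons (P.cons (P.lf 0 17577832 0) (P.cons (P.lf 5551508 0 0) (P.cons (P.lf 0 371152 0) (P.lf 0 123714 0)))) (P.cons (P.cons (P.lf 2553173 0 0) (P.cons (P.lf 59864 0 0) (P.cons (P.lf 0 4008 0) P.nil))) (P.cons (P.cons (P.lf 52329 0 0) (P.cons (P.lf 0 39026 0) P.nil)) (P.cons (P.cons (P.lf 0 15271 0) P.nil) P.nil)))))) 46163)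
 (EL.cons 9 (TM.mk (P.cons (P.cons (P.lf 171068722 0 0) (P.cons (P.lf 0 800368194 0) (P.cons (P.lf 53510754 0 0) (P.lf 17836914 0 0)))) (P.cons (P.cons (P.lf 55965964 0 0) (P.cons (P.lf 0 90598614 0) (P.cons (P.lf 6057210 0 0) (P.lf 2019066 0 0)))) (P.cons (P.cons (P.lf 0 31867204 0) (P.cons (P.lf 199098 0 0) (P.cons (P.lf 0 13308 0) (P.lf 0 4434 0)))) (P.cons (P.cons (P.lf 0 498760 0) (P.cons (P.lf 382512 0 0) (P.cons (P.lf 0 25572 0) P.nil))) (P.cons (P.cons (P.lf 112003 0 0) (P.cons (P.lf 10260 0 0) P.nil)) (P.cons (P.cons (P.lf 3766 0 0) P.nil) P.nil)))))) 11651)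
 (EL.cons 2 (TM.mk (P.cons (P.cons (P.lf 954391190 0 0) (P.cons (P.lf 0 147763721 0) (P.cons (P.lf 0 71187899 0) (P.cons (P.lf 2693955 0 0) (P.lf 673486 0 0))))) (P.cons (P.cons (P.lf 0 20726966 0) (P.cons (P.lf 3209054 0 0) (P.cons (P.lf 1546020 0 0) (P.cons (P.lf 0 58505 0) (P.lf 0 14625 0))))) (P.cons (P.cons (P.lf 0 11069412 0) (P.cons (P.lf 1713819 0 0) (P.cons (P.lf 825665 0 0) (P.cons (P.lf 0 31244 0) P.nil)))) (P.cons (P.cons (P.lf 0 227233 0) (P.cons (P.lf 35178 0 0) (P.cons (P.lf 16948 0 0) P.nil))) (P.cons (P.cons (P.lf 31691 0 0) (P.cons (P.lf 0 4905 0) P.nil)) (P.cons (P.cons (P.lf 1302 0 0) P.nil) P.nil)))))) 13397)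
 (EL.cons 6 (TM.mk (P.cons (P.cons (P.lf 913307253 0 0) (P.cons (P.lf 0 141402897 0) (P.cons (P.lf 0 68123454 0) (P.cons (P.lf 2577990 0 0) (P.lf 644496 0 0))))) (P.cons (P.cons (P.lf 103382889 0 0) (P.cons (P.lf 0 16006266 0) (P.cons (P.lf 0 7711314 0) (P.cons (P.lf 291816 0 0) (P.lf 72951 0 0))))) (P.cons (P.cons (P.lf 0 227193 0) (P.cons (P.lf 35172 0 0) (P.cons (P.lf 16944 0 0) (P.cons (P.lf 0 639 0) P.nil)))) (P.cons (P.cons (P.lf 0 436488 0) (P.cons (P.lf 67578 0 0) (P.cons (P.lf 32556 0 0) P.nil))) (P.cons (P.cons (P.lf 0 11712 0) (P.cons (P.lf 1812 0 0) P.nil)) (P.cons (P.cons (P.lf 780 0 0) P.nil) P.nil)))))) 7164)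
 EL.nil))))))
noncomputable def S183_198_512_660_2 : EL := (EL.cons 0 (TM.mk (P.cons (P.cons (P.lf 0 15882303 0) (P.cons (P.lf 85419856 0 0) (P.cons (P.lf 0 57701378 0) (P.cons (P.lf 5048249 0 0) (P.cons (P.lf 2084898 0 0) (P.cons (P.lf 0 154921 0) P.nil)))))) (P.cons (P.cons (P.lf 21702019 0 0) (P.cons (P.lf 0 120122650 0) (P.cons (P.lf 31731318 0 0) (P.cons (P.lf 0 492048 0) (P.cons (P.lf 0 950422 0) P.nil))))) (P.cons (P.cons (P.lf 9807362 0 0) (P.cons (P.lf 0 9975576 0) (P.cons (P.lf 7309724 0 0) (P.cons (P.lf 0 665920 0) P.nil)))) (P.cons (P.cons (P.lf 0 6009034 0) (P.cons (P.lf 3885494 0 0) (P.cons (P.lf 0 52612 0) P.nil))) (P.cons (P.cons (P.lf 149695 0 0) (P.cons (P.lf 409955 0 0) P.nil)) (P.cons (P.cons (P.lf 103794 0 0) P.nil) P.nil)))))) 1154368)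
 (EL.cons 1 (TM.mk (P.cons (P.cons (P.lf 0 7184979 0) (P.cons (P.lf 48734489 0 0) (P.cons (P.lf 0 73992572 0) (P.cons (P.lf 8372165 0 0) (P.cons (P.lf 2836571 0 0) (P.cons (P.lf 0 210778 0) P.nil)))))) (P.cons (P.cons (P.lf 2841876 0 0) (P.cons (P.lf 0 13053885 0) (P.cons (P.lf 0 18776951 0) (P.cons (P.lf 2918383 0 0) (P.cons (P.lf 787978 0 0) P.nil))))) (P.cons (P.cons (P.lf 5072750 0 0) (P.cons (P.lf 0 14580070 0) (P.cons (P.lf 1058674 0 0) (P.cons (P.lf 313700 0 0) P.nil)))) (P.cons (P.cons (P.lf 0 353740 0) (P.cons (P.lf 0 1393198 0) (P.cons (P.lf 492235 0 0) P.nil))) (P.cons (P.cons (P.lf 0 443310 0) (P.cons (P.lf 191310 0 0) P.nil)) (P.cons (P.cons (P.lf 4330 0 0) P.nil) P.nil)))))) 595159)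
 (EL.cons 5 (TM.mk (P.cons (P.cons (P.lf 10795146 0 0) (P.cons (P.lf 0 78543756 0) (P.cons (P.lf 136426933 0 0) (P.cons (P.lf 0 15789778 0) (P.cons (P.lf 0 5260382 0) (P.cons (P.lf 390892 0 0) P.nil)))))) (P.cons (P.cons (P.lf 0 4347808 0) (P.cons (P.lf 21497564 0 0) (P.cons (P.lf 15648197 0 0) (P.cons (P.lf 0 2763666 0) (P.cons (P.lf 0 685157 0) P.nil))))) (P.cons (P.cons (P.lf 0 4854061 0) (P.cons (P.lf 10748574 0 0) (P.cons (P.lf 0 1692614 0) (P.cons (P.lf 0 109314 0) P.nil)))) (P.cons (P.cons (P.lf 1479034 0 0) (P.cons (P.lf 0 198331 0) (P.cons (P.lf 0 174459 0) P.nil))) (P.cons (P.cons (P.lf 122351 0 0) (P.cons (P.lf 0 155472 0) P.nil)) (P.cons (P.cons (P.lf 0 28868 0) P.nil) P.nil)))))) 676250)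
 (EL.cons 9 (TM.mk (P.cons (P.cons (P.lf 4542448 0 0) (P.cons (P.lf 0 42504930 0) (P.cons (P.lf 102274317 0 0) (P.cons (P.lf 0 12348394 0) (P.cons (P.lf 0 3987426 0) (P.cons (P.lf 296304 0 0) P.nil)))))) (P.cons (P.cons (P.lf 2972167 0 0) (P.cons (P.lf 0 18717090 0) (P.cons (P.lf 23762145 0 0) (P.cons (P.lf 0 2592906 0) (P.cons (P.lf 0 902721 0) P.nil))))) (P.cons (P.cons (P.lf 0 1206181 0) (P.cons (P.lf 6354450 0 0) (P.cons (P.lf 799752 0 0) (P.cons (P.lf 0 305362 0) P.nil)))) (P.cons (P.cons (P.lf 0 580152 0) (P.cons (P.lf 1043979 0 0) (P.cons (P.lf 0 170439 0) P.nil))) (P.cons (P.cons (P.lf 154911 0 0) (P.cons (P.lf 0 8580 0) P.nil)) (P.cons (P.cons (P.lf 7080 0 0) P.nil) P.nil)))))) 271178)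
 (EL.cons 2 (TM.mk (P.cons (P.cons (P.lf 50684585 0 0) (P.cons (P.lf 0 244981951 0) (P.cons (P.lf 48788122 0 0) (P.cons (P.lf 20661024 0 0) (P.cons (P.lf 0 2634373 0) (P.cons (P.lf 0 516774 0) P.nil)))))) (P.cons (P.cons (P.lf 15480961 0 0) (P.cons (P.lf 0 24089613 0) (P.cons (P.lf 3654185 0 0) (P.cons (P.lf 1920650 0 0) (P.cons (P.lf 0 233330 0) P.nil))))) (P.cons (P.cons (P.lf 0 10389650 0) (P.cons (P.lf 5000906 0 0) (P.cons (P.lf 22938 0 0) (P.cons (P.lf 0 322841 0) P.nil)))) (P.cons (P.cons (P.lf 0 147110 0) (P.cons (P.lf 502616 0 0) (P.cons (P.lf 0 95394 0) P.nil))) (P.cons (P.cons (P.lf 143634 0 0) (P.cons (P.lf 0 23821 0) P.nil)) (P.cons (P.cons (P.lf 4972 0 0) P.nil) P.nil)))))) 247775)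
 (EL.cons 6 (TM.mk (P.cons (P.cons (P.lf 48502752 0 0) (P.cons (P.lf 0 234436146 0) (P.cons (P.lf 46687926 0 0) (P.cons (P.lf 19771620 0 0) (P.cons (P.lf 0 2520966 0) (P.cons (P.lf 0 494526 0) P.nil)))))) (P.cons (P.cons (P.lf 21358236 0 0) (P.cons (P.lf 0 54681258 0) (P.cons (P.lf 9795720 0 0) (P.cons (P.lf 4505436 0 0) (P.cons (P.lf 0 563400 0) P.nil))))) (P.cons (P.cons (P.lf 0 7251114 0) (P.cons (P.lf 0 1672134 0) (P.cons (P.lf 1160412 0 0) (P.cons (P.lf 221346 0 0) P.nil)))) (P.cons (P.cons (P.lf 0 1191288 0) (P.cons (P.lf 414126 0 0) (P.cons (P.lf 37938 0 0) P.nil))) (P.cons (P.cons (P.lf 9786 0 0) (P.cons (P.lf 28836 0 0) P.nil)) (P.cons (P.cons (P.lf 8850 0 0) P.nil) P.nil)))))) 292338)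
 EL.nil))))))
noncomputable def S183_198_512_660_3 : EL := (EL.cons 0 (TM.mk (P.cons (P.lf 1689184190 0 0) (P.cons (P.lf 0 328315225 0) (P.cons (P.lf 6915520 0 0) (P.cons (P.lf 1047332 0 0) (P.cons (P.lf 7546 0 0) (P.cons (P.lf 0 1573 0) P.nil)))))) 161)
 (EL.cons 1 (TM.mk (P.cons (P.lf 1616469420 0 0) (P.cons (P.lf 0 96098353 0) (P.cons (P.lf 0 12687056 0) (P.cons (P.lf 51723 0 0) (P.cons (P.lf 25867 0 0) (P.cons (P.lf 433 0 0) P.nil)))))) 140)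
 (EL.cons 5 (TM.mk (P.cons (P.lf 1546884822 0 0) (P.cons (P.lf 116734300 0 0) (P.cons (P.lf 0 2458850 0) (P.cons (P.lf 0 372384 0) (P.cons (P.lf 0 2686 0) (P.cons (P.lf 556 0 0) P.nil)))))) 116)
 EL.nil)))
noncomputable def S183_198_512_660_4 : EL := (EL.cons 0 (TM.mk (P.cons (P.cons (P.lf 44853516 0 0) (P.cons (P.lf 0 209853253 0) (P.cons (P.lf 14030298 0 0) (P.lf 4676765 0 0)))) (P.cons (P.cons (P.lf 5956171 0 0) (P.cons (P.lf 17033162 0 0) (P.cons (P.lf 0 1138797 0) (P.lf 0 379599 0)))) (P.cons (P.cons (P.lf 0 11023913 0) (P.cons (P.lf 3810079 0 0) (P.cons (P.lf 0 254731 0) (P.lf 0 84909 0)))) (P.cons (P.cons (P.lf 1581103 0 0) (P.cons (P.lf 0 137216 0) (P.cons (P.lf 9174 0 0) P.nil))) (P.cons (P.cons (P.lf 29874 0 0) (P.cons (P.lf 0 32254 0) P.nil)) (P.cons (P.cons (P.lf 0 10411 0) P.nil) P.nil)))))) 13654)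
 (EL.cons 1 (TM.mk (P.cons (P.cons (P.lf 42922693 0 0) (P.cons (P.lf 0 200819643 0) (P.cons (P.lf 13426331 0 0) (P.lf 4475443 0 0)))) (P.cons (P.cons (P.lf 11490631 0 0) (P.cons (P.lf 0 10793379 0) (P.cons (P.lf 721618 0 0) (P.lf 240538 0 0)))) (P.cons (P.cons (P.lf 0 9167465 0) (P.cons (P.lf 2977518 0 0) (P.cons (P.lf 0 199066 0) (P.lf 0 66354 0)))) (P.cons (P.cons (P.lf 241359 0 0) (P.cons (P.lf 264993 0 0) (P.cons (P.lf 0 17715 0) P.nil))) (P.cons (P.cons (P.lf 99433 0 0) (P.cons (P.lf 0 7462 0) P.nil)) (P.cons (P.cons (P.lf 236 0 0) P.nil) P.nil)))))) 11383)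
 (EL.cons 5 (TM.mk (P.cons (P.cons (P.lf 41074988 0 0) (P.cons (P.lf 0 192174906 0) (P.cons (P.lf 12848366 0 0) (P.lf 4282786 0 0)))) (P.cons (P.cons (P.lf 16537568 0 0) (P.cons (P.lf 0 36255772 0) (P.cons (P.lf 2423974 0 0) (P.lf 807990 0 0)))) (P.cons (P.cons (P.lf 0 6702786 0) (P.cons (P.lf 0 1288328 0) (P.cons (P.lf 86134 0 0) (P.lf 28710 0 0)))) (P.cons (P.cons (P.lf 0 728422 0) (P.cons (P.lf 176290 0 0) (P.cons (P.lf 0 11784 0) P.nil))) (P.cons (P.cons (P.lf 26710 0 0) (P.cons (P.lf 14888 0 0) P.nil)) (P.cons (P.cons (P.lf 4956 0 0) P.nil) P.nil)))))) 7938)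
 EL.nil)))
noncomputable def S183_198_512_660_5 : EL := (EL.cons 0 (TM.mk (P.cons (P.cons (P.lf 1191011 0 0) (P.cons (P.lf 0 11144617 0) (P.cons (P.lf 26815906 0 0) (P.cons (P.lf 0 3237697 0) (P.cons (P.lf 0 1045485 0) (P.cons (P.lf 77688 0 0) P.nil)))))) (P.cons (P.cons (P.lf 547801 0 0) (P.cons (P.lf 0 2741440 0) (P.cons (P.lf 1018311 0 0) (P.cons (P.lf 0 50558 0) (P.cons (P.lf 0 33484 0) P.nil))))) (P.cons (P.cons (P.lf 0 462844 0) (P.cons (P.lf 2574330 0 0) (P.cons (P.lf 0 891471 0) (P.cons (P.lf 38816 0 0) P.nil)))) (P.cons (P.cons (P.lf 0 86714 0) (P.cons (P.lf 0 77104 0) (P.cons (P.lf 0 43310 0) P.nil))) (P.cons (P.cons (P.lf 69375 0 0) (P.cons (P.lf 0 51721 0) P.nil)) (P.cons (P.cons (P.lf 0 6853 0) P.nil) P.nil)))))) 191414)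
 (EL.cons 1 (TM.mk (P.cons (P.cons (P.lf 1139741 0 0) (P.cons (P.lf 0 10664870 0) (P.cons (P.lf 25661551 0 0) (P.cons (P.lf 0 3098323 0) (P.cons (P.lf 0 1000479 0) (P.cons (P.lf 74343 0 0) P.nil)))))) (P.cons (P.cons (P.lf 677985 0 0) (P.cons (P.lf 0 4062264 0) (P.cons (P.lf 4436568 0 0) (P.cons (P.lf 0 466387 0) (P.cons (P.lf 0 167021 0) P.nil))))) (P.cons (P.cons (P.lf 0 355920 0) (P.cons (P.lf 1957284 0 0) (P.cons (P.lf 0 355186 0) (P.cons (P.lf 0 13621 0) P.nil)))) (P.cons (P.cons (P.lf 0 133389 0) (P.cons (P.lf 203673 0 0) (P.cons (P.lf 0 100666 0) P.nil))) (P.cons (P.cons (P.lf 49938 0 0) (P.cons (P.lf 0 30558 0) P.nil)) (P.cons (P.cons (P.lf 609 0 0) P.nil) P.nil)))))) 144942)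
 (EL.cons 5 (TM.mk (P.cons (P.cons (P.lf 1090678 0 0) (P.cons (P.lf 0 10205778 0) (P.cons (P.lf 24556892 0 0) (P.cons (P.lf 0 2964948 0) (P.cons (P.lf 0 957412 0) (P.cons (P.lf 71144 0 0) P.nil)))))) (P.cons (P.cons (P.lf 795948 0 0) (P.cons (P.lf 0 5264294 0) (P.cons (P.lf 7558648 0 0) (P.cons (P.lf 0 846324 0) (P.cons (P.lf 0 289000 0) P.nil))))) (P.cons (P.cons (P.lf 0 237492 0) (P.cons (P.lf 1202832 0 0) (P.cons (P.lf 583550 0 0) (P.cons (P.lf 0 115588 0) P.nil)))) (P.cons (P.cons (P.lf 0 162550 0) (P.cons (P.lf 375406 0 0) (P.cons (P.lf 0 41412 0) P.nil))) (P.cons (P.cons (P.lf 26968 0 0) (P.cons (P.lf 15528 0 0) P.nil)) (P.cons (P.cons (P.lf 4796 0 0) P.nil) P.nil)))))) 113976)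
 EL.nil)))
noncomputable def S183_198_512_660_6 : EL := (EL.cons 12 (TM.mk (P.lf 8589934592 0 0) 0)
 (EL.cons 3 (TM.mk (P.cons (P.lf 0 1904598495 0) (P.cons (P.lf 185091918 0 0) (P.cons (P.lf 5095050 0 0) (P.cons (P.lf 0 95302 0) (P.cons (P.lf 0 6701 0) (P.cons (P.lf 0 18 0) P.nil)))))) 59)
 (EL.cons 7 (TM.mk (P.cons (P.lf 0 1822610727 0) (P.cons (P.lf 0 68770857 0) (P.cons (P.lf 2745999 0 0) (P.cons (P.lf 115768 0 0) (P.cons (P.lf 0 717 0) (P.cons (P.lf 0 127 0) P.nil)))))) 49)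
 EL.nil)))
noncomputable def S183_198_512_660_7 : EL := (EL.cons 12 (TM.mk (P.cons (P.cons (P.lf 228091630 0 0) (P.cons (P.lf 0 1067157592 0) (P.cons (P.lf 71347672 0 0) (P.lf 23782552 0 0)))) (P.cons (P.cons (P.lf 74621286 0 0) (P.cons (P.lf 0 120798152 0) (P.cons (P.lf 8076280 0 0) (P.lf 2692088 0 0)))) (P.cons (P.cons (P.lf 0 42489606 0) (P.cons (P.lf 265464 0 0) (P.cons (P.lf 0 17744 0) (P.lf 0 5912 0)))) (P.cons (P.cons (P.lf 0 665014 0) (P.cons (P.lf 510016 0 0) (P.cons (P.lf 0 34096 0) P.nil))) (P.cons (P.cons (P.lf 149338 0 0) (P.cons (P.lf 13680 0 0) P.nil)) (P.cons (P.cons (P.lf 5022 0 0) P.nil) P.nil)))))) 15510)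
 (EL.cons 3 (TM.mk (P.cons (P.cons (P.lf 387922581 0 0) (P.cons (P.lf 0 473229852 0) (P.cons (P.lf 31639044 0 0) (P.lf 10546346 0 0)))) (P.cons (P.cons (P.lf 0 502043256 0) (P.cons (P.lf 0 7578572 0) (P.cons (P.lf 506682 0 0) (P.lf 168892 0 0)))) (P.cons (P.cons (P.lf 0 11263527 0) (P.cons (P.lf 6589474 0 0) (P.cons (P.lf 0 440552 0) (P.lf 0 146850 0)))) (P.cons (P.cons (P.lf 3128461 0 0) (P.cons (P.lf 334346 0 0) (P.cons (P.lf 0 22350 0) P.nil))) (P.cons (P.cons (P.lf 159373 0 0) (P.cons (P.lf 0 20572 0) P.nil)) (P.cons (P.cons (P.lf 0 6758 0) P.nil) P.nil)))))) 31306)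
 (EL.cons 7 (TM.mk (P.cons (P.cons (P.lf 0 211319551 0) (P.cons (P.lf 490171959 0 0) (P.cons (P.lf 0 32771758 0) (P.lf 0 10923921 0)))) (P.cons (P.cons (P.lf 186534054 0 0) (P.cons (P.lf 2815822 0 0) (P.cons (P.lf 0 188260 0) (P.lf 0 62756 0)))) (P.cons (P.cons (P.lf 0 8398030 0) (P.cons (P.lf 0 2638264 0) (P.cons (P.lf 176388 0 0) (P.lf 58795 0 0)))) (P.cons (P.cons (P.lf 0 1294918 0) (P.cons (P.lf 99660 0 0) (P.cons (P.lf 0 6661 0) P.nil))) (P.cons (P.cons (P.lf 55512 0 0) (P.cons (P.lf 15243 0 0) P.nil)) (P.cons (P.cons (P.lf 6116 0 0) P.nil) P.nil)))))) 28158)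
 (EL.cons 10 (TM.mk (P.cons (P.cons (P.lf 0 2152201089 0) (P.cons (P.lf 333214773 0 0) (P.cons (P.lf 160532370 0 0) (P.cons (P.lf 0 6075015 0) (P.lf 0 1518753 0))))) (P.cons (P.cons (P.lf 0 162413958 0) (P.cons (P.lf 25145757 0 0) (P.cons (P.lf 12114432 0 0) (P.cons (P.lf 0 458445 0) (P.lf 0 114609 0))))) (P.cons (P.cons (P.lf 3421029 0 0) (P.cons (P.lf 0 529659 0) (P.cons (P.lf 0 255174 0) (P.cons (P.lf 9654 0 0) P.nil)))) (P.cons (P.cons (P.lf 518100 0 0) (P.cons (P.lf 0 80214 0) (P.cons (P.lf 0 38643 0) P.nil))) (P.cons (P.cons (P.lf 3735 0 0) (P.cons (P.lf 0 576 0) P.nil)) (P.cons (P.cons (P.lf 0 771 0) P.nil) P.nil)))))) 5019)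
 EL.nil))))
noncomputable def S183_198_512_660_8 : EL := (EL.cons 12 (TM.mk (P.cons (P.cons (P.lf 6056598 0 0) (P.cons (P.lf 0 56673240 0) (P.cons (P.lf 136365756 0 0) (P.cons (P.lf 0 16464526 0) (P.cons (P.lf 0 5316568 0) (P.cons (P.lf 395072 0 0) P.nil)))))) (P.cons (P.cons (P.lf 3962890 0 0) (P.cons (P.lf 0 24956120 0) (P.cons (P.lf 31682860 0 0) (P.cons (P.lf 0 3457208 0) (P.cons (P.lf 0 1203628 0) P.nil))))) (P.cons (P.cons (P.lf 0 1608242 0) (P.cons (P.lf 8472600 0 0) (P.cons (P.lf 1066336 0 0) (P.cons (P.lf 0 407150 0) P.nil)))) (P.cons (P.cons (P.lf 0 773536 0) (P.cons (P.lf 1391972 0 0) (P.cons (P.lf 0 227252 0) P.nil))) (P.cons (P.cons (P.lf 206548 0 0) (P.cons (P.lf 0 11440 0) P.nil)) (P.cons (P.cons (P.lf 9440 0 0) P.nil) P.nil)))))) 361542)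
 (EL.cons 3 (TM.mk (P.cons (P.cons (P.lf 21944191 0 0) (P.cons (P.lf 0 134083482 0) (P.cons (P.lf 155942004 0 0) (P.cons (P.lf 0 16664975 0) (P.cons (P.lf 0 5894066 0) (P.cons (P.lf 437986 0 0) P.nil)))))) (P.cons (P.cons (P.lf 0 19173888 0) (P.cons (P.lf 100894015 0 0) (P.cons (P.lf 12245530 0 0) (P.cons (P.lf 0 4787907 0) (P.cons (P.lf 0 761570 0) P.nil))))) (P.cons (P.cons (P.lf 0 13603971 0) (P.cons (P.lf 24292636 0 0) (P.cons (P.lf 0 3440854 0) (P.cons (P.lf 0 298462 0) P.nil)))) (P.cons (P.cons (P.lf 4737894 0 0) (P.cons (P.lf 0 24761 0) (P.cons (P.lf 0 404681 0) P.nil))) (P.cons (P.cons (P.lf 328934 0 0) (P.cons (P.lf 0 300297 0) P.nil)) (P.cons (P.cons (P.lf 0 45709 0) P.nil) P.nil)))))) 698787)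
 (EL.cons 7 (TM.mk (P.cons (P.cons (P.lf 0 9937399 0) (P.cons (P.lf 66512435 0 0) (P.cons (P.lf 0 98108312 0) (P.cons (P.lf 11041680 0 0) (P.cons (P.lf 3755990 0 0) (P.cons (P.lf 0 279102 0) P.nil)))))) (P.cons (P.cons (P.lf 7124050 0 0) (P.cons (P.lf 0 37487145 0) (P.cons (P.lf 0 4549827 0) (P.cons (P.lf 1778942 0 0) (P.cons (P.lf 282967 0 0) P.nil))))) (P.cons (P.cons (P.lf 4573983 0 0) (P.cons (P.lf 0 6497159 0) (P.cons (P.lf 1585362 0 0) (P.cons (P.lf 0 9108 0) P.nil)))) (P.cons (P.cons (P.lf 0 2205670 0) (P.cons (P.lf 772003 0 0) (P.cons (P.lf 29429 0 0) P.nil))) (P.cons (P.cons (P.lf 65395 0 0) (P.cons (P.lf 95169 0 0) P.nil)) (P.cons (P.cons (P.lf 25565 0 0) P.nil) P.nil)))))) 403219)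
 (EL.cons 10 (TM.mk (P.cons (P.cons (P.lf 0 114296340 0) (P.cons (P.lf 552446868 0 0) (P.cons (P.lf 0 110019720 0) (P.cons (P.lf 0 46591674 0) (P.cons (P.lf 5940648 0 0) (P.cons (P.lf 1165356 0 0) P.nil)))))) (P.cons (P.cons (P.lf 0 46017876 0) (P.cons (P.lf 108010986 0 0) (P.cons (P.lf 0 18932274 0) (P.cons (P.lf 0 8859024 0) (P.cons (P.lf 1103502 0 0) P.nil))))) (P.cons (P.cons (P.lf 18651348 0 0) (P.cons (P.lf 697236 0 0) (P.cons (P.lf 0 2185920 0) (P.cons (P.lf 0 257538 0) P.nil)))) (P.cons (P.cons (P.lf 2026926 0 0) (P.cons (P.lf 0 804372 0) (P.cons (P.lf 0 42438 0) P.nil))) (P.cons (P.cons (P.lf 0 74328 0) (P.cons (P.lf 0 29916 0) P.nil)) (P.cons (P.cons (P.lf 0 13794 0) P.nil) P.nil)))))) 532380)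
 EL.nil))))
noncomputable def S183_198_512_660_9 : EL := (EL.cons 3 (TM.mk (P.cons (P.lf 0 1904598495 0) (P.cons (P.lf 185091918 0 0) (P.cons (P.lf 5095050 0 0) (P.cons (P.lf 0 95302 0) (P.cons (P.lf 0 6701 0) (P.cons (P.lf 0 18 0) P.nil)))))) 59)
 (EL.cons 7 (TM.mk (P.cons (P.lf 0 1822610727 0) (P.cons (P.lf 0 68770857 0) (P.cons (P.lf 2745999 0 0) (P.cons (P.lf 115768 0 0) (P.cons (P.lf 0 717 0) (P.cons (P.lf 0 127 0) P.nil)))))) 49)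
 EL.nil))
noncomputable def S183_198_512_660_10 : EL := (EL.cons 3 (TM.mk (P.cons (P.cons (P.lf 0 50573490 0) (P.cons (P.lf 236614926 0 0) (P.cons (P.lf 0 15819522 0) (P.lf 0 5273173 0)))) (P.cons (P.cons (P.lf 0 11630550 0) (P.cons (P.lf 3789286 0 0) (P.cons (P.lf 0 253341 0) (P.lf 0 84446 0)))) (P.cons (P.cons (P.lf 11164179 0 0) (P.cons (P.lf 0 3294737 0) (P.cons (P.lf 220276 0 0) (P.lf 73425 0 0)))) (P.cons (P.cons (P.lf 0 726365 0) (P.cons (P.lf 0 167173 0) (P.cons (P.lf 11175 0 0) P.nil))) (P.cons (P.cons (P.lf 0 73649 0) (P.cons (P.lf 10286 0 0) P.nil)) (P.cons (P.cons (P.lf 2122 0 0) P.nil) P.nil)))))) 7743)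
 (EL.cons 7 (TM.mk (P.cons (P.cons (P.lf 0 48396439 0) (P.cons (P.lf 226429299 0 0) (P.cons (P.lf 0 15138535 0) (P.lf 0 5046177 0)))) (P.cons (P.cons (P.lf 0 17659227 0) (P.cons (P.lf 34174573 0 0) (P.cons (P.lf 0 2284831 0) (P.lf 0 761609 0)))) (P.cons (P.cons (P.lf 8490935 0 0) (P.cons (P.lf 569636 0 0) (P.cons (P.lf 0 38085 0) (P.lf 0 12695 0)))) (P.cons (P.cons (P.lf 508202 0 0) (P.cons (P.lf 0 163338 0) (P.cons (P.lf 10919 0 0) P.nil))) (P.cons (P.cons (P.lf 0 38958 0) (P.cons (P.lf 0 8439 0) P.nil)) (P.cons (P.cons (P.lf 0 3055 0) P.nil) P.nil)))))) 5546)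
 EL.nil))
noncomputable def S183_198_512_660_11 : EL := (EL.cons 3 (TM.mk (P.cons (P.cons (P.lf 0 1342895 0) (P.cons (P.lf 12565842 0 0) (P.cons (P.lf 0 30235620 0) (P.cons (P.lf 3650587 0 0) (P.cons (P.lf 1178812 0 0) (P.cons (P.lf 0 87596 0) P.nil)))))) (P.cons (P.cons (P.lf 0 748164 0) (P.cons (P.lf 4312213 0 0) (P.cons (P.lf 0 4086518 0) (P.cons (P.lf 411777 0 0) (P.cons (P.lf 152314 0 0) P.nil))))) (P.cons (P.cons (P.lf 445569 0 0) (P.cons (P.lf 0 2449940 0) (P.cons (P.lf 527138 0 0) (P.cons (P.lf 6014 0 0) P.nil)))) (P.cons (P.cons (P.lf 139140 0 0) (P.cons (P.lf 0 140243 0) (P.cons (P.lf 90643 0 0) P.nil))) (P.cons (P.cons (P.lf 0 63466 0) (P.cons (P.lf 37875 0 0) P.nil)) (P.cons (P.cons (P.lf 1913 0 0) P.nil) P.nil)))))) 145877)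
 (EL.cons 7 (TM.mk (P.cons (P.cons (P.lf 0 1285087 0) (P.cons (P.lf 12024917 0 0) (P.cons (P.lf 0 28934060 0) (P.cons (P.lf 3493440 0 0) (P.cons (P.lf 1128068 0 0) (P.cons (P.lf 0 83826 0) P.nil)))))) (P.cons (P.cons (P.lf 0 889334 0) (P.cons (P.lf 5748909 0 0) (P.cons (P.lf 0 7814205 0) (P.cons (P.lf 865364 0 0) (P.cons (P.lf 297949 0 0) P.nil))))) (P.cons (P.cons (P.lf 311445 0 0) (P.cons (P.lf 0 1616033 0) (P.cons (P.lf 0 436314 0) (P.cons (P.lf 108804 0 0) P.nil)))) (P.cons (P.cons (P.lf 178352 0 0) (P.cons (P.lf 0 371921 0) (P.cons (P.lf 51647 0 0) P.nil))) (P.cons (P.cons (P.lf 0 38093 0) (P.cons (P.lf 0 6339 0) P.nil)) (P.cons (P.cons (P.lf 0 3925 0) P.nil) P.nil)))))) 103155)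
 EL.nil))
noncomputable def S183_198_512_660_12 : EL := (EL.cons 4 (TM.mk (P.cons (P.lf 1904598495 0 0) (P.cons (P.lf 0 185091918 0) (P.cons (P.lf 0 5095050 0) (P.cons (P.lf 95302 0 0) (P.cons (P.lf 6701 0 0) (P.cons (P.lf 18 0 0) P.nil)))))) 59)
 (EL.cons 8 (TM.mk (P.cons (P.lf 1822610727 0 0) (P.cons (P.lf 68770857 0 0) (P.cons (P.lf 0 2745999 0) (P.cons (P.lf 0 115768 0) (P.cons (P.lf 717 0 0) (P.cons (P.lf 127 0 0) P.nil)))))) 49)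
 EL.nil))
noncomputable def S183_198_512_660_13 : EL := (EL.cons 4 (TM.mk (P.cons (P.cons (P.lf 50573490 0 0) (P.cons (P.lf 0 236614926 0) (P.cons (P.lf 15819522 0 0) (P.lf 5273173 0 0)))) (P.cons (P.cons (P.lf 11630550 0 0) (P.cons (P.lf 0 3789286 0) (P.cons (P.lf 253341 0 0) (P.lf 84446 0 0)))) (P.cons (P.cons (P.lf 0 11164179 0) (P.cons (P.lf 3294737 0 0) (P.cons (P.lf 0 220276 0) (P.lf 0 73425 0)))) (P.cons (P.cons (P.lf 726365 0 0) (P.cons (P.lf 167173 0 0) (P.cons (P.lf 0 11175 0) P.nil))) (P.cons (P.cons (P.lf 73649 0 0) (P.cons (P.lf 0 10286 0) P.nil)) (P.cons (P.cons (P.lf 0 2122 0) P.nil) P.nil)))))) 7743)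
 (EL.cons 8 (TM.mk (P.cons (P.cons (P.lf 48396439 0 0) (P.cons (P.lf 0 226429299 0) (P.cons (P.lf 15138535 0 0) (P.lf 5046177 0 0)))) (P.cons (P.cons (P.lf 17659227 0 0) (P.cons (P.lf 0 34174573 0) (P.cons (P.lf 2284831 0 0) (P.lf 761609 0 0)))) (P.cons (P.cons (P.lf 0 8490935 0) (P.cons (P.lf 0 569636 0) (P.cons (P.lf 38085 0 0) (P.lf 12695 0 0)))) (P.cons (P.cons (P.lf 0 508202 0) (P.cons (P.lf 163338 0 0) (P.cons (P.lf 0 10919 0) P.nil))) (P.cons (P.cons (P.lf 38958 0 0) (P.cons (P.lf 8439 0 0) P.nil)) (P.cons (P.cons (P.lf 3055 0 0) P.nil) P.nil)))))) 5546)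
 EL.nil))
noncomputable def S183_198_512_660_14 : EL := (EL.cons 4 (TM.mk (P.cons (P.cons (P.lf 1342895 0 0) (P.cons (P.lf 0 12565842 0) (P.cons (P.lf 30235620 0 0) (P.cons (P.lf 0 3650587 0) (P.cons (P.lf 0 1178812 0) (P.cons (P.lf 87596 0 0) P.nil)))))) (P.cons (P.cons (P.lf 748164 0 0) (P.cons (P.lf 0 4312213 0) (P.cons (P.lf 4086518 0 0) (P.cons (P.lf 0 411777 0) (P.cons (P.lf 0 152314 0) P.nil))))) (P.cons (P.cons (P.lf 0 445569 0) (P.cons (P.lf 2449940 0 0) (P.cons (P.lf 0 527138 0) (P.cons (P.lf 0 6014 0) P.nil)))) (P.cons (P.cons (P.lf 0 139140 0) (P.cons (P.lf 140243 0 0) (P.cons (P.lf 0 90643 0) P.nil))) (P.cons (P.cons (P.lf 63466 0 0) (P.cons (P.lf 0 37875 0) P.nil)) (P.cons (P.cons (P.lf 0 1913 0) P.nil) P.nil)))))) 145877)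
 (EL.cons 8 (TM.mk (P.cons (P.cons (P.lf 1285087 0 0) (P.cons (P.lf 0 12024917 0) (P.cons (P.lf 28934060 0 0) (P.cons (P.lf 0 3493440 0) (P.cons (P.lf 0 1128068 0) (P.cons (P.lf 83826 0 0) P.nil)))))) (P.cons (P.cons (P.lf 889334 0 0) (P.cons (P.lf 0 5748909 0) (P.cons (P.lf 7814205 0 0) (P.cons (P.lf 0 865364 0) (P.cons (P.lf 0 297949 0) P.nil))))) (P.cons (P.cons (P.lf 0 311445 0) (P.cons (P.lf 1616033 0 0) (P.cons (P.lf 436314 0 0) (P.cons (P.lf 0 108804 0) P.nil)))) (P.cons (P.cons (P.lf 0 178352 0) (P.cons (P.lf 371921 0 0) (P.cons (P.lf 0 51647 0) P.nil))) (P.cons (P.cons (P.lf 38093 0 0) (P.cons (P.lf 6339 0 0) P.nil)) (P.cons (P.cons (P.lf 3925 0 0) P.nil) P.nil)))))) 103155)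
 EL.nil))
noncomputable def S183_198_512_660_15 : EL := (EL.cons 4 (TM.mk (P.cons (P.lf 0 900898234 0) (P.cons (P.lf 175101453 0 0) (P.cons (P.lf 0 3688277 0) (P.cons (P.lf 0 558577 0) (P.cons (P.lf 0 4024 0) (P.cons (P.lf 839 0 0) P.nil)))))) 89)
 (EL.cons 8 (TM.mk (P.cons (P.lf 0 862117024 0) (P.cons (P.lf 51252455 0 0) (P.cons (P.lf 6766430 0 0) (P.cons (P.lf 0 27586 0) (P.cons (P.lf 0 13796 0) (P.cons (P.lf 0 231 0) P.nil)))))) 71)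
 EL.nil))
noncomputable def S183_198_512_660_16 : EL := (EL.cons 4 (TM.mk (P.cons (P.cons (P.lf 0 23921875 0) (P.cons (P.lf 111921735 0 0) (P.cons (P.lf 0 7482825 0) (P.lf 0 2494275 0)))) (P.cons (P.cons (P.lf 0 3176625 0) (P.cons (P.lf 0 9084353 0) (P.cons (P.lf 607358 0 0) (P.lf 202453 0 0)))) (P.cons (P.cons (P.lf 5879420 0 0) (P.cons (P.lf 0 2032042 0) (P.cons (P.lf 135856 0 0) (P.lf 45285 0 0)))) (P.cons (P.cons (P.lf 0 843255 0) (P.cons (P.lf 73182 0 0) (P.cons (P.lf 0 4892 0) P.nil))) (P.cons (P.cons (P.lf 0 15932 0) (P.cons (P.lf 17202 0 0) P.nil)) (P.cons (P.cons (P.lf 5552 0 0) P.nil) P.nil)))))) 7291)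
 (EL.cons 8 (TM.mk (P.cons (P.cons (P.lf 0 22892103 0) (P.cons (P.lf 107103810 0 0) (P.cons (P.lf 0 7160710 0) (P.lf 0 2386903 0)))) (P.cons (P.cons (P.lf 0 6128337 0) (P.cons (P.lf 5756469 0 0) (P.cons (P.lf 0 384863 0) (P.lf 0 128287 0)))) (P.cons (P.cons (P.lf 4889315 0 0) (P.cons (P.lf 0 1588010 0) (P.cons (P.lf 106169 0 0) (P.lf 35389 0 0)))) (P.cons (P.cons (P.lf 0 128725 0) (P.cons (P.lf 0 141330 0) (P.cons (P.lf 9448 0 0) P.nil))) (P.cons (P.cons (P.lf 0 53031 0) (P.cons (P.lf 3980 0 0) P.nil)) (P.cons (P.cons (P.lf 0 126 0) P.nil) P.nil)))))) 6061)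
 EL.nil))
noncomputable def S183_198_512_660_17 : EL := (EL.cons 4 (TM.mk (P.cons (P.cons (P.lf 0 635205 0) (P.cons (P.lf 5943795 0 0) (P.cons (P.lf 0 14301816 0) (P.cons (P.lf 1726771 0 0) (P.cons (P.lf 557592 0 0) (P.cons (P.lf 0 41433 0) P.nil)))))) (P.cons (P.cons (P.lf 0 292160 0) (P.cons (P.lf 1462101 0 0) (P.cons (P.lf 0 543099 0) (P.cons (P.lf 26964 0 0) (P.cons (P.lf 17858 0 0) P.nil))))) (P.cons (P.cons (P.lf 246850 0 0) (P.cons (P.lf 0 1372976 0) (P.cons (P.lf 475451 0 0) (P.cons (P.lf 0 20701 0) P.nil)))) (P.cons (P.cons (P.lf 46247 0 0) (P.cons (P.lf 41122 0 0) (P.cons (P.lf 23099 0 0) P.nil))) (P.cons (P.cons (P.lf 0 37000 0) (P.cons (P.lf 27585 0 0) P.nil)) (P.cons (P.cons (P.lf 3655 0 0) P.nil) P.nil)))))) 102097)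
 (EL.cons 8 (TM.mk (P.cons (P.cons (P.lf 0 607862 0) (P.cons (P.lf 5687931 0 0) (P.cons (P.lf 0 13686161 0) (P.cons (P.lf 1652439 0 0) (P.cons (P.lf 533589 0 0) (P.cons (P.lf 0 39650 0) P.nil)))))) (P.cons (P.cons (P.lf 0 361592 0) (P.cons (P.lf 2166541 0 0) (P.cons (P.lf 0 2366170 0) (P.cons (P.lf 248740 0 0) (P.cons (P.lf 89078 0 0) P.nil))))) (P.cons (P.cons (P.lf 189824 0 0) (P.cons (P.lf 0 1043885 0) (P.cons (P.lf 189433 0 0) (P.cons (P.lf 7265 0 0) P.nil)))) (P.cons (P.cons (P.lf 71141 0 0) (P.cons (P.lf 0 108626 0) (P.cons (P.lf 53689 0 0) P.nil))) (P.cons (P.cons (P.lf 0 26634 0) (P.cons (P.lf 16298 0 0) P.nil)) (P.cons (P.cons (P.lf 0 325 0) P.nil) P.nil)))))) 77291)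
 EL.nil))
noncomputable def S183_198_512_660_18 : EL := (EL.cons 4 (TM.mk (P.cons (P.lf 426135812 0 0) (P.cons (P.lf 0 124237673 0) (P.cons (P.lf 8653707 0 0) (P.cons (P.lf 337561 0 0) (P.cons (P.lf 0 31084 0) (P.cons (P.lf 0 1487 0) P.nil)))))) 136)
 (EL.cons 8 (TM.mk (P.cons (P.lf 407791829 0 0) (P.cons (P.lf 0 63872894 0) (P.cons (P.lf 0 1935523 0) (P.cons (P.lf 409346 0 0) (P.cons (P.lf 14041 0 0) (P.cons (P.lf 0 800 0) P.nil)))))) 99)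
 EL.nil))
noncomputable def S183_198_512_660_19 : EL := (EL.cons 4 (TM.mk (P.cons (P.cons (P.lf 11315337 0 0) (P.cons (P.lf 0 52940340 0) (P.cons (P.lf 3539467 0 0) (P.lf 1179822 0 0)))) (P.cons (P.cons (P.lf 402939 0 0) (P.cons (P.lf 9441836 0 0) (P.cons (P.lf 0 631259 0) (P.lf 0 210419 0)))) (P.cons (P.cons (P.lf 0 2957330 0) (P.cons (P.lf 685212 0 0) (P.cons (P.lf 0 45810 0) (P.lf 0 15270 0)))) (P.cons (P.cons (P.lf 665682 0 0) (P.cons (P.lf 0 142169 0) (P.cons (P.lf 9504 0 0) P.nil))) (P.cons (P.cons (P.lf 0 23670 0) (P.cons (P.lf 0 7315 0) P.nil)) (P.cons (P.cons (P.lf 0 4559 0) P.nil) P.nil)))))) 8021)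
 (EL.cons 8 (TM.mk (P.cons (P.cons (P.lf 10828243 0 0) (P.cons (P.lf 0 50661403 0) (P.cons (P.lf 3387103 0 0) (P.lf 1129034 0 0)))) (P.cons (P.cons (P.lf 1846472 0 0) (P.cons (P.lf 2200475 0 0) (P.cons (P.lf 0 147118 0) (P.lf 0 49039 0)))) (P.cons (P.cons (P.lf 0 2623380 0) (P.cons (P.lf 1151288 0 0) (P.cons (P.lf 0 76972 0) (P.lf 0 25657 0)))) (P.cons (P.cons (P.lf 278428 0 0) (P.cons (P.lf 0 1397 0) (P.cons (P.lf 93 0 0) P.nil))) (P.cons (P.cons (P.lf 25536 0 0) (P.cons (P.lf 0 10703 0) P.nil)) (P.cons (P.cons (P.lf 0 2646 0) P.nil) P.nil)))))) 5224)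
 EL.nil))
noncomputable def S183_198_512_660_20 : EL := (EL.cons 4 (TM.mk (P.cons (P.cons (P.lf 300459 0 0) (P.cons (P.lf 0 2811487 0) (P.cons (P.lf 6764932 0 0) (P.cons (P.lf 0 816783 0) (P.cons (P.lf 0 263747 0) (P.cons (P.lf 19598 0 0) P.nil)))))) (P.cons (P.cons (P.lf 108995 0 0) (P.cons (P.lf 0 418366 0) (P.cons (P.lf 0 400533 0) (P.cons (P.lf 66620 0 0) (P.cons (P.lf 17183 0 0) P.nil))))) (P.cons (P.cons (P.lf 0 130996 0) (P.cons (P.lf 724165 0 0) (P.cons (P.lf 0 267956 0) (P.cons (P.lf 13216 0 0) P.nil)))) (P.cons (P.cons (P.lf 0 10883 0) (P.cons (P.lf 0 80854 0) (P.cons (P.lf 10579 0 0) P.nil))) (P.cons (P.cons (P.lf 19947 0 0) (P.cons (P.lf 0 12939 0) P.nil)) (P.cons (P.cons (P.lf 0 3376 0) P.nil) P.nil)))))) 73676)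
 (EL.cons 8 (TM.mk (P.cons (P.cons (P.lf 287526 0 0) (P.cons (P.lf 0 2690460 0) (P.cons (P.lf 6473721 0 0) (P.cons (P.lf 0 781623 0) (P.cons (P.lf 0 252394 0) (P.cons (P.lf 18754 0 0) P.nil)))))) (P.cons (P.cons (P.lf 143095 0 0) (P.cons (P.lf 0 763337 0) (P.cons (P.lf 490100 0 0) (P.cons (P.lf 0 41697 0) (P.cons (P.lf 0 17606 0) P.nil))))) (P.cons (P.cons (P.lf 0 107180 0) (P.cons (P.lf 600559 0 0) (P.cons (P.lf 0 215690 0) (P.cons (P.lf 10087 0 0) P.nil)))) (P.cons (P.cons (P.lf 0 25367 0) (P.cons (P.lf 6003 0 0) (P.cons (P.lf 0 19357 0) P.nil))) (P.cons (P.cons (P.lf 16118 0 0) (P.cons (P.lf 0 14084 0) P.nil)) (P.cons (P.cons (P.lf 0 983 0) P.nil) P.nil)))))) 51352)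
 EL.nil))
noncomputable def S183_198_512_660_21 : EL := (EL.cons 4 (TM.mk (P.cons (P.cons (P.lf 0 438496071 0) (P.cons (P.lf 709844778 0 0) (P.cons (P.lf 0 47458566 0) (P.lf 0 15819519 0)))) (P.cons (P.cons (P.lf 490412706 0 0) (P.cons (P.lf 11367858 0 0) (P.cons (P.lf 0 760023 0) (P.lf 0 253338 0)))) (P.cons (P.cons (P.lf 22427706 0 0) (P.cons (P.lf 0 9884211 0) (P.cons (P.lf 660828 0 0) (P.lf 220275 0 0)))) (P.cons (P.cons (P.lf 0 3854826 0) (P.cons (P.lf 0 501519 0) (P.cons (P.lf 33525 0 0) P.nil))) (P.cons (P.cons (P.lf 0 233022 0) (P.cons (P.lf 30858 0 0) P.nil)) (P.cons (P.cons (P.lf 8880 0 0) P.nil) P.nil)))))) 23544)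
 (EL.cons 8 (TM.mk (P.cons (P.cons (P.lf 162923112 0 0) (P.cons (P.lf 0 263742660 0) (P.cons (P.lf 17633223 0 0) (P.lf 5877744 0 0)))) (P.cons (P.cons (P.lf 0 204193281 0) (P.cons (P.lf 31358751 0 0) (P.cons (P.lf 0 2096571 0) (P.lf 0 698853 0)))) (P.cons (P.cons (P.lf 16888965 0 0) (P.cons (P.lf 3207900 0 0) (P.cons (P.lf 0 214473 0) (P.lf 0 71490 0)))) (P.cons (P.cons (P.lf 1803120 0 0) (P.cons (P.lf 0 262998 0) (P.cons (P.lf 17580 0 0) P.nil))) (P.cons (P.cons (P.lf 0 94470 0) (P.cons (P.lf 0 23682 0) P.nil)) (P.cons (P.cons (P.lf 0 9171 0) P.nil) P.nil)))))) 22593)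
 (EL.cons 11 (TM.mk (P.cons (P.cons (P.lf 2152201089 0 0) (P.cons (P.lf 0 333214773 0) (P.cons (P.lf 0 160532370 0) (P.cons (P.lf 6075015 0 0) (P.lf 1518753 0 0))))) (P.cons (P.cons (P.lf 162413958 0 0) (P.cons (P.lf 0 25145757 0) (P.cons (P.lf 0 12114432 0) (P.cons (P.lf 458445 0 0) (P.lf 114609 0 0))))) (P.cons (P.cons (P.lf 0 3421029 0) (P.cons (P.lf 529659 0 0) (P.cons (P.lf 255174 0 0) (P.cons (P.lf 0 9654 0) P.nil)))) (P.cons (P.cons (P.lf 0 518100 0) (P.cons (P.lf 80214 0 0) (P.cons (P.lf 38643 0 0) P.nil))) (P.cons (P.cons (P.lf 0 3735 0) (P.cons (P.lf 576 0 0) P.nil)) (P.cons (P.cons (P.lf 771 0 0) P.nil) P.nil)))))) 5019)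
 EL.nil)))
noncomputable def S183_198_512_660_22 : EL := (EL.cons 4 (TM.mk (P.cons (P.cons (P.lf 0 11643543 0) (P.cons (P.lf 73324662 0 0) (P.cons (P.lf 0 93088812 0) (P.cons (P.lf 10157781 0 0) (P.cons (P.lf 3536439 0 0) (P.cons (P.lf 0 262791 0) P.nil)))))) (P.cons (P.cons (P.lf 9212862 0 0) (P.cons (P.lf 0 48290901 0) (P.cons (P.lf 0 8166024 0) (P.cons (P.lf 2599842 0 0) (P.cons (P.lf 456942 0 0) P.nil))))) (P.cons (P.cons (P.lf 7024770 0 0) (P.cons (P.lf 0 13371288 0) (P.cons (P.lf 1983996 0 0) (P.cons (P.lf 152238 0 0) P.nil)))) (P.cons (P.cons (P.lf 0 2299377 0) (P.cons (P.lf 0 57741 0) (P.cons (P.lf 247662 0 0) P.nil))) (P.cons (P.cons (P.lf 0 196200 0) (P.cons (P.lf 169086 0 0) P.nil)) (P.cons (P.cons (P.lf 23811 0 0) P.nil) P.nil)))))) 276444)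
 (EL.cons 8 (TM.mk (P.cons (P.cons (P.lf 4326156 0 0) (P.cons (P.lf 0 27243759 0) (P.cons (P.lf 34587126 0 0) (P.cons (P.lf 0 3774120 0) (P.cons (P.lf 0 1313961 0) (P.cons (P.lf 97638 0 0) P.nil)))))) (P.cons (P.cons (P.lf 0 4006692 0) (P.cons (P.lf 21618027 0 0) (P.cons (P.lf 0 1632189 0) (P.cons (P.lf 0 456789 0) (P.cons (P.lf 7491 0 0) P.nil))))) (P.cons (P.cons (P.lf 0 2131269 0) (P.cons (P.lf 2440563 0 0) (P.cons (P.lf 0 1010838 0) (P.cons (P.lf 58956 0 0) P.nil)))) (P.cons (P.cons (P.lf 1192011 0 0) (P.cons (P.lf 0 571962 0) (P.cons (P.lf 11109 0 0) P.nil))) (P.cons (P.cons (P.lf 0 51744 0) (P.cons (P.lf 0 50754 0) P.nil)) (P.cons (P.cons (P.lf 0 14745 0) P.nil) P.nil)))))) 150021)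
 (EL.cons 11 (TM.mk (P.cons (P.cons (P.lf 57148170 0 0) (P.cons (P.lf 0 276223434 0) (P.cons (P.lf 55009860 0 0) (P.cons (P.lf 23295837 0 0) (P.cons (P.lf 0 2970324 0) (P.cons (P.lf 0 582678 0) P.nil)))))) (P.cons (P.cons (P.lf 23008938 0 0) (P.cons (P.lf 0 54005493 0) (P.cons (P.lf 9466137 0 0) (P.cons (P.lf 4429512 0 0) (P.cons (P.lf 0 551751 0) P.nil))))) (P.cons (P.cons (P.lf 0 9325674 0) (P.cons (P.lf 0 348618 0) (P.cons (P.lf 1092960 0 0) (P.cons (P.lf 128769 0 0) P.nil)))) (P.cons (P.cons (P.lf 0 1013463 0) (P.cons (P.lf 402186 0 0) (P.cons (P.lf 21219 0 0) P.nil))) (P.cons (P.cons (P.lf 37164 0 0) (P.cons (P.lf 14958 0 0) P.nil)) (P.cons (P.cons (P.lf 6897 0 0) P.nil) P.nil)))))) 266190)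
 EL.nil)))
noncomputable def S183_198_512_660_23 : EL := (EL.cons 4 (TM.mk (P.cons (P.cons (P.lf 207413970 0 0) (P.cons (P.lf 0 335765205 0) (P.cons (P.lf 22448478 0 0) (P.lf 7482822 0 0)))) (P.cons (P.cons (P.lf 0 252127989 0) (P.cons (P.lf 27253062 0 0) (P.cons (P.lf 0 1822077 0) (P.lf 0 607359 0)))) (P.cons (P.cons (P.lf 11379891 0 0) (P.cons (P.lf 6096126 0 0) (P.cons (P.lf 0 407568 0) (P.lf 0 135855 0)))) (P.cons (P.cons (P.lf 3485268 0 0) (P.cons (P.lf 0 219549 0) (P.cons (P.lf 14679 0 0) P.nil))) (P.cons (P.cons (P.lf 0 49473 0) (P.cons (P.lf 0 51606 0) P.nil)) (P.cons (P.cons (P.lf 0 21132 0) P.nil) P.nil)))))) 29238)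
 (EL.cons 8 (TM.mk (P.cons (P.cons (P.lf 0 77064609 0) (P.cons (P.lf 124753482 0 0) (P.cons (P.lf 0 8340726 0) (P.lf 0 2780244 0)))) (P.cons (P.cons (P.lf 104075163 0 0) (P.cons (P.lf 0 26956812 0) (P.cons (P.lf 1802268 0 0) (P.lf 600753 0 0)))) (P.cons (P.cons (P.lf 0 17168898 0) (P.cons (P.lf 0 409605 0) (P.cons (P.lf 27384 0 0) (P.lf 9126 0 0)))) (P.cons (P.cons (P.lf 0 338778 0) (P.cons (P.lf 317784 0 0) (P.cons (P.lf 0 21243 0) P.nil))) (P.cons (P.cons (P.lf 153504 0 0) (P.cons (P.lf 2868 0 0) P.nil)) (P.cons (P.cons (P.lf 2214 0 0) P.nil) P.nil)))))) 19662)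
 (EL.cons 11 (TM.mk (P.cons (P.cons (P.lf 0 1018017270 0) (P.cons (P.lf 157614636 0 0) (P.cons (P.lf 75933759 0 0) (P.cons (P.lf 0 2873553 0) (P.lf 0 718386 0))))) (P.cons (P.cons (P.lf 22108764 0 0) (P.cons (P.lf 0 3422991 0) (P.cons (P.lf 0 1649088 0) (P.cons (P.lf 62406 0 0) (P.lf 15600 0 0))))) (P.cons (P.cons (P.lf 11807373 0 0) (P.cons (P.lf 0 1828074 0) (P.cons (P.lf 0 880710 0) (P.cons (P.lf 33327 0 0) P.nil)))) (P.cons (P.cons (P.lf 242382 0 0) (P.cons (P.lf 0 37524 0) (P.cons (P.lf 0 18078 0) P.nil))) (P.cons (P.cons (P.lf 0 33804 0) (P.cons (P.lf 5232 0 0) P.nil)) (P.cons (P.cons (P.lf 0 1389 0) P.nil) P.nil)))))) 14268)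
 EL.nil)))
noncomputable def S183_198_512_660_24 : EL := (EL.cons 4 (TM.mk (P.cons (P.cons (P.lf 5507535 0 0) (P.cons (P.lf 0 34683456 0) (P.cons (P.lf 44032137 0 0) (P.cons (P.lf 0 4804752 0) (P.cons (P.lf 0 1672776 0) (P.cons (P.lf 124302 0 0) P.nil)))))) (P.cons (P.cons (P.lf 0 4893027 0) (P.cons (P.lf 26212776 0 0) (P.cons (P.lf 0 416484 0) (P.cons (P.lf 0 762822 0) (P.cons (P.lf 0 53577 0) P.nil))))) (P.cons (P.cons (P.lf 0 2914035 0) (P.cons (P.lf 4197723 0 0) (P.cons (P.lf 0 1431621 0) (P.cons (P.lf 60351 0 0) P.nil)))) (P.cons (P.cons (P.lf 1422480 0 0) (P.cons (P.lf 0 650178 0) (P.cons (P.lf 0 34074 0) P.nil))) (P.cons (P.cons (P.lf 0 4200 0) (P.cons (P.lf 0 98532 0) P.nil)) (P.cons (P.cons (P.lf 0 23373 0) P.nil) P.nil)))))) 161883)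
 (EL.cons 8 (TM.mk (P.cons (P.cons (P.lf 0 2046324 0) (P.cons (P.lf 12886629 0 0) (P.cons (P.lf 0 16360131 0) (P.cons (P.lf 1785204 0 0) (P.cons (P.lf 621519 0 0) (P.cons (P.lf 0 46185 0) P.nil)))))) (P.cons (P.cons (P.lf 2094078 0 0) (P.cons (P.lf 0 11477931 0) (P.cons (P.lf 2361948 0 0) (P.cons (P.lf 42576 0 0) (P.cons (P.lf 0 63942 0) P.nil))))) (P.cons (P.cons (P.lf 829410 0 0) (P.cons (P.lf 0 195150 0) (P.cons (P.lf 446874 0 0) (P.cons (P.lf 0 53658 0) P.nil)))) (P.cons (P.cons (P.lf 0 666978 0) (P.cons (P.lf 410730 0 0) (P.cons (P.lf 0 54603 0) P.nil))) (P.cons (P.cons (P.lf 76659 0 0) (P.cons (P.lf 336 0 0) P.nil)) (P.cons (P.cons (P.lf 6159 0 0) P.nil) P.nil)))))) 79671)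
 (EL.cons 11 (TM.mk (P.cons (P.cons (P.lf 0 27031779 0) (P.cons (P.lf 130657041 0 0) (P.cons (P.lf 0 26020332 0) (P.cons (P.lf 0 11019213 0) (P.cons (P.lf 1404999 0 0) (P.cons (P.lf 275613 0 0) P.nil)))))) (P.cons (P.cons (P.lf 0 8256513 0) (P.cons (P.lf 12847794 0 0) (P.cons (P.lf 0 1948899 0) (P.cons (P.lf 0 1024347 0) (P.cons (P.lf 124443 0 0) P.nil))))) (P.cons (P.cons (P.lf 5541147 0 0) (P.cons (P.lf 0 2667150 0) (P.cons (P.lf 0 12234 0) (P.cons (P.lf 172182 0 0) P.nil)))) (P.cons (P.cons (P.lf 78459 0 0) (P.cons (P.lf 0 268062 0) (P.cons (P.lf 50877 0 0) P.nil))) (P.cons (P.cons (P.lf 0 76605 0) (P.cons (P.lf 12705 0 0) P.nil)) (P.cons (P.cons (P.lf 0 2652 0) P.nil) P.nil)))))) 132135)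
 EL.nil)))
noncomputable def S183_198_512_660_25 : EL := (EL.cons 4 (TM.mk (P.cons (P.cons (P.lf 0 98109327 0) (P.cons (P.lf 158821023 0 0) (P.cons (P.lf 0 10618401 0) (P.lf 0 3539466 0)))) (P.cons (P.cons (P.lf 128794023 0 0) (P.cons (P.lf 0 28325508 0) (P.cons (P.lf 1893777 0 0) (P.lf 631260 0 0)))) (P.cons (P.cons (P.lf 0 16710207 0) (P.cons (P.lf 0 2055636 0) (P.cons (P.lf 137433 0 0) (P.lf 45810 0 0)))) (P.cons (P.cons (P.lf 0 1449405 0) (P.cons (P.lf 426507 0 0) (P.cons (P.lf 0 28515 0) P.nil))) (P.cons (P.cons (P.lf 203634 0 0) (P.cons (P.lf 21945 0 0) P.nil)) (P.cons (P.cons (P.lf 12282 0 0) P.nil) P.nil)))))) 25815)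
 (EL.cons 8 (TM.mk (P.cons (P.cons (P.lf 36452496 0 0) (P.cons (P.lf 0 59009913 0) (P.cons (P.lf 3945264 0 0) (P.lf 1315089 0 0)))) (P.cons (P.cons (P.lf 0 52771329 0) (P.cons (P.lf 18485577 0 0) (P.cons (P.lf 0 1235901 0) (P.lf 0 411966 0)))) (P.cons (P.cons (P.lf 12807717 0 0) (P.cons (P.lf 0 887544 0) (P.cons (P.lf 59337 0 0) (P.lf 19779 0 0)))) (P.cons (P.cons (P.lf 0 495456 0) (P.cons (P.lf 0 206208 0) (P.cons (P.lf 13785 0 0) P.nil))) (P.cons (P.cons (P.lf 0 112242 0) (P.cons (P.lf 13161 0 0) P.nil)) (P.cons (P.cons (P.lf 5811 0 0) P.nil) P.nil)))))) 14898)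
 (EL.cons 11 (TM.mk (P.cons (P.cons (P.lf 481534539 0 0) (P.cons (P.lf 0 74553636 0) (P.cons (P.lf 0 35917590 0) (P.cons (P.lf 1359225 0 0) (P.lf 339804 0 0))))) (P.cons (P.cons (P.lf 0 57254007 0) (P.cons (P.lf 8864358 0 0) (P.cons (P.lf 4270566 0 0) (P.cons (P.lf 0 161610 0) (P.lf 0 40401 0))))) (P.cons (P.cons (P.lf 0 5856900 0) (P.cons (P.lf 906792 0 0) (P.cons (P.lf 436863 0 0) (P.cons (P.lf 0 16530 0) P.nil)))) (P.cons (P.cons (P.lf 480180 0 0) (P.cons (P.lf 0 74343 0) (P.cons (P.lf 0 35817 0) P.nil))) (P.cons (P.cons (P.lf 43242 0 0) (P.cons (P.lf 0 6693 0) P.nil)) (P.cons (P.cons (P.lf 0 900 0) P.nil) P.nil)))))) 14253)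
 EL.nil)))
noncomputable def S183_198_512_660_26 : EL := (EL.cons 4 (TM.mk (P.cons (P.cons (P.lf 0 2605131 0) (P.cons (P.lf 16405695 0 0) (P.cons (P.lf 0 20827737 0) (P.cons (P.lf 2272707 0 0) (P.cons (P.lf 791244 0 0) (P.cons (P.lf 0 58797 0) P.nil)))))) (P.cons (P.cons (P.lf 2567631 0 0) (P.cons (P.lf 0 13993293 0) (P.cons (P.lf 2221074 0 0) (P.cons (P.lf 139959 0 0) (P.cons (P.lf 0 51549 0) P.nil))))) (P.cons (P.cons (P.lf 1160421 0 0) (P.cons (P.lf 0 824511 0) (P.cons (P.lf 713745 0 0) (P.cons (P.lf 0 69690 0) P.nil)))) (P.cons (P.cons (P.lf 0 813123 0) (P.cons (P.lf 534492 0 0) (P.cons (P.lf 0 51258 0) P.nil))) (P.cons (P.cons (P.lf 63795 0 0) (P.cons (P.lf 21468 0 0) P.nil)) (P.cons (P.cons (P.lf 12738 0 0) P.nil) P.nil)))))) 107163)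
 (EL.cons 8 (TM.mk (P.cons (P.cons (P.lf 967935 0 0) (P.cons (P.lf 0 6095532 0) (P.cons (P.lf 7738539 0 0) (P.cons (P.lf 0 844422 0) (P.cons (P.lf 0 293985 0) (P.cons (P.lf 21846 0 0) P.nil)))))) (P.cons (P.cons (P.lf 0 1084590 0) (P.cons (P.lf 6021573 0 0) (P.cons (P.lf 0 1869273 0) (P.cons (P.lf 61920 0 0) (P.cons (P.lf 58815 0 0) P.nil))))) (P.cons (P.cons (P.lf 0 298647 0) (P.cons (P.lf 0 419001 0) (P.cons (P.lf 0 123504 0) (P.cons (P.lf 29598 0 0) P.nil)))) (P.cons (P.cons (P.lf 356313 0 0) (P.cons (P.lf 0 218079 0) (P.cons (P.lf 49746 0 0) P.nil))) (P.cons (P.cons (P.lf 0 65916 0) (P.cons (P.lf 18723 0 0) P.nil)) (P.cons (P.cons (P.lf 0 255 0) P.nil) P.nil)))))) 53331)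
 (EL.cons 11 (TM.mk (P.cons (P.cons (P.lf 12786360 0 0) (P.cons (P.lf 0 61802367 0) (P.cons (P.lf 12307932 0 0) (P.cons (P.lf 5212221 0 0) (P.cons (P.lf 0 664581 0) (P.cons (P.lf 0 130368 0) P.nil)))))) (P.cons (P.cons (P.lf 2662833 0 0) (P.cons (P.lf 0 71109 0) (P.cons (P.lf 0 274248 0) (P.cons (P.lf 0 22002 0) (P.cons (P.lf 5718 0 0) P.nil))))) (P.cons (P.cons (P.lf 0 3034770 0) (P.cons (P.lf 2017512 0 0) (P.cons (P.lf 0 116724 0) (P.cons (P.lf 0 142473 0) P.nil)))) (P.cons (P.cons (P.lf 207792 0 0) (P.cons (P.lf 17358 0 0) (P.cons (P.lf 0 26478 0) P.nil))) (P.cons (P.cons (P.lf 47094 0 0) (P.cons (P.lf 0 22227 0) P.nil)) (P.cons (P.cons (P.lf 0 2283 0) P.nil) P.nil)))))) 91371)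
 EL.nil)))
noncomputable def S183_198_512_660_27 : EL := (EL.cons 13 (TM.mk (P.lf 0 4294967296 0) 0)
 EL.nil)
noncomputable def S183_198_512_660_28 : EL := (EL.cons 13 (TM.mk (P.cons (P.cons (P.lf 0 114045815 0) (P.cons (P.lf 533578796 0 0) (P.cons (P.lf 0 35673836 0) (P.lf 0 11891276 0)))) (P.cons (P.cons (P.lf 0 37310643 0) (P.cons (P.lf 60399076 0 0) (P.cons (P.lf 0 4038140 0) (P.lf 0 1346044 0)))) (P.cons (P.cons (P.lf 21244803 0 0) (P.cons (P.lf 0 132732 0) (P.cons (P.lf 8872 0 0) (P.lf 2956 0 0)))) (P.cons (P.cons (P.lf 332507 0 0) (P.cons (P.lf 0 255008 0) (P.cons (P.lf 17048 0 0) P.nil))) (P.cons (P.cons (P.lf 0 74669 0) (P.cons (P.lf 0 6840 0) P.nil)) (P.cons (P.cons (P.lf 0 2511 0) P.nil) P.nil)))))) 7755)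
 EL.nil)
noncomputable def S183_198_512_660_29 : EL := (EL.cons 13 (TM.mk (P.cons (P.cons (P.lf 0 3028299 0) (P.cons (P.lf 28336620 0 0) (P.cons (P.lf 0 68182878 0) (P.cons (P.lf 8232263 0 0) (P.cons (P.lf 2658284 0 0) (P.cons (P.lf 0 197536 0) P.nil)))))) (P.cons (P.cons (P.lf 0 1981445 0) (P.cons (P.lf 12478060 0 0) (P.cons (P.lf 0 15841430 0) (P.cons (P.lf 1728604 0 0) (P.cons (P.lf 601814 0 0) P.nil))))) (P.cons (P.cons (P.lf 804121 0 0) (P.cons (P.lf 0 4236300 0) (P.cons (P.lf 0 533168 0) (P.cons (P.lf 203575 0 0) P.nil)))) (P.cons (P.cons (P.lf 386768 0 0) (P.cons (P.lf 0 695986 0) (P.cons (P.lf 113626 0 0) P.nil))) (P.cons (P.cons (P.lf 0 103274 0) (P.cons (P.lf 5720 0 0) P.nil)) (P.cons (P.cons (P.lf 0 4720 0) P.nil) P.nil)))))) 180771)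
 EL.nil)
noncomputable def S183_198_512_660_30 : EL := (EL.cons 13 (TM.mk (P.cons (P.lf 2031571728 0 0) (P.cons (P.lf 0 197431380 0) (P.cons (P.lf 0 5434720 0) (P.cons (P.lf 101656 0 0) (P.cons (P.lf 7148 0 0) (P.cons (P.lf 20 0 0) P.nil)))))) 56)
 EL.nil)
noncomputable def S183_198_512_660_31 : EL := (EL.cons 13 (TM.mk (P.cons (P.cons (P.lf 53945056 0 0) (P.cons (P.lf 0 252389255 0) (P.cons (P.lf 16874157 0 0) (P.lf 5624718 0 0)))) (P.cons (P.cons (P.lf 12405920 0 0) (P.cons (P.lf 0 4041906 0) (P.cons (P.lf 270231 0 0) (P.lf 90076 0 0)))) (P.cons (P.cons (P.lf 0 11908458 0) (P.cons (P.lf 3514387 0 0) (P.cons (P.lf 0 234962 0) (P.lf 0 78320 0)))) (P.cons (P.cons (P.lf 774790 0 0) (P.cons (P.lf 178318 0 0) (P.cons (P.lf 0 11921 0) P.nil))) (P.cons (P.cons (P.lf 78559 0 0) (P.cons (P.lf 0 10972 0) P.nil)) (P.cons (P.cons (P.lf 0 2264 0) P.nil) P.nil)))))) 8239)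
 EL.nil)
noncomputable def S183_198_512_660_32 : EL := (EL.cons 13 (TM.mk (P.cons (P.cons (P.lf 1432422 0 0) (P.cons (P.lf 0 13403565 0) (P.cons (P.lf 32251329 0 0) (P.cons (P.lf 0 3893960 0) (P.cons (P.lf 0 1257400 0) (P.cons (P.lf 93436 0 0) P.nil)))))) (P.cons (P.cons (P.lf 798042 0 0) (P.cons (P.lf 0 4599694 0) (P.cons (P.lf 4358953 0 0) (P.cons (P.lf 0 439229 0) (P.cons (P.lf 0 162469 0) P.nil))))) (P.cons (P.cons (P.lf 0 475274 0) (P.cons (P.lf 2613270 0 0) (P.cons (P.lf 0 562281 0) (P.cons (P.lf 0 6415 0) P.nil)))) (P.cons (P.cons (P.lf 0 148417 0) (P.cons (P.lf 149593 0 0) (P.cons (P.lf 0 96686 0) P.nil))) (P.cons (P.cons (P.lf 67698 0 0) (P.cons (P.lf 0 40401 0) P.nil)) (P.cons (P.cons (P.lf 0 2041 0) P.nil) P.nil)))))) 155579)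
 EL.nil)
noncomputable def S183_198_512_660_33 : EL := (EL.cons 14 (TM.mk (P.lf 8589934592 0 0) 0)
 EL.nil)
noncomputable def S183_198_512_660_34 : EL := (EL.cons 14 (TM.mk (P.cons (P.cons (P.lf 228091630 0 0) (P.cons (P.lf 0 1067157592 0) (P.cons (P.lf 71347672 0 0) (P.lf 23782552 0 0)))) (P.cons (P.cons (P.lf 74621286 0 0) (P.cons (P.lf 0 120798152 0) (P.cons (P.lf 8076280 0 0) (P.lf 2692088 0 0)))) (P.cons (P.cons (P.lf 0 42489606 0) (P.cons (P.lf 265464 0 0) (P.cons (P.lf 0 17744 0) (P.lf 0 5912 0)))) (P.cons (P.cons (P.lf 0 665014 0) (P.cons (P.lf 510016 0 0) (P.cons (P.lf 0 34096 0) P.nil))) (P.cons (P.cons (P.lf 149338 0 0) (P.cons (P.lf 13680 0 0) P.nil)) (P.cons (P.cons (P.lf 5022 0 0) P.nil) P.nil)))))) 15510)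
 EL.nil)
noncomputable def S183_198_512_660_35 : EL := (EL.cons 14 (TM.mk (P.cons (P.cons (P.lf 6056598 0 0) (P.cons (P.lf 0 56673240 0) (P.cons (P.lf 136365756 0 0) (P.cons (P.lf 0 16464526 0) (P.cons (P.lf 0 5316568 0) (P.cons (P.lf 395072 0 0) P.nil)))))) (P.cons (P.cons (P.lf 3962890 0 0) (P.cons (P.lf 0 24956120 0) (P.cons (P.lf 31682860 0 0) (P.cons (P.lf 0 3457208 0) (P.cons (P.lf 0 1203628 0) P.nil))))) (P.cons (P.cons (P.lf 0 1608242 0) (P.cons (P.lf 8472600 0 0) (P.cons (P.lf 1066336 0 0) (P.cons (P.lf 0 407150 0) P.nil)))) (P.cons (P.cons (P.lf 0 773536 0) (P.cons (P.lf 1391972 0 0) (P.cons (P.lf 0 227252 0) P.nil))) (P.cons (P.cons (P.lf 206548 0 0) (P.cons (P.lf 0 11440 0) P.nil)) (P.cons (P.cons (P.lf 9440 0 0) P.nil) P.nil)))))) 361542)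
 EL.nil)
noncomputable def S183_198_512_660_36 : EL := (EL.cons 14 (TM.mk (P.cons (P.lf 0 4063143456 0) (P.cons (P.lf 394862760 0 0) (P.cons (P.lf 10869440 0 0) (P.cons (P.lf 0 203312 0) (P.cons (P.lf 0 14296 0) (P.cons (P.lf 0 40 0) P.nil)))))) 112)
 EL.nil)
noncomputable def S183_198_512_660_37 : EL := (EL.cons 14 (TM.mk (P.cons (P.cons (P.lf 0 107890112 0) (P.cons (P.lf 504778510 0 0) (P.cons (P.lf 0 33748314 0) (P.lf 0 11249436 0)))) (P.cons (P.cons (P.lf 0 24811840 0) (P.cons (P.lf 8083812 0 0) (P.cons (P.lf 0 540462 0) (P.lf 0 180152 0)))) (P.cons (P.cons (P.lf 23816916 0 0) (P.cons (P.lf 0 7028774 0) (P.cons (P.lf 469924 0 0) (P.lf 156640 0 0)))) (P.cons (P.cons (P.lf 0 1549580 0) (P.cons (P.lf 0 356636 0) (P.cons (P.lf 23842 0 0) P.nil))) (P.cons (P.cons (P.lf 0 157118 0) (P.cons (P.lf 21944 0 0) P.nil)) (P.cons (P.cons (P.lf 4528 0 0) P.nil) P.nil))))))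 16478)
 EL.nil)
noncomputable def S183_198_512_660_38 : EL := (EL.cons 14 (TM.mk (P.cons (P.cons (P.lf 0 2864844 0) (P.cons (P.lf 26807130 0 0) (P.cons (P.lf 0 64502658 0) (P.cons (P.lf 7787920 0 0) (P.cons (P.lf 2514800 0 0) (P.cons (P.lf 0 186872 0) P.nil)))))) (P.cons (P.cons (P.lf 0 1596084 0) (P.cons (P.lf 9199388 0 0) (P.cons (P.lf 0 8717906 0) (P.cons (P.lf 878458 0 0) (P.cons (P.lf 324938 0 0) P.nil))))) (P.cons (P.cons (P.lf 950548 0 0) (P.cons (P.lf 0 5226540 0) (P.cons (P.lf 1124562 0 0) (P.cons (P.lf 12830 0 0) P.nil)))) (P.cons (P.cons (P.lf 296834 0 0) (P.cons (P.lf 0 299186 0) (P.cons (P.lf 193372 0 0) P.nil))) (P.cons (P.cons (P.lf 0 135396 0) (P.cons (P.lf 80802 0 0) P.nil)) (P.cons (P.cons (P.lf 4082 0 0) P.nil) P.nil)))))) 311158)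
 EL.nil)
noncomputable def S183_198_512_660_39 : EL := (EL.cons 14 (TM.mk (P.cons (P.lf 1921916234 0 0) (P.cons (P.lf 0 373549768 0) (P.cons (P.lf 7868326 0 0) (P.cons (P.lf 1191632 0 0) (P.cons (P.lf 8586 0 0) (P.cons (P.lf 0 1790 0) P.nil)))))) 176)
 EL.nil)
noncomputable def S183_198_512_660_40 : EL := (EL.cons 14 (TM.mk (P.cons (P.cons (P.lf 51033334 0 0) (P.cons (P.lf 0 238766368 0) (P.cons (P.lf 15963362 0 0) (P.lf 5321120 0 0)))) (P.cons (P.cons (P.lf 6776800 0 0) (P.cons (P.lf 19379954 0 0) (P.cons (P.lf 0 1295698 0) (P.lf 0 431900 0)))) (P.cons (P.cons (P.lf 0 12542764 0) (P.cons (P.lf 4335024 0 0) (P.cons (P.lf 0 289828 0) (P.lf 0 96608 0)))) (P.cons (P.cons (P.lf 1798944 0 0) (P.cons (P.lf 0 156122 0) (P.cons (P.lf 10438 0 0) P.nil))) (P.cons (P.cons (P.lf 33990 0 0) (P.cons (P.lf 0 36698 0) P.nil)) (P.cons (P.cons (P.lf 0 11846 0) P.nil) P.nil))))))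 15514)
 EL.nil)
noncomputable def S183_198_512_660_41 : EL := (EL.cons 14 (TM.mk (P.cons (P.cons (P.lf 1355106 0 0) (P.cons (P.lf 0 12680098 0) (P.cons (P.lf 30510542 0 0) (P.cons (P.lf 0 3683780 0) (P.cons (P.lf 0 1189530 0) (P.cons (P.lf 88392 0 0) P.nil)))))) (P.cons (P.cons (P.lf 623276 0 0) (P.cons (P.lf 0 3119150 0) (P.cons (P.lf 1158612 0 0) (P.cons (P.lf 0 57524 0) (P.cons (P.lf 0 38098 0) P.nil))))) (P.cons (P.cons (P.lf 0 526614 0) (P.cons (P.lf 2929016 0 0) (P.cons (P.lf 0 1014296 0) (P.cons (P.lf 44164 0 0) P.nil)))) (P.cons (P.cons (P.lf 0 98662 0) (P.cons (P.lf 0 87728 0) (P.cons (P.lf 0 49278 0) P.nil))) (P.cons (P.cons (P.lf 78934 0 0) (P.cons (P.lf 0 58848 0) P.nil)) (P.cons (P.cons (P.lf 0 7798 0) P.nil) P.nil)))))) 217762)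
 EL.nil)
noncomputable def S183_198_512_660_42 : EL := (EL.cons 14 (TM.mk (P.cons (P.lf 0 909089734 0) (P.cons (P.lf 265040370 0 0) (P.cons (P.lf 0 18461242 0) (P.cons (P.lf 0 720132 0) (P.cons (P.lf 66314 0 0) (P.cons (P.lf 3174 0 0) P.nil)))))) 276)
 EL.nil)
noncomputable def S183_198_512_660_43 : EL := (EL.cons 14 (TM.mk (P.cons (P.cons (P.lf 0 24139386 0) (P.cons (P.lf 112939394 0 0) (P.cons (P.lf 0 7550864 0) (P.lf 0 2516954 0)))) (P.cons (P.cons (P.lf 0 859604 0) (P.cons (P.lf 0 20142584 0) (P.cons (P.lf 1346686 0 0) (P.lf 448894 0 0)))) (P.cons (P.cons (P.lf 6308972 0 0) (P.cons (P.lf 0 1461786 0) (P.cons (P.lf 97730 0 0) (P.lf 32576 0 0)))) (P.cons (P.cons (P.lf 0 1420122 0) (P.cons (P.lf 303294 0 0) (P.cons (P.lf 0 20276 0) P.nil))) (P.cons (P.cons (P.lf 50498 0 0) (P.cons (P.lf 15606 0 0) P.nil)) (P.cons (P.cons (P.lf 9726 0 0) P.nil) P.nil))))))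 17072)
 EL.nil)
noncomputable def S183_198_512_660_44 : EL := (EL.cons 14 (TM.mk (P.cons (P.cons (P.lf 0 640980 0) (P.cons (P.lf 5997840 0 0) (P.cons (P.lf 0 14431856 0) (P.cons (P.lf 1742472 0 0) (P.cons (P.lf 562662 0 0) (P.cons (P.lf 0 41810 0) P.nil)))))) (P.cons (P.cons (P.lf 0 232524 0) (P.cons (P.lf 892516 0 0) (P.cons (P.lf 854472 0 0) (P.cons (P.lf 0 142124 0) (P.cons (P.lf 0 36658 0) P.nil))))) (P.cons (P.cons (P.lf 279460 0 0) (P.cons (P.lf 0 1544886 0) (P.cons (P.lf 571640 0 0) (P.cons (P.lf 0 28196 0) P.nil)))) (P.cons (P.cons (P.lf 23218 0 0) (P.cons (P.lf 172490 0 0) (P.cons (P.lf 0 22570 0) P.nil))) (P.cons (P.cons (P.lf 0 42554 0) (P.cons (P.lf 27604 0 0) P.nil)) (P.cons (P.cons (P.lf 7204 0 0) P.nil) P.nil)))))) 157130)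
 EL.nil)
noncomputable def S183_198_512_660_45 : EL := (EL.cons 14 (TM.mk (P.cons (P.cons (P.lf 160822 0 0) (P.cons (P.lf 0 2257296 0) (P.cons (P.lf 10711988 0 0) (P.cons (P.lf 0 17832340 0) (P.cons (P.lf 2880012 0 0) (P.cons (P.lf 911782 0 0) P.nil)))))) (P.cons (P.cons (P.lf 157842 0 0) (P.cons (P.lf 0 1732488 0) (P.cons (P.lf 5961882 0 0) (P.cons (P.lf 0 6336278 0) (P.cons (P.lf 887402 0 0) P.nil))))) (P.cons (P.cons (P.lf 0 38236 0) (P.cons (P.lf 432766 0 0) (P.cons (P.lf 0 1084004 0) (P.cons (P.lf 0 489400 0) P.nil)))) (P.cons (P.cons (P.lf 0 54580 0) (P.cons (P.lf 357592 0 0) (P.cons (P.lf 0 468228 0) P.nil))) (P.cons (P.cons (P.lf 6518 0 0) (P.cons (P.lf 0 43760 0) P.nil)) (P.cons (P.cons (P.lf 6068 0 0) P.nil) P.nil)))))) 1108408)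
 EL.nil)
noncomputable def S183_198_512_660_46 : EL := (EL.cons 15 (TM.mk (P.lf 4294967296 0 0) 0)
 EL.nil)
noncomputable def S183_198_512_660_47 : EL := (EL.cons 15 (TM.mk (P.cons (P.cons (P.lf 114045815 0 0) (P.cons (P.lf 0 533578796 0) (P.cons (P.lf 35673836 0 0) (P.lf 11891276 0 0)))) (P.cons (P.cons (P.lf 37310643 0 0) (P.cons (P.lf 0 60399076 0) (P.cons (P.lf 4038140 0 0) (P.lf 1346044 0 0)))) (P.cons (P.cons (P.lf 0 21244803 0) (P.cons (P.lf 132732 0 0) (P.cons (P.lf 0 8872 0) (P.lf 0 2956 0)))) (P.cons (P.cons (P.lf 0 332507 0) (P.cons (P.lf 255008 0 0) (P.cons (P.lf 0 17048 0) P.nil))) (P.cons (P.cons (P.lf 74669 0 0) (P.cons (P.lf 6840 0 0) P.nil)) (P.cons (P.cons (P.lf 2511 0 0) P.nil) P.nil)))))) 7755)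
 EL.nil)
noncomputable def S183_198_512_660_48 : EL := (EL.cons 15 (TM.mk (P.cons (P.cons (P.lf 3028299 0 0) (P.cons (P.lf 0 28336620 0) (P.cons (P.lf 68182878 0 0) (P.cons (P.lf 0 8232263 0) (P.cons (P.lf 0 2658284 0) (P.cons (P.lf 197536 0 0) P.nil)))))) (P.cons (P.cons (P.lf 1981445 0 0) (P.cons (P.lf 0 12478060 0) (P.cons (P.lf 15841430 0 0) (P.cons (P.lf 0 1728604 0) (P.cons (P.lf 0 601814 0) P.nil))))) (P.cons (P.cons (P.lf 0 804121 0) (P.cons (P.lf 4236300 0 0) (P.cons (P.lf 533168 0 0) (P.cons (P.lf 0 203575 0) P.nil)))) (P.cons (P.cons (P.lf 0 386768 0) (P.cons (P.lf 695986 0 0) (P.cons (P.lf 0 113626 0) P.nil))) (P.cons (P.cons (P.lf 103274 0 0) (P.cons (P.lf 0 5720 0) P.nil)) (P.cons (P.cons (P.lf 4720 0 0) P.nil) P.nil)))))) 180771)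
 EL.nil)
noncomputable def S183_198_512_660 : SL := (SL.cons S183_198_512_660_0 (SL.cons S183_198_512_660_1 (SL.cons S183_198_512_660_2 (SL.cons S183_198_512_660_3 (SL.cons S183_198_512_660_4 (SL.cons S183_198_512_660_5 (SL.cons S183_198_512_660_6 (SL.cons S183_198_512_660_7 (SL.cons S183_198_512_660_8 (SL.cons S183_198_512_660_9 (SL.cons S183_198_512_660_10 (SL.cons S183_198_512_660_11 (SL.cons S183_198_512_660_12 (SL.cons S183_198_512_660_13 (SL.cons S183_198_512_660_14 (SL.cons S183_198_512_660_15 (SL.cons S183_198_512_660_16 (SL.cons S183_198_512_660_17 (SL.cons S183_198_512_660_18 (SL.cons S183_198_512_660_19 (SL.cons S183_198_512_660_20 (SL.cons S183_198_512_660_21 (SL.cons S183_198_512_660_22 (SL.cons S183_198_512_660_23 (SL.cons S183_198_512_660_24 (SL.cons S183_198_512_660_25 (SL.cons S183_198_512_660_26 (SL.cons S183_198_512_660_27 (SL.cons S183_198_512_660_28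 (SL.cons S183_198_512_660_29 (SL.cons S183_198_512_660_30 (SL.cons S183_198_512_660_31 (SL.cons S183_198_512_660_32 (SL.cons S183_198_512_660_33 (SL.cons S183_198_512_660_34 (SL.cons S183_198_512_660_35 (SL.cons S183_198_512_660_36 (SL.cons S183_198_512_660_37 (SL.cons S183_198_512_660_38 (SL.cons S183_198_512_660_39 (SL.cons S183_198_512_660_40 (SL.cons S183_198_512_660_41 (SL.cons S183_198_512_660_42 (SL.cons S183_198_512_660_43 (SL.cons S183_198_512_660_44 (SL.cons S183_198_512_660_45 (SL.cons S183_198_512_660_46 (SL.cons S183_198_512_660_47 (SL.cons S183_198_512_660_48 SL.nil)))))))))))))))))))))))))))))))))))))))))))))))))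
noncomputable def S183_198_586_660_0 : EL := (EL.cons 0 (TM.mk (P.cons (P.lf 6766532673 0 0) (P.cons (P.lf 328315225 0 0) (P.cons (P.lf 0 6915520 0) (P.cons (P.lf 0 1047332 0) (P.cons (P.lf 0 7546 0) (P.cons (P.lf 1573 0 0) P.nil)))))) 161)
 (EL.cons 1 (TM.mk (P.cons (P.lf 0 1616469420 0) (P.cons (P.lf 96098353 0 0) (P.cons (P.lf 12687056 0 0) (P.cons (P.lf 0 51723 0) (P.cons (P.lf 0 25867 0) (P.cons (P.lf 0 433 0) P.nil)))))) 140)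
 (EL.cons 5 (TM.mk (P.cons (P.lf 4895566122 0 0) (P.cons (P.lf 0 116734300 0) (P.cons (P.lf 2458850 0 0) (P.cons (P.lf 372384 0 0) (P.cons (P.lf 2686 0 0) (P.cons (P.lf 0 556 0) P.nil)))))) 123)
 (EL.cons 9 (TM.mk (P.lf 6442450944 0 0) 2)
 EL.nil))))
noncomputable def S183_198_586_660_1 : EL := (EL.cons 0 (TM.mk (P.cons (P.cons (P.lf 0 310646229 0) (P.cons (P.lf 0 96715332 0) (P.cons (P.lf 5291879 0 0) (P.lf 587992 0 0)))) (P.cons (P.cons (P.lf 450364842 0 0) (P.cons (P.lf 0 85705861 0) (P.cons (P.lf 4689476 0 0) (P.lf 521048 0 0)))) (P.cons (P.cons (P.lf 0 59336498 0) (P.cons (P.lf 0 6863580 0) (P.cons (P.lf 375544 0 0) (P.lf 41719 0 0)))) (P.cons (P.cons (P.lf 0 8265639 0) (P.cons (P.lf 481548 0 0) (P.cons (P.lf 0 26346 0) P.nil))) (P.cons (P.cons (P.lf 278358 0 0) (P.cons (P.lf 65282 0 0) P.nil)) (P.cons (P.cons (P.lf 54874 0 0) P.nil) P.nil)))))) 21958)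
 (EL.cons 1 (TM.mk (P.cons (P.cons (P.lf 28282332 0 0) (P.cons (P.lf 176454852 0 0) (P.cons (P.lf 0 9654892 0) (P.lf 0 1072762 0)))) (P.cons (P.cons (P.lf 117137813 0 0) (P.cons (P.lf 23944178 0 0) (P.cons (P.lf 0 1310120 0) (P.lf 0 145556 0)))) (P.cons (P.cons (P.lf 39521307 0 0) (P.cons (P.lf 0 3234894 0) (P.cons (P.lf 176994 0 0) (P.lf 19662 0 0)))) (P.cons (P.cons (P.lf 0 1963681 0) (P.cons (P.lf 0 440066 0) (P.cons (P.lf 24073 0 0) P.nil))) (P.cons (P.cons (P.lf 0 423906 0) (P.cons (P.lf 7320 0 0) P.nil)) (P.cons (P.cons (P.lf 2247 0 0) P.nil) P.nil)))))) 12867)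
 (EL.cons 5 (TM.mk (P.cons (P.cons (P.lf 0 131523828 0) (P.cons (P.lf 0 381250850 0) (P.cons (P.lf 20860510 0 0) (P.lf 2317834 0 0)))) (P.cons (P.cons (P.lf 0 146038607 0) (P.cons (P.lf 0 16575500 0) (P.cons (P.lf 906948 0 0) (P.lf 100778 0 0)))) (P.cons (P.cons (P.lf 0 14910332 0) (P.cons (P.lf 2543780 0 0) (P.cons (P.lf 0 139178 0) (P.lf 0 15456 0)))) (P.cons (P.cons (P.lf 2581931 0 0) (P.cons (P.lf 27432 0 0) (P.cons (P.lf 0 1504 0) P.nil))) (P.cons (P.cons (P.lf 33569 0 0) (P.cons (P.lf 0 17878 0) P.nil)) (P.cons (P.cons (P.lf 0 15605 0) P.nil) P.nil)))))) 11799)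
 (EL.cons 9 (TM.mk (P.cons (P.cons (P.lf 0 213508068 0) (P.cons (P.lf 0 366739872 0) (P.cons (P.lf 20066526 0 0) (P.lf 2229612 0 0)))) (P.cons (P.cons (P.lf 12433342 0 0) (P.cons (P.lf 0 41513550 0) (P.cons (P.lf 2271450 0 0) (P.lf 252378 0 0)))) (P.cons (P.cons (P.lf 0 31771534 0) (P.cons (P.lf 91230 0 0) (P.cons (P.lf 0 4986 0) (P.lf 0 552 0)))) (P.cons (P.cons (P.lf 0 314962 0) (P.cons (P.lf 175272 0 0) (P.cons (P.lf 0 9588 0) P.nil))) (P.cons (P.cons (P.lf 116935 0 0) (P.cons (P.lf 4698 0 0) P.nil)) (P.cons (P.cons (P.lf 3436 0 0) P.nil) P.nil)))))) 2795)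
 (EL.cons 2 (TM.mk (P.cons (P.cons (P.lf 863091191 0 0) (P.cons (P.lf 0 108297202 0) (P.cons (P.lf 0 16534178 0) (P.cons (P.lf 505116 0 0) (P.lf 42091 0 0))))) (P.cons (P.cons (P.lf 0 18744162 0) (P.cons (P.lf 2351941 0 0) (P.cons (P.lf 359080 0 0) (P.cons (P.lf 0 10968 0) (P.lf 0 914 0))))) (P.cons (P.cons (P.lf 0 10010477 0) (P.cons (P.lf 1256070 0 0) (P.cons (P.lf 191767 0 0) (P.cons (P.lf 0 5855 0) P.nil)))) (P.cons (P.cons (P.lf 0 205495 0) (P.cons (P.lf 25782 0 0) (P.cons (P.lf 3934 0 0) P.nil))) (P.cons (P.cons (P.lf 28659 0 0) (P.cons (P.lf 0 3594 0) P.nil)) (P.cons (P.cons (P.lf 1178 0 0) P.nil) P.nil)))))) 1961)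
 (EL.cons 6 (TM.mk (P.cons (P.cons (P.lf 825937470 0 0) (P.cons (P.lf 0 103635303 0) (P.cons (P.lf 0 15822429 0) (P.cons (P.lf 483372 0 0) (P.lf 40278 0 0))))) (P.cons (P.cons (P.lf 93492963 0 0) (P.cons (P.lf 0 11731119 0) (P.cons (P.lf 0 1791036 0) (P.cons (P.lf 54714 0 0) (P.lf 4557 0 0))))) (P.cons (P.cons (P.lf 0 205461 0) (P.cons (P.lf 25779 0 0) (P.cons (P.lf 3933 0 0) (P.cons (P.lf 0 117 0) P.nil)))) (P.cons (P.cons (P.lf 0 394731 0) (P.cons (P.lf 49527 0 0) (P.cons (P.lf 7560 0 0) P.nil))) (P.cons (P.cons (P.lf 0 10590 0) (P.cons (P.lf 1326 0 0) P.nil)) (P.cons (P.cons (P.lf 705 0 0) P.nil) P.nil)))))) 1155)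
 EL.nil))))))
noncomputable def S183_198_586_660_2 : EL := (EL.cons 0 (TM.mk (P.cons (P.cons (P.lf 13158361 0 0) (P.cons (P.lf 16246941 0 0) (P.cons (P.lf 0 11804874 0) (P.cons (P.lf 1095766 0 0) (P.cons (P.lf 100037 0 0) (P.cons (P.lf 0 7259 0) P.nil)))))) (P.cons (P.cons (P.lf 0 30544985 0) (P.cons (P.lf 0 44605645 0) (P.cons (P.lf 7416728 0 0) (P.cons (P.lf 0 273364 0) (P.cons (P.lf 0 45618 0) P.nil))))) (P.cons (P.cons (P.lf 6547789 0 0) (P.cons (P.lf 0 1645832 0) (P.cons (P.lf 1484768 0 0) (P.cons (P.lf 0 142618 0) P.nil)))) (P.cons (P.cons (P.lf 0 4094218 0) (P.cons (P.lf 1871612 0 0) (P.cons (P.lf 0 58907 0) P.nil))) (P.cons (P.cons (P.lf 331774 0 0) (P.cons (P.lf 159404 0 0) P.nil)) (P.cons (P.cons (P.lf 89978 0 0) P.nil) P.nil)))))) 135982)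
 (EL.cons 1 (TM.mk (P.cons (P.cons (P.lf 0 99207 0) (P.cons (P.lf 0 8816559 0) (P.cons (P.lf 0 14368965 0) (P.cons (P.lf 1678808 0 0) (P.cons (P.lf 136113 0 0) (P.cons (P.lf 0 9880 0) P.nil)))))) (P.cons (P.cons (P.lf 0 7967239 0) (P.cons (P.lf 0 14634093 0) (P.cons (P.lf 0 3324931 0) (P.cons (P.lf 540439 0 0) (P.cons (P.lf 37796 0 0) P.nil))))) (P.cons (P.cons (P.lf 0 1913601 0) (P.cons (P.lf 0 6643849 0) (P.cons (P.lf 381141 0 0) (P.cons (P.lf 38455 0 0) P.nil)))) (P.cons (P.cons (P.lf 0 931039 0) (P.cons (P.lf 0 462646 0) (P.cons (P.lf 109103 0 0) P.nil))) (P.cons (P.cons (P.lf 0 345295 0) (P.cons (P.lf 99268 0 0) P.nil)) (P.cons (P.cons (P.lf 16849 0 0) P.nil) P.nil)))))) 74378)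
 (EL.cons 5 (TM.mk (P.cons (P.cons (P.lf 3340756 0 0) (P.cons (P.lf 21772501 0 0) (P.cons (P.lf 26350343 0 0) (P.cons (P.lf 0 3146300 0) (P.cons (P.lf 0 252415 0) (P.cons (P.lf 18318 0 0) P.nil)))))) (P.cons (P.cons (P.lf 9926448 0 0) (P.cons (P.lf 17373952 0 0) (P.cons (P.lf 2636636 0 0) (P.cons (P.lf 0 498178 0) (P.cons (P.lf 0 32883 0) P.nil))))) (P.cons (P.cons (P.lf 85747 0 0) (P.cons (P.lf 4496248 0 0) (P.cons (P.lf 0 450500 0) (P.cons (P.lf 0 4963 0) P.nil)))) (P.cons (P.cons (P.lf 1340392 0 0) (P.cons (P.lf 0 173535 0) (P.cons (P.lf 0 29928 0) P.nil))) (P.cons (P.cons (P.lf 49463 0 0) (P.cons (P.lf 0 67765 0) P.nil)) (P.cons (P.cons (P.lf 0 28214 0) P.nil) P.nil)))))) 73035)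
 (EL.cons 9 (TM.mk (P.cons (P.cons (P.lf 7075830 0 0) (P.cons (P.lf 24308115 0 0) (P.cons (P.lf 19546815 0 0) (P.cons (P.lf 0 2432376 0) (P.cons (P.lf 0 191341 0) (P.cons (P.lf 13888 0 0) P.nil)))))) (P.cons (P.cons (P.lf 0 824101 0) (P.cons (P.lf 1336036 0 0) (P.cons (P.lf 4653258 0 0) (P.cons (P.lf 0 525336 0) (P.cons (P.lf 0 43317 0) P.nil))))) (P.cons (P.cons (P.lf 2129863 0 0) (P.cons (P.lf 3450940 0 0) (P.cons (P.lf 68293 0 0) (P.cons (P.lf 0 49117 0) P.nil)))) (P.cons (P.cons (P.lf 0 101755 0) (P.cons (P.lf 434049 0 0) (P.cons (P.lf 0 44880 0) P.nil))) (P.cons (P.cons (P.lf 147717 0 0) (P.cons (P.lf 0 9787 0) P.nil)) (P.cons (P.cons (P.lf 3330 0 0) P.nil) P.nil)))))) 23911)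
 (EL.cons 2 (TM.mk (P.cons (P.cons (P.lf 0 57207088 0) (P.cons (P.lf 0 91085709 0) (P.cons (P.lf 18802260 0 0) (P.cons (P.lf 1771717 0 0) (P.cons (P.lf 0 238252 0) (P.cons (P.lf 0 13089 0) P.nil)))))) (P.cons (P.cons (P.lf 4573766 0 0) (P.cons (P.lf 0 9562944 0) (P.cons (P.lf 1532131 0 0) (P.cons (P.lf 167810 0 0) (P.cons (P.lf 0 21313 0) P.nil))))) (P.cons (P.cons (P.lf 0 7921659 0) (P.cons (P.lf 2399686 0 0) (P.cons (P.lf 0 101536 0) (P.cons (P.lf 0 30459 0) P.nil)))) (P.cons (P.cons (P.lf 75465 0 0) (P.cons (P.lf 189365 0 0) (P.cons (P.lf 0 37271 0) P.nil))) (P.cons (P.cons (P.lf 129200 0 0) (P.cons (P.lf 0 16869 0) P.nil)) (P.cons (P.cons (P.lf 3273 0 0) P.nil) P.nil)))))) 24997)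
 (EL.cons 6 (TM.mk (P.cons (P.cons (P.lf 0 54744474 0) (P.cons (P.lf 0 87164718 0) (P.cons (P.lf 17992872 0 0) (P.cons (P.lf 1695450 0 0) (P.cons (P.lf 0 227994 0) (P.cons (P.lf 0 12522 0) P.nil)))))) (P.cons (P.cons (P.lf 0 3008892 0) (P.cons (P.lf 0 20910996 0) (P.cons (P.lf 3893658 0 0) (P.cons (P.lf 389322 0 0) (P.cons (P.lf 0 51156 0) P.nil))))) (P.cons (P.cons (P.lf 0 7771884 0) (P.cons (P.lf 0 182922 0) (P.cons (P.lf 357564 0 0) (P.cons (P.lf 16722 0 0) P.nil)))) (P.cons (P.cons (P.lf 0 977520 0) (P.cons (P.lf 217830 0 0) (P.cons (P.lf 1578 0 0) P.nil))) (P.cons (P.cons (P.lf 22044 0 0) (P.cons (P.lf 9810 0 0) P.nil)) (P.cons (P.cons (P.lf 8094 0 0) P.nil) P.nil)))))) 20544)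
 EL.nil))))))
noncomputable def S183_198_586_660_3 : EL := (EL.cons 0 (TM.mk (P.cons (P.lf 1689184190 0 0) (P.cons (P.lf 0 328315225 0) (P.cons (P.lf 6915520 0 0) (P.cons (P.lf 1047332 0 0) (P.cons (P.lf 7546 0 0) (P.cons (P.lf 0 1573 0) P.nil)))))) 161)
 (EL.cons 1 (TM.mk (P.cons (P.lf 1616469420 0 0) (P.cons (P.lf 0 96098353 0) (P.cons (P.lf 0 12687056 0) (P.cons (P.lf 51723 0 0) (P.cons (P.lf 25867 0 0) (P.cons (P.lf 433 0 0) P.nil)))))) 140)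
 (EL.cons 5 (TM.mk (P.cons (P.lf 1546884822 0 0) (P.cons (P.lf 116734300 0 0) (P.cons (P.lf 0 2458850 0) (P.cons (P.lf 0 372384 0) (P.cons (P.lf 0 2686 0) (P.cons (P.lf 556 0 0) P.nil)))))) 116)
 EL.nil)))
noncomputable def S183_198_586_660_4 : EL := (EL.cons 0 (TM.mk (P.cons (P.cons (P.lf 0 55980938 0) (P.cons (P.lf 0 96157687 0) (P.cons (P.lf 5261359 0 0) (P.lf 584593 0 0)))) (P.cons (P.cons (P.lf 14140604 0 0) (P.cons (P.lf 7804831 0 0) (P.cons (P.lf 0 427048 0) (P.lf 0 47450 0)))) (P.cons (P.cons (P.lf 0 9193169 0) (P.cons (P.lf 1745831 0 0) (P.cons (P.lf 0 95523 0) (P.lf 0 10611 0)))) (P.cons (P.cons (P.lf 1515171 0 0) (P.cons (P.lf 0 62875 0) (P.cons (P.lf 3440 0 0) P.nil))) (P.cons (P.cons (P.lf 14377 0 0) (P.cons (P.lf 0 14779 0) P.nil)) (P.cons (P.cons (P.lf 0 10494 0) P.nil) P.nil)))))) 3604)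
 (EL.cons 1 (TM.mk (P.cons (P.cons (P.lf 0 53571110 0) (P.cons (P.lf 0 92018360 0) (P.cons (P.lf 5034871 0 0) (P.lf 559428 0 0)))) (P.cons (P.cons (P.lf 6304415 0 0) (P.cons (P.lf 0 4945676 0) (P.cons (P.lf 270605 0 0) (P.lf 30063 0 0)))) (P.cons (P.cons (P.lf 0 7736765 0) (P.cons (P.lf 1364340 0 0) (P.cons (P.lf 0 74649 0) (P.lf 0 8293 0)))) (P.cons (P.cons (P.lf 368690 0 0) (P.cons (P.lf 121423 0 0) (P.cons (P.lf 0 6643 0) P.nil))) (P.cons (P.cons (P.lf 95846 0 0) (P.cons (P.lf 0 3420 0) P.nil)) (P.cons (P.cons (P.lf 0 480 0) P.nil) P.nil)))))) 3084)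
 (EL.cons 5 (TM.mk (P.cons (P.cons (P.lf 0 51265020 0) (P.cons (P.lf 0 88057222 0) (P.cons (P.lf 4818134 0 0) (P.lf 535346 0 0)))) (P.cons (P.cons (P.lf 0 883322 0) (P.cons (P.lf 0 16612900 0) (P.cons (P.lf 908988 0 0) (P.lf 100996 0 0)))) (P.cons (P.cons (P.lf 0 7321826 0) (P.cons (P.lf 0 590330 0) (P.cons (P.lf 32300 0 0) (P.lf 3588 0 0)))) (P.cons (P.cons (P.lf 0 643714 0) (P.cons (P.lf 80778 0 0) (P.cons (P.lf 0 4418 0) P.nil))) (P.cons (P.cons (P.lf 33866 0 0) (P.cons (P.lf 6820 0 0) P.nil)) (P.cons (P.cons (P.lf 4876 0 0) P.nil) P.nil)))))) 2128)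
 EL.nil)))
noncomputable def S183_198_586_660_5 : EL := (EL.cons 0 (TM.mk (P.cons (P.cons (P.lf 1855253 0 0) (P.cons (P.lf 6373487 0 0) (P.cons (P.lf 5125093 0 0) (P.cons (P.lf 0 637758 0) (P.cons (P.lf 0 50167 0) (P.cons (P.lf 3640 0 0) P.nil)))))) (P.cons (P.cons (P.lf 0 576667 0) (P.cons (P.lf 0 888466 0) (P.cons (P.lf 223934 0 0) (P.cons (P.lf 0 13783 0) (P.cons (P.lf 0 1604 0) P.nil))))) (P.cons (P.cons (P.lf 608032 0 0) (P.cons (P.lf 862829 0 0) (P.cons (P.lf 0 198246 0) (P.cons (P.lf 11281 0 0) P.nil)))) (P.cons (P.cons (P.lf 0 134954 0) (P.cons (P.lf 0 56671 0) (P.cons (P.lf 0 7073 0) P.nil))) (P.cons (P.cons (P.lf 46075 0 0) (P.cons (P.lf 0 20735 0) P.nil)) (P.cons (P.cons (P.lf 0 6419 0) P.nil) P.nil)))))) 19623)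
 (EL.cons 1 (TM.mk (P.cons (P.cons (P.lf 1775388 0 0) (P.cons (P.lf 6099125 0 0) (P.cons (P.lf 4904471 0 0) (P.cons (P.lf 0 610303 0) (P.cons (P.lf 0 48007 0) (P.cons (P.lf 3483 0 0) P.nil)))))) (P.cons (P.cons (P.lf 0 312318 0) (P.cons (P.lf 0 27365 0) (P.cons (P.lf 875975 0 0) (P.cons (P.lf 0 95527 0) (P.cons (P.lf 0 8011 0) P.nil))))) (P.cons (P.cons (P.lf 532758 0 0) (P.cons (P.lf 798073 0 0) (P.cons (P.lf 0 90766 0) (P.cons (P.lf 301 0 0) P.nil)))) (P.cons (P.cons (P.lf 0 55620 0) (P.cons (P.lf 54993 0 0) (P.cons (P.lf 0 21285 0) P.nil))) (P.cons (P.cons (P.lf 34408 0 0) (P.cons (P.lf 0 15616 0) P.nil)) (P.cons (P.cons (P.lf 0 1151 0) P.nil) P.nil)))))) 14750)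
 (EL.cons 5 (TM.mk (P.cons (P.cons (P.lf 1698962 0 0) (P.cons (P.lf 5836574 0 0) (P.cons (P.lf 4693348 0 0) (P.cons (P.lf 0 584032 0) (P.cons (P.lf 0 45942 0) (P.cons (P.lf 3334 0 0) P.nil)))))) (P.cons (P.cons (P.lf 0 69662 0) (P.cons (P.lf 761244 0 0) (P.cons (P.lf 1471462 0 0) (P.cons (P.lf 0 170210 0) (P.cons (P.lf 0 13866 0) P.nil))))) (P.cons (P.cons (P.lf 493764 0 0) (P.cons (P.lf 843528 0 0) (P.cons (P.lf 93250 0 0) (P.cons (P.lf 0 20382 0) P.nil)))) (P.cons (P.cons (P.lf 14064 0 0) (P.cons (P.lf 164832 0 0) (P.cons (P.lf 0 12444 0) P.nil))) (P.cons (P.cons (P.lf 32854 0 0) (P.cons (P.lf 4110 0 0) P.nil)) (P.cons (P.cons (P.lf 3392 0 0) P.nil) P.nil)))))) 11204)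
 EL.nil)))
noncomputable def S183_198_586_660_6 : EL := (EL.cons 12 (TM.mk (P.lf 8589934592 0 0) 0)
 (EL.cons 3 (TM.mk (P.cons (P.lf 0 1904598495 0) (P.cons (P.lf 185091918 0 0) (P.cons (P.lf 5095050 0 0) (P.cons (P.lf 0 95302 0) (P.cons (P.lf 0 6701 0) (P.cons (P.lf 0 18 0) P.nil)))))) 59)
 (EL.cons 7 (TM.mk (P.cons (P.lf 0 1822610727 0) (P.cons (P.lf 0 68770857 0) (P.cons (P.lf 2745999 0 0) (P.cons (P.lf 115768 0 0) (P.cons (P.lf 0 717 0) (P.cons (P.lf 0 127 0) P.nil)))))) 49)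
 EL.nil)))
noncomputable def S183_198_586_660_7 : EL := (EL.cons 12 (TM.mk (P.cons (P.cons (P.lf 0 284677424 0) (P.cons (P.lf 0 488986496 0) (P.cons (P.lf 26755368 0 0) (P.lf 2972816 0 0)))) (P.cons (P.cons (P.lf 16577790 0 0) (P.cons (P.lf 0 55351400 0) (P.cons (P.lf 3028600 0 0) (P.lf 336504 0 0)))) (P.cons (P.cons (P.lf 0 42362046 0) (P.cons (P.lf 121640 0 0) (P.cons (P.lf 0 6648 0) (P.lf 0 736 0)))) (P.cons (P.cons (P.lf 0 419950 0) (P.cons (P.lf 233696 0 0) (P.cons (P.lf 0 12784 0) P.nil))) (P.cons (P.cons (P.lf 155914 0 0) (P.cons (P.lf 6264 0 0) P.nil)) (P.cons (P.cons (P.lf 4582 0 0) P.nil) P.nil)))))) 3702)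
 (EL.cons 3 (TM.mk (P.cons (P.cons (P.lf 160535715 0 0) (P.cons (P.lf 0 216840518 0) (P.cons (P.lf 11864638 0 0) (P.lf 1318290 0 0)))) (P.cons (P.cons (P.lf 0 505684762 0) (P.cons (P.lf 0 3472608 0) (P.cons (P.lf 190002 0 0) (P.lf 21106 0 0)))) (P.cons (P.cons (P.lf 0 8097281 0) (P.cons (P.lf 3019388 0 0) (P.cons (P.lf 0 165204 0) (P.lf 0 18354 0)))) (P.cons (P.cons (P.lf 3289115 0 0) (P.cons (P.lf 153200 0 0) (P.cons (P.lf 0 8380 0) P.nil))) (P.cons (P.cons (P.lf 149490 0 0) (P.cons (P.lf 0 9426 0) P.nil)) (P.cons (P.cons (P.lf 0 7616 0) P.nil) P.nil)))))) 8750)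
 (EL.cons 7 (TM.mk (P.cons (P.cons (P.lf 24208006 0 0) (P.cons (P.lf 224603632 0 0) (P.cons (P.lf 0 12289411 0) (P.lf 0 1365492 0)))) (P.cons (P.cons (P.lf 187887056 0 0) (P.cons (P.lf 1290250 0 0) (P.cons (P.lf 0 70600 0) (P.lf 0 7848 0)))) (P.cons (P.cons (P.lf 0 9665715 0) (P.cons (P.lf 0 1208889 0) (P.cons (P.lf 66147 0 0) (P.lf 7347 0 0)))) (P.cons (P.cons (P.lf 0 1247028 0) (P.cons (P.lf 45666 0 0) (P.cons (P.lf 0 2497 0) P.nil))) (P.cons (P.cons (P.lf 62838 0 0) (P.cons (P.lf 6982 0 0) P.nil)) (P.cons (P.cons (P.lf 6012 0 0) P.nil) P.nil)))))) 6818)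
 (EL.cons 10 (TM.mk (P.cons (P.cons (P.lf 0 1946314908 0) (P.cons (P.lf 244215750 0 0) (P.cons (P.lf 37285425 0 0) (P.cons (P.lf 0 1139064 0) (P.lf 0 94920 0))))) (P.cons (P.cons (P.lf 0 146876937 0) (P.cons (P.lf 18429525 0 0) (P.cons (P.lf 2813709 0 0) (P.cons (P.lf 0 85956 0) (P.lf 0 7161 0))))) (P.cons (P.cons (P.lf 3093762 0 0) (P.cons (P.lf 0 388191 0) (P.cons (P.lf 0 59265 0) (P.cons (P.lf 1809 0 0) P.nil)))) (P.cons (P.cons (P.lf 468537 0 0) (P.cons (P.lf 0 58788 0) (P.cons (P.lf 0 8973 0) P.nil))) (P.cons (P.cons (P.lf 3378 0 0) (P.cons (P.lf 0 423 0) P.nil)) (P.cons (P.cons (P.lf 0 699 0) P.nil) P.nil)))))) 891)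
 EL.nil))))
noncomputable def S183_198_586_660_8 : EL := (EL.cons 12 (TM.mk (P.cons (P.cons (P.lf 9434440 0 0) (P.cons (P.lf 32410820 0 0) (P.cons (P.lf 26062420 0 0) (P.cons (P.lf 0 3243168 0) (P.cons (P.lf 0 255122 0) (P.cons (P.lf 18518 0 0) P.nil)))))) (P.cons (P.cons (P.lf 0 1098802 0) (P.cons (P.lf 1781382 0 0) (P.cons (P.lf 6204344 0 0) (P.cons (P.lf 0 700448 0) (P.cons (P.lf 0 57756 0) P.nil))))) (P.cons (P.cons (P.lf 2839818 0 0) (P.cons (P.lf 4601254 0 0) (P.cons (P.lf 91058 0 0) (P.cons (P.lf 0 65490 0) P.nil)))) (P.cons (P.cons (P.lf 0 135674 0) (P.cons (P.lf 578732 0 0) (P.cons (P.lf 0 59840 0) P.nil))) (P.cons (P.cons (P.lf 196956 0 0) (P.cons (P.lf 0 13050 0) P.nil)) (P.cons (P.cons (P.lf 4440 0 0) P.nil) P.nil)))))) 31852)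
 (EL.cons 3 (TM.mk (P.cons (P.cons (P.lf 0 8548715 0) (P.cons (P.lf 3281654 0 0) (P.cons (P.lf 30679839 0 0) (P.cons (P.lf 0 3396954 0) (P.cons (P.lf 0 282831 0) (P.cons (P.lf 20531 0 0) P.nil)))))) (P.cons (P.cons (P.lf 33690321 0 0) (P.cons (P.lf 54593634 0 0) (P.cons (P.lf 1000219 0 0) (P.cons (P.lf 0 768244 0) (P.cons (P.lf 0 36541 0) P.nil))))) (P.cons (P.cons (P.lf 0 2350801 0) (P.cons (P.lf 10331247 0 0) (P.cons (P.lf 0 946718 0) (P.cons (P.lf 0 21065 0) P.nil)))) (P.cons (P.cons (P.lf 4632180 0 0) (P.cons (P.lf 0 190271 0) (P.cons (P.lf 0 74902 0) P.nil))) (P.cons (P.cons (P.lf 182827 0 0) (P.cons (P.lf 0 141061 0) P.nil)) (P.cons (P.cons (P.lf 0 51902 0) P.nil) P.nil)))))) 78582)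
 (EL.cons 7 (TM.mk (P.cons (P.cons (P.lf 397249 0 0) (P.cons (P.lf 0 10766277 0) (P.cons (P.lf 0 19076071 0) (P.cons (P.lf 2217450 0 0) (P.cons (P.lf 180233 0 0) (P.cons (P.lf 0 13079 0) P.nil)))))) (P.cons (P.cons (P.lf 0 12517629 0) (P.cons (P.lf 0 20284249 0) (P.cons (P.lf 0 371633 0) (P.cons (P.lf 285441 0 0) (P.cons (P.lf 13583 0 0) P.nil))))) (P.cons (P.cons (P.lf 1717839 0 0) (P.cons (P.lf 0 2470257 0) (P.cons (P.lf 376818 0 0) (P.cons (P.lf 0 11426 0) P.nil)))) (P.cons (P.cons (P.lf 0 1816007 0) (P.cons (P.lf 389426 0 0) (P.cons (P.lf 0 4292 0) P.nil))) (P.cons (P.cons (P.lf 108671 0 0) (P.cons (P.lf 38934 0 0) P.nil)) (P.cons (P.cons (P.lf 22454 0 0) P.nil) P.nil)))))) 45296)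
 (EL.cons 10 (TM.mk (P.cons (P.cons (P.lf 129004920 0 0) (P.cons (P.lf 205402956 0 0) (P.cons (P.lf 0 42400062 0) (P.cons (P.lf 0 3995316 0) (P.cons (P.lf 537276 0 0) (P.cons (P.lf 29514 0 0) P.nil)))))) (P.cons (P.cons (P.lf 2222820 0 0) (P.cons (P.lf 41526318 0 0) (P.cons (P.lf 0 7575540 0) (P.cons (P.lf 0 766692 0) (P.cons (P.lf 100284 0 0) P.nil))))) (P.cons (P.cons (P.lf 18424878 0 0) (P.cons (P.lf 0 826350 0) (P.cons (P.lf 0 620646 0) (P.cons (P.lf 0 16506 0) P.nil)))) (P.cons (P.cons (P.lf 1619862 0 0) (P.cons (P.lf 0 406530 0) (P.cons (P.lf 5592 0 0) P.nil))) (P.cons (P.cons (P.lf 0 85218 0) (P.cons (P.lf 0 6468 0) P.nil)) (P.cons (P.cons (P.lf 0 12270 0) P.nil) P.nil)))))) 35256)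
 EL.nil))))
noncomputable def S183_198_586_660_9 : EL := (EL.cons 3 (TM.mk (P.cons (P.lf 0 1904598495 0) (P.cons (P.lf 185091918 0 0) (P.cons (P.lf 5095050 0 0) (P.cons (P.lf 0 95302 0) (P.cons (P.lf 0 6701 0) (P.cons (P.lf 0 18 0) P.nil)))))) 59)
 (EL.cons 7 (TM.mk (P.cons (P.lf 0 1822610727 0) (P.cons (P.lf 0 68770857 0) (P.cons (P.lf 2745999 0 0) (P.cons (P.lf 115768 0 0) (P.cons (P.lf 0 717 0) (P.cons (P.lf 0 127 0) P.nil)))))) 49)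
 EL.nil))
noncomputable def S183_198_586_660_10 : EL := (EL.cons 3 (TM.mk (P.cons (P.cons (P.lf 63119943 0 0) (P.cons (P.lf 108420259 0 0) (P.cons (P.lf 0 5932319 0) (P.lf 0 659145 0)))) (P.cons (P.cons (P.lf 0 9809797 0) (P.cons (P.lf 1736304 0 0) (P.cons (P.lf 0 95001 0) (P.lf 0 10553 0)))) (P.cons (P.cons (P.lf 9581056 0 0) (P.cons (P.lf 0 1509694 0) (P.cons (P.lf 82602 0 0) (P.lf 9177 0 0)))) (P.cons (P.cons (P.lf 0 806692 0) (P.cons (P.lf 0 76600 0) (P.cons (P.lf 4190 0 0) P.nil))) (P.cons (P.cons (P.lf 0 68706 0) (P.cons (P.lf 4713 0 0) P.nil)) (P.cons (P.cons (P.lf 2551 0 0) P.nil) P.nil)))))) 2104)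
 (EL.cons 7 (TM.mk (P.cons (P.cons (P.lf 60402802 0 0) (P.cons (P.lf 103753063 0 0) (P.cons (P.lf 0 5676949 0) (P.lf 0 630771 0)))) (P.cons (P.cons (P.lf 0 1238350 0) (P.cons (P.lf 15659266 0 0) (P.cons (P.lf 0 856810 0) (P.lf 0 95199 0)))) (P.cons (P.cons (P.lf 8764644 0 0) (P.cons (P.lf 261015 0 0) (P.cons (P.lf 0 14283 0) (P.lf 0 1587 0)))) (P.cons (P.cons (P.lf 429717 0 0) (P.cons (P.lf 0 74844 0) (P.cons (P.lf 4094 0 0) P.nil))) (P.cons (P.cons (P.lf 0 43014 0) (P.cons (P.lf 0 3866 0) P.nil)) (P.cons (P.cons (P.lf 0 2922 0) P.nil) P.nil)))))) 1396)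
 EL.nil))
noncomputable def S183_198_586_660_11 : EL := (EL.cons 3 (TM.mk (P.cons (P.cons (P.lf 0 2091845 0) (P.cons (P.lf 0 7186270 0) (P.cons (P.lf 0 5778675 0) (P.cons (P.lf 719088 0 0) (P.cons (P.lf 56565 0 0) (P.cons (P.lf 0 4105 0) P.nil)))))) (P.cons (P.cons (P.lf 446919 0 0) (P.cons (P.lf 303396 0 0) (P.cons (P.lf 0 814073 0) (P.cons (P.lf 85424 0 0) (P.cons (P.lf 7307 0 0) P.nil))))) (P.cons (P.cons (P.lf 0 647737 0) (P.cons (P.lf 0 962601 0) (P.cons (P.lf 128956 0 0) (P.cons (P.lf 0 2495 0) P.nil)))) (P.cons (P.cons (P.lf 90516 0 0) (P.cons (P.lf 0 28475 0) (P.cons (P.lf 18620 0 0) P.nil))) (P.cons (P.cons (P.lf 0 44903 0) (P.cons (P.lf 18047 0 0) P.nil)) (P.cons (P.cons (P.lf 3148 0 0) P.nil) P.nil)))))) 13958)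
 (EL.cons 7 (TM.mk (P.cons (P.cons (P.lf 0 2001797 0) (P.cons (P.lf 0 6876921 0) (P.cons (P.lf 0 5529919 0) (P.cons (P.lf 688134 0 0) (P.cons (P.lf 54131 0 0) (P.cons (P.lf 0 3929 0) P.nil)))))) (P.cons (P.cons (P.lf 157611 0 0) (P.cons (P.lf 0 637453 0) (P.cons (P.lf 0 1525091 0) (P.cons (P.lf 174585 0 0) (P.cons (P.lf 14297 0 0) P.nil))))) (P.cons (P.cons (P.lf 0 590739 0) (P.cons (P.lf 0 980193 0) (P.cons (P.lf 0 60660 0) (P.cons (P.lf 18466 0 0) P.nil)))) (P.cons (P.cons (P.lf 5827 0 0) (P.cons (P.lf 0 158626 0) (P.cons (P.lf 14302 0 0) P.nil))) (P.cons (P.cons (P.lf 0 39811 0) (P.cons (P.lf 0 372 0) P.nil)) (P.cons (P.cons (P.lf 0 2524 0) P.nil) P.nil)))))) 9676)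
 EL.nil))
noncomputable def S183_198_586_660_12 : EL := (EL.cons 4 (TM.mk (P.cons (P.lf 1904598495 0 0) (P.cons (P.lf 0 185091918 0) (P.cons (P.lf 0 5095050 0) (P.cons (P.lf 95302 0 0) (P.cons (P.lf 6701 0 0) (P.cons (P.lf 18 0 0) P.nil)))))) 59)
 (EL.cons 8 (TM.mk (P.cons (P.lf 1822610727 0 0) (P.cons (P.lf 68770857 0 0) (P.cons (P.lf 0 2745999 0) (P.cons (P.lf 0 115768 0) (P.cons (P.lf 717 0 0) (P.cons (P.lf 127 0 0) P.nil)))))) 49)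
 EL.nil))
noncomputable def S183_198_586_660_13 : EL := (EL.cons 4 (TM.mk (P.cons (P.cons (P.lf 0 63119943 0) (P.cons (P.lf 0 108420259 0) (P.cons (P.lf 5932319 0 0) (P.lf 659145 0 0)))) (P.cons (P.cons (P.lf 9809797 0 0) (P.cons (P.lf 0 1736304 0) (P.cons (P.lf 95001 0 0) (P.lf 10553 0 0)))) (P.cons (P.cons (P.lf 0 9581056 0) (P.cons (P.lf 1509694 0 0) (P.cons (P.lf 0 82602 0) (P.lf 0 9177 0)))) (P.cons (P.cons (P.lf 806692 0 0) (P.cons (P.lf 76600 0 0) (P.cons (P.lf 0 4190 0) P.nil))) (P.cons (P.cons (P.lf 68706 0 0) (P.cons (P.lf 0 4713 0) P.nil)) (P.cons (P.cons (P.lf 0 2551 0) P.nil) P.nil)))))) 2104)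
 (EL.cons 8 (TM.mk (P.cons (P.cons (P.lf 0 60402802 0) (P.cons (P.lf 0 103753063 0) (P.cons (P.lf 5676949 0 0) (P.lf 630771 0 0)))) (P.cons (P.cons (P.lf 1238350 0 0) (P.cons (P.lf 0 15659266 0) (P.cons (P.lf 856810 0 0) (P.lf 95199 0 0)))) (P.cons (P.cons (P.lf 0 8764644 0) (P.cons (P.lf 0 261015 0) (P.cons (P.lf 14283 0 0) (P.lf 1587 0 0)))) (P.cons (P.cons (P.lf 0 429717 0) (P.cons (P.lf 74844 0 0) (P.cons (P.lf 0 4094 0) P.nil))) (P.cons (P.cons (P.lf 43014 0 0) (P.cons (P.lf 3866 0 0) P.nil)) (P.cons (P.cons (P.lf 2922 0 0) P.nil) P.nil)))))) 1396)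
 EL.nil))
noncomputable def S183_198_586_660_14 : EL := (EL.cons 4 (TM.mk (P.cons (P.cons (P.lf 2091845 0 0) (P.cons (P.lf 7186270 0 0) (P.cons (P.lf 5778675 0 0) (P.cons (P.lf 0 719088 0) (P.cons (P.lf 0 56565 0) (P.cons (P.lf 4105 0 0) P.nil)))))) (P.cons (P.cons (P.lf 0 446919 0) (P.cons (P.lf 0 303396 0) (P.cons (P.lf 814073 0 0) (P.cons (P.lf 0 85424 0) (P.cons (P.lf 0 7307 0) P.nil))))) (P.cons (P.cons (P.lf 647737 0 0) (P.cons (P.lf 962601 0 0) (P.cons (P.lf 0 128956 0) (P.cons (P.lf 2495 0 0) P.nil)))) (P.cons (P.cons (P.lf 0 90516 0) (P.cons (P.lf 28475 0 0) (P.cons (P.lf 0 18620 0) P.nil))) (P.cons (P.cons (P.lf 44903 0 0) (P.cons (P.lf 0 18047 0) P.nil)) (P.cons (P.cons (P.lf 0 3148 0) P.nil) P.nil)))))) 13958)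
 (EL.cons 8 (TM.mk (P.cons (P.cons (P.lf 2001797 0 0) (P.cons (P.lf 6876921 0 0) (P.cons (P.lf 5529919 0 0) (P.cons (P.lf 0 688134 0) (P.cons (P.lf 0 54131 0) (P.cons (P.lf 3929 0 0) P.nil)))))) (P.cons (P.cons (P.lf 0 157611 0) (P.cons (P.lf 637453 0 0) (P.cons (P.lf 1525091 0 0) (P.cons (P.lf 0 174585 0) (P.cons (P.lf 0 14297 0) P.nil))))) (P.cons (P.cons (P.lf 590739 0 0) (P.cons (P.lf 980193 0 0) (P.cons (P.lf 60660 0 0) (P.cons (P.lf 0 18466 0) P.nil)))) (P.cons (P.cons (P.lf 0 5827 0) (P.cons (P.lf 158626 0 0) (P.cons (P.lf 0 14302 0) P.nil))) (P.cons (P.cons (P.lf 39811 0 0) (P.cons (P.lf 372 0 0) P.nil)) (P.cons (P.cons (P.lf 2524 0 0) P.nil) P.nil)))))) 9676)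
 EL.nil))
noncomputable def S183_198_586_660_15 : EL := (EL.cons 4 (TM.mk (P.cons (P.lf 0 900898234 0) (P.cons (P.lf 175101453 0 0) (P.cons (P.lf 0 3688277 0) (P.cons (P.lf 0 558577 0) (P.cons (P.lf 0 4024 0) (P.cons (P.lf 839 0 0) P.nil)))))) 89)
 (EL.cons 8 (TM.mk (P.cons (P.lf 0 862117024 0) (P.cons (P.lf 51252455 0 0) (P.cons (P.lf 6766430 0 0) (P.cons (P.lf 0 27586 0) (P.cons (P.lf 0 13796 0) (P.cons (P.lf 0 231 0) P.nil)))))) 71)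
 EL.nil))
noncomputable def S183_198_586_660_16 : EL := (EL.cons 4 (TM.mk (P.cons (P.cons (P.lf 29856500 0 0) (P.cons (P.lf 51284100 0 0) (P.cons (P.lf 0 2806058 0) (P.lf 0 311783 0)))) (P.cons (P.cons (P.lf 0 7541655 0) (P.cons (P.lf 0 4162576 0) (P.cons (P.lf 227759 0 0) (P.lf 25306 0 0)))) (P.cons (P.cons (P.lf 4903023 0 0) (P.cons (P.lf 0 931110 0) (P.cons (P.lf 50945 0 0) (P.lf 5659 0 0)))) (P.cons (P.cons (P.lf 0 808091 0) (P.cons (P.lf 33533 0 0) (P.cons (P.lf 0 1834 0) P.nil))) (P.cons (P.cons (P.lf 0 7667 0) (P.cons (P.lf 7882 0 0) P.nil)) (P.cons (P.cons (P.lf 5596 0 0) P.nil) P.nil)))))) 1931)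
 (EL.cons 8 (TM.mk (P.cons (P.cons (P.lf 28571259 0 0) (P.cons (P.lf 49076459 0 0) (P.cons (P.lf 0 2685265 0) (P.lf 0 298362 0)))) (P.cons (P.cons (P.lf 0 3362355 0) (P.cons (P.lf 2637694 0 0) (P.cons (P.lf 0 144323 0) (P.lf 0 16034 0)))) (P.cons (P.cons (P.lf 4126275 0 0) (P.cons (P.lf 0 727648 0) (P.cons (P.lf 39813 0 0) (P.lf 4423 0 0)))) (P.cons (P.cons (P.lf 0 196635 0) (P.cons (P.lf 0 64759 0) (P.cons (P.lf 3543 0 0) P.nil))) (P.cons (P.cons (P.lf 0 51118 0) (P.cons (P.lf 1824 0 0) P.nil)) (P.cons (P.cons (P.lf 256 0 0) P.nil) P.nil)))))) 1635)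
 EL.nil))
noncomputable def S183_198_586_660_17 : EL := (EL.cons 4 (TM.mk (P.cons (P.cons (P.lf 0 989468 0) (P.cons (P.lf 0 3399193 0) (P.cons (P.lf 0 2733383 0) (P.cons (P.lf 340138 0 0) (P.cons (P.lf 26756 0 0) (P.cons (P.lf 0 1941 0) P.nil)))))) (P.cons (P.cons (P.lf 307556 0 0) (P.cons (P.lf 473849 0 0) (P.cons (P.lf 0 119431 0) (P.cons (P.lf 7350 0 0) (P.cons (P.lf 855 0 0) P.nil))))) (P.cons (P.cons (P.lf 0 324284 0) (P.cons (P.lf 0 460175 0) (P.cons (P.lf 105731 0 0) (P.cons (P.lf 0 6016 0) P.nil)))) (P.cons (P.cons (P.lf 71975 0 0) (P.cons (P.lf 30225 0 0) (P.cons (P.lf 3772 0 0) P.nil))) (P.cons (P.cons (P.lf 0 24573 0) (P.cons (P.lf 11058 0 0) P.nil)) (P.cons (P.cons (P.lf 3423 0 0) P.nil) P.nil)))))) 10476)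
 (EL.cons 8 (TM.mk (P.cons (P.cons (P.lf 0 946874 0) (P.cons (P.lf 0 3252867 0) (P.cons (P.lf 0 2615718 0) (P.cons (P.lf 325495 0 0) (P.cons (P.lf 25604 0 0) (P.cons (P.lf 0 1858 0) P.nil)))))) (P.cons (P.cons (P.lf 166570 0 0) (P.cons (P.lf 14595 0 0) (P.cons (P.lf 0 467187 0) (P.cons (P.lf 50948 0 0) (P.cons (P.lf 4273 0 0) P.nil))))) (P.cons (P.cons (P.lf 0 284138 0) (P.cons (P.lf 0 425639 0) (P.cons (P.lf 48409 0 0) (P.cons (P.lf 0 161 0) P.nil)))) (P.cons (P.cons (P.lf 29664 0 0) (P.cons (P.lf 0 29330 0) (P.cons (P.lf 11352 0 0) P.nil))) (P.cons (P.cons (P.lf 0 18351 0) (P.cons (P.lf 8329 0 0) P.nil)) (P.cons (P.cons (P.lf 614 0 0) P.nil) P.nil)))))) 7855)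
 EL.nil))
noncomputable def S183_198_586_660_18 : EL := (EL.cons 4 (TM.mk (P.cons (P.lf 426135812 0 0) (P.cons (P.lf 0 124237673 0) (P.cons (P.lf 8653707 0 0) (P.cons (P.lf 337561 0 0) (P.cons (P.lf 0 31084 0) (P.cons (P.lf 0 1487 0) P.nil)))))) 136)
 (EL.cons 8 (TM.mk (P.cons (P.lf 407791829 0 0) (P.cons (P.lf 0 63872894 0) (P.cons (P.lf 0 1935523 0) (P.cons (P.lf 409346 0 0) (P.cons (P.lf 14041 0 0) (P.cons (P.lf 0 800 0) P.nil)))))) 99)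
 EL.nil))
noncomputable def S183_198_586_660_19 : EL := (EL.cons 4 (TM.mk (P.cons (P.cons (P.lf 0 14122486 0) (P.cons (P.lf 0 24258002 0) (P.cons (P.lf 1327299 0 0) (P.lf 147477 0 0)))) (P.cons (P.cons (P.lf 4939740 0 0) (P.cons (P.lf 4326380 0 0) (P.cons (P.lf 0 236721 0) (P.lf 0 26302 0)))) (P.cons (P.cons (P.lf 0 2628085 0) (P.cons (P.lf 313973 0 0) (P.cons (P.lf 0 17178 0) (P.lf 0 1907 0)))) (P.cons (P.cons (P.lf 597369 0 0) (P.cons (P.lf 0 65144 0) (P.cons (P.lf 3564 0 0) P.nil))) (P.cons (P.cons (P.lf 0 27185 0) (P.cons (P.lf 0 3351 0) P.nil)) (P.cons (P.cons (P.lf 0 4125 0) P.nil) P.nil)))))) 2280)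
 (EL.cons 8 (TM.mk (P.cons (P.cons (P.lf 0 13514553 0) (P.cons (P.lf 0 23213761 0) (P.cons (P.lf 1270163 0 0) (P.lf 141128 0 0)))) (P.cons (P.cons (P.lf 2903800 0 0) (P.cons (P.lf 1008288 0 0) (P.cons (P.lf 0 55169 0) (P.lf 0 6130 0)))) (P.cons (P.cons (P.lf 0 2070186 0) (P.cons (P.lf 527536 0 0) (P.cons (P.lf 0 28864 0) (P.lf 0 3206 0)))) (P.cons (P.cons (P.lf 277757 0 0) (P.cons (P.lf 0 640 0) (P.cons (P.lf 34 0 0) P.nil))) (P.cons (P.cons (P.lf 20394 0 0) (P.cons (P.lf 0 4904 0) P.nil)) (P.cons (P.cons (P.lf 0 2812 0) P.nil) P.nil)))))) 1446)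
 EL.nil))
noncomputable def S183_198_586_660_20 : EL := (EL.cons 4 (TM.mk (P.cons (P.cons (P.lf 468030 0 0) (P.cons (P.lf 1607859 0 0) (P.cons (P.lf 1292923 0 0) (P.cons (P.lf 0 160889 0) (P.cons (P.lf 0 12656 0) (P.cons (P.lf 917 0 0) P.nil)))))) (P.cons (P.cons (P.lf 0 190961 0) (P.cons (P.lf 0 380390 0) (P.cons (P.lf 0 69154 0) (P.cons (P.lf 12157 0 0) (P.cons (P.lf 824 0 0) P.nil))))) (P.cons (P.cons (P.lf 166275 0 0) (P.cons (P.lf 235149 0 0) (P.cons (P.lf 0 58961 0) (P.cons (P.lf 3614 0 0) P.nil)))) (P.cons (P.cons (P.lf 0 48539 0) (P.cons (P.lf 0 34770 0) (P.cons (P.lf 2988 0 0) P.nil))) (P.cons (P.cons (P.lf 14516 0 0) (P.cons (P.lf 0 4428 0) P.nil)) (P.cons (P.cons (P.lf 0 2650 0) P.nil) P.nil)))))) 8164)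
 (EL.cons 8 (TM.mk (P.cons (P.cons (P.lf 447883 0 0) (P.cons (P.lf 1538645 0 0) (P.cons (P.lf 1237266 0 0) (P.cons (P.lf 0 153963 0) (P.cons (P.lf 0 12111 0) (P.cons (P.lf 878 0 0) P.nil)))))) (P.cons (P.cons (P.lf 0 122315 0) (P.cons (P.lf 0 156431 0) (P.cons (P.lf 100745 0 0) (P.cons (P.lf 0 9136 0) (P.cons (P.lf 0 844 0) P.nil))))) (P.cons (P.cons (P.lf 140859 0 0) (P.cons (P.lf 197887 0 0) (P.cons (P.lf 0 47683 0) (P.cons (P.lf 2829 0 0) P.nil)))) (P.cons (P.cons (P.lf 0 26859 0) (P.cons (P.lf 0 5596 0) (P.cons (P.lf 0 3673 0) P.nil))) (P.cons (P.cons (P.lf 9681 0 0) (P.cons (P.lf 0 5821 0) P.nil)) (P.cons (P.cons (P.lf 0 1090 0) P.nil) P.nil)))))) 5589)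
 EL.nil))
noncomputable def S183_198_586_660_21 : EL := (EL.cons 4 (TM.mk (P.cons (P.cons (P.lf 0 97415772 0) (P.cons (P.lf 325260777 0 0) (P.cons (P.lf 0 17796957 0) (P.lf 0 1977435 0)))) (P.cons (P.cons (P.lf 495874965 0 0) (P.cons (P.lf 5208912 0 0) (P.cons (P.lf 0 285003 0) (P.lf 0 31659 0)))) (P.cons (P.cons (P.lf 17678337 0 0) (P.cons (P.lf 0 4529082 0) (P.cons (P.lf 247806 0 0) (P.lf 27531 0 0)))) (P.cons (P.cons (P.lf 0 4095807 0) (P.cons (P.lf 0 229800 0) (P.cons (P.lf 12570 0 0) P.nil))) (P.cons (P.cons (P.lf 0 218196 0) (P.cons (P.lf 14139 0 0) P.nil)) (P.cons (P.cons (P.lf 10167 0 0) P.nil) P.nil)))))) 6627)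
 (EL.cons 8 (TM.mk (P.cons (P.cons (P.lf 36194796 0 0) (P.cons (P.lf 0 120850569 0) (P.cons (P.lf 6612462 0 0) (P.lf 734721 0 0)))) (P.cons (P.cons (P.lf 0 189125406 0) (P.cons (P.lf 14369016 0 0) (P.cons (P.lf 0 786210 0) (P.lf 0 87351 0)))) (P.cons (P.cons (P.lf 18430359 0 0) (P.cons (P.lf 1469904 0 0) (P.cons (P.lf 0 80430 0) (P.lf 0 8934 0)))) (P.cons (P.cons (P.lf 1676745 0 0) (P.cons (P.lf 0 120510 0) (P.cons (P.lf 6591 0 0) P.nil))) (P.cons (P.cons (P.lf 0 105852 0) (P.cons (P.lf 0 10848 0) P.nil)) (P.cons (P.cons (P.lf 0 8934 0) P.nil) P.nil)))))) 5403)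
 (EL.cons 11 (TM.mk (P.cons (P.cons (P.lf 1946314908 0 0) (P.cons (P.lf 0 244215750 0) (P.cons (P.lf 0 37285425 0) (P.cons (P.lf 1139064 0 0) (P.lf 94920 0 0))))) (P.cons (P.cons (P.lf 146876937 0 0) (P.cons (P.lf 0 18429525 0) (P.cons (P.lf 0 2813709 0) (P.cons (P.lf 85956 0 0) (P.lf 7161 0 0))))) (P.cons (P.cons (P.lf 0 3093762 0) (P.cons (P.lf 388191 0 0) (P.cons (P.lf 59265 0 0) (P.cons (P.lf 0 1809 0) P.nil)))) (P.cons (P.cons (P.lf 0 468537 0) (P.cons (P.lf 58788 0 0) (P.cons (P.lf 8973 0 0) P.nil))) (P.cons (P.cons (P.lf 0 3378 0) (P.cons (P.lf 423 0 0) P.nil)) (P.cons (P.cons (P.lf 699 0 0) P.nil) P.nil)))))) 891)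
 EL.nil)))
noncomputable def S183_198_586_660_22 : EL := (EL.cons 4 (TM.mk (P.cons (P.cons (P.lf 3228435 0 0) (P.cons (P.lf 0 5233962 0) (P.cons (P.lf 0 18229257 0) (P.cons (P.lf 2058021 0 0) (P.cons (P.lf 169698 0 0) (P.cons (P.lf 0 12318 0) P.nil)))))) (P.cons (P.cons (P.lf 0 16621701 0) (P.cons (P.lf 0 27145119 0) (P.cons (P.lf 0 907146 0) (P.cons (P.lf 426834 0 0) (P.cons (P.lf 21924 0 0) P.nil))))) (P.cons (P.cons (P.lf 851532 0 0) (P.cons (P.lf 0 5646924 0) (P.cons (P.lf 537837 0 0) (P.cons (P.lf 9285 0 0) P.nil)))) (P.cons (P.cons (P.lf 0 2270832 0) (P.cons (P.lf 80898 0 0) (P.cons (P.lf 46761 0 0) P.nil))) (P.cons (P.cons (P.lf 0 113865 0) (P.cons (P.lf 79554 0 0) P.nil)) (P.cons (P.cons (P.lf 27525 0 0) P.nil) P.nil)))))) 32301)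
 (EL.cons 8 (TM.mk (P.cons (P.cons (P.lf 0 1199523 0) (P.cons (P.lf 1944678 0 0) (P.cons (P.lf 6773076 0 0) (P.cons (P.lf 0 764658 0) (P.cons (P.lf 0 63051 0) (P.cons (P.lf 4575 0 0) P.nil)))))) (P.cons (P.cons (P.lf 6337620 0 0) (P.cons (P.lf 9823398 0 0) (P.cons (P.lf 0 576729 0) (P.cons (P.lf 0 55428 0) (P.cons (P.lf 357 0 0) P.nil))))) (P.cons (P.cons (P.lf 0 1154289 0) (P.cons (P.lf 745032 0 0) (P.cons (P.lf 0 218739 0) (P.cons (P.lf 14946 0 0) P.nil)))) (P.cons (P.cons (P.lf 910917 0 0) (P.cons (P.lf 0 274026 0) (P.cons (P.lf 9297 0 0) P.nil))) (P.cons (P.cons (P.lf 0 74241 0) (P.cons (P.lf 0 19653 0) P.nil)) (P.cons (P.cons (P.lf 0 12489 0) P.nil) P.nil)))))) 17799)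
 (EL.cons 11 (TM.mk (P.cons (P.cons (P.lf 0 64502460 0) (P.cons (P.lf 0 102701478 0) (P.cons (P.lf 21200031 0 0) (P.cons (P.lf 1997658 0 0) (P.cons (P.lf 0 268638 0) (P.cons (P.lf 0 14757 0) P.nil)))))) (P.cons (P.cons (P.lf 0 1111410 0) (P.cons (P.lf 0 20763159 0) (P.cons (P.lf 3787770 0 0) (P.cons (P.lf 383346 0 0) (P.cons (P.lf 0 50142 0) P.nil))))) (P.cons (P.cons (P.lf 0 9212439 0) (P.cons (P.lf 413175 0 0) (P.cons (P.lf 310323 0 0) (P.cons (P.lf 8253 0 0) P.nil)))) (P.cons (P.cons (P.lf 0 809931 0) (P.cons (P.lf 203265 0 0) (P.cons (P.lf 0 2796 0) P.nil))) (P.cons (P.cons (P.lf 42609 0 0) (P.cons (P.lf 3234 0 0) P.nil)) (P.cons (P.cons (P.lf 6135 0 0) P.nil) P.nil)))))) 17628)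
 EL.nil)))
noncomputable def S183_198_586_660_23 : EL := (EL.cons 4 (TM.mk (P.cons (P.cons (P.lf 46078842 0 0) (P.cons (P.lf 0 153852300 0) (P.cons (P.lf 8418174 0 0) (P.lf 935349 0 0)))) (P.cons (P.cons (P.lf 0 239032899 0) (P.cons (P.lf 12487731 0 0) (P.cons (P.lf 0 683280 0) (P.lf 0 75921 0)))) (P.cons (P.cons (P.lf 14309082 0 0) (P.cons (P.lf 2793327 0 0) (P.cons (P.lf 0 152835 0) (P.lf 0 16977 0)))) (P.cons (P.cons (P.lf 3379776 0 0) (P.cons (P.lf 0 100602 0) (P.cons (P.lf 5505 0 0) P.nil))) (P.cons (P.cons (P.lf 0 74271 0) (P.cons (P.lf 0 23646 0) P.nil)) (P.cons (P.cons (P.lf 0 21264 0) P.nil) P.nil)))))) 7845)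
 (EL.cons 8 (TM.mk (P.cons (P.cons (P.lf 0 17120577 0) (P.cons (P.lf 57163785 0 0) (P.cons (P.lf 0 3127773 0) (P.lf 0 347529 0)))) (P.cons (P.cons (P.lf 91122420 0 0) (P.cons (P.lf 0 12351987 0) (P.cons (P.lf 675849 0 0) (P.lf 75090 0 0)))) (P.cons (P.cons (P.lf 0 17365713 0) (P.cons (P.lf 0 187686 0) (P.cons (P.lf 10269 0 0) (P.lf 1140 0 0)))) (P.cons (P.cons (P.lf 0 186081 0) (P.cons (P.lf 145611 0 0) (P.cons (P.lf 0 7965 0) P.nil))) (P.cons (P.cons (P.lf 154881 0 0) (P.cons (P.lf 1311 0 0) P.nil)) (P.cons (P.cons (P.lf 1359 0 0) P.nil) P.nil)))))) 5235)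
 (EL.cons 11 (TM.mk (P.cons (P.cons (P.lf 0 920630604 0) (P.cons (P.lf 115517016 0 0) (P.cons (P.lf 17636457 0 0) (P.cons (P.lf 0 538791 0) (P.lf 0 44898 0))))) (P.cons (P.cons (P.lf 19993773 0 0) (P.cons (P.lf 0 2508738 0) (P.cons (P.lf 0 383019 0) (P.cons (P.lf 11700 0 0) (P.lf 975 0 0))))) (P.cons (P.cons (P.lf 10677843 0 0) (P.cons (P.lf 0 1339809 0) (P.cons (P.lf 0 204552 0) (P.cons (P.lf 6246 0 0) P.nil)))) (P.cons (P.cons (P.lf 219195 0 0) (P.cons (P.lf 0 27501 0) (P.cons (P.lf 0 4197 0) P.nil))) (P.cons (P.cons (P.lf 0 30570 0) (P.cons (P.lf 3834 0 0) P.nil)) (P.cons (P.cons (P.lf 0 1257 0) P.nil) P.nil)))))) 2070)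
 EL.nil)))
noncomputable def S183_198_586_660_24 : EL := (EL.cons 4 (TM.mk (P.cons (P.cons (P.lf 0 1527090 0) (P.cons (P.lf 2475726 0 0) (P.cons (P.lf 8622660 0 0) (P.cons (P.lf 0 973467 0) (P.cons (P.lf 0 80268 0) (P.cons (P.lf 5826 0 0) P.nil)))))) (P.cons (P.cons (P.lf 8010672 0 0) (P.cons (P.lf 12599376 0 0) (P.cons (P.lf 0 408870 0) (P.cons (P.lf 0 107295 0) (P.cons (P.lf 0 2568 0) P.nil))))) (P.cons (P.cons (P.lf 0 1162767 0) (P.cons (P.lf 1416630 0 0) (P.cons (P.lf 0 319170 0) (P.cons (P.lf 17832 0 0) P.nil)))) (P.cons (P.cons (P.lf 1092165 0 0) (P.cons (P.lf 0 332067 0) (P.cons (P.lf 1887 0 0) P.nil))) (P.cons (P.cons (P.lf 0 49059 0) (P.cons (P.lf 0 40404 0) P.nil)) (P.cons (P.cons (P.lf 0 21117 0) P.nil) P.nil)))))) 22668)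
 (EL.cons 8 (TM.mk (P.cons (P.cons (P.lf 567387 0 0) (P.cons (P.lf 0 919854 0) (P.cons (P.lf 0 3203745 0) (P.cons (P.lf 361692 0 0) (P.cons (P.lf 29823 0 0) (P.cons (P.lf 0 2163 0) P.nil)))))) (P.cons (P.cons (P.lf 0 3052911 0) (P.cons (P.lf 0 4557192 0) (P.cons (P.lf 584145 0 0) (P.cons (P.lf 0 8931 0) (P.cons (P.lf 0 3066 0) P.nil))))) (P.cons (P.cons (P.lf 835803 0 0) (P.cons (P.lf 101613 0 0) (P.cons (P.lf 85524 0 0) (P.cons (P.lf 0 10584 0) P.nil)))) (P.cons (P.cons (P.lf 0 475887 0) (P.cons (P.lf 176250 0 0) (P.cons (P.lf 0 15342 0) P.nil))) (P.cons (P.cons (P.lf 75381 0 0) (P.cons (P.lf 0 2592 0) P.nil)) (P.cons (P.cons (P.lf 3663 0 0) P.nil) P.nil)))))) 11754)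
 (EL.cons 11 (TM.mk (P.cons (P.cons (P.lf 30510447 0 0) (P.cons (P.lf 48579045 0 0) (P.cons (P.lf 0 10027872 0) (P.cons (P.lf 0 944916 0) (P.cons (P.lf 127068 0 0) (P.cons (P.lf 6981 0 0) P.nil)))))) (P.cons (P.cons (P.lf 0 2439342 0) (P.cons (P.lf 5100237 0 0) (P.cons (P.lf 0 817137 0) (P.cons (P.lf 0 89499 0) (P.cons (P.lf 11367 0 0) P.nil))))) (P.cons (P.cons (P.lf 4224885 0 0) (P.cons (P.lf 0 1279833 0) (P.cons (P.lf 54153 0 0) (P.cons (P.lf 16245 0 0) P.nil)))) (P.cons (P.cons (P.lf 0 40248 0) (P.cons (P.lf 0 100995 0) (P.cons (P.lf 19878 0 0) P.nil))) (P.cons (P.cons (P.lf 0 68907 0) (P.cons (P.lf 8997 0 0) P.nil)) (P.cons (P.cons (P.lf 0 1746 0) P.nil) P.nil)))))) 13320)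
 EL.nil)))
noncomputable def S183_198_586_660_25 : EL := (EL.cons 4 (TM.mk (P.cons (P.cons (P.lf 0 21795852 0) (P.cons (P.lf 72774006 0 0) (P.cons (P.lf 0 3981900 0) (P.lf 0 442431 0)))) (P.cons (P.cons (P.lf 115183620 0 0) (P.cons (P.lf 0 12979143 0) (P.cons (P.lf 710166 0 0) (P.lf 78909 0 0)))) (P.cons (P.cons (P.lf 0 17697945 0) (P.cons (P.lf 0 941919 0) (P.cons (P.lf 51534 0 0) (P.lf 5724 0 0)))) (P.cons (P.cons (P.lf 0 1244469 0) (P.cons (P.lf 195432 0 0) (P.cons (P.lf 0 10692 0) P.nil))) (P.cons (P.cons (P.lf 214179 0 0) (P.cons (P.lf 10053 0 0) P.nil)) (P.cons (P.cons (P.lf 10980 0 0) P.nil) P.nil)))))) 7233)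
 (EL.cons 8 (TM.mk (P.cons (P.cons (P.lf 8098239 0 0) (P.cons (P.lf 0 27039165 0) (P.cons (P.lf 1479474 0 0) (P.lf 164385 0 0)))) (P.cons (P.cons (P.lf 0 43889010 0) (P.cons (P.lf 8470347 0 0) (P.cons (P.lf 0 463461 0) (P.lf 0 51492 0)))) (P.cons (P.cons (P.lf 12381252 0 0) (P.cons (P.lf 0 406683 0) (P.cons (P.lf 22251 0 0) (P.lf 2472 0 0)))) (P.cons (P.cons (P.lf 0 594540 0) (P.cons (P.lf 0 94485 0) (P.cons (P.lf 5169 0 0) P.nil))) (P.cons (P.cons (P.lf 0 105915 0) (P.cons (P.lf 6030 0 0) P.nil)) (P.cons (P.cons (P.lf 6498 0 0) P.nil) P.nil)))))) 4266)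
 (EL.cons 11 (TM.mk (P.cons (P.cons (P.lf 435469464 0 0) (P.cons (P.lf 0 54640953 0) (P.cons (P.lf 0 8342259 0) (P.cons (P.lf 254853 0 0) (P.lf 21237 0 0))))) (P.cons (P.cons (P.lf 0 51776913 0) (P.cons (P.lf 6496758 0 0) (P.cons (P.lf 991887 0 0) (P.cons (P.lf 0 30300 0) (P.lf 0 2523 0))))) (P.cons (P.cons (P.lf 0 5296611 0) (P.cons (P.lf 664596 0 0) (P.cons (P.lf 101466 0 0) (P.cons (P.lf 0 3099 0) P.nil)))) (P.cons (P.cons (P.lf 434244 0 0) (P.cons (P.lf 0 54486 0) (P.cons (P.lf 0 8319 0) P.nil))) (P.cons (P.cons (P.lf 39105 0 0) (P.cons (P.lf 0 4905 0) P.nil)) (P.cons (P.cons (P.lf 0 813 0) P.nil) P.nil)))))) 2343)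
 EL.nil)))
noncomputable def S183_198_586_660_26 : EL := (EL.cons 4 (TM.mk (P.cons (P.cons (P.lf 722331 0 0) (P.cons (P.lf 0 1171047 0) (P.cons (P.lf 0 4078623 0) (P.cons (P.lf 460461 0 0) (P.cons (P.lf 37968 0 0) (P.cons (P.lf 0 2754 0) P.nil)))))) (P.cons (P.cons (P.lf 0 3859341 0) (P.cons (P.lf 0 5845851 0) (P.cons (P.lf 589767 0 0) (P.cons (P.lf 6003 0 0) (P.cons (P.lf 0 2472 0) P.nil))))) (P.cons (P.cons (P.lf 916305 0 0) (P.cons (P.lf 0 87780 0) (P.cons (P.lf 143085 0 0) (P.cons (P.lf 0 14598 0) P.nil)))) (P.cons (P.cons (P.lf 0 559884 0) (P.cons (P.lf 238074 0 0) (P.cons (P.lf 0 16284 0) P.nil))) (P.cons (P.cons (P.lf 71751 0 0) (P.cons (P.lf 5337 0 0) P.nil)) (P.cons (P.cons (P.lf 9129 0 0) P.nil) P.nil)))))) 16659)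
 (EL.cons 8 (TM.mk (P.cons (P.cons (P.lf 0 268380 0) (P.cons (P.lf 435102 0 0) (P.cons (P.lf 1515411 0 0) (P.cons (P.lf 0 171084 0) (P.cons (P.lf 0 14106 0) (P.cons (P.lf 1023 0 0) P.nil)))))) (P.cons (P.cons (P.lf 1470144 0 0) (P.cons (P.lf 2113323 0 0) (P.cons (P.lf 0 423576 0) (P.cons (P.lf 20850 0 0) (P.cons (P.lf 2820 0 0) P.nil))))) (P.cons (P.cons (P.lf 0 534963 0) (P.cons (P.lf 0 258711 0) (P.cons (P.lf 0 17655 0) (P.cons (P.lf 5052 0 0) P.nil)))) (P.cons (P.cons (P.lf 259644 0 0) (P.cons (P.lf 0 84441 0) (P.cons (P.lf 12003 0 0) P.nil))) (P.cons (P.cons (P.lf 0 56403 0) (P.cons (P.lf 9564 0 0) P.nil)) (P.cons (P.cons (P.lf 1113 0 0) P.nil) P.nil)))))) 8199)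
 (EL.cons 11 (TM.mk (P.cons (P.cons (P.lf 0 14431812 0) (P.cons (P.lf 0 22978479 0) (P.cons (P.lf 4743303 0 0) (P.cons (P.lf 446955 0 0) (P.cons (P.lf 0 60105 0) (P.cons (P.lf 0 3300 0) P.nil)))))) (P.cons (P.cons (P.lf 2556345 0 0) (P.cons (P.lf 0 179388 0) (P.cons (P.lf 0 74445 0) (P.cons (P.lf 0 1101 0) (P.cons (P.lf 462 0 0) P.nil))))) (P.cons (P.cons (P.lf 0 2071947 0) (P.cons (P.lf 901296 0 0) (P.cons (P.lf 0 75867 0) (P.cons (P.lf 0 12993 0) P.nil)))) (P.cons (P.cons (P.lf 209439 0 0) (P.cons (P.lf 0 5754 0) (P.cons (P.lf 0 7710 0) P.nil))) (P.cons (P.cons (P.lf 36096 0 0) (P.cons (P.lf 0 10719 0) P.nil)) (P.cons (P.cons (P.lf 0 2487 0) P.nil) P.nil)))))) 9594)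
 EL.nil)))
noncomputable def S183_198_586_660_27 : EL := (EL.cons 13 (TM.mk (P.lf 0 4294967296 0) 0)
 EL.nil)
noncomputable def S183_198_586_660_28 : EL := (EL.cons 13 (TM.mk (P.cons (P.cons (P.lf 142338712 0 0) (P.cons (P.lf 244493248 0 0) (P.cons (P.lf 0 13377684 0) (P.lf 0 1486408 0)))) (P.cons (P.cons (P.lf 0 8288895 0) (P.cons (P.lf 27675700 0 0) (P.cons (P.lf 0 1514300 0) (P.lf 0 168252 0)))) (P.cons (P.cons (P.lf 21181023 0 0) (P.cons (P.lf 0 60820 0) (P.cons (P.lf 3324 0 0) (P.lf 368 0 0)))) (P.cons (P.cons (P.lf 209975 0 0) (P.cons (P.lf 0 116848 0) (P.cons (P.lf 6392 0 0) P.nil))) (P.cons (P.cons (P.lf 0 77957 0) (P.cons (P.lf 0 3132 0) P.nil)) (P.cons (P.cons (P.lf 0 2291 0) P.nil) P.nil)))))) 1851)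
 EL.nil)
noncomputable def S183_198_586_660_29 : EL := (EL.cons 13 (TM.mk (P.cons (P.cons (P.lf 0 4717220 0) (P.cons (P.lf 0 16205410 0) (P.cons (P.lf 0 13031210 0) (P.cons (P.lf 1621584 0 0) (P.cons (P.lf 127561 0 0) (P.cons (P.lf 0 9259 0) P.nil)))))) (P.cons (P.cons (P.lf 549401 0 0) (P.cons (P.lf 0 890691 0) (P.cons (P.lf 0 3102172 0) (P.cons (P.lf 350224 0 0) (P.cons (P.lf 28878 0 0) P.nil))))) (P.cons (P.cons (P.lf 0 1419909 0) (P.cons (P.lf 0 2300627 0) (P.cons (P.lf 0 45529 0) (P.cons (P.lf 32745 0 0) P.nil)))) (P.cons (P.cons (P.lf 67837 0 0) (P.cons (P.lf 0 289366 0) (P.cons (P.lf 29920 0 0) P.nil))) (P.cons (P.cons (P.lf 0 98478 0) (P.cons (P.lf 6525 0 0) P.nil)) (P.cons (P.cons (P.lf 0 2220 0) P.nil) P.nil)))))) 15926)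
 EL.nil)
noncomputable def S183_198_586_660_30 : EL := (EL.cons 13 (TM.mk (P.cons (P.lf 2031571728 0 0) (P.cons (P.lf 0 197431380 0) (P.cons (P.lf 0 5434720 0) (P.cons (P.lf 101656 0 0) (P.cons (P.lf 7148 0 0) (P.cons (P.lf 20 0 0) P.nil)))))) 56)
 EL.nil)
noncomputable def S183_198_586_660_31 : EL := (EL.cons 13 (TM.mk (P.cons (P.cons (P.lf 0 67327940 0) (P.cons (P.lf 0 115648277 0) (P.cons (P.lf 6327807 0 0) (P.lf 703089 0 0)))) (P.cons (P.cons (P.lf 10463784 0 0) (P.cons (P.lf 0 1852058 0) (P.cons (P.lf 101335 0 0) (P.lf 11257 0 0)))) (P.cons (P.cons (P.lf 0 10219794 0) (P.cons (P.lf 1610341 0 0) (P.cons (P.lf 0 88109 0) (P.lf 0 9789 0)))) (P.cons (P.cons (P.lf 860472 0 0) (P.cons (P.lf 81707 0 0) (P.cons (P.lf 0 4470 0) P.nil))) (P.cons (P.cons (P.lf 73287 0 0) (P.cons (P.lf 0 5028 0) P.nil)) (P.cons (P.cons (P.lf 0 2722 0) P.nil) P.nil)))))) 2224)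
 EL.nil)
noncomputable def S183_198_586_660_32 : EL := (EL.cons 13 (TM.mk (P.cons (P.cons (P.lf 2231302 0 0) (P.cons (P.lf 7665355 0 0) (P.cons (P.lf 6163920 0 0) (P.cons (P.lf 0 767028 0) (P.cons (P.lf 0 60337 0) (P.cons (P.lf 4379 0 0) P.nil)))))) (P.cons (P.cons (P.lf 0 476714 0) (P.cons (P.lf 0 323623 0) (P.cons (P.lf 868345 0 0) (P.cons (P.lf 0 91119 0) (P.cons (P.lf 0 7795 0) P.nil))))) (P.cons (P.cons (P.lf 690920 0 0) (P.cons (P.lf 1026775 0 0) (P.cons (P.lf 0 137554 0) (P.cons (P.lf 2662 0 0) P.nil)))) (P.cons (P.cons (P.lf 0 96551 0) (P.cons (P.lf 30374 0 0) (P.cons (P.lf 0 19862 0) P.nil))) (P.cons (P.cons (P.lf 47897 0 0) (P.cons (P.lf 0 19251 0) P.nil)) (P.cons (P.cons (P.lf 0 3358 0) P.nil) P.nil)))))) 14866)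
 EL.nil)
noncomputable def S183_198_586_660_33 : EL := (EL.cons 14 (TM.mk (P.lf 8589934592 0 0) 0)
 EL.nil)
noncomputable def S183_198_586_660_34 : EL := (EL.cons 14 (TM.mk (P.cons (P.cons (P.lf 0 284677424 0) (P.cons (P.lf 0 488986496 0) (P.cons (P.lf 26755368 0 0) (P.lf 2972816 0 0)))) (P.cons (P.cons (P.lf 16577790 0 0) (P.cons (P.lf 0 55351400 0) (P.cons (P.lf 3028600 0 0) (P.lf 336504 0 0)))) (P.cons (P.cons (P.lf 0 42362046 0) (P.cons (P.lf 121640 0 0) (P.cons (P.lf 0 6648 0) (P.lf 0 736 0)))) (P.cons (P.cons (P.lf 0 419950 0) (P.cons (P.lf 233696 0 0) (P.cons (P.lf 0 12784 0) P.nil))) (P.cons (P.cons (P.lf 155914 0 0) (P.cons (P.lf 6264 0 0) P.nil)) (P.cons (P.cons (P.lf 4582 0 0) P.nil) P.nil)))))) 3702)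
 EL.nil)
noncomputable def S183_198_586_660_35 : EL := (EL.cons 14 (TM.mk (P.cons (P.cons (P.lf 9434440 0 0) (P.cons (P.lf 32410820 0 0) (P.cons (P.lf 26062420 0 0) (P.cons (P.lf 0 3243168 0) (P.cons (P.lf 0 255122 0) (P.cons (P.lf 18518 0 0) P.nil)))))) (P.cons (P.cons (P.lf 0 1098802 0) (P.cons (P.lf 1781382 0 0) (P.cons (P.lf 6204344 0 0) (P.cons (P.lf 0 700448 0) (P.cons (P.lf 0 57756 0) P.nil))))) (P.cons (P.cons (P.lf 2839818 0 0) (P.cons (P.lf 4601254 0 0) (P.cons (P.lf 91058 0 0) (P.cons (P.lf 0 65490 0) P.nil)))) (P.cons (P.cons (P.lf 0 135674 0) (P.cons (P.lf 578732 0 0) (P.cons (P.lf 0 59840 0) P.nil))) (P.cons (P.cons (P.lf 196956 0 0) (P.cons (P.lf 0 13050 0) P.nil)) (P.cons (P.cons (P.lf 4440 0 0) P.nil) P.nil)))))) 31852)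
 EL.nil)
noncomputable def S183_198_586_660_36 : EL := (EL.cons 14 (TM.mk (P.cons (P.lf 0 4063143456 0) (P.cons (P.lf 394862760 0 0) (P.cons (P.lf 10869440 0 0) (P.cons (P.lf 0 203312 0) (P.cons (P.lf 0 14296 0) (P.cons (P.lf 0 40 0) P.nil)))))) 112)
 EL.nil)
noncomputable def S183_198_586_660_37 : EL := (EL.cons 14 (TM.mk (P.cons (P.cons (P.lf 134655880 0 0) (P.cons (P.lf 231296554 0 0) (P.cons (P.lf 0 12655614 0) (P.lf 0 1406178 0)))) (P.cons (P.cons (P.lf 0 20927568 0) (P.cons (P.lf 3704116 0 0) (P.cons (P.lf 0 202670 0) (P.lf 0 22514 0)))) (P.cons (P.cons (P.lf 20439588 0 0) (P.cons (P.lf 0 3220682 0) (P.cons (P.lf 176218 0 0) (P.lf 19578 0 0)))) (P.cons (P.cons (P.lf 0 1720944 0) (P.cons (P.lf 0 163414 0) (P.cons (P.lf 8940 0 0) P.nil))) (P.cons (P.cons (P.lf 0 146574 0) (P.cons (P.lf 10056 0 0) P.nil)) (P.cons (P.cons (P.lf 5444 0 0) P.nil) P.nil))))))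 4448)
 EL.nil)
noncomputable def S183_198_586_660_38 : EL := (EL.cons 14 (TM.mk (P.cons (P.cons (P.lf 0 4462604 0) (P.cons (P.lf 0 15330710 0) (P.cons (P.lf 0 12327840 0) (P.cons (P.lf 1534056 0 0) (P.cons (P.lf 120674 0 0) (P.cons (P.lf 0 8758 0) P.nil)))))) (P.cons (P.cons (P.lf 953428 0 0) (P.cons (P.lf 647246 0 0) (P.cons (P.lf 0 1736690 0) (P.cons (P.lf 182238 0 0) (P.cons (P.lf 15590 0 0) P.nil))))) (P.cons (P.cons (P.lf 0 1381840 0) (P.cons (P.lf 0 2053550 0) (P.cons (P.lf 275108 0 0) (P.cons (P.lf 0 5324 0) P.nil)))) (P.cons (P.cons (P.lf 193102 0 0) (P.cons (P.lf 0 60748 0) (P.cons (P.lf 39724 0 0) P.nil))) (P.cons (P.cons (P.lf 0 95794 0) (P.cons (P.lf 38502 0 0) P.nil)) (P.cons (P.cons (P.lf 6716 0 0) P.nil) P.nil)))))) 29732)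
 EL.nil)
noncomputable def S183_198_586_660_39 : EL := (EL.cons 14 (TM.mk (P.cons (P.lf 1921916234 0 0) (P.cons (P.lf 0 373549768 0) (P.cons (P.lf 7868326 0 0) (P.cons (P.lf 1191632 0 0) (P.cons (P.lf 8586 0 0) (P.cons (P.lf 0 1790 0) P.nil)))))) 176)
 EL.nil)
noncomputable def S183_198_586_660_40 : EL := (EL.cons 14 (TM.mk (P.cons (P.cons (P.lf 0 63693868 0) (P.cons (P.lf 0 109406080 0) (P.cons (P.lf 5986258 0 0) (P.lf 665138 0 0)))) (P.cons (P.cons (P.lf 16088866 0 0) (P.cons (P.lf 8880164 0 0) (P.cons (P.lf 0 485886 0) (P.lf 0 53988 0)))) (P.cons (P.cons (P.lf 0 10459784 0) (P.cons (P.lf 1986368 0 0) (P.cons (P.lf 0 108684 0) (P.lf 0 12074 0)))) (P.cons (P.cons (P.lf 1723928 0 0) (P.cons (P.lf 0 71538 0) (P.cons (P.lf 3914 0 0) P.nil))) (P.cons (P.cons (P.lf 16358 0 0) (P.cons (P.lf 0 16816 0) P.nil)) (P.cons (P.cons (P.lf 0 11940 0) P.nil) P.nil)))))) 4080)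
 EL.nil)
noncomputable def S183_198_586_660_41 : EL := (EL.cons 14 (TM.mk (P.cons (P.cons (P.lf 2110866 0 0) (P.cons (P.lf 7251612 0 0) (P.cons (P.lf 5831218 0 0) (P.cons (P.lf 0 725628 0) (P.cons (P.lf 0 57080 0) (P.cons (P.lf 4142 0 0) P.nil)))))) (P.cons (P.cons (P.lf 0 656120 0) (P.cons (P.lf 0 1010878 0) (P.cons (P.lf 254788 0 0) (P.cons (P.lf 0 15682 0) (P.cons (P.lf 0 1826 0) P.nil))))) (P.cons (P.cons (P.lf 691806 0 0) (P.cons (P.lf 981708 0 0) (P.cons (P.lf 0 225560 0) (P.cons (P.lf 12836 0 0) P.nil)))) (P.cons (P.cons (P.lf 0 153548 0) (P.cons (P.lf 0 64480 0) (P.cons (P.lf 0 8048 0) P.nil))) (P.cons (P.cons (P.lf 52424 0 0) (P.cons (P.lf 0 23592 0) P.nil)) (P.cons (P.cons (P.lf 0 7304 0) P.nil) P.nil)))))) 22302)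
 EL.nil)
noncomputable def S183_198_586_660_42 : EL := (EL.cons 14 (TM.mk (P.cons (P.lf 0 909089734 0) (P.cons (P.lf 265040370 0 0) (P.cons (P.lf 0 18461242 0) (P.cons (P.lf 0 720132 0) (P.cons (P.lf 66314 0 0) (P.cons (P.lf 3174 0 0) P.nil)))))) 276)
 EL.nil)
noncomputable def S183_198_586_660_43 : EL := (EL.cons 14 (TM.mk (P.cons (P.cons (P.lf 30127972 0 0) (P.cons (P.lf 51750406 0 0) (P.cons (P.lf 0 2831572 0) (P.lf 0 314618 0)))) (P.cons (P.cons (P.lf 0 10538112 0) (P.cons (P.lf 0 9229612 0) (P.cons (P.lf 505006 0 0) (P.lf 56112 0 0)))) (P.cons (P.cons (P.lf 5606582 0 0) (P.cons (P.lf 0 669810 0) (P.cons (P.lf 36648 0 0) (P.lf 4070 0 0)))) (P.cons (P.cons (P.lf 0 1274388 0) (P.cons (P.lf 138974 0 0) (P.cons (P.lf 0 7604 0) P.nil))) (P.cons (P.cons (P.lf 57996 0 0) (P.cons (P.lf 7150 0 0) P.nil)) (P.cons (P.cons (P.lf 8802 0 0) P.nil) P.nil)))))) 4824)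
 EL.nil)
noncomputable def S183_198_586_660_44 : EL := (EL.cons 14 (TM.mk (P.cons (P.cons (P.lf 0 998464 0) (P.cons (P.lf 0 3430100 0) (P.cons (P.lf 0 2758236 0) (P.cons (P.lf 343230 0 0) (P.cons (P.lf 27000 0 0) (P.cons (P.lf 0 1958 0) P.nil)))))) (P.cons (P.cons (P.lf 407384 0 0) (P.cons (P.lf 811500 0 0) (P.cons (P.lf 147530 0 0) (P.cons (P.lf 0 25936 0) (P.cons (P.lf 0 1758 0) P.nil))))) (P.cons (P.cons (P.lf 0 354722 0) (P.cons (P.lf 0 501652 0) (P.cons (P.lf 125784 0 0) (P.cons (P.lf 0 7710 0) P.nil)))) (P.cons (P.cons (P.lf 103550 0 0) (P.cons (P.lf 74176 0 0) (P.cons (P.lf 0 6376 0) P.nil))) (P.cons (P.cons (P.lf 0 30968 0) (P.cons (P.lf 9448 0 0) P.nil)) (P.cons (P.cons (P.lf 5654 0 0) P.nil) P.nil)))))) 17370)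
 EL.nil)
noncomputable def S183_198_586_660_45 : EL := (EL.cons 14 (TM.mk (P.cons (P.cons (P.lf 0 312664 0) (P.cons (P.lf 0 1611180 0) (P.cons (P.lf 0 2679346 0) (P.cons (P.lf 0 1271918 0) (P.cons (P.lf 285468 0 0) (P.cons (P.lf 12826 0 0) P.nil)))))) (P.cons (P.cons (P.lf 54622 0 0) (P.cons (P.lf 5270 0 0) (P.cons (P.lf 0 465668 0) (P.cons (P.lf 0 487204 0) (P.cons (P.lf 92592 0 0) P.nil))))) (P.cons (P.cons (P.lf 0 142760 0) (P.cons (P.lf 0 463332 0) (P.cons (P.lf 0 384070 0) (P.cons (P.lf 0 12106 0) P.nil)))) (P.cons (P.cons (P.lf 14934 0 0) (P.cons (P.lf 0 31002 0) (P.cons (P.lf 0 90834 0) P.nil))) (P.cons (P.cons (P.lf 0 20568 0) (P.cons (P.lf 0 30960 0) P.nil)) (P.cons (P.cons (P.lf 748 0 0) P.nil) P.nil)))))) 62564)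
 EL.nil)
noncomputable def S183_198_586_660_46 : EL := (EL.cons 15 (TM.mk (P.lf 4294967296 0 0) 0)
 EL.nil)
noncomputable def S183_198_586_660_47 : EL := (EL.cons 15 (TM.mk (P.cons (P.cons (P.lf 0 142338712 0) (P.cons (P.lf 0 244493248 0) (P.cons (P.lf 13377684 0 0) (P.lf 1486408 0 0)))) (P.cons (P.cons (P.lf 8288895 0 0) (P.cons (P.lf 0 27675700 0) (P.cons (P.lf 1514300 0 0) (P.lf 168252 0 0)))) (P.cons (P.cons (P.lf 0 21181023 0) (P.cons (P.lf 60820 0 0) (P.cons (P.lf 0 3324 0) (P.lf 0 368 0)))) (P.cons (P.cons (P.lf 0 209975 0) (P.cons (P.lf 116848 0 0) (P.cons (P.lf 0 6392 0) P.nil))) (P.cons (P.cons (P.lf 77957 0 0) (P.cons (P.lf 3132 0 0) P.nil)) (P.cons (P.cons (P.lf 2291 0 0) P.nil) P.nil)))))) 1851)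
 EL.nil)
noncomputable def S183_198_586_660_48 : EL := (EL.cons 15 (TM.mk (P.cons (P.cons (P.lf 4717220 0 0) (P.cons (P.lf 16205410 0 0) (P.cons (P.lf 13031210 0 0) (P.cons (P.lf 0 1621584 0) (P.cons (P.lf 0 127561 0) (P.cons (P.lf 9259 0 0) P.nil)))))) (P.cons (P.cons (P.lf 0 549401 0) (P.cons (P.lf 890691 0 0) (P.cons (P.lf 3102172 0 0) (P.cons (P.lf 0 350224 0) (P.cons (P.lf 0 28878 0) P.nil))))) (P.cons (P.cons (P.lf 1419909 0 0) (P.cons (P.lf 2300627 0 0) (P.cons (P.lf 45529 0 0) (P.cons (P.lf 0 32745 0) P.nil)))) (P.cons (P.cons (P.lf 0 67837 0) (P.cons (P.lf 289366 0 0) (P.cons (P.lf 0 29920 0) P.nil))) (P.cons (P.cons (P.lf 98478 0 0) (P.cons (P.lf 0 6525 0) P.nil)) (P.cons (P.cons (P.lf 2220 0 0) P.nil) P.nil)))))) 15926)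
 EL.nil)
noncomputable def S183_198_586_660 : SL := (SL.cons S183_198_586_660_0 (SL.cons S183_198_586_660_1 (SL.cons S183_198_586_660_2 (SL.cons S183_198_586_660_3 (SL.cons S183_198_586_660_4 (SL.cons S183_198_586_660_5 (SL.cons S183_198_586_660_6 (SL.cons S183_198_586_660_7 (SL.cons S183_198_586_660_8 (SL.cons S183_198_586_660_9 (SL.cons S183_198_586_660_10 (SL.cons S183_198_586_660_11 (SL.cons S183_198_586_660_12 (SL.cons S183_198_586_660_13 (SL.cons S183_198_586_660_14 (SL.cons S183_198_586_660_15 (SL.cons S183_198_586_660_16 (SL.cons S183_198_586_660_17 (SL.cons S183_198_586_660_18 (SL.cons S183_198_586_660_19 (SL.cons S183_198_586_660_20 (SL.cons S183_198_586_660_21 (SL.cons S183_198_586_660_22 (SL.cons S183_198_586_660_23 (SL.cons S183_198_586_660_24 (SL.cons S183_198_586_660_25 (SL.cons S183_198_586_660_26 (SL.cons S183_198_586_660_27 (SL.cons S183_198_586_660_28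 (SL.cons S183_198_586_660_29 (SL.cons S183_198_586_660_30 (SL.cons S183_198_586_660_31 (SL.cons S183_198_586_660_32 (SL.cons S183_198_586_660_33 (SL.cons S183_198_586_660_34 (SL.cons S183_198_586_660_35 (SL.cons S183_198_586_660_36 (SL.cons S183_198_586_660_37 (SL.cons S183_198_586_660_38 (SL.cons S183_198_586_660_39 (SL.cons S183_198_586_660_40 (SL.cons S183_198_586_660_41 (SL.cons S183_198_586_660_42 (SL.cons S183_198_586_660_43 (SL.cons S183_198_586_660_44 (SL.cons S183_198_586_660_45 (SL.cons S183_198_586_660_46 (SL.cons S183_198_586_660_47 (SL.cons S183_198_586_660_48 SL.nil)))))))))))))))))))))))))))))))))))))))))))))))))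
noncomputable def S183_198_660_808_0 : EL := (EL.cons 0 (TM.mk (P.cons (P.lf 6766532673 0 0) (P.cons (P.lf 328315225 0 0) (P.cons (P.lf 0 6915520 0) (P.cons (P.lf 0 1047332 0) (P.cons (P.lf 0 7546 0) (P.cons (P.lf 1573 0 0) P.nil)))))) 161)
 (EL.cons 1 (TM.mk (P.cons (P.lf 0 1616469420 0) (P.cons (P.lf 96098353 0 0) (P.cons (P.lf 12687056 0 0) (P.cons (P.lf 0 51723 0) (P.cons (P.lf 0 25867 0) (P.cons (P.lf 0 433 0) P.nil)))))) 140)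
 (EL.cons 5 (TM.mk (P.cons (P.lf 4895566122 0 0) (P.cons (P.lf 0 116734300 0) (P.cons (P.lf 2458850 0 0) (P.cons (P.lf 372384 0 0) (P.cons (P.lf 2686 0 0) (P.cons (P.lf 0 556 0) P.nil)))))) 123)
 (EL.cons 9 (TM.mk (P.lf 6442450944 0 0) 2)
 EL.nil))))
noncomputable def S183_198_660_808_1 : EL := (EL.cons 0 (TM.mk (P.cons (P.cons (P.lf 0 537289729 0) (P.cons (P.lf 0 98176921 0) (P.cons (P.lf 42335000 0 0) (P.lf 4703892 0 0)))) (P.cons (P.cons (P.lf 249521014 0 0) (P.cons (P.lf 0 87001074 0) (P.cons (P.lf 37515842 0 0) (P.lf 4168421 0 0)))) (P.cons (P.cons (P.lf 0 75420686 0) (P.cons (P.lf 0 6967307 0) (P.cons (P.lf 3004381 0 0) (P.lf 333817 0 0)))) (P.cons (P.cons (P.lf 0 7137177 0) (P.cons (P.lf 488822 0 0) (P.cons (P.lf 0 210781 0) P.nil))) (P.cons (P.cons (P.lf 431356 0 0) (P.cons (P.lf 66269 0 0) P.nil)) (P.cons (P.cons (P.lf 54640 0 0) P.nil) P.nil))))))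 103945)
 (EL.cons 1 (TM.mk (P.cons (P.cons (P.lf 441788100 0 0) (P.cons (P.lf 179121488 0 0) (P.cons (P.lf 0 77239204 0) (P.lf 0 8582127 0)))) (P.cons (P.cons (P.lf 173248811 0 0) (P.cons (P.lf 24306024 0 0) (P.cons (P.lf 0 10481031 0) (P.lf 0 1164551 0)))) (P.cons (P.cons (P.lf 31940624 0 0) (P.cons (P.lf 0 3283775 0) (P.cons (P.lf 1415999 0 0) (P.lf 157329 0 0)))) (P.cons (P.cons (P.lf 0 2994949 0) (P.cons (P.lf 0 446715 0) (P.cons (P.lf 192622 0 0) P.nil))) (P.cons (P.cons (P.lf 0 406762 0) (P.cons (P.lf 7429 0 0) P.nil)) (P.cons (P.cons (P.lf 8042 0 0) P.nil) P.nil)))))) 57327)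
 (EL.cons 5 (TM.mk (P.cons (P.cons (P.lf 0 1024950198 0) (P.cons (P.lf 0 387012428 0) (P.cons (P.lf 166884124 0 0) (P.lf 18542678 0 0)))) (P.cons (P.cons (P.lf 0 184881762 0) (P.cons (P.lf 0 16825994 0) (P.cons (P.lf 7255560 0 0) (P.lf 806178 0 0)))) (P.cons (P.cons (P.lf 0 8949210 0) (P.cons (P.lf 2582222 0 0) (P.cons (P.lf 0 1113476 0) (P.lf 0 123714 0)))) (P.cons (P.cons (P.lf 2646202 0 0) (P.cons (P.lf 27844 0 0) (P.cons (P.lf 0 12008 0) P.nil))) (P.cons (P.cons (P.lf 0 8338 0) (P.cons (P.lf 0 18156 0) P.nil)) (P.cons (P.cons (P.lf 0 16355 0) P.nil) P.nil)))))) 54257)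
 (EL.cons 9 (TM.mk (P.cons (P.cons (P.lf 0 1072929300 0) (P.cons (P.lf 0 372282150 0) (P.cons (P.lf 160532262 0 0) (P.lf 17836914 0 0)))) (P.cons (P.cons (P.lf 0 84849858 0) (P.cons (P.lf 0 42140910 0) (P.cons (P.lf 18171636 0 0) (P.lf 2019066 0 0)))) (P.cons (P.cons (P.lf 0 31557742 0) (P.cons (P.lf 92604 0 0) (P.cons (P.lf 0 39930 0) (P.lf 0 4434 0)))) (P.cons (P.cons (P.lf 95772 0 0) (P.cons (P.lf 177918 0 0) (P.cons (P.lf 0 76716 0) P.nil))) (P.cons (P.cons (P.lf 127957 0 0) (P.cons (P.lf 4770 0 0) P.nil)) (P.cons (P.cons (P.lf 2704 0 0) P.nil) P.nil)))))) 13439)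
 (EL.cons 2 (TM.mk (P.cons (P.cons (P.lf 406439651 0 0) (P.cons (P.lf 0 378636134 0) (P.cons (P.lf 0 38860382 0) (P.cons (P.lf 8081876 0 0) (P.lf 673486 0 0))))) (P.cons (P.cons (P.lf 0 8826842 0) (P.cons (P.lf 8223021 0 0) (P.cons (P.lf 843949 0 0) (P.cons (P.lf 0 175516 0) (P.lf 0 14625 0))))) (P.cons (P.cons (P.lf 0 4714048 0) (P.cons (P.lf 4391572 0 0) (P.cons (P.lf 450717 0 0) (P.cons (P.lf 0 93735 0) P.nil)))) (P.cons (P.cons (P.lf 0 96769 0) (P.cons (P.lf 90149 0 0) (P.cons (P.lf 9250 0 0) P.nil))) (P.cons (P.cons (P.lf 13494 0 0) (P.cons (P.lf 0 12571 0) P.nil)) (P.cons (P.cons (P.lf 554 0 0) P.nil) P.nil)))))) 16147)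
 (EL.cons 6 (TM.mk (P.cons (P.cons (P.lf 388943532 0 0) (P.cons (P.lf 0 362336883 0) (P.cons (P.lf 0 37187550 0) (P.cons (P.lf 7733973 0 0) (P.lf 644496 0 0))))) (P.cons (P.cons (P.lf 44026920 0 0) (P.cons (P.lf 0 41015148 0) (P.cons (P.lf 0 4209486 0) (P.cons (P.lf 875454 0 0) (P.lf 72951 0 0))))) (P.cons (P.cons (P.lf 0 96753 0) (P.cons (P.lf 90135 0 0) (P.cons (P.lf 9249 0 0) (P.cons (P.lf 0 1923 0) P.nil)))) (P.cons (P.cons (P.lf 0 185883 0) (P.cons (P.lf 173166 0 0) (P.cons (P.lf 17769 0 0) P.nil))) (P.cons (P.cons (P.lf 0 4986 0) (P.cons (P.lf 4644 0 0) P.nil)) (P.cons (P.cons (P.lf 330 0 0) P.nil) P.nil)))))) 9300)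
 EL.nil))))))
noncomputable def S183_198_660_808_2 : EL := (EL.cons 0 (TM.mk (P.cons (P.cons (P.lf 0 8713824 0) (P.cons (P.lf 0 35441551 0) (P.cons (P.lf 4034462 0 0) (P.cons (P.lf 11398895 0 0) (P.cons (P.lf 0 1013677 0) (P.cons (P.lf 0 464787 0) P.nil)))))) (P.cons (P.cons (P.lf 0 107747695 0) (P.cons (P.lf 0 21605245 0) (P.cons (P.lf 14444048 0 0) (P.cons (P.lf 0 3387035 0) (P.cons (P.lf 462097 0 0) P.nil))))) (P.cons (P.cons (P.lf 10350115 0 0) (P.cons (P.lf 4964876 0 0) (P.cons (P.lf 0 703723 0) (P.cons (P.lf 0 1477341 0) P.nil)))) (P.cons (P.cons (P.lf 530624 0 0) (P.cons (P.lf 2106840 0 0) (P.cons (P.lf 0 863669 0) P.nil))) (P.cons (P.cons (P.lf 630874 0 0) (P.cons (P.lf 97300 0 0) P.nil)) (P.cons (P.cons (P.lf 50208 0 0) P.nil) P.nil)))))) 1545916)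
 (EL.cons 1 (TM.mk (P.cons (P.cons (P.lf 0 102317263 0) (P.cons (P.lf 0 79607368 0) (P.cons (P.lf 19023949 0 0) (P.cons (P.lf 17012383 0 0) (P.cons (P.lf 0 1379137 0) (P.cons (P.lf 0 632352 0) P.nil)))))) (P.cons (P.cons (P.lf 0 64917177 0) (P.cons (P.lf 0 34483636 0) (P.cons (P.lf 10618441 0 0) (P.cons (P.lf 5318590 0 0) (P.cons (P.lf 0 383114 0) P.nil))))) (P.cons (P.cons (P.lf 0 17386132 0) (P.cons (P.lf 0 6660451 0) (P.cons (P.lf 2890211 0 0) (P.cons (P.lf 303461 0 0) P.nil)))) (P.cons (P.cons (P.lf 0 1555047 0) (P.cons (P.lf 0 70976 0) (P.cons (P.lf 116949 0 0) P.nil))) (P.cons (P.cons (P.lf 0 82266 0) (P.cons (P.lf 127105 0 0) P.nil)) (P.cons (P.cons (P.lf 41271 0 0) P.nil) P.nil)))))) 797535)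
 (EL.cons 5 (TM.mk (P.cons (P.cons (P.lf 205609305 0 0) (P.cons (P.lf 153134932 0 0) (P.cons (P.lf 0 37653133 0) (P.cons (P.lf 0 31812921 0) (P.cons (P.lf 2557584 0 0) (P.cons (P.lf 1172689 0 0) P.nil)))))) (P.cons (P.cons (P.lf 70340426 0 0) (P.cons (P.lf 34703440 0 0) (P.cons (P.lf 0 11268006 0) (P.cons (P.lf 0 4850671 0) (P.cons (P.lf 333119 0 0) P.nil))))) (P.cons (P.cons (P.lf 9499266 0 0) (P.cons (P.lf 3591254 0 0) (P.cons (P.lf 0 1759314 0) (P.cons (P.lf 9657 0 0) P.nil)))) (P.cons (P.cons (P.lf 717269 0 0) (P.cons (P.lf 0 363681 0) (P.cons (P.lf 116196 0 0) P.nil))) (P.cons (P.cons (P.lf 0 100279 0) (P.cons (P.lf 0 60921 0) P.nil)) (P.cons (P.cons (P.lf 0 23749 0) P.nil) P.nil)))))) 1027568)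
 (EL.cons 9 (TM.mk (P.cons (P.cons (P.lf 178686231 0 0) (P.cons (P.lf 124000144 0 0) (P.cons (P.lf 0 31957641 0) (P.cons (P.lf 0 24494107 0) (P.cons (P.lf 1938684 0 0) (P.cons (P.lf 888915 0 0) P.nil)))))) (P.cons (P.cons (P.lf 28261882 0 0) (P.cons (P.lf 23842572 0 0) (P.cons (P.lf 0 5410894 0) (P.cons (P.lf 0 5342601 0) (P.cons (P.lf 438903 0 0) P.nil))))) (P.cons (P.cons (P.lf 11628796 0 0) (P.cons (P.lf 4726360 0 0) (P.cons (P.lf 0 1773114 0) (P.cons (P.lf 0 454947 0) P.nil)))) (P.cons (P.cons (P.lf 799357 0 0) (P.cons (P.lf 340077 0 0) (P.cons (P.lf 0 168420 0) P.nil))) (P.cons (P.cons (P.lf 109438 0 0) (P.cons (P.lf 0 23223 0) P.nil)) (P.cons (P.cons (P.lf 0 5209 0) P.nil) P.nil)))))) 430424)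
 (EL.cons 2 (TM.mk (P.cons (P.cons (P.lf 0 135377358 0) (P.cons (P.lf 79143660 0 0) (P.cons (P.lf 76958471 0 0) (P.cons (P.lf 0 14819805 0) (P.cons (P.lf 0 5191621 0) (P.cons (P.lf 109743 0 0) P.nil)))))) (P.cons (P.cons (P.lf 0 7765914 0) (P.cons (P.lf 2937650 0 0) (P.cons (P.lf 6598501 0 0) (P.cons (P.lf 0 1263864 0) (P.cons (P.lf 0 467268 0) P.nil))))) (P.cons (P.cons (P.lf 0 2179141 0) (P.cons (P.lf 2702041 0 0) (P.cons (P.lf 0 707405 0) (P.cons (P.lf 130162 0 0) P.nil)))) (P.cons (P.cons (P.lf 254958 0 0) (P.cons (P.lf 0 142470 0) (P.cons (P.lf 0 153905 0) P.nil))) (P.cons (P.cons (P.lf 60114 0 0) (P.cons (P.lf 0 56317 0) P.nil)) (P.cons (P.cons (P.lf 253 0 0) P.nil) P.nil)))))) 361147)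
 (EL.cons 6 (TM.mk (P.cons (P.cons (P.lf 0 129549732 0) (P.cons (P.lf 75736740 0 0) (P.cons (P.lf 73645614 0 0) (P.cons (P.lf 0 14181852 0) (P.cons (P.lf 0 4968132 0) (P.cons (P.lf 105018 0 0) P.nil)))))) (P.cons (P.cons (P.lf 0 24909642 0) (P.cons (P.lf 13029114 0 0) (P.cons (P.lf 16250250 0 0) (P.cons (P.lf 0 3122778 0) (P.cons (P.lf 0 1117416 0) P.nil))))) (P.cons (P.cons (P.lf 0 4937886 0) (P.cons (P.lf 4046484 0 0) (P.cons (P.lf 1226574 0 0) (P.cons (P.lf 0 241122 0) P.nil)))) (P.cons (P.cons (P.lf 0 355290 0) (P.cons (P.lf 376488 0 0) (P.cons (P.lf 0 28026 0) P.nil))) (P.cons (P.cons (P.lf 24258 0 0) (P.cons (P.lf 0 16590 0) P.nil)) (P.cons (P.cons (P.lf 3912 0 0) P.nil) P.nil)))))) 411210)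
 EL.nil))))))
noncomputable def S183_198_660_808_3 : EL := (EL.cons 0 (TM.mk (P.cons (P.lf 1689184190 0 0) (P.cons (P.lf 0 328315225 0) (P.cons (P.lf 6915520 0 0) (P.cons (P.lf 1047332 0 0) (P.cons (P.lf 7546 0 0) (P.cons (P.lf 0 1573 0) P.nil)))))) 161)
 (EL.cons 1 (TM.mk (P.cons (P.lf 1616469420 0 0) (P.cons (P.lf 0 96098353 0) (P.cons (P.lf 0 12687056 0) (P.cons (P.lf 51723 0 0) (P.cons (P.lf 25867 0 0) (P.cons (P.lf 433 0 0) P.nil)))))) 140)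
 (EL.cons 5 (TM.mk (P.cons (P.lf 1546884822 0 0) (P.cons (P.lf 116734300 0 0) (P.cons (P.lf 0 2458850 0) (P.cons (P.lf 0 372384 0) (P.cons (P.lf 0 2686 0) (P.cons (P.lf 556 0 0) P.nil)))))) 116)
 EL.nil)))
noncomputable def S183_198_660_808_4 : EL := (EL.cons 0 (TM.mk (P.cons (P.cons (P.lf 0 281317656 0) (P.cons (P.lf 0 97610850 0) (P.cons (P.lf 42090899 0 0) (P.lf 4676765 0 0)))) (P.cons (P.cons (P.lf 32430512 0 0) (P.cons (P.lf 7922782 0 0) (P.cons (P.lf 0 3416392 0) (P.lf 0 379599 0)))) (P.cons (P.cons (P.lf 0 5101971 0) (P.cons (P.lf 1772212 0 0) (P.cons (P.lf 0 764196 0) (P.lf 0 84909 0)))) (P.cons (P.cons (P.lf 1367827 0 0) (P.cons (P.lf 0 63824 0) (P.cons (P.lf 27522 0 0) P.nil))) (P.cons (P.cons (P.lf 0 20255 0) (P.cons (P.lf 0 15002 0) P.nil)) (P.cons (P.cons (P.lf 0 10675 0) P.nil) P.nil)))))) 18245)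
 (EL.cons 1 (TM.mk (P.cons (P.cons (P.lf 0 269207698 0) (P.cons (P.lf 0 93408969 0) (P.cons (P.lf 40278999 0 0) (P.lf 4475443 0 0)))) (P.cons (P.cons (P.lf 0 5285326 0) (P.cons (P.lf 0 5020415 0) (P.cons (P.lf 2164860 0 0) (P.lf 240538 0 0)))) (P.cons (P.cons (P.lf 0 4539556 0) (P.cons (P.lf 1384957 0 0) (P.cons (P.lf 0 597208 0) (P.lf 0 66354 0)))) (P.cons (P.cons (P.lf 653236 0 0) (P.cons (P.lf 123256 0 0) (P.cons (P.lf 0 53148 0) P.nil))) (P.cons (P.cons (P.lf 87832 0 0) (P.cons (P.lf 0 3470 0) P.nil)) (P.cons (P.cons (P.lf 0 2083 0) P.nil) P.nil)))))) 14167)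
 (EL.cons 5 (TM.mk (P.cons (P.cons (P.lf 0 257619042 0) (P.cons (P.lf 0 89387968 0) (P.cons (P.lf 38545100 0 0) (P.lf 4282786 0 0)))) (P.cons (P.cons (P.lf 0 39814134 0) (P.cons (P.lf 0 16863958 0) (P.cons (P.lf 7271928 0 0) (P.lf 807990 0 0)))) (P.cons (P.cons (P.lf 0 8705212 0) (P.cons (P.lf 0 599252 0) (P.cons (P.lf 258404 0 0) (P.lf 28710 0 0)))) (P.cons (P.cons (P.lf 0 454414 0) (P.cons (P.lf 81998 0 0) (P.cons (P.lf 0 35356 0) P.nil))) (P.cons (P.cons (P.lf 49854 0 0) (P.cons (P.lf 6924 0 0) P.nil)) (P.cons (P.cons (P.lf 4696 0 0) P.nil) P.nil)))))) 9750)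
 EL.nil)))
noncomputable def S183_198_660_808_5 : EL := (EL.cons 0 (TM.mk (P.cons (P.cons (P.lf 46850795 0 0) (P.cons (P.lf 32512327 0 0) (P.cons (P.lf 0 8379161 0) (P.cons (P.lf 0 6422254 0) (P.cons (P.lf 508313 0 0) (P.cons (P.lf 233068 0 0) P.nil)))))) (P.cons (P.cons (P.lf 0 1695919 0) (P.cons (P.lf 0 67774 0) (P.cons (P.lf 209886 0 0) (P.cons (P.lf 0 152557 0) (P.cons (P.lf 16279 0 0) P.nil))))) (P.cons (P.cons (P.lf 1800569 0 0) (P.cons (P.lf 157290 0 0) (P.cons (P.lf 0 223460 0) (P.cons (P.lf 126687 0 0) P.nil)))) (P.cons (P.cons (P.lf 0 323643 0) (P.cons (P.lf 0 105941 0) (P.cons (P.lf 35196 0 0) P.nil))) (P.cons (P.cons (P.lf 5243 0 0) (P.cons (P.lf 0 14324 0) P.nil)) (P.cons (P.cons (P.lf 0 4204 0) P.nil) P.nil)))))) 256423)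
 (EL.cons 1 (TM.mk (P.cons (P.cons (P.lf 44833995 0 0) (P.cons (P.lf 31112760 0 0) (P.cons (P.lf 0 8018461 0) (P.cons (P.lf 0 6145792 0) (P.cons (P.lf 486431 0 0) (P.cons (P.lf 223035 0 0) P.nil)))))) (P.cons (P.cons (P.lf 4425800 0 0) (P.cons (P.lf 4132676 0 0) (P.cons (P.lf 0 880948 0) (P.cons (P.lf 0 975140 0) (P.cons (P.lf 81204 0 0) P.nil))))) (P.cons (P.cons (P.lf 2144317 0 0) (P.cons (P.lf 586046 0 0) (P.cons (P.lf 0 301243 0) (P.cons (P.lf 13777 0 0) P.nil)))) (P.cons (P.cons (P.lf 0 27114 0) (P.cons (P.lf 0 31128 0) (P.cons (P.lf 0 5409 0) P.nil))) (P.cons (P.cons (P.lf 0 6420 0) (P.cons (P.lf 0 19516 0) P.nil)) (P.cons (P.cons (P.lf 0 4293 0) P.nil) P.nil)))))) 198886)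
 (EL.cons 5 (TM.mk (P.cons (P.cons (P.lf 42904014 0 0) (P.cons (P.lf 29773440 0 0) (P.cons (P.lf 0 7673288 0) (P.cons (P.lf 0 5881234 0) (P.cons (P.lf 465492 0 0) (P.cons (P.lf 213434 0 0) P.nil)))))) (P.cons (P.cons (P.lf 10023620 0 0) (P.cons (P.lf 7971620 0 0) (P.cons (P.lf 0 1878256 0) (P.cons (P.lf 0 1726622 0) (P.cons (P.lf 140512 0 0) P.nil))))) (P.cons (P.cons (P.lf 3236062 0 0) (P.cons (P.lf 1519526 0 0) (P.cons (P.lf 0 511584 0) (P.cons (P.lf 0 196692 0) P.nil)))) (P.cons (P.cons (P.lf 381524 0 0) (P.cons (P.lf 151026 0 0) (P.cons (P.lf 0 68652 0) P.nil))) (P.cons (P.cons (P.lf 34614 0 0) (P.cons (P.lf 0 2646 0) P.nil)) (P.cons (P.cons (P.lf 0 240 0) P.nil) P.nil)))))) 161448)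
 EL.nil)))
noncomputable def S183_198_660_808_6 : EL := (EL.cons 12 (TM.mk (P.lf 8589934592 0 0) 0)
 (EL.cons 3 (TM.mk (P.cons (P.lf 0 1904598495 0) (P.cons (P.lf 185091918 0 0) (P.cons (P.lf 5095050 0 0) (P.cons (P.lf 0 95302 0) (P.cons (P.lf 0 6701 0) (P.cons (P.lf 0 18 0) P.nil)))))) 59)
 (EL.cons 7 (TM.mk (P.cons (P.lf 0 1822610727 0) (P.cons (P.lf 0 68770857 0) (P.cons (P.lf 2745999 0 0) (P.cons (P.lf 115768 0 0) (P.cons (P.lf 0 717 0) (P.cons (P.lf 0 127 0) P.nil)))))) 49)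
 EL.nil)))
noncomputable def S183_198_660_808_7 : EL := (EL.cons 12 (TM.mk (P.cons (P.cons (P.lf 0 1430572400 0) (P.cons (P.lf 0 496376200 0) (P.cons (P.lf 214043016 0 0) (P.lf 23782552 0 0)))) (P.cons (P.cons (P.lf 0 113133144 0) (P.cons (P.lf 0 56187880 0) (P.cons (P.lf 24228848 0 0) (P.lf 2692088 0 0)))) (P.cons (P.cons (P.lf 0 42076990 0) (P.cons (P.lf 123472 0 0) (P.cons (P.lf 0 53240 0) (P.lf 0 5912 0)))) (P.cons (P.cons (P.lf 127696 0 0) (P.cons (P.lf 237224 0 0) (P.cons (P.lf 0 102288 0) P.nil))) (P.cons (P.cons (P.lf 170610 0 0) (P.cons (P.lf 6360 0 0) P.nil)) (P.cons (P.cons (P.lf 3606 0 0) P.nil) P.nil)))))) 17894)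
 (EL.cons 3 (TM.mk (P.cons (P.cons (P.lf 0 347610142 0) (P.cons (P.lf 0 220117474 0) (P.cons (P.lf 94917136 0 0) (P.lf 10546346 0 0)))) (P.cons (P.cons (P.lf 0 513822508 0) (P.cons (P.lf 0 3525084 0) (P.cons (P.lf 1520056 0 0) (P.lf 168892 0 0)))) (P.cons (P.cons (P.lf 0 1021617 0) (P.cons (P.lf 3065014 0 0) (P.cons (P.lf 0 1321668 0) (P.lf 0 146850 0)))) (P.cons (P.cons (P.lf 3648131 0 0) (P.cons (P.lf 155514 0 0) (P.cons (P.lf 0 67056 0) P.nil))) (P.cons (P.cons (P.lf 127402 0 0) (P.cons (P.lf 0 9570 0) P.nil)) (P.cons (P.cons (P.lf 0 9531 0) P.nil) P.nil)))))) 39373)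
 (EL.cons 7 (TM.mk (P.cons (P.cons (P.lf 550545992 0 0) (P.cons (P.lf 227997909 0 0) (P.cons (P.lf 0 98315270 0) (P.lf 0 10923921 0)))) (P.cons (P.cons (P.lf 190910634 0 0) (P.cons (P.lf 1309750 0 0) (P.cons (P.lf 0 564780 0) (P.lf 0 62756 0)))) (P.cons (P.cons (P.lf 0 12498638 0) (P.cons (P.lf 0 1227161 0) (P.cons (P.lf 529165 0 0) (P.lf 58795 0 0)))) (P.cons (P.cons (P.lf 0 1140016 0) (P.cons (P.lf 46354 0 0) (P.cons (P.lf 0 19987 0) P.nil))) (P.cons (P.cons (P.lf 79208 0 0) (P.cons (P.lf 7091 0 0) P.nil)) (P.cons (P.cons (P.lf 5783 0 0) P.nil) P.nil)))))) 32978)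
 (EL.cons 10 (TM.mk (P.cons (P.cons (P.lf 0 916542264 0) (P.cons (P.lf 853843908 0 0) (P.cons (P.lf 87632160 0 0) (P.cons (P.lf 0 18225051 0) (P.lf 0 1518753 0))))) (P.cons (P.cons (P.lf 0 69166053 0) (P.cons (P.lf 64434576 0 0) (P.cons (P.lf 6613083 0 0) (P.cons (P.lf 0 1375335 0) (P.lf 0 114609 0))))) (P.cons (P.cons (P.lf 1456887 0 0) (P.cons (P.lf 0 1357227 0) (P.cons (P.lf 0 139293 0) (P.cons (P.lf 28968 0 0) P.nil)))) (P.cons (P.cons (P.lf 220638 0 0) (P.cons (P.lf 0 205545 0) (P.cons (P.lf 0 21093 0) P.nil))) (P.cons (P.cons (P.lf 1590 0 0) (P.cons (P.lf 0 1482 0) P.nil)) (P.cons (P.cons (P.lf 0 327 0) P.nil) P.nil)))))) 7947)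
 EL.nil))))
noncomputable def S183_198_660_808_8 : EL := (EL.cons 12 (TM.mk (P.cons (P.cons (P.lf 238248308 0 0) (P.cons (P.lf 165333526 0 0) (P.cons (P.lf 0 42610188 0) (P.cons (P.lf 0 32658810 0) (P.cons (P.lf 2584912 0 0) (P.cons (P.lf 1185220 0 0) P.nil)))))) (P.cons (P.cons (P.lf 37682510 0 0) (P.cons (P.lf 31790096 0 0) (P.cons (P.lf 0 7214526 0) (P.cons (P.lf 0 7123468 0) (P.cons (P.lf 585204 0 0) P.nil))))) (P.cons (P.cons (P.lf 15505062 0 0) (P.cons (P.lf 6301814 0 0) (P.cons (P.lf 0 2364152 0) (P.cons (P.lf 0 606596 0) P.nil)))) (P.cons (P.cons (P.lf 1065810 0 0) (P.cons (P.lf 453436 0 0) (P.cons (P.lf 0 224560 0) P.nil))) (P.cons (P.cons (P.lf 145918 0 0) (P.cons (P.lf 0 30964 0) P.nil)) (P.cons (P.cons (P.lf 0 6946 0) P.nil) P.nil)))))) 573870)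
 (EL.cons 3 (TM.mk (P.cons (P.cons (P.lf 168607839 0 0) (P.cons (P.lf 150149308 0 0) (P.cons (P.lf 0 32946912 0) (P.cons (P.lf 0 34618314 0) (P.cons (P.lf 2865691 0 0) (P.cons (P.lf 1313961 0 0) P.nil)))))) (P.cons (P.cons (P.lf 183522381 0 0) (P.cons (P.lf 74389144 0 0) (P.cons (P.lf 0 27968646 0) (P.cons (P.lf 0 7107672 0) (P.cons (P.lf 370275 0 0) P.nil))))) (P.cons (P.cons (P.lf 19764852 0 0) (P.cons (P.lf 8672641 0 0) (P.cons (P.lf 0 4132792 0) (P.cons (P.lf 0 76551 0) P.nil)))) (P.cons (P.cons (P.lf 3717787 0 0) (P.cons (P.lf 0 599040 0) (P.cons (P.lf 170399 0 0) P.nil))) (P.cons (P.cons (P.lf 0 156807 0) (P.cons (P.lf 0 151049 0) P.nil)) (P.cons (P.cons (P.lf 0 61768 0) P.nil) P.nil)))))) 1003141)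
 (EL.cons 7 (TM.mk (P.cons (P.cons (P.lf 0 132824975 0) (P.cons (P.lf 0 104488826 0) (P.cons (P.lf 24792737 0 0) (P.cons (P.lf 22482452 0 0) (P.cons (P.lf 0 1826160 0) (P.cons (P.lf 0 837319 0) P.nil)))))) (P.cons (P.cons (P.lf 0 68187695 0) (P.cons (P.lf 0 27639265 0) (P.cons (P.lf 10391739 0 0) (P.cons (P.lf 2640851 0 0) (P.cons (P.lf 0 137579 0) P.nil))))) (P.cons (P.cons (P.lf 0 2743904 0) (P.cons (P.lf 0 1357863 0) (P.cons (P.lf 834543 0 0) (P.cons (P.lf 0 149699 0) P.nil)))) (P.cons (P.cons (P.lf 0 809979 0) (P.cons (P.lf 476265 0 0) (P.cons (P.lf 0 187833 0) P.nil))) (P.cons (P.cons (P.lf 187687 0 0) (P.cons (P.lf 28924 0 0) P.nil)) (P.cons (P.cons (P.lf 13976 0 0) P.nil) P.nil)))))) 595030)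
 (EL.cons 10 (TM.mk (P.cons (P.cons (P.lf 305282898 0 0) (P.cons (P.lf 0 178473012 0) (P.cons (P.lf 0 173545302 0) (P.cons (P.lf 33419424 0 0) (P.cons (P.lf 11707374 0 0) (P.cons (P.lf 0 247488 0) P.nil)))))) (P.cons (P.cons (P.lf 47180418 0 0) (P.cons (P.lf 0 23968848 0) (P.cons (P.lf 0 31745370 0) (P.cons (P.lf 6097830 0 0) (P.cons (P.lf 2191452 0 0) P.nil))))) (P.cons (P.cons (P.lf 10315824 0 0) (P.cons (P.lf 0 8900016 0) (P.cons (P.lf 0 1954074 0) (P.cons (P.lf 388470 0 0) P.nil)))) (P.cons (P.cons (P.lf 538488 0 0) (P.cons (P.lf 0 598824 0) (P.cons (P.lf 80934 0 0) P.nil))) (P.cons (P.cons (P.lf 0 59076 0) (P.cons (P.lf 46830 0 0) P.nil)) (P.cons (P.cons (P.lf 0 5568 0) P.nil) P.nil)))))) 784536)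
 EL.nil))))
noncomputable def S183_198_660_808_9 : EL := (EL.cons 3 (TM.mk (P.cons (P.lf 0 1904598495 0) (P.cons (P.lf 185091918 0 0) (P.cons (P.lf 5095050 0 0) (P.cons (P.lf 0 95302 0) (P.cons (P.lf 0 6701 0) (P.cons (P.lf 0 18 0) P.nil)))))) 59)
 (EL.cons 7 (TM.mk (P.cons (P.lf 0 1822610727 0) (P.cons (P.lf 0 68770857 0) (P.cons (P.lf 2745999 0 0) (P.cons (P.lf 115768 0 0) (P.cons (P.lf 0 717 0) (P.cons (P.lf 0 127 0) P.nil)))))) 49)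
 EL.nil))
noncomputable def S183_198_660_808_10 : EL := (EL.cons 3 (TM.mk (P.cons (P.cons (P.lf 317192873 0 0) (P.cons (P.lf 110058737 0 0) (P.cons (P.lf 0 47458568 0) (P.lf 0 5273173 0)))) (P.cons (P.cons (P.lf 0 5740924 0) (P.cons (P.lf 1762542 0 0) (P.cons (P.lf 0 760028 0) (P.lf 0 84446 0)))) (P.cons (P.cons (P.lf 6043224 0 0) (P.cons (P.lf 0 1532507 0) (P.cons (P.lf 660834 0 0) (P.lf 73425 0 0)))) (P.cons (P.cons (P.lf 0 986200 0) (P.cons (P.lf 0 77757 0) (P.cons (P.lf 33528 0 0) P.nil))) (P.cons (P.cons (P.lf 0 57662 0) (P.cons (P.lf 4785 0 0) P.nil)) (P.cons (P.cons (P.lf 3510 0 0) P.nil) P.nil)))))) 9759)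
 (EL.cons 7 (TM.mk (P.cons (P.cons (P.lf 303538586 0 0) (P.cons (P.lf 105321009 0 0) (P.cons (P.lf 0 45415607 0) (P.lf 0 5046177 0)))) (P.cons (P.cons (P.lf 35457705 0 0) (P.cons (P.lf 15895912 0 0) (P.cons (P.lf 0 6854496 0) (P.lf 0 761609 0)))) (P.cons (P.cons (P.lf 9376309 0 0) (P.cons (P.lf 264961 0 0) (P.cons (P.lf 0 114254 0) (P.lf 0 12695 0)))) (P.cons (P.cons (P.lf 254327 0 0) (P.cons (P.lf 0 75974 0) (P.cons (P.lf 32759 0 0) P.nil))) (P.cons (P.cons (P.lf 0 52078 0) (P.cons (P.lf 0 3925 0) P.nil)) (P.cons (P.cons (P.lf 0 2626 0) P.nil) P.nil)))))) 6709)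
 EL.nil))
noncomputable def S183_198_660_808_11 : EL := (EL.cons 3 (TM.mk (P.cons (P.cons (P.lf 0 52825473 0) (P.cons (P.lf 0 36658484 0) (P.cons (P.lf 9447720 0 0) (P.cons (P.lf 7241256 0 0) (P.cons (P.lf 0 573137 0) (P.cons (P.lf 0 262791 0) P.nil)))))) (P.cons (P.cons (P.lf 0 3221469 0) (P.cons (P.lf 0 3486110 0) (P.cons (P.lf 681492 0 0) (P.cons (P.lf 875730 0 0) (P.cons (P.lf 0 74055 0) P.nil))))) (P.cons (P.cons (P.lf 0 2484570 0) (P.cons (P.lf 0 614201 0) (P.cons (P.lf 343460 0 0) (P.cons (P.lf 0 38367 0) P.nil)))) (P.cons (P.cons (P.lf 117487 0 0) (P.cons (P.lf 52272 0 0) (P.cons (P.lf 0 4957 0) P.nil))) (P.cons (P.cons (P.lf 0 795 0) (P.cons (P.lf 19891 0 0) P.nil)) (P.cons (P.cons (P.lf 5114 0 0) P.nil) P.nil)))))) 206769)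
 (EL.cons 7 (TM.mk (P.cons (P.cons (P.lf 0 50551481 0) (P.cons (P.lf 0 35080436 0) (P.cons (P.lf 9041021 0 0) (P.cons (P.lf 6929540 0 0) (P.cons (P.lf 0 548466 0) (P.cons (P.lf 0 251479 0) P.nil)))))) (P.cons (P.cons (P.lf 0 9902879 0) (P.cons (P.lf 0 8068873 0) (P.cons (P.lf 1871913 0 0) (P.cons (P.lf 1772921 0 0) (P.cons (P.lf 0 144863 0) P.nil))))) (P.cons (P.cons (P.lf 0 3515384 0) (P.cons (P.lf 0 1538775 0) (P.cons (P.lf 545763 0 0) (P.cons (P.lf 175297 0 0) P.nil)))) (P.cons (P.cons (P.lf 0 335019 0) (P.cons (P.lf 0 134271 0) (P.cons (P.lf 63693 0 0) P.nil))) (P.cons (P.cons (P.lf 0 34049 0) (P.cons (P.lf 5368 0 0) P.nil)) (P.cons (P.cons (P.lf 848 0 0) P.nil) P.nil)))))) 153462)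
 EL.nil))
noncomputable def S183_198_660_808_12 : EL := (EL.cons 4 (TM.mk (P.cons (P.lf 1904598495 0 0) (P.cons (P.lf 0 185091918 0) (P.cons (P.lf 0 5095050 0) (P.cons (P.lf 95302 0 0) (P.cons (P.lf 6701 0 0) (P.cons (P.lf 18 0 0) P.nil)))))) 59)
 (EL.cons 8 (TM.mk (P.cons (P.lf 1822610727 0 0) (P.cons (P.lf 68770857 0 0) (P.cons (P.lf 0 2745999 0) (P.cons (P.lf 0 115768 0) (P.cons (P.lf 717 0 0) (P.cons (P.lf 127 0 0) P.nil)))))) 49)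
 EL.nil))
noncomputable def S183_198_660_808_13 : EL := (EL.cons 4 (TM.mk (P.cons (P.cons (P.lf 0 317192873 0) (P.cons (P.lf 0 110058737 0) (P.cons (P.lf 47458568 0 0) (P.lf 5273173 0 0)))) (P.cons (P.cons (P.lf 5740924 0 0) (P.cons (P.lf 0 1762542 0) (P.cons (P.lf 760028 0 0) (P.lf 84446 0 0)))) (P.cons (P.cons (P.lf 0 6043224 0) (P.cons (P.lf 1532507 0 0) (P.cons (P.lf 0 660834 0) (P.lf 0 73425 0)))) (P.cons (P.cons (P.lf 986200 0 0) (P.cons (P.lf 77757 0 0) (P.cons (P.lf 0 33528 0) P.nil))) (P.cons (P.cons (P.lf 57662 0 0) (P.cons (P.lf 0 4785 0) P.nil)) (P.cons (P.cons (P.lf 0 3510 0) P.nil) P.nil)))))) 9759)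
 (EL.cons 8 (TM.mk (P.cons (P.cons (P.lf 0 303538586 0) (P.cons (P.lf 0 105321009 0) (P.cons (P.lf 45415607 0 0) (P.lf 5046177 0 0)))) (P.cons (P.cons (P.lf 0 35457705 0) (P.cons (P.lf 0 15895912 0) (P.cons (P.lf 6854496 0 0) (P.lf 761609 0 0)))) (P.cons (P.cons (P.lf 0 9376309 0) (P.cons (P.lf 0 264961 0) (P.cons (P.lf 114254 0 0) (P.lf 12695 0 0)))) (P.cons (P.cons (P.lf 0 254327 0) (P.cons (P.lf 75974 0 0) (P.cons (P.lf 0 32759 0) P.nil))) (P.cons (P.cons (P.lf 52078 0 0) (P.cons (P.lf 3925 0 0) P.nil)) (P.cons (P.cons (P.lf 2626 0 0) P.nil) P.nil)))))) 6709)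
 EL.nil))
noncomputable def S183_198_660_808_14 : EL := (EL.cons 4 (TM.mk (P.cons (P.cons (P.lf 52825473 0 0) (P.cons (P.lf 36658484 0 0) (P.cons (P.lf 0 9447720 0) (P.cons (P.lf 0 7241256 0) (P.cons (P.lf 573137 0 0) (P.cons (P.lf 262791 0 0) P.nil)))))) (P.cons (P.cons (P.lf 3221469 0 0) (P.cons (P.lf 3486110 0 0) (P.cons (P.lf 0 681492 0) (P.cons (P.lf 0 875730 0) (P.cons (P.lf 74055 0 0) P.nil))))) (P.cons (P.cons (P.lf 2484570 0 0) (P.cons (P.lf 614201 0 0) (P.cons (P.lf 0 343460 0) (P.cons (P.lf 38367 0 0) P.nil)))) (P.cons (P.cons (P.lf 0 117487 0) (P.cons (P.lf 0 52272 0) (P.cons (P.lf 4957 0 0) P.nil))) (P.cons (P.cons (P.lf 795 0 0) (P.cons (P.lf 0 19891 0) P.nil)) (P.cons (P.cons (P.lf 0 5114 0) P.nil) P.nil)))))) 206769)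
 (EL.cons 8 (TM.mk (P.cons (P.cons (P.lf 50551481 0 0) (P.cons (P.lf 35080436 0 0) (P.cons (P.lf 0 9041021 0) (P.cons (P.lf 0 6929540 0) (P.cons (P.lf 548466 0 0) (P.cons (P.lf 251479 0 0) P.nil)))))) (P.cons (P.cons (P.lf 9902879 0 0) (P.cons (P.lf 8068873 0 0) (P.cons (P.lf 0 1871913 0) (P.cons (P.lf 0 1772921 0) (P.cons (P.lf 144863 0 0) P.nil))))) (P.cons (P.cons (P.lf 3515384 0 0) (P.cons (P.lf 1538775 0 0) (P.cons (P.lf 0 545763 0) (P.cons (P.lf 0 175297 0) P.nil)))) (P.cons (P.cons (P.lf 335019 0 0) (P.cons (P.lf 134271 0 0) (P.cons (P.lf 0 63693 0) P.nil))) (P.cons (P.cons (P.lf 34049 0 0) (P.cons (P.lf 0 5368 0) P.nil)) (P.cons (P.cons (P.lf 0 848 0) P.nil) P.nil)))))) 153462)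
 EL.nil))
noncomputable def S183_198_660_808_15 : EL := (EL.cons 4 (TM.mk (P.cons (P.lf 0 900898234 0) (P.cons (P.lf 175101453 0 0) (P.cons (P.lf 0 3688277 0) (P.cons (P.lf 0 558577 0) (P.cons (P.lf 0 4024 0) (P.cons (P.lf 839 0 0) P.nil)))))) 89)
 (EL.cons 8 (TM.mk (P.cons (P.lf 0 862117024 0) (P.cons (P.lf 51252455 0 0) (P.cons (P.lf 6766430 0 0) (P.cons (P.lf 0 27586 0) (P.cons (P.lf 0 13796 0) (P.cons (P.lf 0 231 0) P.nil)))))) 71)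
 EL.nil))
noncomputable def S183_198_660_808_16 : EL := (EL.cons 4 (TM.mk (P.cons (P.cons (P.lf 150036083 0 0) (P.cons (P.lf 52059120 0 0) (P.cons (P.lf 0 22448479 0) (P.lf 0 2494275 0)))) (P.cons (P.cons (P.lf 0 17296273 0) (P.cons (P.lf 0 4225484 0) (P.cons (P.lf 1822076 0 0) (P.lf 202453 0 0)))) (P.cons (P.cons (P.lf 2721051 0 0) (P.cons (P.lf 0 945180 0) (P.cons (P.lf 407571 0 0) (P.lf 45285 0 0)))) (P.cons (P.cons (P.lf 0 729508 0) (P.cons (P.lf 34039 0 0) (P.cons (P.lf 0 14678 0) P.nil))) (P.cons (P.cons (P.lf 10802 0 0) (P.cons (P.lf 8001 0 0) P.nil)) (P.cons (P.cons (P.lf 5693 0 0) P.nil) P.nil)))))) 9739)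
 (EL.cons 8 (TM.mk (P.cons (P.cons (P.lf 143577439 0 0) (P.cons (P.lf 49818117 0 0) (P.cons (P.lf 0 21482133 0) (P.lf 0 2386903 0)))) (P.cons (P.cons (P.lf 2818841 0 0) (P.cons (P.lf 2677555 0 0) (P.cons (P.lf 0 1154592 0) (P.lf 0 128287 0)))) (P.cons (P.cons (P.lf 2421097 0 0) (P.cons (P.lf 0 738644 0) (P.cons (P.lf 318511 0 0) (P.lf 35389 0 0)))) (P.cons (P.cons (P.lf 0 348393 0) (P.cons (P.lf 0 65737 0) (P.cons (P.lf 28346 0 0) P.nil))) (P.cons (P.cons (P.lf 0 46844 0) (P.cons (P.lf 1851 0 0) P.nil)) (P.cons (P.cons (P.lf 1111 0 0) P.nil) P.nil)))))) 7546)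
 EL.nil))
noncomputable def S183_198_660_808_17 : EL := (EL.cons 4 (TM.mk (P.cons (P.cons (P.lf 0 24987090 0) (P.cons (P.lf 0 17339908 0) (P.cons (P.lf 4468886 0 0) (P.cons (P.lf 3425202 0 0) (P.cons (P.lf 0 271100 0) (P.cons (P.lf 0 124303 0) P.nil)))))) (P.cons (P.cons (P.lf 904490 0 0) (P.cons (P.lf 36146 0 0) (P.cons (P.lf 0 111939 0) (P.cons (P.lf 81363 0 0) (P.cons (P.lf 0 8682 0) P.nil))))) (P.cons (P.cons (P.lf 0 960303 0) (P.cons (P.lf 0 83888 0) (P.cons (P.lf 119178 0 0) (P.cons (P.lf 0 67566 0) P.nil)))) (P.cons (P.cons (P.lf 172609 0 0) (P.cons (P.lf 56502 0 0) (P.cons (P.lf 0 18771 0) P.nil))) (P.cons (P.cons (P.lf 0 2796 0) (P.cons (P.lf 7639 0 0) P.nil)) (P.cons (P.cons (P.lf 2242 0 0) P.nil) P.nil)))))) 136769)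
 (EL.cons 8 (TM.mk (P.cons (P.cons (P.lf 0 23911464 0) (P.cons (P.lf 0 16593472 0) (P.cons (P.lf 4276513 0 0) (P.cons (P.lf 3277756 0 0) (P.cons (P.lf 0 259430 0) (P.cons (P.lf 0 118952 0) P.nil)))))) (P.cons (P.cons (P.lf 0 2360427 0) (P.cons (P.lf 0 2204094 0) (P.cons (P.lf 469839 0 0) (P.cons (P.lf 520075 0 0) (P.cons (P.lf 0 43309 0) P.nil))))) (P.cons (P.cons (P.lf 0 1143636 0) (P.cons (P.lf 0 312558 0) (P.cons (P.lf 160663 0 0) (P.cons (P.lf 0 7348 0) P.nil)))) (P.cons (P.cons (P.lf 14461 0 0) (P.cons (P.lf 16602 0 0) (P.cons (P.lf 2885 0 0) P.nil))) (P.cons (P.cons (P.lf 3424 0 0) (P.cons (P.lf 10409 0 0) P.nil)) (P.cons (P.cons (P.lf 2290 0 0) P.nil) P.nil)))))) 106061)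
 EL.nil))
noncomputable def S183_198_660_808_18 : EL := (EL.cons 4 (TM.mk (P.cons (P.lf 426135812 0 0) (P.cons (P.lf 0 124237673 0) (P.cons (P.lf 8653707 0 0) (P.cons (P.lf 337561 0 0) (P.cons (P.lf 0 31084 0) (P.cons (P.lf 0 1487 0) P.nil)))))) 136)
 (EL.cons 8 (TM.mk (P.cons (P.lf 407791829 0 0) (P.cons (P.lf 0 63872894 0) (P.cons (P.lf 0 1935523 0) (P.cons (P.lf 409346 0 0) (P.cons (P.lf 14041 0 0) (P.cons (P.lf 0 800 0) P.nil)))))) 99)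
 EL.nil))
noncomputable def S183_198_660_808_19 : EL := (EL.cons 4 (TM.mk (P.cons (P.cons (P.lf 0 70968890 0) (P.cons (P.lf 0 24624596 0) (P.cons (P.lf 10618403 0 0) (P.lf 1179822 0 0)))) (P.cons (P.cons (P.lf 15078217 0 0) (P.cons (P.lf 4391762 0 0) (P.cons (P.lf 0 1893777 0) (P.lf 0 210419 0)))) (P.cons (P.cons (P.lf 0 1892315 0) (P.cons (P.lf 318718 0 0) (P.cons (P.lf 0 137434 0) (P.lf 0 15270 0)))) (P.cons (P.cons (P.lf 444710 0 0) (P.cons (P.lf 0 66128 0) (P.cons (P.lf 28515 0 0) P.nil))) (P.cons (P.cons (P.lf 0 35040 0) (P.cons (P.lf 0 3402 0) P.nil)) (P.cons (P.cons (P.lf 0 3155 0) P.nil) P.nil)))))) 9753)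
 (EL.cons 8 (TM.mk (P.cons (P.cons (P.lf 0 67913873 0) (P.cons (P.lf 0 23564574 0) (P.cons (P.lf 10161310 0 0) (P.lf 1129034 0 0)))) (P.cons (P.cons (P.lf 5266632 0 0) (P.cons (P.lf 1023526 0 0) (P.cons (P.lf 0 441356 0) (P.lf 0 49039 0)))) (P.cons (P.cons (P.lf 0 833953 0) (P.cons (P.lf 535507 0 0) (P.cons (P.lf 0 230916 0) (P.lf 0 25657 0)))) (P.cons (P.cons (P.lf 276256 0 0) (P.cons (P.lf 0 649 0) (P.cons (P.lf 280 0 0) P.nil))) (P.cons (P.cons (P.lf 8901 0 0) (P.cons (P.lf 0 4978 0) P.nil)) (P.cons (P.cons (P.lf 0 3182 0) P.nil) P.nil)))))) 6553)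
 EL.nil))
noncomputable def S183_198_660_808_20 : EL := (EL.cons 4 (TM.mk (P.cons (P.cons (P.lf 11819197 0 0) (P.cons (P.lf 8201986 0 0) (P.cons (P.lf 0 2113837 0) (P.cons (P.lf 0 1620162 0) (P.cons (P.lf 128234 0 0) (P.cons (P.lf 58797 0 0) P.nil)))))) (P.cons (P.cons (P.lf 0 1576442 0) (P.cons (P.lf 0 814179 0) (P.cons (P.lf 258374 0 0) (P.cons (P.lf 118963 0 0) (P.cons (P.lf 0 8354 0) P.nil))))) (P.cons (P.cons (P.lf 464194 0 0) (P.cons (P.lf 19399 0 0) (P.cons (P.lf 0 55863 0) (P.cons (P.lf 40034 0 0) P.nil)))) (P.cons (P.cons (P.lf 0 124053 0) (P.cons (P.lf 0 30125 0) (P.cons (P.lf 14110 0 0) P.nil))) (P.cons (P.cons (P.lf 8062 0 0) (P.cons (P.lf 0 1094 0) P.nil)) (P.cons (P.cons (P.lf 0 948 0) P.nil) P.nil)))))) 94094)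
 (EL.cons 8 (TM.mk (P.cons (P.cons (P.lf 11310413 0 0) (P.cons (P.lf 7848914 0 0) (P.cons (P.lf 0 2022842 0) (P.cons (P.lf 0 1550418 0) (P.cons (P.lf 122713 0 0) (P.cons (P.lf 56265 0 0) P.nil)))))) (P.cons (P.cons (P.lf 17347 0 0) (P.cons (P.lf 279794 0 0) (P.cons (P.lf 0 25656 0) (P.cons (P.lf 0 95329 0) (P.cons (P.lf 8560 0 0) P.nil))))) (P.cons (P.cons (P.lf 402192 0 0) (P.cons (P.lf 25529 0 0) (P.cons (P.lf 0 48986 0) (P.cons (P.lf 31530 0 0) P.nil)))) (P.cons (P.cons (P.lf 0 61831 0) (P.cons (P.lf 0 24616 0) (P.cons (P.lf 6513 0 0) P.nil))) (P.cons (P.cons (P.lf 0 2306 0) (P.cons (P.lf 0 4476 0) P.nil)) (P.cons (P.cons (P.lf 0 876 0) P.nil) P.nil)))))) 68920)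
 EL.nil))
noncomputable def S183_198_660_808_21 : EL := (EL.cons 4 (TM.mk (P.cons (P.cons (P.lf 664803015 0 0) (P.cons (P.lf 330176211 0 0) (P.cons (P.lf 0 142375704 0) (P.lf 0 15819519 0)))) (P.cons (P.cons (P.lf 508081584 0 0) (P.cons (P.lf 5287626 0 0) (P.cons (P.lf 0 2280084 0) (P.lf 0 253338 0)))) (P.cons (P.cons (P.lf 7064841 0 0) (P.cons (P.lf 0 4597521 0) (P.cons (P.lf 1982502 0 0) (P.lf 220275 0 0)))) (P.cons (P.cons (P.lf 0 4634331 0) (P.cons (P.lf 0 233271 0) (P.cons (P.lf 100584 0 0) P.nil))) (P.cons (P.cons (P.lf 0 185064 0) (P.cons (P.lf 14355 0 0) P.nil)) (P.cons (P.cons (P.lf 13041 0 0) P.nil) P.nil)))))) 29595)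
 (EL.cons 8 (TM.mk (P.cons (P.cons (P.lf 0 247007406 0) (P.cons (P.lf 0 122676900 0) (P.cons (P.lf 52899663 0 0) (P.lf 5877744 0 0)))) (P.cons (P.cons (P.lf 0 155452929 0) (P.cons (P.lf 14586162 0 0) (P.cons (P.lf 0 6289716 0) (P.lf 0 698853 0)))) (P.cons (P.cons (P.lf 21874947 0 0) (P.cons (P.lf 1492122 0 0) (P.cons (P.lf 0 643419 0) (P.lf 0 71490 0)))) (P.cons (P.cons (P.lf 1394343 0 0) (P.cons (P.lf 0 122328 0) (P.cons (P.lf 52746 0 0) P.nil))) (P.cons (P.cons (P.lf 0 131286 0) (P.cons (P.lf 0 11016 0) P.nil)) (P.cons (P.cons (P.lf 0 8409 0) P.nil) P.nil)))))) 26250)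
 (EL.cons 11 (TM.mk (P.cons (P.cons (P.lf 916542264 0 0) (P.cons (P.lf 0 853843908 0) (P.cons (P.lf 0 87632160 0) (P.cons (P.lf 18225051 0 0) (P.lf 1518753 0 0))))) (P.cons (P.cons (P.lf 69166053 0 0) (P.cons (P.lf 0 64434576 0) (P.cons (P.lf 0 6613083 0) (P.cons (P.lf 1375335 0 0) (P.lf 114609 0 0))))) (P.cons (P.cons (P.lf 0 1456887 0) (P.cons (P.lf 1357227 0 0) (P.cons (P.lf 139293 0 0) (P.cons (P.lf 0 28968 0) P.nil)))) (P.cons (P.cons (P.lf 0 220638 0) (P.cons (P.lf 205545 0 0) (P.cons (P.lf 21093 0 0) P.nil))) (P.cons (P.cons (P.lf 0 1590 0) (P.cons (P.lf 1482 0 0) P.nil)) (P.cons (P.cons (P.lf 327 0 0) P.nil) P.nil)))))) 7947)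
 EL.nil)))
noncomputable def S183_198_660_808_22 : EL := (EL.cons 4 (TM.mk (P.cons (P.cons (P.lf 0 110716656 0) (P.cons (P.lf 0 93403896 0) (P.cons (P.lf 21197316 0 0) (P.cons (P.lf 20929785 0 0) (P.cons (P.lf 0 1719414 0) (P.cons (P.lf 0 788376 0) P.nil)))))) (P.cons (P.cons (P.lf 0 93371925 0) (P.cons (P.lf 0 38937627 0) (P.cons (P.lf 14325069 0 0) (P.cons (P.lf 3991701 0 0) (P.cons (P.lf 0 222165 0) P.nil))))) (P.cons (P.cons (P.lf 0 11124711 0) (P.cons (P.lf 0 4643421 0) (P.cons (P.lf 2238126 0 0) (P.cons (P.lf 19092 0 0) P.nil)))) (P.cons (P.cons (P.lf 0 1800150 0) (P.cons (P.lf 325656 0 0) (P.cons (P.lf 0 87678 0) P.nil))) (P.cons (P.cons (P.lf 78006 0 0) (P.cons (P.lf 85470 0 0) P.nil)) (P.cons (P.cons (P.lf 33441 0 0) P.nil) P.nil)))))) 398175)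
 (EL.cons 8 (TM.mk (P.cons (P.cons (P.lf 41136747 0 0) (P.cons (P.lf 34704195 0 0) (P.cons (P.lf 0 7875858 0) (P.cons (P.lf 0 7776456 0) (P.cons (P.lf 638847 0 0) (P.cons (P.lf 292920 0 0) P.nil)))))) (P.cons (P.cons (P.lf 29142408 0 0) (P.cons (P.lf 9785196 0 0) (P.cons (P.lf 0 4259913 0) (P.cons (P.lf 0 433965 0) (P.cons (P.lf 0 3642 0) P.nil))))) (P.cons (P.cons (P.lf 0 385740 0) (P.cons (P.lf 0 90456 0) (P.cons (P.lf 0 144390 0) (P.cons (P.lf 162498 0 0) P.nil)))) (P.cons (P.cons (P.lf 237480 0 0) (P.cons (P.lf 0 305268 0) (P.cons (P.lf 125763 0 0) P.nil))) (P.cons (P.cons (P.lf 0 110868 0) (P.cons (P.lf 0 11778 0) P.nil)) (P.cons (P.cons (P.lf 0 6564 0) P.nil) P.nil)))))) 220773)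
 (EL.cons 11 (TM.mk (P.cons (P.cons (P.lf 0 152641449 0) (P.cons (P.lf 89236506 0 0) (P.cons (P.lf 86772651 0 0) (P.cons (P.lf 0 16709712 0) (P.cons (P.lf 0 5853687 0) (P.cons (P.lf 123744 0 0) P.nil)))))) (P.cons (P.cons (P.lf 0 23590209 0) (P.cons (P.lf 11984424 0 0) (P.cons (P.lf 15872685 0 0) (P.cons (P.lf 0 3048915 0) (P.cons (P.lf 0 1095726 0) P.nil))))) (P.cons (P.cons (P.lf 0 5157912 0) (P.cons (P.lf 4450008 0 0) (P.cons (P.lf 977037 0 0) (P.cons (P.lf 0 194235 0) P.nil)))) (P.cons (P.cons (P.lf 0 269244 0) (P.cons (P.lf 299412 0 0) (P.cons (P.lf 0 40467 0) P.nil))) (P.cons (P.cons (P.lf 29538 0 0) (P.cons (P.lf 0 23415 0) P.nil)) (P.cons (P.cons (P.lf 2784 0 0) P.nil) P.nil)))))) 392268)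
 EL.nil)))
noncomputable def S183_198_660_808_23 : EL := (EL.cons 4 (TM.mk (P.cons (P.cons (P.lf 0 314459904 0) (P.cons (P.lf 0 156177360 0) (P.cons (P.lf 67345437 0 0) (P.lf 7482822 0 0)))) (P.cons (P.cons (P.lf 0 209769048 0) (P.cons (P.lf 12676452 0 0) (P.cons (P.lf 0 5466228 0) (P.lf 0 607359 0)))) (P.cons (P.cons (P.lf 20854998 0 0) (P.cons (P.lf 2835540 0 0) (P.cons (P.lf 0 1222716 0) (P.lf 0 135855 0)))) (P.cons (P.cons (P.lf 3144027 0 0) (P.cons (P.lf 0 102123 0) (P.cons (P.lf 44037 0 0) P.nil))) (P.cons (P.cons (P.lf 0 129684 0) (P.cons (P.lf 0 24003 0) P.nil)) (P.cons (P.cons (P.lf 0 21555 0) P.nil) P.nil)))))) 36312)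
 (EL.cons 8 (TM.mk (P.cons (P.cons (P.lf 116837502 0 0) (P.cons (P.lf 58027662 0 0) (P.cons (P.lf 0 25022181 0) (P.lf 0 2780244 0)))) (P.cons (P.cons (P.lf 62176668 0 0) (P.cons (P.lf 0 12538650 0) (P.cons (P.lf 5406807 0 0) (P.lf 600753 0 0)))) (P.cons (P.cons (P.lf 0 17805543 0) (P.cons (P.lf 0 190524 0) (P.cons (P.lf 82155 0 0) (P.lf 9126 0 0)))) (P.cons (P.cons (P.lf 155148 0 0) (P.cons (P.lf 147813 0 0) (P.cons (P.lf 0 63735 0) P.nil))) (P.cons (P.cons (P.lf 157965 0 0) (P.cons (P.lf 1332 0 0) P.nil)) (P.cons (P.cons (P.lf 0 549 0) P.nil) P.nil)))))) 23103)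
 (EL.cons 11 (TM.mk (P.cons (P.cons (P.lf 0 433535628 0) (P.cons (P.lf 403878543 0 0) (P.cons (P.lf 41451075 0 0) (P.cons (P.lf 0 8620668 0) (P.lf 0 718386 0))))) (P.cons (P.cons (P.lf 9415299 0 0) (P.cons (P.lf 0 8771223 0) (P.cons (P.lf 0 900213 0) (P.cons (P.lf 187218 0 0) (P.lf 15600 0 0))))) (P.cons (P.cons (P.lf 5028318 0 0) (P.cons (P.lf 0 4684344 0) (P.cons (P.lf 0 480765 0) (P.cons (P.lf 99984 0 0) P.nil)))) (P.cons (P.cons (P.lf 103221 0 0) (P.cons (P.lf 0 96159 0) (P.cons (P.lf 0 9867 0) P.nil))) (P.cons (P.cons (P.lf 0 14394 0) (P.cons (P.lf 13410 0 0) P.nil)) (P.cons (P.cons (P.lf 0 591 0) P.nil) P.nil)))))) 17202)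
 EL.nil)))
noncomputable def S183_198_660_808_24 : EL := (EL.cons 4 (TM.mk (P.cons (P.cons (P.lf 52370322 0 0) (P.cons (P.lf 44181177 0 0) (P.cons (P.lf 0 10026588 0) (P.cons (P.lf 0 9900042 0) (P.cons (P.lf 813303 0 0) (P.cons (P.lf 372912 0 0) P.nil)))))) (P.cons (P.cons (P.lf 39076623 0 0) (P.cons (P.lf 14124372 0 0) (P.cons (P.lf 0 5801529 0) (P.cons (P.lf 0 926019 0) (P.cons (P.lf 26049 0 0) P.nil))))) (P.cons (P.cons (P.lf 829896 0 0) (P.cons (P.lf 288315 0 0) (P.cons (P.lf 0 373341 0) (P.cons (P.lf 200943 0 0) P.nil)))) (P.cons (P.cons (P.lf 224580 0 0) (P.cons (P.lf 0 414546 0) (P.cons (P.lf 161979 0 0) P.nil))) (P.cons (P.cons (P.lf 0 131328 0) (P.cons (P.lf 0 30255 0) P.nil)) (P.cons (P.cons (P.lf 0 14091 0) P.nil) P.nil)))))) 193224)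
 (EL.cons 8 (TM.mk (P.cons (P.cons (P.lf 0 19458180 0) (P.cons (P.lf 0 16415505 0) (P.cons (P.lf 3725376 0 0) (P.cons (P.lf 3678357 0 0) (P.cons (P.lf 0 302181 0) (P.cons (P.lf 0 138555 0) P.nil)))))) (P.cons (P.cons (P.lf 0 11893734 0) (P.cons (P.lf 0 3033231 0) (P.cons (P.lf 1652952 0 0) (P.cons (P.lf 0 152196 0) (P.cons (P.lf 31089 0 0) P.nil))))) (P.cons (P.cons (P.lf 1574133 0 0) (P.cons (P.lf 536505 0 0) (P.cons (P.lf 0 137487 0) (P.cons (P.lf 0 106650 0) P.nil)))) (P.cons (P.cons (P.lf 0 94161 0) (P.cons (P.lf 151797 0 0) (P.cons (P.lf 0 71328 0) P.nil))) (P.cons (P.cons (P.lf 62112 0 0) (P.cons (P.lf 0 8862 0) P.nil)) (P.cons (P.cons (P.lf 0 1728 0) P.nil) P.nil)))))) 102729)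
 (EL.cons 11 (TM.mk (P.cons (P.cons (P.lf 72201258 0 0) (P.cons (P.lf 0 42209952 0) (P.cons (P.lf 0 41044518 0) (P.cons (P.lf 7903896 0 0) (P.cons (P.lf 2768865 0 0) (P.cons (P.lf 0 58530 0) P.nil)))))) (P.cons (P.cons (P.lf 4141821 0 0) (P.cons (P.lf 0 1566747 0) (P.cons (P.lf 0 3519201 0) (P.cons (P.lf 674061 0 0) (P.cons (P.lf 249210 0 0) P.nil))))) (P.cons (P.cons (P.lf 1162209 0 0) (P.cons (P.lf 0 1441089 0) (P.cons (P.lf 377283 0 0) (P.cons (P.lf 0 69420 0) P.nil)))) (P.cons (P.cons (P.lf 0 135978 0) (P.cons (P.lf 75984 0 0) (P.cons (P.lf 82083 0 0) P.nil))) (P.cons (P.cons (P.lf 0 32061 0) (P.cons (P.lf 30036 0 0) P.nil)) (P.cons (P.cons (P.lf 0 135 0) P.nil) P.nil)))))) 192600)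
 EL.nil)))
noncomputable def S183_198_660_808_25 : EL := (EL.cons 4 (TM.mk (P.cons (P.cons (P.lf 148743354 0 0) (P.cons (P.lf 73873788 0 0) (P.cons (P.lf 0 31855209 0) (P.lf 0 3539466 0)))) (P.cons (P.cons (P.lf 84768192 0 0) (P.cons (P.lf 0 13175289 0) (P.cons (P.lf 5681331 0 0) (P.lf 631260 0 0)))) (P.cons (P.cons (P.lf 0 19905252 0) (P.cons (P.lf 0 956154 0) (P.cons (P.lf 412302 0 0) (P.lf 45810 0 0)))) (P.cons (P.cons (P.lf 0 786489 0) (P.cons (P.lf 198384 0 0) (P.cons (P.lf 0 85545 0) P.nil))) (P.cons (P.cons (P.lf 237744 0 0) (P.cons (P.lf 10206 0 0) P.nil)) (P.cons (P.cons (P.lf 8070 0 0) P.nil) P.nil)))))) 30531)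
 (EL.cons 8 (TM.mk (P.cons (P.cons (P.lf 0 55265559 0) (P.cons (P.lf 0 27447789 0) (P.cons (P.lf 11835795 0 0) (P.lf 1315089 0 0)))) (P.cons (P.cons (P.lf 0 24039525 0) (P.cons (P.lf 8598354 0 0) (P.cons (P.lf 0 3707706 0) (P.lf 0 411966 0)))) (P.cons (P.cons (P.lf 11428221 0 0) (P.cons (P.lf 0 412830 0) (P.cons (P.lf 178017 0 0) (P.lf 19779 0 0)))) (P.cons (P.cons (P.lf 0 815961 0) (P.cons (P.lf 0 95913 0) (P.cons (P.lf 41358 0 0) P.nil))) (P.cons (P.cons (P.lf 0 91782 0) (P.cons (P.lf 6120 0 0) P.nil)) (P.cons (P.cons (P.lf 8034 0 0) P.nil) P.nil)))))) 17469)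
 (EL.cons 11 (TM.mk (P.cons (P.cons (P.lf 205067619 0 0) (P.cons (P.lf 0 191039460 0) (P.cons (P.lf 0 19606863 0) (P.cons (P.lf 4077681 0 0) (P.lf 339804 0 0))))) (P.cons (P.cons (P.lf 0 24382347 0) (P.cons (P.lf 22714413 0 0) (P.cons (P.lf 2331237 0 0) (P.cons (P.lf 0 484833 0) (P.lf 0 40401 0))))) (P.cons (P.cons (P.lf 0 2494236 0) (P.cons (P.lf 2323611 0 0) (P.cons (P.lf 238476 0 0) (P.cons (P.lf 0 49596 0) P.nil)))) (P.cons (P.cons (P.lf 204492 0 0) (P.cons (P.lf 0 190503 0) (P.cons (P.lf 0 19551 0) P.nil))) (P.cons (P.cons (P.lf 18414 0 0) (P.cons (P.lf 0 17154 0) P.nil)) (P.cons (P.cons (P.lf 0 381 0) P.nil) P.nil)))))) 17145)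
 EL.nil)))
noncomputable def S183_198_660_808_26 : EL := (EL.cons 4 (TM.mk (P.cons (P.cons (P.lf 0 24771798 0) (P.cons (P.lf 0 20898234 0) (P.cons (P.lf 4742697 0 0) (P.cons (P.lf 4682838 0 0) (P.cons (P.lf 0 384702 0) (P.cons (P.lf 0 176391 0) P.nil)))))) (P.cons (P.cons (P.lf 0 16076355 0) (P.cons (P.lf 0 4650075 0) (P.cons (P.lf 2283291 0 0) (P.cons (P.lf 0 17064 0) (P.cons (P.lf 25062 0 0) P.nil))))) (P.cons (P.cons (P.lf 1469991 0 0) (P.cons (P.lf 568797 0 0) (P.cons (P.lf 0 102774 0) (P.cons (P.lf 0 150141 0) P.nil)))) (P.cons (P.cons (P.lf 0 19872 0) (P.cons (P.lf 226164 0 0) (P.cons (P.lf 0 100884 0) P.nil))) (P.cons (P.cons (P.lf 72480 0 0) (P.cons (P.lf 0 4785 0) P.nil)) (P.cons (P.cons (P.lf 825 0 0) P.nil) P.nil)))))) 127887)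
 (EL.cons 8 (TM.mk (P.cons (P.cons (P.lf 9203955 0 0) (P.cons (P.lf 7764732 0 0) (P.cons (P.lf 0 1762146 0) (P.cons (P.lf 0 1739907 0) (P.cons (P.lf 142935 0 0) (P.cons (P.lf 65538 0 0) P.nil)))))) (P.cons (P.cons (P.lf 4731426 0 0) (P.cons (P.lf 680166 0 0) (P.cons (P.lf 0 610617 0) (P.cons (P.lf 241077 0 0) (P.cons (P.lf 0 28596 0) P.nil))))) (P.cons (P.cons (P.lf 0 1315938 0) (P.cons (P.lf 0 413976 0) (P.cons (P.lf 145728 0 0) (P.cons (P.lf 48105 0 0) P.nil)))) (P.cons (P.cons (P.lf 102309 0 0) (P.cons (P.lf 0 50589 0) (P.cons (P.lf 29421 0 0) P.nil))) (P.cons (P.cons (P.lf 0 31401 0) (P.cons (P.lf 11946 0 0) P.nil)) (P.cons (P.cons (P.lf 3534 0 0) P.nil) P.nil)))))) 67710)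
 (EL.cons 11 (TM.mk (P.cons (P.cons (P.lf 0 34152072 0) (P.cons (P.lf 19965819 0 0) (P.cons (P.lf 19414554 0 0) (P.cons (P.lf 0 3738639 0) (P.cons (P.lf 0 1309707 0) (P.cons (P.lf 27684 0 0) P.nil)))))) (P.cons (P.cons (P.lf 1359819 0 0) (P.cons (P.lf 0 1199217 0) (P.cons (P.lf 0 222111 0) (P.cons (P.lf 44487 0 0) (P.cons (P.lf 9399 0 0) P.nil))))) (P.cons (P.cons (P.lf 0 267987 0) (P.cons (P.lf 556221 0 0) (P.cons (P.lf 0 392166 0) (P.cons (P.lf 73821 0 0) P.nil)))) (P.cons (P.cons (P.lf 121275 0 0) (P.cons (P.lf 0 103167 0) (P.cons (P.lf 0 24966 0) P.nil))) (P.cons (P.cons (P.lf 10167 0 0) (P.cons (P.lf 0 12429 0) P.nil)) (P.cons (P.cons (P.lf 0 1614 0) P.nil) P.nil)))))) 127623)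
 EL.nil)))
noncomputable def S183_198_660_808_27 : EL := (EL.cons 13 (TM.mk (P.lf 0 4294967296 0) 0)
 EL.nil)
noncomputable def S183_198_660_808_28 : EL := (EL.cons 13 (TM.mk (P.cons (P.cons (P.lf 715286200 0 0) (P.cons (P.lf 248188100 0 0) (P.cons (P.lf 0 107021508 0) (P.lf 0 11891276 0)))) (P.cons (P.cons (P.lf 56566572 0 0) (P.cons (P.lf 28093940 0 0) (P.cons (P.lf 0 12114424 0) (P.lf 0 1346044 0)))) (P.cons (P.cons (P.lf 21038495 0 0) (P.cons (P.lf 0 61736 0) (P.cons (P.lf 26620 0 0) (P.lf 2956 0 0)))) (P.cons (P.cons (P.lf 0 63848 0) (P.cons (P.lf 0 118612 0) (P.cons (P.lf 51144 0 0) P.nil))) (P.cons (P.cons (P.lf 0 85305 0) (P.cons (P.lf 0 3180 0) P.nil)) (P.cons (P.cons (P.lf 0 1803 0) P.nil) P.nil)))))) 8947)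
 EL.nil)
noncomputable def S183_198_660_808_29 : EL := (EL.cons 13 (TM.mk (P.cons (P.cons (P.lf 0 119124154 0) (P.cons (P.lf 0 82666763 0) (P.cons (P.lf 21305094 0 0) (P.cons (P.lf 16329405 0 0) (P.cons (P.lf 0 1292456 0) (P.cons (P.lf 0 592610 0) P.nil)))))) (P.cons (P.cons (P.lf 0 18841255 0) (P.cons (P.lf 0 15895048 0) (P.cons (P.lf 3607263 0 0) (P.cons (P.lf 3561734 0 0) (P.cons (P.lf 0 292602 0) P.nil))))) (P.cons (P.cons (P.lf 0 7752531 0) (P.cons (P.lf 0 3150907 0) (P.cons (P.lf 1182076 0 0) (P.cons (P.lf 303298 0 0) P.nil)))) (P.cons (P.cons (P.lf 0 532905 0) (P.cons (P.lf 0 226718 0) (P.cons (P.lf 112280 0 0) P.nil))) (P.cons (P.cons (P.lf 0 72959 0) (P.cons (P.lf 15482 0 0) P.nil)) (P.cons (P.cons (P.lf 3473 0 0) P.nil) P.nil)))))) 286935)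
 EL.nil)
noncomputable def S183_198_660_808_30 : EL := (EL.cons 13 (TM.mk (P.cons (P.lf 2031571728 0 0) (P.cons (P.lf 0 197431380 0) (P.cons (P.lf 0 5434720 0) (P.cons (P.lf 101656 0 0) (P.cons (P.lf 7148 0 0) (P.cons (P.lf 20 0 0) P.nil)))))) 56)
 EL.nil)
noncomputable def S183_198_660_808_31 : EL := (EL.cons 13 (TM.mk (P.cons (P.cons (P.lf 0 338339065 0) (P.cons (P.lf 0 117395987 0) (P.cons (P.lf 50622473 0 0) (P.lf 5624718 0 0)))) (P.cons (P.cons (P.lf 6123653 0 0) (P.cons (P.lf 0 1880045 0) (P.cons (P.lf 810697 0 0) (P.lf 90076 0 0)))) (P.cons (P.cons (P.lf 0 6446106 0) (P.cons (P.lf 1634675 0 0) (P.cons (P.lf 0 704890 0) (P.lf 0 78320 0)))) (P.cons (P.cons (P.lf 1051947 0 0) (P.cons (P.lf 82941 0 0) (P.cons (P.lf 0 35764 0) P.nil))) (P.cons (P.cons (P.lf 61507 0 0) (P.cons (P.lf 0 5104 0) P.nil)) (P.cons (P.cons (P.lf 0 3744 0) P.nil) P.nil)))))) 10390)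
 EL.nil)
noncomputable def S183_198_660_808_32 : EL := (EL.cons 13 (TM.mk (P.cons (P.cons (P.lf 56347172 0 0) (P.cons (P.lf 39102383 0 0) (P.cons (P.lf 0 10077568 0) (P.cons (P.lf 0 7724007 0) (P.cons (P.lf 611347 0 0) (P.cons (P.lf 280311 0 0) P.nil)))))) (P.cons (P.cons (P.lf 3436234 0 0) (P.cons (P.lf 3718518 0 0) (P.cons (P.lf 0 726925 0) (P.cons (P.lf 0 934112 0) (P.cons (P.lf 78992 0 0) P.nil))))) (P.cons (P.cons (P.lf 2650209 0 0) (P.cons (P.lf 655148 0 0) (P.cons (P.lf 0 366358 0) (P.cons (P.lf 40925 0 0) P.nil)))) (P.cons (P.cons (P.lf 0 125320 0) (P.cons (P.lf 0 55757 0) (P.cons (P.lf 5288 0 0) P.nil))) (P.cons (P.cons (P.lf 848 0 0) (P.cons (P.lf 0 21218 0) P.nil)) (P.cons (P.cons (P.lf 0 5455 0) P.nil) P.nil)))))) 220531)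
 EL.nil)
noncomputable def S183_198_660_808_33 : EL := (EL.cons 14 (TM.mk (P.lf 8589934592 0 0) 0)
 EL.nil)
noncomputable def S183_198_660_808_34 : EL := (EL.cons 14 (TM.mk (P.cons (P.cons (P.lf 0 1430572400 0) (P.cons (P.lf 0 496376200 0) (P.cons (P.lf 214043016 0 0) (P.lf 23782552 0 0)))) (P.cons (P.cons (P.lf 0 113133144 0) (P.cons (P.lf 0 56187880 0) (P.cons (P.lf 24228848 0 0) (P.lf 2692088 0 0)))) (P.cons (P.cons (P.lf 0 42076990 0) (P.cons (P.lf 123472 0 0) (P.cons (P.lf 0 53240 0) (P.lf 0 5912 0)))) (P.cons (P.cons (P.lf 127696 0 0) (P.cons (P.lf 237224 0 0) (P.cons (P.lf 0 102288 0) P.nil))) (P.cons (P.cons (P.lf 170610 0 0) (P.cons (P.lf 6360 0 0) P.nil)) (P.cons (P.cons (P.lf 3606 0 0) P.nil) P.nil)))))) 17894)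
 EL.nil)
noncomputable def S183_198_660_808_35 : EL := (EL.cons 14 (TM.mk (P.cons (P.cons (P.lf 238248308 0 0) (P.cons (P.lf 165333526 0 0) (P.cons (P.lf 0 42610188 0) (P.cons (P.lf 0 32658810 0) (P.cons (P.lf 2584912 0 0) (P.cons (P.lf 1185220 0 0) P.nil)))))) (P.cons (P.cons (P.lf 37682510 0 0) (P.cons (P.lf 31790096 0 0) (P.cons (P.lf 0 7214526 0) (P.cons (P.lf 0 7123468 0) (P.cons (P.lf 585204 0 0) P.nil))))) (P.cons (P.cons (P.lf 15505062 0 0) (P.cons (P.lf 6301814 0 0) (P.cons (P.lf 0 2364152 0) (P.cons (P.lf 0 606596 0) P.nil)))) (P.cons (P.cons (P.lf 1065810 0 0) (P.cons (P.lf 453436 0 0) (P.cons (P.lf 0 224560 0) P.nil))) (P.cons (P.cons (P.lf 145918 0 0) (P.cons (P.lf 0 30964 0) P.nil)) (P.cons (P.cons (P.lf 0 6946 0) P.nil) P.nil)))))) 573870)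
 EL.nil)
noncomputable def S183_198_660_808_36 : EL := (EL.cons 14 (TM.mk (P.cons (P.lf 0 4063143456 0) (P.cons (P.lf 394862760 0 0) (P.cons (P.lf 10869440 0 0) (P.cons (P.lf 0 203312 0) (P.cons (P.lf 0 14296 0) (P.cons (P.lf 0 40 0) P.nil)))))) 112)
 EL.nil)
noncomputable def S183_198_660_808_37 : EL := (EL.cons 14 (TM.mk (P.cons (P.cons (P.lf 676678130 0 0) (P.cons (P.lf 234791974 0 0) (P.cons (P.lf 0 101244946 0) (P.lf 0 11249436 0)))) (P.cons (P.cons (P.lf 0 12247306 0) (P.cons (P.lf 3760090 0 0) (P.cons (P.lf 0 1621394 0) (P.lf 0 180152 0)))) (P.cons (P.cons (P.lf 12892212 0 0) (P.cons (P.lf 0 3269350 0) (P.cons (P.lf 1409780 0 0) (P.lf 156640 0 0)))) (P.cons (P.cons (P.lf 0 2103894 0) (P.cons (P.lf 0 165882 0) (P.cons (P.lf 71528 0 0) P.nil))) (P.cons (P.cons (P.lf 0 123014 0) (P.cons (P.lf 10208 0 0) P.nil)) (P.cons (P.cons (P.lf 7488 0 0) P.nil) P.nil))))))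 20780)
 EL.nil)
noncomputable def S183_198_660_808_38 : EL := (EL.cons 14 (TM.mk (P.cons (P.cons (P.lf 0 112694344 0) (P.cons (P.lf 0 78204766 0) (P.cons (P.lf 20155136 0 0) (P.cons (P.lf 15448014 0 0) (P.cons (P.lf 0 1222694 0) (P.cons (P.lf 0 560622 0) P.nil)))))) (P.cons (P.cons (P.lf 0 6872468 0) (P.cons (P.lf 0 7437036 0) (P.cons (P.lf 1453850 0 0) (P.cons (P.lf 1868224 0 0) (P.cons (P.lf 0 157984 0) P.nil))))) (P.cons (P.cons (P.lf 0 5300418 0) (P.cons (P.lf 0 1310296 0) (P.cons (P.lf 732716 0 0) (P.cons (P.lf 0 81850 0) P.nil)))) (P.cons (P.cons (P.lf 250640 0 0) (P.cons (P.lf 111514 0 0) (P.cons (P.lf 0 10576 0) P.nil))) (P.cons (P.cons (P.lf 0 1696 0) (P.cons (P.lf 42436 0 0) P.nil)) (P.cons (P.cons (P.lf 10910 0 0) P.nil) P.nil)))))) 441062)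
 EL.nil)
noncomputable def S183_198_660_808_39 : EL := (EL.cons 14 (TM.mk (P.cons (P.lf 1921916234 0 0) (P.cons (P.lf 0 373549768 0) (P.cons (P.lf 7868326 0 0) (P.cons (P.lf 1191632 0 0) (P.cons (P.lf 8586 0 0) (P.cons (P.lf 0 1790 0) P.nil)))))) 176)
 EL.nil)
noncomputable def S183_198_660_808_40 : EL := (EL.cons 14 (TM.mk (P.cons (P.cons (P.lf 0 320076978 0) (P.cons (P.lf 0 111059456 0) (P.cons (P.lf 47890090 0 0) (P.lf 5321120 0 0)))) (P.cons (P.cons (P.lf 36898716 0 0) (P.cons (P.lf 9014366 0 0) (P.cons (P.lf 0 3887096 0) (P.lf 0 431900 0)))) (P.cons (P.cons (P.lf 0 5804910 0) (P.cons (P.lf 2016384 0 0) (P.cons (P.lf 0 869486 0) (P.lf 0 96608 0)))) (P.cons (P.cons (P.lf 1556284 0 0) (P.cons (P.lf 0 72618 0) (P.cons (P.lf 31314 0 0) P.nil))) (P.cons (P.cons (P.lf 0 23046 0) (P.cons (P.lf 0 17070 0) P.nil)) (P.cons (P.cons (P.lf 0 12146 0) P.nil) P.nil))))))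 20738)
 EL.nil)
noncomputable def S183_198_660_808_41 : EL := (EL.cons 14 (TM.mk (P.cons (P.cons (P.lf 53305794 0 0) (P.cons (P.lf 36991804 0 0) (P.cons (P.lf 0 9533624 0) (P.cons (P.lf 0 7307098 0) (P.cons (P.lf 578348 0 0) (P.cons (P.lf 265180 0 0) P.nil)))))) (P.cons (P.cons (P.lf 0 1929580 0) (P.cons (P.lf 0 77112 0) (P.cons (P.lf 238804 0 0) (P.cons (P.lf 0 173576 0) (P.cons (P.lf 18522 0 0) P.nil))))) (P.cons (P.cons (P.lf 2048648 0 0) (P.cons (P.lf 178962 0 0) (P.cons (P.lf 0 254248 0) (P.cons (P.lf 144142 0 0) P.nil)))) (P.cons (P.cons (P.lf 0 368234 0) (P.cons (P.lf 0 120538 0) (P.cons (P.lf 40046 0 0) P.nil))) (P.cons (P.cons (P.lf 5966 0 0) (P.cons (P.lf 0 16298 0) P.nil)) (P.cons (P.cons (P.lf 0 4784 0) P.nil) P.nil)))))) 291728)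
 EL.nil)
noncomputable def S183_198_660_808_42 : EL := (EL.cons 14 (TM.mk (P.cons (P.lf 0 909089734 0) (P.cons (P.lf 265040370 0 0) (P.cons (P.lf 0 18461242 0) (P.cons (P.lf 0 720132 0) (P.cons (P.lf 66314 0 0) (P.cons (P.lf 3174 0 0) P.nil)))))) 276)
 EL.nil)
noncomputable def S183_198_660_808_43 : EL := (EL.cons 14 (TM.mk (P.cons (P.cons (P.lf 151400300 0 0) (P.cons (P.lf 52532472 0 0) (P.cons (P.lf 0 22652594 0) (P.lf 0 2516954 0)))) (P.cons (P.cons (P.lf 0 32166864 0) (P.cons (P.lf 0 9369094 0) (P.cons (P.lf 4040058 0 0) (P.lf 448894 0 0)))) (P.cons (P.cons (P.lf 4036940 0 0) (P.cons (P.lf 0 679932 0) (P.cons (P.lf 293194 0 0) (P.lf 32576 0 0)))) (P.cons (P.cons (P.lf 0 948716 0) (P.cons (P.lf 141074 0 0) (P.cons (P.lf 0 60832 0) P.nil))) (P.cons (P.cons (P.lf 74754 0 0) (P.cons (P.lf 7258 0 0) P.nil)) (P.cons (P.cons (P.lf 6732 0 0) P.nil) P.nil))))))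 20766)
 EL.nil)
noncomputable def S183_198_660_808_44 : EL := (EL.cons 14 (TM.mk (P.cons (P.cons (P.lf 0 25214288 0) (P.cons (P.lf 0 17497572 0) (P.cons (P.lf 4509520 0 0) (P.cons (P.lf 3456346 0 0) (P.cons (P.lf 0 273566 0) (P.cons (P.lf 0 125434 0) P.nil)))))) (P.cons (P.cons (P.lf 3363078 0 0) (P.cons (P.lf 1736916 0 0) (P.cons (P.lf 0 551198 0) (P.cons (P.lf 0 253788 0) (P.cons (P.lf 17822 0 0) P.nil))))) (P.cons (P.cons (P.lf 0 990282 0) (P.cons (P.lf 0 41386 0) (P.cons (P.lf 119176 0 0) (P.cons (P.lf 0 85406 0) P.nil)))) (P.cons (P.cons (P.lf 264648 0 0) (P.cons (P.lf 64268 0 0) (P.cons (P.lf 0 30102 0) P.nil))) (P.cons (P.cons (P.lf 0 17200 0) (P.cons (P.lf 2334 0 0) P.nil)) (P.cons (P.cons (P.lf 2024 0 0) P.nil) P.nil)))))) 200688)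
 EL.nil)
noncomputable def S183_198_660_808_45 : EL := (EL.cons 14 (TM.mk (P.cons (P.cons (P.lf 0 39678002 0) (P.cons (P.lf 0 41302102 0) (P.cons (P.lf 3479038 0 0) (P.cons (P.lf 12680668 0 0) (P.cons (P.lf 852718 0 0) (P.cons (P.lf 0 1278518 0) P.nil)))))) (P.cons (P.cons (P.lf 0 9413498 0) (P.cons (P.lf 0 11207780 0) (P.cons (P.lf 455194 0 0) (P.cons (P.lf 3749572 0 0) (P.cons (P.lf 333630 0 0) P.nil))))) (P.cons (P.cons (P.lf 0 4245552 0) (P.cons (P.lf 0 3417100 0) (P.cons (P.lf 618908 0 0) (P.cons (P.lf 838254 0 0) P.nil)))) (P.cons (P.cons (P.lf 0 562750 0) (P.cons (P.lf 0 467664 0) (P.cons (P.lf 108062 0 0) P.nil))) (P.cons (P.cons (P.lf 0 108996 0) (P.cons (P.lf 0 41890 0) P.nil)) (P.cons (P.cons (P.lf 0 4906 0) P.nil) P.nil)))))) 1318156)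
 EL.nil)
noncomputable def S183_198_660_808_46 : EL := (EL.cons 15 (TM.mk (P.lf 4294967296 0 0) 0)
 EL.nil)
noncomputable def S183_198_660_808_47 : EL := (EL.cons 15 (TM.mk (P.cons (P.cons (P.lf 0 715286200 0) (P.cons (P.lf 0 248188100 0) (P.cons (P.lf 107021508 0 0) (P.lf 11891276 0 0)))) (P.cons (P.cons (P.lf 0 56566572 0) (P.cons (P.lf 0 28093940 0) (P.cons (P.lf 12114424 0 0) (P.lf 1346044 0 0)))) (P.cons (P.cons (P.lf 0 21038495 0) (P.cons (P.lf 61736 0 0) (P.cons (P.lf 0 26620 0) (P.lf 0 2956 0)))) (P.cons (P.cons (P.lf 63848 0 0) (P.cons (P.lf 118612 0 0) (P.cons (P.lf 0 51144 0) P.nil))) (P.cons (P.cons (P.lf 85305 0 0) (P.cons (P.lf 3180 0 0) P.nil)) (P.cons (P.cons (P.lf 1803 0 0) P.nil) P.nil)))))) 8947)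
 EL.nil)
noncomputable def S183_198_660_808_48 : EL := (EL.cons 15 (TM.mk (P.cons (P.cons (P.lf 119124154 0 0) (P.cons (P.lf 82666763 0 0) (P.cons (P.lf 0 21305094 0) (P.cons (P.lf 0 16329405 0) (P.cons (P.lf 1292456 0 0) (P.cons (P.lf 592610 0 0) P.nil)))))) (P.cons (P.cons (P.lf 18841255 0 0) (P.cons (P.lf 15895048 0 0) (P.cons (P.lf 0 3607263 0) (P.cons (P.lf 0 3561734 0) (P.cons (P.lf 292602 0 0) P.nil))))) (P.cons (P.cons (P.lf 7752531 0 0) (P.cons (P.lf 3150907 0 0) (P.cons (P.lf 0 1182076 0) (P.cons (P.lf 0 303298 0) P.nil)))) (P.cons (P.cons (P.lf 532905 0 0) (P.cons (P.lf 226718 0 0) (P.cons (P.lf 0 112280 0) P.nil))) (P.cons (P.cons (P.lf 72959 0 0) (P.cons (P.lf 0 15482 0) P.nil)) (P.cons (P.cons (P.lf 0 3473 0) P.nil) P.nil)))))) 286935)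
 EL.nil)
noncomputable def S183_198_660_808 : SL := (SL.cons S183_198_660_808_0 (SL.cons S183_198_660_808_1 (SL.cons S183_198_660_808_2 (SL.cons S183_198_660_808_3 (SL.cons S183_198_660_808_4 (SL.cons S183_198_660_808_5 (SL.cons S183_198_660_808_6 (SL.cons S183_198_660_808_7 (SL.cons S183_198_660_808_8 (SL.cons S183_198_660_808_9 (SL.cons S183_198_660_808_10 (SL.cons S183_198_660_808_11 (SL.cons S183_198_660_808_12 (SL.cons S183_198_660_808_13 (SL.cons S183_198_660_808_14 (SL.cons S183_198_660_808_15 (SL.cons S183_198_660_808_16 (SL.cons S183_198_660_808_17 (SL.cons S183_198_660_808_18 (SL.cons S183_198_660_808_19 (SL.cons S183_198_660_808_20 (SL.cons S183_198_660_808_21 (SL.cons S183_198_660_808_22 (SL.cons S183_198_660_808_23 (SL.cons S183_198_660_808_24 (SL.cons S183_198_660_808_25 (SL.cons S183_198_660_808_26 (SL.cons S183_198_660_808_27 (SL.cons S183_198_660_808_28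 (SL.cons S183_198_660_808_29 (SL.cons S183_198_660_808_30 (SL.cons S183_198_660_808_31 (SL.cons S183_198_660_808_32 (SL.cons S183_198_660_808_33 (SL.cons S183_198_660_808_34 (SL.cons S183_198_660_808_35 (SL.cons S183_198_660_808_36 (SL.cons S183_198_660_808_37 (SL.cons S183_198_660_808_38 (SL.cons S183_198_660_808_39 (SL.cons S183_198_660_808_40 (SL.cons S183_198_660_808_41 (SL.cons S183_198_660_808_42 (SL.cons S183_198_660_808_43 (SL.cons S183_198_660_808_44 (SL.cons S183_198_660_808_45 (SL.cons S183_198_660_808_46 (SL.cons S183_198_660_808_47 (SL.cons S183_198_660_808_48 SL.nil)))))))))))))))))))))))))))))))))))))))))))))))))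
noncomputable def S190_198_216_290_0 : EL := (EL.cons 0 (TM.mk (P.cons (P.lf 6918133632 0 0) (P.cons (P.lf 171292686 0 0) (P.cons (P.lf 0 2386501 0) (P.cons (P.lf 0 160490 0) (P.cons (P.lf 0 300 0) (P.cons (P.lf 72 0 0) P.nil)))))) 100)
 (EL.cons 1 (TM.mk (P.cons (P.lf 0 1568867056 0) (P.cons (P.lf 57544104 0 0) (P.cons (P.lf 3578424 0 0) (P.cons (P.lf 0 15307 0) (P.cons (P.lf 0 2165 0) (P.cons (P.lf 0 15 0) P.nil)))))) 100)
 (EL.cons 5 (TM.mk (P.cons (P.lf 4841663560 0 0) (P.cons (P.lf 0 60904064 0) (P.cons (P.lf 848530 0 0) (P.cons (P.lf 57062 0 0) (P.cons (P.lf 108 0 0) (P.cons (P.lf 0 26 0) P.nil)))))) 103)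
 (EL.cons 9 (TM.mk (P.lf 6442450944 0 0) 2)
 EL.nil))))
noncomputable def S190_198_216_290_1 : EL := (EL.cons 0 (TM.mk (P.cons (P.cons (P.lf 1183325742 0 0) (P.cons (P.lf 0 37364277 0) (P.cons (P.lf 0 17638226 0) (P.lf 839921 0 0)))) (P.cons (P.cons (P.lf 667533535 0 0) (P.cons (P.lf 0 13237184 0) (P.cons (P.lf 0 6248762 0) (P.lf 297556 0 0)))) (P.cons (P.cons (P.lf 0 3742181 0) (P.cons (P.lf 0 469602 0) (P.cons (P.lf 0 221673 0) (P.lf 10553 0 0)))) (P.cons (P.cons (P.lf 0 2015620 0) (P.cons (P.lf 24724 0 0) (P.cons (P.lf 11666 0 0) P.nil))) (P.cons (P.cons (P.lf 0 15872 0) (P.cons (P.lf 1393 0 0) P.nil)) (P.cons (P.cons (P.lf 2695 0 0) P.nil) P.nil)))))) 4244)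
 (EL.cons 1 (TM.mk (P.cons (P.cons (P.lf 0 1663851378 0) (P.cons (P.lf 50542351 0 0) (P.cons (P.lf 23859079 0 0) (P.lf 0 1136139 0)))) (P.cons (P.cons (P.lf 0 22022003 0) (P.cons (P.lf 2977287 0 0) (P.cons (P.lf 1405454 0 0) (P.lf 0 66917 0)))) (P.cons (P.cons (P.lf 20558769 0 0) (P.cons (P.lf 0 295315 0) (P.cons (P.lf 0 139404 0) (P.lf 6630 0 0)))) (P.cons (P.cons (P.lf 183153 0 0) (P.cons (P.lf 0 17261 0) (P.cons (P.lf 0 8143 0) P.nil))) (P.cons (P.cons (P.lf 0 43378 0) (P.cons (P.lf 289 0 0) P.nil)) (P.cons (P.cons (P.lf 0 689 0) P.nil) P.nil)))))) 2486)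
 (EL.cons 5 (TM.mk (P.cons (P.cons (P.lf 3445494849 0 0) (P.cons (P.lf 0 105052316 0) (P.cons (P.lf 0 49591128 0) (P.lf 2361478 0 0)))) (P.cons (P.cons (P.lf 0 13321746 0) (P.cons (P.lf 0 2046902 0) (P.cons (P.lf 0 966266 0) (P.lf 46020 0 0)))) (P.cons (P.cons (P.lf 0 10040222 0) (P.cons (P.lf 196816 0 0) (P.cons (P.lf 92910 0 0) (P.lf 0 4416 0)))) (P.cons (P.cons (P.lf 405227 0 0) (P.cons (P.lf 0 268 0) (P.cons (P.lf 0 124 0) P.nil))) (P.cons (P.cons (P.lf 13684 0 0) (P.cons (P.lf 0 398 0) P.nil)) (P.cons (P.cons (P.lf 0 651 0) P.nil) P.nil)))))) 3092)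
 (EL.cons 9 (TM.mk (P.cons (P.cons (P.lf 3411381949 0 0) (P.cons (P.lf 0 104415342 0) (P.cons (P.lf 0 49290432 0) (P.lf 2347158 0 0)))) (P.cons (P.cons (P.lf 197667792 0 0) (P.cons (P.lf 0 5958924 0) (P.cons (P.lf 0 2812974 0) (P.lf 133950 0 0)))) (P.cons (P.cons (P.lf 0 10033026 0) (P.cons (P.lf 26340 0 0) (P.cons (P.lf 12432 0 0) (P.lf 0 588 0)))) (P.cons (P.cons (P.lf 0 274785 0) (P.cons (P.lf 7518 0 0) (P.cons (P.lf 3546 0 0) P.nil))) (P.cons (P.cons (P.lf 7086 0 0) (P.cons (P.lf 78 0 0) P.nil)) (P.cons (P.cons (P.lf 262 0 0) P.nil) P.nil)))))) 922)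
 (EL.cons 2 (TM.mk (P.cons (P.cons (P.lf 205814871 0 0) (P.cons (P.lf 202942141 0 0) (P.cons (P.lf 0 6350253 0) (P.cons (P.lf 0 1163657 0) (P.lf 41557 0 0))))) (P.cons (P.cons (P.lf 0 3633786 0) (P.cons (P.lf 0 3583065 0) (P.cons (P.lf 112117 0 0) (P.cons (P.lf 20545 0 0) (P.lf 0 734 0))))) (P.cons (P.cons (P.lf 0 704835 0) (P.cons (P.lf 0 694996 0) (P.cons (P.lf 21746 0 0) (P.cons (P.lf 3982 0 0) P.nil)))) (P.cons (P.cons (P.lf 0 5475 0) (P.cons (P.lf 0 5400 0) (P.cons (P.lf 165 0 0) P.nil))) (P.cons (P.cons (P.lf 610 0 0) (P.cons (P.lf 601 0 0) P.nil)) (P.cons (P.cons (P.lf 8 0 0) P.nil) P.nil)))))) 468)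
 (EL.cons 6 (TM.mk (P.cons (P.cons (P.lf 210002400 0 0) (P.cons (P.lf 207071223 0 0) (P.cons (P.lf 0 6479457 0) (P.cons (P.lf 0 1187334 0) (P.lf 42402 0 0))))) (P.cons (P.cons (P.lf 11984724 0 0) (P.cons (P.lf 11817444 0 0) (P.cons (P.lf 0 369777 0) (P.cons (P.lf 0 67758 0) (P.lf 2418 0 0))))) (P.cons (P.cons (P.lf 0 52977 0) (P.cons (P.lf 0 52239 0) (P.cons (P.lf 1632 0 0) (P.cons (P.lf 297 0 0) P.nil)))) (P.cons (P.cons (P.lf 0 15126 0) (P.cons (P.lf 0 14916 0) (P.cons (P.lf 465 0 0) P.nil))) (P.cons (P.cons (P.lf 0 171 0) (P.cons (P.lf 0 168 0) P.nil)) (P.cons (P.cons (P.lf 6 0 0) P.nil) P.nil)))))) 327)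
 EL.nil))))))
noncomputable def S190_198_216_290_2 : EL := (EL.cons 0 (TM.mk (P.cons (P.cons (P.lf 0 686577091 0) (P.cons (P.lf 40816680 0 0) (P.cons (P.lf 18661867 0 0) (P.cons (P.lf 0 1489733 0) (P.cons (P.lf 0 107807 0) (P.cons (P.lf 12857 0 0) P.nil)))))) (P.cons (P.cons (P.lf 506731993 0 0) (P.cons (P.lf 0 23541220 0) (P.cons (P.lf 0 10867113 0) (P.cons (P.lf 761236 0 0) (P.cons (P.lf 43731 0 0) P.nil))))) (P.cons (P.cons (P.lf 33314318 0 0) (P.cons (P.lf 0 1986452 0) (P.cons (P.lf 0 907824 0) (P.cons (P.lf 72868 0 0) P.nil)))) (P.cons (P.cons (P.lf 0 3326902 0) (P.cons (P.lf 75351 0 0) (P.cons (P.lf 35742 0 0) P.nil))) (P.cons (P.cons (P.lf 0 162195 0) (P.cons (P.lf 9191 0 0) P.nil)) (P.cons (P.cons (P.lf 7731 0 0) P.nil) P.nil)))))) 34638)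
 (EL.cons 1 (TM.mk (P.cons (P.cons (P.lf 0 1322181903 0) (P.cons (P.lf 80531103 0 0) (P.cons (P.lf 36789391 0 0) (P.cons (P.lf 0 2967952 0) (P.cons (P.lf 0 218118 0) (P.cons (P.lf 26022 0 0) P.nil)))))) (P.cons (P.cons (P.lf 0 90579805 0) (P.cons (P.lf 7936908 0 0) (P.cons (P.lf 3588609 0 0) (P.cons (P.lf 0 327652 0) (P.cons (P.lf 0 28111 0) P.nil))))) (P.cons (P.cons (P.lf 21619668 0 0) (P.cons (P.lf 0 754791 0) (P.cons (P.lf 0 353356 0) (P.cons (P.lf 19738 0 0) P.nil)))) (P.cons (P.cons (P.lf 1374010 0 0) (P.cons (P.lf 0 82079 0) (P.cons (P.lf 0 37708 0) P.nil))) (P.cons (P.cons (P.lf 0 87252 0) (P.cons (P.lf 964 0 0) P.nil)) (P.cons (P.cons (P.lf 0 5005 0) P.nil) P.nil)))))) 18906)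
 (EL.cons 5 (TM.mk (P.cons (P.cons (P.lf 2291349137 0 0) (P.cons (P.lf 0 139835715 0) (P.cons (P.lf 0 63877578 0) (P.cons (P.lf 5157600 0 0) (P.cons (P.lf 379498 0 0) (P.cons (P.lf 0 45268 0) P.nil)))))) (P.cons (P.cons (P.lf 57076771 0 0) (P.cons (P.lf 0 6043593 0) (P.cons (P.lf 0 2721436 0) (P.cons (P.lf 260034 0 0) (P.cons (P.lf 23397 0 0) P.nil))))) (P.cons (P.cons (P.lf 0 17013589 0) (P.cons (P.lf 692057 0 0) (P.cons (P.lf 321343 0 0) (P.cons (P.lf 0 20589 0) P.nil)))) (P.cons (P.cons (P.lf 155318 0 0) (P.cons (P.lf 15202 0 0) (P.cons (P.lf 6787 0 0) P.nil))) (P.cons (P.cons (P.lf 64771 0 0) (P.cons (P.lf 0 2418 0) P.nil)) (P.cons (P.cons (P.lf 0 952 0) P.nil) P.nil)))))) 24572)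
 (EL.cons 9 (TM.mk (P.cons (P.cons (P.lf 1806381903 0 0) (P.cons (P.lf 0 110579223 0) (P.cons (P.lf 0 50507860 0) (P.cons (P.lf 4083454 0 0) (P.cons (P.lf 301032 0 0) (P.cons (P.lf 0 35914 0) P.nil)))))) (P.cons (P.cons (P.lf 209336583 0 0) (P.cons (P.lf 0 12718051 0) (P.cons (P.lf 0 5810538 0) (P.cons (P.lf 468252 0 0) (P.cons (P.lf 34359 0 0) P.nil))))) (P.cons (P.cons (P.lf 0 4560439 0) (P.cons (P.lf 0 12550 0) (P.cons (P.lf 0 1269 0) (P.cons (P.lf 4683 0 0) P.nil)))) (P.cons (P.cons (P.lf 0 906673 0) (P.cons (P.lf 37044 0 0) (P.cons (P.lf 17191 0 0) P.nil))) (P.cons (P.cons (P.lf 6267 0 0) (P.cons (P.lf 739 0 0) P.nil)) (P.cons (P.cons (P.lf 1567 0 0) P.nil) P.nil)))))) 9802)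
 (EL.cons 2 (TM.mk (P.cons (P.cons (P.lf 217964604 0 0) (P.cons (P.lf 208250842 0 0) (P.cons (P.lf 0 16452781 0) (P.cons (P.lf 0 3981909 0) (P.cons (P.lf 326773 0 0) (P.cons (P.lf 11829 0 0) P.nil)))))) (P.cons (P.cons (P.lf 8781356 0 0) (P.cons (P.lf 8395841 0 0) (P.cons (P.lf 0 654345 0) (P.cons (P.lf 0 158017 0) (P.cons (P.lf 12915 0 0) P.nil))))) (P.cons (P.cons (P.lf 0 1610471 0) (P.cons (P.lf 0 1556741 0) (P.cons (P.lf 95253 0 0) (P.cons (P.lf 21982 0 0) P.nil)))) (P.cons (P.cons (P.lf 0 55288 0) (P.cons (P.lf 0 52582 0) (P.cons (P.lf 4516 0 0) P.nil))) (P.cons (P.cons (P.lf 3268 0 0) (P.cons (P.lf 3200 0 0) P.nil)) (P.cons (P.cons (P.lf 129 0 0) P.nil) P.nil)))))) 6642)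
 (EL.cons 6 (TM.mk (P.cons (P.cons (P.lf 222399330 0 0) (P.cons (P.lf 212487936 0 0) (P.cons (P.lf 0 16787526 0) (P.cons (P.lf 0 4062924 0) (P.cons (P.lf 333420 0 0) (P.cons (P.lf 12066 0 0) P.nil)))))) (P.cons (P.cons (P.lf 25578828 0 0) (P.cons (P.lf 24444840 0 0) (P.cons (P.lf 0 1922106 0) (P.cons (P.lf 0 464832 0) (P.cons (P.lf 38088 0 0) P.nil))))) (P.cons (P.cons (P.lf 25236 0 0) (P.cons (P.lf 6150 0 0) (P.cons (P.lf 0 28092 0) (P.cons (P.lf 0 7860 0) P.nil)))) (P.cons (P.cons (P.lf 0 74508 0) (P.cons (P.lf 0 72294 0) (P.cons (P.lf 4008 0 0) P.nil))) (P.cons (P.cons (P.lf 0 1500 0) (P.cons (P.lf 0 1416 0) P.nil)) (P.cons (P.cons (P.lf 90 0 0) P.nil) P.nil)))))) 8202)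
 EL.nil))))))
noncomputable def S190_198_216_290_3 : EL := (EL.cons 0 (TM.mk (P.cons (P.lf 1537583231 0 0) (P.cons (P.lf 0 171292686 0) (P.cons (P.lf 2386501 0 0) (P.cons (P.lf 160490 0 0) (P.cons (P.lf 300 0 0) (P.cons (P.lf 0 72 0) P.nil)))))) 100)
 (EL.cons 1 (TM.mk (P.cons (P.lf 1568867056 0 0) (P.cons (P.lf 0 57544104 0) (P.cons (P.lf 0 3578424 0) (P.cons (P.lf 15307 0 0) (P.cons (P.lf 2165 0 0) (P.cons (P.lf 15 0 0) P.nil)))))) 100)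
 (EL.cons 5 (TM.mk (P.cons (P.lf 1600787384 0 0) (P.cons (P.lf 60904064 0 0) (P.cons (P.lf 0 848530 0) (P.cons (P.lf 0 57062 0) (P.cons (P.lf 0 108 0) (P.cons (P.lf 26 0 0) P.nil)))))) 96)
 EL.nil)))
noncomputable def S190_198_216_290_4 : EL := (EL.cons 0 (TM.mk (P.cons (P.cons (P.lf 814175182 0 0) (P.cons (P.lf 0 24920216 0) (P.cons (P.lf 0 11763866 0) (P.lf 560181 0 0)))) (P.cons (P.cons (P.lf 0 43525995 0) (P.cons (P.lf 1354025 0 0) (P.cons (P.lf 639182 0 0) (P.lf 0 30436 0)))) (P.cons (P.cons (P.lf 0 6386449 0) (P.cons (P.lf 126043 0 0) (P.cons (P.lf 59498 0 0) (P.lf 0 2831 0)))) (P.cons (P.cons (P.lf 359381 0 0) (P.cons (P.lf 0 3714 0) (P.cons (P.lf 0 1752 0) P.nil))) (P.cons (P.cons (P.lf 10362 0 0) (P.cons (P.lf 0 323 0) P.nil)) (P.cons (P.cons (P.lf 0 506 0) P.nil) P.nil)))))) 674)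
 (EL.cons 1 (TM.mk (P.cons (P.cons (P.lf 830740473 0 0) (P.cons (P.lf 0 25427244 0) (P.cons (P.lf 0 12003215 0) (P.lf 571578 0 0)))) (P.cons (P.cons (P.lf 17665567 0 0) (P.cons (P.lf 0 518476 0) (P.cons (P.lf 0 244751 0) (P.lf 11653 0 0)))) (P.cons (P.cons (P.lf 0 6103650 0) (P.cons (P.lf 117635 0 0) (P.cons (P.lf 55530 0 0) (P.lf 0 2641 0)))) (P.cons (P.cons (P.lf 0 78986 0) (P.cons (P.lf 4655 0 0) (P.cons (P.lf 2197 0 0) P.nil))) (P.cons (P.cons (P.lf 11368 0 0) (P.cons (P.lf 0 110 0) P.nil)) (P.cons (P.cons (P.lf 202 0 0) P.nil) P.nil)))))) 570)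
 (EL.cons 5 (TM.mk (P.cons (P.cons (P.lf 847642804 0 0) (P.cons (P.lf 0 25944592 0) (P.cons (P.lf 0 12247434 0) (P.lf 583208 0 0)))) (P.cons (P.cons (P.lf 81365172 0 0) (P.cons (P.lf 0 2467738 0) (P.cons (P.lf 0 1164922 0) (P.lf 55470 0 0)))) (P.cons (P.cons (P.lf 0 1073602 0) (P.cons (P.lf 0 36034 0) (P.cons (P.lf 0 17010 0) (P.lf 810 0 0)))) (P.cons (P.cons (P.lf 0 219374 0) (P.cons (P.lf 3826 0 0) (P.cons (P.lf 1804 0 0) P.nil))) (P.cons (P.cons (P.lf 0 1324 0) (P.cons (P.lf 140 0 0) P.nil)) (P.cons (P.cons (P.lf 266 0 0) P.nil) P.nil)))))) 466)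
 EL.nil)))
noncomputable def S190_198_216_290_5 : EL := (EL.cons 0 (TM.mk (P.cons (P.cons (P.lf 431118924 0 0) (P.cons (P.lf 0 26391315 0) (P.cons (P.lf 0 12054424 0) (P.cons (P.lf 974573 0 0) (P.cons (P.lf 71845 0 0) (P.cons (P.lf 0 8571 0) P.nil)))))) (P.cons (P.cons (P.lf 1932867 0 0) (P.cons (P.lf 0 95250 0) (P.cons (P.lf 0 43857 0) (P.cons (P.lf 3183 0 0) (P.cons (P.lf 195 0 0) P.nil))))) (P.cons (P.cons (P.lf 0 5985135 0) (P.cons (P.lf 294191 0 0) (P.cons (P.lf 135478 0 0) (P.cons (P.lf 0 9819 0) P.nil)))) (P.cons (P.cons (P.lf 27406 0 0) (P.cons (P.lf 1708 0 0) (P.cons (P.lf 725 0 0) P.nil))) (P.cons (P.cons (P.lf 29211 0 0) (P.cons (P.lf 0 1133 0) P.nil)) (P.cons (P.cons (P.lf 0 251 0) P.nil) P.nil)))))) 5838)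
 (EL.cons 1 (TM.mk (P.cons (P.cons (P.lf 439890513 0 0) (P.cons (P.lf 0 26928275 0) (P.cons (P.lf 0 12299685 0) (P.cons (P.lf 994402 0 0) (P.cons (P.lf 73305 0 0) (P.cons (P.lf 0 8745 0) P.nil)))))) (P.cons (P.cons (P.lf 34843048 0 0) (P.cons (P.lf 0 2109405 0) (P.cons (P.lf 0 963845 0) (P.cons (P.lf 77553 0 0) (P.cons (P.lf 5677 0 0) P.nil))))) (P.cons (P.cons (P.lf 0 3983701 0) (P.cons (P.lf 171961 0 0) (P.cons (P.lf 79644 0 0) (P.cons (P.lf 0 5308 0) P.nil)))) (P.cons (P.cons (P.lf 0 292040 0) (P.cons (P.lf 15933 0 0) (P.cons (P.lf 7303 0 0) P.nil))) (P.cons (P.cons (P.lf 13261 0 0) (P.cons (P.lf 0 210 0) P.nil)) (P.cons (P.cons (P.lf 892 0 0) P.nil) P.nil)))))) 4805)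
 (EL.cons 5 (TM.mk (P.cons (P.cons (P.lf 448840570 0 0) (P.cons (P.lf 0 27476160 0) (P.cons (P.lf 0 12549934 0) (P.cons (P.lf 1014634 0 0) (P.cons (P.lf 74798 0 0) (P.cons (P.lf 0 8922 0) P.nil)))))) (P.cons (P.cons (P.lf 69091616 0 0) (P.cons (P.lf 0 4205482 0) (P.cons (P.lf 0 1921250 0) (P.cons (P.lf 154950 0 0) (P.cons (P.lf 11382 0 0) P.nil))))) (P.cons (P.cons (P.lf 607902 0 0) (P.cons (P.lf 0 108784 0) (P.cons (P.lf 0 48592 0) (P.cons (P.lf 5052 0 0) P.nil)))) (P.cons (P.cons (P.lf 0 311968 0) (P.cons (P.lf 11738 0 0) (P.cons (P.lf 5472 0 0) P.nil))) (P.cons (P.cons (P.lf 0 8296 0) (P.cons (P.lf 650 0 0) P.nil)) (P.cons (P.cons (P.lf 612 0 0) P.nil) P.nil)))))) 3886)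
 EL.nil)))
noncomputable def S190_198_216_290_6 : EL := (EL.cons 12 (TM.mk (P.lf 8589934592 0 0) 0)
 (EL.cons 3 (TM.mk (P.cons (P.lf 0 1817122683 0) (P.cons (P.lf 101217228 0 0) (P.cons (P.lf 1408807 0 0) (P.cons (P.lf 0 16361 0) (P.cons (P.lf 0 543 0) (P.cons (P.lf 0 0 0) P.nil)))))) 52)
 (EL.cons 7 (TM.mk (P.cons (P.lf 0 1854094047 0) (P.cons (P.lf 0 35270725 0) (P.cons (P.lf 826881 0 0) (P.cons (P.lf 17316 0 0) (P.cons (P.lf 0 82 0) (P.cons (P.lf 0 6 0) P.nil)))))) 47)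
 EL.nil)))
noncomputable def S190_198_216_290_7 : EL := (EL.cons 12 (TM.mk (P.cons (P.cons (P.lf 4548509266 0 0) (P.cons (P.lf 0 139220456 0) (P.cons (P.lf 0 65720576 0) (P.lf 3129544 0 0)))) (P.cons (P.cons (P.lf 263557056 0 0) (P.cons (P.lf 0 7945232 0) (P.cons (P.lf 0 3750632 0) (P.lf 178600 0 0)))) (P.cons (P.cons (P.lf 0 13377368 0) (P.cons (P.lf 35120 0 0) (P.cons (P.lf 16576 0 0) (P.lf 0 784 0)))) (P.cons (P.cons (P.lf 0 366380 0) (P.cons (P.lf 10024 0 0) (P.cons (P.lf 4728 0 0) P.nil))) (P.cons (P.cons (P.lf 9448 0 0) (P.cons (P.lf 104 0 0) P.nil)) (P.cons (P.cons (P.lf 350 0 0) P.nil) P.nil)))))) 1204)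
 (EL.cons 3 (TM.mk (P.cons (P.cons (P.lf 1968605755 0 0) (P.cons (P.lf 0 58901644 0) (P.cons (P.lf 0 27805180 0) (P.lf 1324050 0 0)))) (P.cons (P.cons (P.lf 0 269754407 0) (P.cons (P.lf 0 80548 0) (P.cons (P.lf 0 38020 0) (P.lf 1808 0 0)))) (P.cons (P.cons (P.lf 0 9544405 0) (P.cons (P.lf 247764 0 0) (P.cons (P.lf 116958 0 0) (P.lf 0 5566 0)))) (P.cons (P.cons (P.lf 347906 0 0) (P.cons (P.lf 5488 0 0) (P.cons (P.lf 2588 0 0) P.nil))) (P.cons (P.cons (P.lf 19078 0 0) (P.cons (P.lf 0 250 0) P.nil)) (P.cons (P.cons (P.lf 0 88 0) P.nil) P.nil)))))) 2070)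
 (EL.cons 7 (TM.mk (P.cons (P.cons (P.lf 0 2003056442 0) (P.cons (P.lf 60837836 0 0) (P.cons (P.lf 28719185 0 0) (P.lf 0 1367581 0)))) (P.cons (P.cons (P.lf 94000137 0 0) (P.cons (P.lf 28073 0 0) (P.cons (P.lf 13252 0 0) (P.lf 0 633 0)))) (P.cons (P.cons (P.lf 0 186181 0) (P.cons (P.lf 0 87386 0) (P.cons (P.lf 0 41253 0) (P.lf 1964 0 0)))) (P.cons (P.cons (P.lf 0 252688 0) (P.cons (P.lf 2398 0 0) (P.cons (P.lf 1130 0 0) P.nil))) (P.cons (P.cons (P.lf 1114 0 0) (P.cons (P.lf 142 0 0) P.nil)) (P.cons (P.cons (P.lf 310 0 0) P.nil) P.nil)))))) 1991)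
 (EL.cons 10 (TM.mk (P.cons (P.cons (P.lf 0 486465858 0) (P.cons (P.lf 0 479675850 0) (P.cons (P.lf 15009519 0 0) (P.cons (P.lf 2750433 0 0) (P.lf 0 98229 0))))) (P.cons (P.cons (P.lf 0 18508233 0) (P.cons (P.lf 0 18249897 0) (P.cons (P.lf 571056 0 0) (P.cons (P.lf 104643 0 0) (P.lf 0 3735 0))))) (P.cons (P.cons (P.lf 257859 0 0) (P.cons (P.lf 254259 0 0) (P.cons (P.lf 0 7956 0) (P.cons (P.lf 0 1455 0) P.nil)))) (P.cons (P.cons (P.lf 17340 0 0) (P.cons (P.lf 17097 0 0) (P.cons (P.lf 0 534 0) P.nil))) (P.cons (P.cons (P.lf 30 0 0) (P.cons (P.lf 30 0 0) P.nil)) (P.cons (P.cons (P.lf 0 6 0) P.nil) P.nil)))))) 327)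
 EL.nil))))
noncomputable def S190_198_216_290_8 : EL := (EL.cons 12 (TM.mk (P.cons (P.cons (P.lf 2408509204 0 0) (P.cons (P.lf 0 147438964 0) (P.cons (P.lf 0 67343814 0) (P.cons (P.lf 5444606 0 0) (P.cons (P.lf 401376 0 0) (P.cons (P.lf 0 47886 0) P.nil)))))) (P.cons (P.cons (P.lf 279115444 0 0) (P.cons (P.lf 0 16957402 0) (P.cons (P.lf 0 7747384 0) (P.cons (P.lf 624336 0 0) (P.cons (P.lf 45812 0 0) P.nil))))) (P.cons (P.cons (P.lf 0 6080586 0) (P.cons (P.lf 0 16734 0) (P.cons (P.lf 0 1692 0) (P.cons (P.lf 6244 0 0) P.nil)))) (P.cons (P.cons (P.lf 0 1208898 0) (P.cons (P.lf 49392 0 0) (P.cons (P.lf 22922 0 0) P.nil))) (P.cons (P.cons (P.lf 8356 0 0) (P.cons (P.lf 986 0 0) P.nil)) (P.cons (P.cons (P.lf 2090 0 0) P.nil) P.nil)))))) 13040)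
 (EL.cons 3 (TM.mk (P.cons (P.cons (P.lf 2594315417 0 0) (P.cons (P.lf 0 157380054 0) (P.cons (P.lf 0 71906408 0) (P.cons (P.lf 5790994 0 0) (P.cons (P.lf 424536 0 0) (P.cons (P.lf 0 50651 0) P.nil)))))) (P.cons (P.cons (P.lf 0 134212497 0) (P.cons (P.lf 0 447309 0) (P.cons (P.lf 0 71680 0) (P.cons (P.lf 141723 0 0) (P.cons (P.lf 24805 0 0) P.nil))))) (P.cons (P.cons (P.lf 0 37762809 0) (P.cons (P.lf 1485850 0 0) (P.cons (P.lf 690955 0 0) (P.cons (P.lf 0 43262 0) P.nil)))) (P.cons (P.cons (P.lf 229746 0 0) (P.cons (P.lf 48205 0 0) (P.cons (P.lf 21782 0 0) P.nil))) (P.cons (P.cons (P.lf 116311 0 0) (P.cons (P.lf 0 3153 0) P.nil)) (P.cons (P.cons (P.lf 923 0 0) P.nil) P.nil)))))) 22226)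
 (EL.cons 7 (TM.mk (P.cons (P.cons (P.lf 0 1601436987 0) (P.cons (P.lf 97533928 0 0) (P.cons (P.lf 44556972 0 0) (P.cons (P.lf 0 3594504 0) (P.cons (P.lf 0 264156 0) (P.cons (P.lf 31515 0 0) P.nil)))))) (P.cons (P.cons (P.lf 46768436 0 0) (P.cons (P.lf 155879 0 0) (P.cons (P.lf 24989 0 0) (P.cons (P.lf 0 49391 0) (P.cons (P.lf 0 8650 0) P.nil))))) (P.cons (P.cons (P.lf 11411656 0 0) (P.cons (P.lf 0 523589 0) (P.cons (P.lf 0 241709 0) (P.cons (P.lf 16917 0 0) P.nil)))) (P.cons (P.cons (P.lf 0 718563 0) (P.cons (P.lf 9049 0 0) (P.cons (P.lf 4408 0 0) P.nil))) (P.cons (P.cons (P.lf 0 29286 0) (P.cons (P.lf 1746 0 0) P.nil)) (P.cons (P.cons (P.lf 1860 0 0) P.nil) P.nil)))))) 14180)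
 (EL.cons 10 (TM.mk (P.cons (P.cons (P.lf 0 515183070 0) (P.cons (P.lf 0 492223548 0) (P.cons (P.lf 38887938 0 0) (P.cons (P.lf 9411684 0 0) (P.cons (P.lf 0 772368 0) (P.cons (P.lf 0 27960 0) P.nil)))))) (P.cons (P.cons (P.lf 0 49452384 0) (P.cons (P.lf 0 47262282 0) (P.cons (P.lf 3712746 0 0) (P.cons (P.lf 897744 0 0) (P.cons (P.lf 0 73548 0) P.nil))))) (P.cons (P.cons (P.lf 652512 0 0) (P.cons (P.lf 665304 0 0) (P.cons (P.lf 11802 0 0) (P.cons (P.lf 5340 0 0) P.nil)))) (P.cons (P.cons (P.lf 133326 0 0) (P.cons (P.lf 129138 0 0) (P.cons (P.lf 0 7500 0) P.nil))) (P.cons (P.cons (P.lf 798 0 0) (P.cons (P.lf 702 0 0) P.nil)) (P.cons (P.cons (P.lf 0 156 0) P.nil) P.nil)))))) 15174)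
 EL.nil))))
noncomputable def S190_198_216_290_9 : EL := (EL.cons 3 (TM.mk (P.cons (P.lf 0 1817122683 0) (P.cons (P.lf 101217228 0 0) (P.cons (P.lf 1408807 0 0) (P.cons (P.lf 0 16361 0) (P.cons (P.lf 0 543 0) (P.cons (P.lf 0 0 0) P.nil)))))) 52)
 (EL.cons 7 (TM.mk (P.cons (P.lf 0 1854094047 0) (P.cons (P.lf 0 35270725 0) (P.cons (P.lf 826881 0 0) (P.cons (P.lf 17316 0 0) (P.cons (P.lf 0 82 0) (P.cons (P.lf 0 6 0) P.nil)))))) 47)
 EL.nil))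
noncomputable def S190_198_216_290_10 : EL := (EL.cons 3 (TM.mk (P.cons (P.cons (P.lf 0 962195843 0) (P.cons (P.lf 29450822 0 0) (P.cons (P.lf 13902590 0 0) (P.lf 0 662025 0)))) (P.cons (P.cons (P.lf 0 2156942 0) (P.cons (P.lf 40274 0 0) (P.cons (P.lf 19010 0 0) (P.lf 0 904 0)))) (P.cons (P.cons (P.lf 6681401 0 0) (P.cons (P.lf 0 123882 0) (P.cons (P.lf 0 58479 0) (P.lf 2783 0 0)))) (P.cons (P.cons (P.lf 0 45562 0) (P.cons (P.lf 0 2744 0) (P.cons (P.lf 0 1294 0) P.nil))) (P.cons (P.cons (P.lf 0 9299 0) (P.cons (P.lf 125 0 0) P.nil)) (P.cons (P.cons (P.lf 0 13 0) P.nil) P.nil)))))) 458)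
 (EL.cons 7 (TM.mk (P.cons (P.cons (P.lf 0 981772778 0) (P.cons (P.lf 30050033 0 0) (P.cons (P.lf 14185454 0 0) (P.lf 0 675496 0)))) (P.cons (P.cons (P.lf 0 75563880 0) (P.cons (P.lf 2286584 0 0) (P.cons (P.lf 1079407 0 0) (P.lf 0 51399 0)))) (P.cons (P.cons (P.lf 2243105 0 0) (P.cons (P.lf 11641 0 0) (P.cons (P.lf 5496 0 0) (P.lf 0 262 0)))) (P.cons (P.cons (P.lf 168548 0 0) (P.cons (P.lf 0 3353 0) (P.cons (P.lf 0 1582 0) P.nil))) (P.cons (P.cons (P.lf 0 1334 0) (P.cons (P.lf 0 74 0) P.nil)) (P.cons (P.cons (P.lf 0 182 0) P.nil) P.nil)))))) 373)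
 EL.nil))
noncomputable def S190_198_216_290_11 : EL := (EL.cons 3 (TM.mk (P.cons (P.cons (P.lf 0 509498257 0) (P.cons (P.lf 31189374 0 0) (P.cons (P.lf 14245972 0 0) (P.cons (P.lf 0 1151756 0) (P.cons (P.lf 0 84906 0) (P.cons (P.lf 10129 0 0) P.nil)))))) (P.cons (P.cons (P.lf 0 30664305 0) (P.cons (P.lf 1849875 0 0) (P.cons (P.lf 845360 0 0) (P.cons (P.lf 0 67917 0) (P.cons (P.lf 0 4961 0) P.nil))))) (P.cons (P.cons (P.lf 4970187 0 0) (P.cons (P.lf 0 220454 0) (P.cons (P.lf 0 101975 0) (P.cons (P.lf 6928 0 0) P.nil)))) (P.cons (P.cons (P.lf 225270 0 0) (P.cons (P.lf 0 13145 0) (P.cons (P.lf 0 6010 0) P.nil))) (P.cons (P.cons (P.lf 0 17693 0) (P.cons (P.lf 411 0 0) P.nil)) (P.cons (P.cons (P.lf 0 547 0) P.nil) P.nil)))))) 4690)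
 (EL.cons 7 (TM.mk (P.cons (P.cons (P.lf 0 519864561 0) (P.cons (P.lf 31823956 0 0) (P.cons (P.lf 14535822 0 0) (P.cons (P.lf 0 1175190 0) (P.cons (P.lf 0 86634 0) (P.cons (P.lf 10335 0 0) P.nil)))))) (P.cons (P.cons (P.lf 0 70135126 0) (P.cons (P.lf 4265561 0 0) (P.cons (P.lf 1948751 0 0) (P.cons (P.lf 0 157115 0) (P.cons (P.lf 0 11536 0) P.nil))))) (P.cons (P.cons (P.lf 398248 0 0) (P.cons (P.lf 59047 0 0) (P.cons (P.lf 25693 0 0) (P.cons (P.lf 0 3387 0) P.nil)))) (P.cons (P.cons (P.lf 317625 0 0) (P.cons (P.lf 0 12521 0) (P.cons (P.lf 0 5822 0) P.nil))) (P.cons (P.cons (P.lf 3114 0 0) (P.cons (P.lf 0 450 0) P.nil)) (P.cons (P.cons (P.lf 0 618 0) P.nil) P.nil)))))) 3574)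
 EL.nil))
noncomputable def S190_198_216_290_12 : EL := (EL.cons 4 (TM.mk (P.cons (P.lf 1817122683 0 0) (P.cons (P.lf 0 101217228 0) (P.cons (P.lf 0 1408807 0) (P.cons (P.lf 16361 0 0) (P.cons (P.lf 543 0 0) (P.cons (P.lf 0 0 0) P.nil)))))) 52)
 (EL.cons 8 (TM.mk (P.cons (P.lf 1854094047 0 0) (P.cons (P.lf 35270725 0 0) (P.cons (P.lf 0 826881 0) (P.cons (P.lf 0 17316 0) (P.cons (P.lf 82 0 0) (P.cons (P.lf 6 0 0) P.nil)))))) 47)
 EL.nil))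
noncomputable def S190_198_216_290_13 : EL := (EL.cons 4 (TM.mk (P.cons (P.cons (P.lf 962195843 0 0) (P.cons (P.lf 0 29450822 0) (P.cons (P.lf 0 13902590 0) (P.lf 662025 0 0)))) (P.cons (P.cons (P.lf 2156942 0 0) (P.cons (P.lf 0 40274 0) (P.cons (P.lf 0 19010 0) (P.lf 904 0 0)))) (P.cons (P.cons (P.lf 0 6681401 0) (P.cons (P.lf 123882 0 0) (P.cons (P.lf 58479 0 0) (P.lf 0 2783 0)))) (P.cons (P.cons (P.lf 45562 0 0) (P.cons (P.lf 2744 0 0) (P.cons (P.lf 1294 0 0) P.nil))) (P.cons (P.cons (P.lf 9299 0 0) (P.cons (P.lf 0 125 0) P.nil)) (P.cons (P.cons (P.lf 13 0 0) P.nil) P.nil)))))) 458)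
 (EL.cons 8 (TM.mk (P.cons (P.cons (P.lf 981772778 0 0) (P.cons (P.lf 0 30050033 0) (P.cons (P.lf 0 14185454 0) (P.lf 675496 0 0)))) (P.cons (P.cons (P.lf 75563880 0 0) (P.cons (P.lf 0 2286584 0) (P.cons (P.lf 0 1079407 0) (P.lf 51399 0 0)))) (P.cons (P.cons (P.lf 0 2243105 0) (P.cons (P.lf 0 11641 0) (P.cons (P.lf 0 5496 0) (P.lf 262 0 0)))) (P.cons (P.cons (P.lf 0 168548 0) (P.cons (P.lf 3353 0 0) (P.cons (P.lf 1582 0 0) P.nil))) (P.cons (P.cons (P.lf 1334 0 0) (P.cons (P.lf 74 0 0) P.nil)) (P.cons (P.cons (P.lf 182 0 0) P.nil) P.nil)))))) 373)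
 EL.nil))
noncomputable def S190_198_216_290_14 : EL := (EL.cons 4 (TM.mk (P.cons (P.cons (P.lf 509498257 0 0) (P.cons (P.lf 0 31189374 0) (P.cons (P.lf 0 14245972 0) (P.cons (P.lf 1151756 0 0) (P.cons (P.lf 84906 0 0) (P.cons (P.lf 0 10129 0) P.nil)))))) (P.cons (P.cons (P.lf 30664305 0 0) (P.cons (P.lf 0 1849875 0) (P.cons (P.lf 0 845360 0) (P.cons (P.lf 67917 0 0) (P.cons (P.lf 4961 0 0) P.nil))))) (P.cons (P.cons (P.lf 0 4970187 0) (P.cons (P.lf 220454 0 0) (P.cons (P.lf 101975 0 0) (P.cons (P.lf 0 6928 0) P.nil)))) (P.cons (P.cons (P.lf 0 225270 0) (P.cons (P.lf 13145 0 0) (P.cons (P.lf 6010 0 0) P.nil))) (P.cons (P.cons (P.lf 17693 0 0) (P.cons (P.lf 0 411 0) P.nil)) (P.cons (P.cons (P.lf 547 0 0) P.nil) P.nil)))))) 4690)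
 (EL.cons 8 (TM.mk (P.cons (P.cons (P.lf 519864561 0 0) (P.cons (P.lf 0 31823956 0) (P.cons (P.lf 0 14535822 0) (P.cons (P.lf 1175190 0 0) (P.cons (P.lf 86634 0 0) (P.cons (P.lf 0 10335 0) P.nil)))))) (P.cons (P.cons (P.lf 70135126 0 0) (P.cons (P.lf 0 4265561 0) (P.cons (P.lf 0 1948751 0) (P.cons (P.lf 157115 0 0) (P.cons (P.lf 11536 0 0) P.nil))))) (P.cons (P.cons (P.lf 0 398248 0) (P.cons (P.lf 0 59047 0) (P.cons (P.lf 0 25693 0) (P.cons (P.lf 3387 0 0) P.nil)))) (P.cons (P.cons (P.lf 0 317625 0) (P.cons (P.lf 12521 0 0) (P.cons (P.lf 5822 0 0) P.nil))) (P.cons (P.cons (P.lf 0 3114 0) (P.cons (P.lf 450 0 0) P.nil)) (P.cons (P.cons (P.lf 618 0 0) P.nil) P.nil)))))) 3574)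
 EL.nil))
noncomputable def S190_198_216_290_15 : EL := (EL.cons 4 (TM.mk (P.cons (P.lf 0 820044390 0) (P.cons (P.lf 91356099 0 0) (P.cons (P.lf 0 1272800 0) (P.cons (P.lf 0 85594 0) (P.cons (P.lf 0 160 0) (P.cons (P.lf 38 0 0) P.nil)))))) 56)
 (EL.cons 8 (TM.mk (P.cons (P.lf 0 836729097 0) (P.cons (P.lf 30690189 0 0) (P.cons (P.lf 1908493 0 0) (P.cons (P.lf 0 8164 0) (P.cons (P.lf 0 1155 0) (P.cons (P.lf 0 8 0) P.nil)))))) 50)
 EL.nil))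
noncomputable def S190_198_216_290_16 : EL := (EL.cons 4 (TM.mk (P.cons (P.cons (P.lf 0 434226764 0) (P.cons (P.lf 13290781 0 0) (P.cons (P.lf 6274062 0 0) (P.lf 0 298763 0)))) (P.cons (P.cons (P.lf 23213864 0 0) (P.cons (P.lf 0 722146 0) (P.cons (P.lf 0 340897 0) (P.lf 16232 0 0)))) (P.cons (P.cons (P.lf 3406106 0 0) (P.cons (P.lf 0 67223 0) (P.cons (P.lf 0 31732 0) (P.lf 1510 0 0)))) (P.cons (P.cons (P.lf 0 191670 0) (P.cons (P.lf 1980 0 0) (P.cons (P.lf 934 0 0) P.nil))) (P.cons (P.cons (P.lf 0 5526 0) (P.cons (P.lf 172 0 0) P.nil)) (P.cons (P.cons (P.lf 270 0 0) P.nil) P.nil)))))) 368)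
 (EL.cons 8 (TM.mk (P.cons (P.cons (P.lf 0 443061586 0) (P.cons (P.lf 13561197 0 0) (P.cons (P.lf 6401715 0 0) (P.lf 0 304842 0)))) (P.cons (P.cons (P.lf 0 9421636 0) (P.cons (P.lf 276521 0 0) (P.cons (P.lf 130534 0 0) (P.lf 0 6215 0)))) (P.cons (P.cons (P.lf 3255280 0 0) (P.cons (P.lf 0 62739 0) (P.cons (P.lf 0 29616 0) (P.lf 1409 0 0)))) (P.cons (P.cons (P.lf 42126 0 0) (P.cons (P.lf 0 2483 0) (P.cons (P.lf 0 1172 0) P.nil))) (P.cons (P.cons (P.lf 0 6063 0) (P.cons (P.lf 59 0 0) P.nil)) (P.cons (P.cons (P.lf 0 108 0) P.nil) P.nil)))))) 294)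
 EL.nil))
noncomputable def S190_198_216_290_17 : EL := (EL.cons 4 (TM.mk (P.cons (P.cons (P.lf 0 229930093 0) (P.cons (P.lf 14075368 0 0) (P.cons (P.lf 6429026 0 0) (P.cons (P.lf 0 519772 0) (P.cons (P.lf 0 38317 0) (P.cons (P.lf 4571 0 0) P.nil)))))) (P.cons (P.cons (P.lf 0 1030862 0) (P.cons (P.lf 50800 0 0) (P.cons (P.lf 23390 0 0) (P.cons (P.lf 0 1697 0) (P.cons (P.lf 0 104 0) P.nil))))) (P.cons (P.cons (P.lf 3192072 0 0) (P.cons (P.lf 0 156901 0) (P.cons (P.lf 0 72255 0) (P.cons (P.lf 5236 0 0) P.nil)))) (P.cons (P.cons (P.lf 0 14616 0) (P.cons (P.lf 0 911 0) (P.cons (P.lf 0 387 0) P.nil))) (P.cons (P.cons (P.lf 0 15579 0) (P.cons (P.lf 604 0 0) P.nil)) (P.cons (P.cons (P.lf 134 0 0) P.nil) P.nil)))))) 3124)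
 (EL.cons 8 (TM.mk (P.cons (P.cons (P.lf 0 234608274 0) (P.cons (P.lf 14361747 0 0) (P.cons (P.lf 6559832 0 0) (P.cons (P.lf 0 530348 0) (P.cons (P.lf 0 39096 0) (P.cons (P.lf 4664 0 0) P.nil)))))) (P.cons (P.cons (P.lf 0 18582959 0) (P.cons (P.lf 1125016 0 0) (P.cons (P.lf 514051 0 0) (P.cons (P.lf 0 41362 0) (P.cons (P.lf 0 3028 0) P.nil))))) (P.cons (P.cons (P.lf 2124641 0 0) (P.cons (P.lf 0 91713 0) (P.cons (P.lf 0 42477 0) (P.cons (P.lf 2831 0 0) P.nil)))) (P.cons (P.cons (P.lf 155755 0 0) (P.cons (P.lf 0 8498 0) (P.cons (P.lf 0 3895 0) P.nil))) (P.cons (P.cons (P.lf 0 7073 0) (P.cons (P.lf 112 0 0) P.nil)) (P.cons (P.cons (P.lf 0 476 0) P.nil) P.nil)))))) 2551)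
 EL.nil))
noncomputable def S190_198_216_290_18 : EL := (EL.cons 4 (TM.mk (P.cons (P.lf 370075618 0 0) (P.cons (P.lf 0 61841771 0) (P.cons (P.lf 2583950 0 0) (P.cons (P.lf 41927 0 0) (P.cons (P.lf 0 2784 0) (P.cons (P.lf 0 58 0) P.nil)))))) 48)
 (EL.cons 8 (TM.mk (P.cons (P.lf 377605215 0 0) (P.cons (P.lf 0 34883429 0) (P.cons (P.lf 0 382558 0) (P.cons (P.lf 65797 0 0) (P.cons (P.lf 971 0 0) (P.cons (P.lf 0 39 0) P.nil)))))) 41)
 EL.nil))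
noncomputable def S190_198_216_290_19 : EL := (EL.cons 4 (TM.mk (P.cons (P.cons (P.lf 195961023 0 0) (P.cons (P.lf 0 5997960 0) (P.cons (P.lf 0 2831404 0) (P.lf 134828 0 0)))) (P.cons (P.cons (P.lf 0 21391528 0) (P.cons (P.lf 659993 0 0) (P.cons (P.lf 311557 0 0) (P.lf 0 14835 0)))) (P.cons (P.cons (P.lf 0 1105519 0) (P.cons (P.lf 16833 0 0) (P.cons (P.lf 7946 0 0) (P.lf 0 377 0)))) (P.cons (P.cons (P.lf 182005 0 0) (P.cons (P.lf 0 2890 0) (P.cons (P.lf 0 1364 0) P.nil))) (P.cons (P.cons (P.lf 0 1167 0) (P.cons (P.lf 0 50 0) P.nil)) (P.cons (P.cons (P.lf 0 344 0) P.nil) P.nil)))))) 301)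
 (EL.cons 8 (TM.mk (P.cons (P.cons (P.lf 199948067 0 0) (P.cons (P.lf 0 6119996 0) (P.cons (P.lf 0 2889012 0) (P.lf 137571 0 0)))) (P.cons (P.cons (P.lf 0 6885626 0) (P.cons (P.lf 216104 0 0) (P.cons (P.lf 102014 0 0) (P.lf 0 4857 0)))) (P.cons (P.cons (P.lf 0 1860922 0) (P.cons (P.lf 40009 0 0) (P.cons (P.lf 18886 0 0) (P.lf 0 898 0)))) (P.cons (P.cons (P.lf 61321 0 0) (P.cons (P.lf 0 414 0) (P.cons (P.lf 0 195 0) P.nil))) (P.cons (P.cons (P.lf 5031 0 0) (P.cons (P.lf 0 113 0) P.nil)) (P.cons (P.cons (P.lf 0 100 0) P.nil) P.nil)))))) 230)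
 EL.nil))
noncomputable def S190_198_216_290_20 : EL := (EL.cons 4 (TM.mk (P.cons (P.cons (P.lf 103764530 0 0) (P.cons (P.lf 0 6352035 0) (P.cons (P.lf 0 2901337 0) (P.cons (P.lf 234566 0 0) (P.cons (P.lf 17292 0 0) (P.cons (P.lf 0 2062 0) P.nil)))))) (P.cons (P.cons (P.lf 0 5314667 0) (P.cons (P.lf 330894 0 0) (P.cons (P.lf 151053 0 0) (P.cons (P.lf 0 12299 0) (P.cons (P.lf 0 915 0) P.nil))))) (P.cons (P.cons (P.lf 0 1546903 0) (P.cons (P.lf 77009 0 0) (P.cons (P.lf 35445 0 0) (P.cons (P.lf 0 2587 0) P.nil)))) (P.cons (P.cons (P.lf 87410 0 0) (P.cons (P.lf 0 3571 0) (P.cons (P.lf 0 1659 0) P.nil))) (P.cons (P.cons (P.lf 7815 0 0) (P.cons (P.lf 0 352 0) P.nil)) (P.cons (P.cons (P.lf 0 469 0) P.nil) P.nil)))))) 2101)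
 (EL.cons 8 (TM.mk (P.cons (P.cons (P.lf 105875734 0 0) (P.cons (P.lf 0 6481274 0) (P.cons (P.lf 0 2960368 0) (P.cons (P.lf 239339 0 0) (P.cons (P.lf 17644 0 0) (P.cons (P.lf 0 2104 0) P.nil)))))) (P.cons (P.cons (P.lf 2488771 0 0) (P.cons (P.lf 0 146686 0) (P.cons (P.lf 0 67086 0) (P.cons (P.lf 5334 0 0) (P.cons (P.lf 383 0 0) P.nil))))) (P.cons (P.cons (P.lf 0 1508039 0) (P.cons (P.lf 74693 0 0) (P.cons (P.lf 34386 0 0) (P.cons (P.lf 0 2503 0) P.nil)))) (P.cons (P.cons (P.lf 0 22431 0) (P.cons (P.lf 1864 0 0) (P.cons (P.lf 843 0 0) P.nil))) (P.cons (P.cons (P.lf 7957 0 0) (P.cons (P.lf 0 302 0) P.nil)) (P.cons (P.cons (P.lf 85 0 0) P.nil) P.nil)))))) 1610)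
 EL.nil))
noncomputable def S190_198_216_290_21 : EL := (EL.cons 4 (TM.mk (P.cons (P.cons (P.lf 0 2930801598 0) (P.cons (P.lf 88352466 0 0) (P.cons (P.lf 41707770 0 0) (P.lf 0 1986075 0)))) (P.cons (P.cons (P.lf 267597465 0 0) (P.cons (P.lf 120822 0 0) (P.cons (P.lf 57030 0 0) (P.lf 0 2712 0)))) (P.cons (P.cons (P.lf 16225806 0 0) (P.cons (P.lf 0 371646 0) (P.cons (P.lf 0 175437 0) (P.lf 8349 0 0)))) (P.cons (P.cons (P.lf 0 393468 0) (P.cons (P.lf 0 8232 0) (P.cons (P.lf 0 3882 0) P.nil))) (P.cons (P.cons (P.lf 0 28377 0) (P.cons (P.lf 375 0 0) P.nil)) (P.cons (P.cons (P.lf 75 0 0) P.nil) P.nil)))))) 1593)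
 (EL.cons 8 (TM.mk (P.cons (P.cons (P.lf 1021283664 0 0) (P.cons (P.lf 0 30787803 0) (P.cons (P.lf 0 14533731 0) (P.lf 692085 0 0)))) (P.cons (P.cons (P.lf 0 169564017 0) (P.cons (P.lf 2258511 0 0) (P.cons (P.lf 1066155 0 0) (P.lf 0 50766 0)))) (P.cons (P.cons (P.lf 2429286 0 0) (P.cons (P.lf 99027 0 0) (P.cons (P.lf 46749 0 0) (P.lf 0 2226 0)))) (P.cons (P.cons (P.lf 421236 0 0) (P.cons (P.lf 0 5751 0) (P.cons (P.lf 0 2712 0) P.nil))) (P.cons (P.cons (P.lf 0 2448 0) (P.cons (P.lf 0 216 0) P.nil)) (P.cons (P.cons (P.lf 0 492 0) P.nil) P.nil)))))) 1599)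
 (EL.cons 11 (TM.mk (P.cons (P.cons (P.lf 486465858 0 0) (P.cons (P.lf 479675850 0 0) (P.cons (P.lf 0 15009519 0) (P.cons (P.lf 0 2750433 0) (P.lf 98229 0 0))))) (P.cons (P.cons (P.lf 18508233 0 0) (P.cons (P.lf 18249897 0 0) (P.cons (P.lf 0 571056 0) (P.cons (P.lf 0 104643 0) (P.lf 3735 0 0))))) (P.cons (P.cons (P.lf 0 257859 0) (P.cons (P.lf 0 254259 0) (P.cons (P.lf 7956 0 0) (P.cons (P.lf 1455 0 0) P.nil)))) (P.cons (P.cons (P.lf 0 17340 0) (P.cons (P.lf 0 17097 0) (P.cons (P.lf 534 0 0) P.nil))) (P.cons (P.cons (P.lf 0 30 0) (P.cons (P.lf 0 30 0) P.nil)) (P.cons (P.cons (P.lf 6 0 0) P.nil) P.nil)))))) 327)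
 EL.nil)))
noncomputable def S190_198_216_290_22 : EL := (EL.cons 4 (TM.mk (P.cons (P.cons (P.lf 0 1551906837 0) (P.cons (P.lf 94284714 0 0) (P.cons (P.lf 43076190 0 0) (P.cons (P.lf 0 3471375 0) (P.cons (P.lf 0 254721 0) (P.cons (P.lf 30390 0 0) P.nil)))))) (P.cons (P.cons (P.lf 51774096 0 0) (P.cons (P.lf 1148592 0 0) (P.cons (P.lf 458520 0 0) (P.cons (P.lf 0 104820 0) (P.cons (P.lf 0 14883 0) P.nil))))) (P.cons (P.cons (P.lf 21366498 0 0) (P.cons (P.lf 0 853152 0) (P.cons (P.lf 0 396465 0) (P.cons (P.lf 25095 0 0) P.nil)))) (P.cons (P.cons (P.lf 0 2238 0) (P.cons (P.lf 0 30675 0) (P.cons (P.lf 0 13896 0) P.nil))) (P.cons (P.cons (P.lf 0 67002 0) (P.cons (P.lf 1782 0 0) P.nil)) (P.cons (P.cons (P.lf 0 735 0) P.nil) P.nil)))))) 8757)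
 (EL.cons 8 (TM.mk (P.cons (P.cons (P.lf 540786213 0 0) (P.cons (P.lf 0 32854986 0) (P.cons (P.lf 0 15010575 0) (P.cons (P.lf 1209657 0 0) (P.cons (P.lf 88761 0 0) (P.cons (P.lf 0 10590 0) P.nil)))))) (P.cons (P.cons (P.lf 0 58451781 0) (P.cons (P.lf 2054841 0 0) (P.cons (P.lf 961881 0 0) (P.cons (P.lf 0 53862 0) (P.cons (P.lf 0 1443 0) P.nil))))) (P.cons (P.cons (P.lf 0 5506704 0) (P.cons (P.lf 291318 0 0) (P.cons (P.lf 133701 0 0) (P.cons (P.lf 0 10152 0) P.nil)))) (P.cons (P.cons (P.lf 518094 0 0) (P.cons (P.lf 0 10785 0) (P.cons (P.lf 0 5115 0) P.nil))) (P.cons (P.cons (P.lf 16200 0 0) (P.cons (P.lf 0 1098 0) P.nil)) (P.cons (P.cons (P.lf 0 1239 0) P.nil) P.nil)))))) 5292)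
 (EL.cons 11 (TM.mk (P.cons (P.cons (P.lf 257591535 0 0) (P.cons (P.lf 246111774 0 0) (P.cons (P.lf 0 19443969 0) (P.cons (P.lf 0 4705842 0) (P.cons (P.lf 386184 0 0) (P.cons (P.lf 13980 0 0) P.nil)))))) (P.cons (P.cons (P.lf 24726192 0 0) (P.cons (P.lf 23631141 0 0) (P.cons (P.lf 0 1856373 0) (P.cons (P.lf 0 448872 0) (P.cons (P.lf 36774 0 0) P.nil))))) (P.cons (P.cons (P.lf 0 326256 0) (P.cons (P.lf 0 332652 0) (P.cons (P.lf 0 5901 0) (P.cons (P.lf 0 2670 0) P.nil)))) (P.cons (P.cons (P.lf 0 66663 0) (P.cons (P.lf 0 64569 0) (P.cons (P.lf 3750 0 0) P.nil))) (P.cons (P.cons (P.lf 0 399 0) (P.cons (P.lf 0 351 0) P.nil)) (P.cons (P.cons (P.lf 78 0 0) P.nil) P.nil)))))) 7587)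
 EL.nil)))
noncomputable def S190_198_216_290_23 : EL := (EL.cons 4 (TM.mk (P.cons (P.cons (P.lf 1322633538 0 0) (P.cons (P.lf 0 39872343 0) (P.cons (P.lf 0 18822186 0) (P.lf 896289 0 0)))) (P.cons (P.cons (P.lf 0 194436567 0) (P.cons (P.lf 2166438 0 0) (P.cons (P.lf 1022694 0 0) (P.lf 0 48699 0)))) (P.cons (P.cons (P.lf 0 1621182 0) (P.cons (P.lf 201669 0 0) (P.cons (P.lf 95196 0 0) (P.lf 0 4530 0)))) (P.cons (P.cons (P.lf 690978 0 0) (P.cons (P.lf 0 5943 0) (P.cons (P.lf 0 2805 0) P.nil))) (P.cons (P.cons (P.lf 7899 0 0) (P.cons (P.lf 0 516 0) P.nil)) (P.cons (P.cons (P.lf 0 984 0) P.nil) P.nil)))))) 1272)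
 (EL.cons 8 (TM.mk (P.cons (P.cons (P.lf 0 460892346 0) (P.cons (P.lf 13894143 0 0) (P.cons (P.lf 6558888 0 0) (P.lf 0 312327 0)))) (P.cons (P.cons (P.lf 102194676 0 0) (P.cons (P.lf 0 1793166 0) (P.cons (P.lf 0 846483 0) (P.lf 40305 0 0)))) (P.cons (P.cons (P.lf 0 5001405 0) (P.cons (P.lf 1311 0 0) (P.cons (P.lf 618 0 0) (P.lf 0 27 0)))) (P.cons (P.cons (P.lf 0 192507 0) (P.cons (P.lf 5997 0 0) (P.cons (P.lf 2829 0 0) P.nil))) (P.cons (P.cons (P.lf 13092 0 0) (P.cons (P.lf 0 15 0) P.nil)) (P.cons (P.cons (P.lf 318 0 0) P.nil) P.nil)))))) 1026)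
 (EL.cons 11 (TM.mk (P.cons (P.cons (P.lf 0 219535863 0) (P.cons (P.lf 0 216471618 0) (P.cons (P.lf 6773604 0 0) (P.cons (P.lf 1241235 0 0) (P.lf 0 44328 0))))) (P.cons (P.cons (P.lf 3876039 0 0) (P.cons (P.lf 3821937 0 0) (P.cons (P.lf 0 119592 0) (P.cons (P.lf 0 21915 0) (P.lf 783 0 0))))) (P.cons (P.cons (P.lf 751824 0 0) (P.cons (P.lf 741330 0 0) (P.cons (P.lf 0 23196 0) (P.cons (P.lf 0 4248 0) P.nil)))) (P.cons (P.cons (P.lf 5841 0 0) (P.cons (P.lf 5760 0 0) (P.cons (P.lf 0 177 0) P.nil))) (P.cons (P.cons (P.lf 0 651 0) (P.cons (P.lf 0 642 0) P.nil)) (P.cons (P.cons (P.lf 0 9 0) P.nil) P.nil)))))) 477)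
 EL.nil)))
noncomputable def S190_198_216_290_24 : EL := (EL.cons 4 (TM.mk (P.cons (P.cons (P.lf 700355844 0 0) (P.cons (P.lf 0 42549492 0) (P.cons (P.lf 0 19439736 0) (P.cons (P.lf 1566585 0 0) (P.cons (P.lf 114951 0 0) (P.cons (P.lf 0 13713 0) P.nil)))))) (P.cons (P.cons (P.lf 0 62376159 0) (P.cons (P.lf 1851741 0 0) (P.cons (P.lf 875904 0 0) (P.cons (P.lf 0 39957 0) (P.cons (P.lf 312 0 0) P.nil))))) (P.cons (P.cons (P.lf 0 8883936 0) (P.cons (P.lf 446877 0 0) (P.cons (P.lf 205515 0 0) (P.cons (P.lf 0 15174 0) P.nil)))) (P.cons (P.cons (P.lf 562530 0 0) (P.cons (P.lf 0 7584 0) (P.cons (P.lf 0 3708 0) P.nil))) (P.cons (P.cons (P.lf 37656 0 0) (P.cons (P.lf 0 1890 0) P.nil)) (P.cons (P.cons (P.lf 0 1446 0) P.nil) P.nil)))))) 4257)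
 (EL.cons 8 (TM.mk (P.cons (P.cons (P.lf 0 244049949 0) (P.cons (P.lf 14827035 0 0) (P.cons (P.lf 6774081 0 0) (P.cons (P.lf 0 545901 0) (P.cons (P.lf 0 40056 0) (P.cons (P.lf 4779 0 0) P.nil)))))) (P.cons (P.cons (P.lf 39972597 0 0) (P.cons (P.lf 0 1753218 0) (P.cons (P.lf 0 811413 0) (P.cons (P.lf 54714 0 0) (P.cons (P.lf 2883 0 0) P.nil))))) (P.cons (P.cons (P.lf 1204980 0 0) (P.cons (P.lf 0 91308 0) (P.cons (P.lf 0 41409 0) (P.cons (P.lf 3651 0 0) P.nil)))) (P.cons (P.cons (P.lf 0 394881 0) (P.cons (P.lf 13041 0 0) (P.cons (P.lf 6066 0 0) P.nil))) (P.cons (P.cons (P.lf 3948 0 0) (P.cons (P.lf 321 0 0) P.nil)) (P.cons (P.cons (P.lf 1176 0 0) P.nil) P.nil)))))) 2340)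
 (EL.cons 11 (TM.mk (P.cons (P.cons (P.lf 0 116247789 0) (P.cons (P.lf 0 111067116 0) (P.cons (P.lf 8774817 0 0) (P.cons (P.lf 2123685 0 0) (P.cons (P.lf 0 174279 0) (P.cons (P.lf 0 6309 0) P.nil)))))) (P.cons (P.cons (P.lf 0 4683390 0) (P.cons (P.lf 0 4477782 0) (P.cons (P.lf 348984 0 0) (P.cons (P.lf 84276 0 0) (P.cons (P.lf 0 6888 0) P.nil))))) (P.cons (P.cons (P.lf 858918 0 0) (P.cons (P.lf 830262 0 0) (P.cons (P.lf 0 50802 0) (P.cons (P.lf 0 11724 0) P.nil)))) (P.cons (P.cons (P.lf 29487 0 0) (P.cons (P.lf 28044 0 0) (P.cons (P.lf 0 2409 0) P.nil))) (P.cons (P.cons (P.lf 0 1743 0) (P.cons (P.lf 0 1707 0) P.nil)) (P.cons (P.cons (P.lf 0 69 0) P.nil) P.nil)))))) 3531)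
 EL.nil)))
noncomputable def S190_198_216_290_25 : EL := (EL.cons 4 (TM.mk (P.cons (P.cons (P.lf 0 596887719 0) (P.cons (P.lf 17993883 0 0) (P.cons (P.lf 8494212 0 0) (P.lf 0 404484 0)))) (P.cons (P.cons (P.lf 120994548 0 0) (P.cons (P.lf 0 1979979 0) (P.cons (P.lf 0 934671 0) (P.lf 44508 0 0)))) (P.cons (P.cons (P.lf 0 3693279 0) (P.cons (P.lf 0 50502 0) (P.cons (P.lf 0 23838 0) (P.lf 1134 0 0)))) (P.cons (P.cons (P.lf 0 425985 0) (P.cons (P.lf 8670 0 0) (P.cons (P.lf 4092 0 0) P.nil))) (P.cons (P.cons (P.lf 13848 0 0) (P.cons (P.lf 150 0 0) P.nil)) (P.cons (P.cons (P.lf 918 0 0) P.nil) P.nil)))))) 888)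
 (EL.cons 8 (TM.mk (P.cons (P.cons (P.lf 207994863 0 0) (P.cons (P.lf 0 6270249 0) (P.cons (P.lf 0 2959941 0) (P.lf 140949 0 0)))) (P.cons (P.cons (P.lf 0 57704874 0) (P.cons (P.lf 1158498 0 0) (P.cons (P.lf 546882 0 0) (P.lf 0 26040 0)))) (P.cons (P.cons (P.lf 4664736 0 0) (P.cons (P.lf 0 40806 0) (P.cons (P.lf 0 19260 0) (P.lf 915 0 0)))) (P.cons (P.cons (P.lf 0 1215 0) (P.cons (P.lf 0 3357 0) (P.cons (P.lf 0 1584 0) P.nil))) (P.cons (P.cons (P.lf 0 12849 0) (P.cons (P.lf 162 0 0) P.nil)) (P.cons (P.cons (P.lf 123 0 0) P.nil) P.nil)))))) 651)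
 (EL.cons 11 (TM.mk (P.cons (P.cons (P.lf 99073746 0 0) (P.cons (P.lf 97690890 0 0) (P.cons (P.lf 0 3056841 0) (P.cons (P.lf 0 560151 0) (P.lf 20004 0 0))))) (P.cons (P.cons (P.lf 0 7267803 0) (P.cons (P.lf 0 7166361 0) (P.cons (P.lf 224241 0 0) (P.cons (P.lf 41091 0 0) (P.lf 0 1467 0))))) (P.cons (P.cons (P.lf 0 318666 0) (P.cons (P.lf 0 314217 0) (P.cons (P.lf 9831 0 0) (P.cons (P.lf 1800 0 0) P.nil)))) (P.cons (P.cons (P.lf 18510 0 0) (P.cons (P.lf 18252 0 0) (P.cons (P.lf 0 570 0) P.nil))) (P.cons (P.cons (P.lf 717 0 0) (P.cons (P.lf 708 0 0) P.nil)) (P.cons (P.cons (P.lf 0 12 0) P.nil) P.nil)))))) 441)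
 EL.nil)))
noncomputable def S190_198_216_290_26 : EL := (EL.cons 4 (TM.mk (P.cons (P.cons (P.lf 0 316061697 0) (P.cons (P.lf 19202046 0 0) (P.cons (P.lf 8772906 0 0) (P.cons (P.lf 0 706980 0) (P.cons (P.lf 0 51876 0) (P.cons (P.lf 6189 0 0) P.nil)))))) (P.cons (P.cons (P.lf 45754812 0 0) (P.cons (P.lf 0 1905258 0) (P.cons (P.lf 0 883950 0) (P.cons (P.lf 57411 0 0) (P.cons (P.lf 2745 0 0) P.nil))))) (P.cons (P.cons (P.lf 2686263 0 0) (P.cons (P.lf 0 170007 0) (P.cons (P.lf 0 77529 0) (P.cons (P.lf 6390 0 0) P.nil)))) (P.cons (P.cons (P.lf 0 501852 0) (P.cons (P.lf 15474 0 0) (P.cons (P.lf 7224 0 0) P.nil))) (P.cons (P.cons (P.lf 0 5799 0) (P.cons (P.lf 816 0 0) P.nil)) (P.cons (P.cons (P.lf 1839 0 0) P.nil) P.nil)))))) 3066)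
 (EL.cons 8 (TM.mk (P.cons (P.cons (P.lf 110136642 0 0) (P.cons (P.lf 0 6691251 0) (P.cons (P.lf 0 3057057 0) (P.cons (P.lf 246357 0 0) (P.cons (P.lf 18075 0 0) (P.cons (P.lf 0 2154 0) P.nil)))))) (P.cons (P.cons (P.lf 0 24173946 0) (P.cons (P.lf 1163919 0 0) (P.cons (P.lf 536463 0 0) (P.cons (P.lf 0 38412 0) (P.cons (P.lf 0 2307 0) P.nil))))) (P.cons (P.cons (P.lf 375630 0 0) (P.cons (P.lf 2322 0 0) (P.cons (P.lf 660 0 0) (P.cons (P.lf 0 462 0) P.nil)))) (P.cons (P.cons (P.lf 223473 0 0) (P.cons (P.lf 0 8853 0) (P.cons (P.lf 0 4089 0) P.nil))) (P.cons (P.cons (P.lf 0 11415 0) (P.cons (P.lf 153 0 0) P.nil)) (P.cons (P.cons (P.lf 0 579 0) P.nil) P.nil)))))) 1692)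
 (EL.cons 11 (TM.mk (P.cons (P.cons (P.lf 52461150 0 0) (P.cons (P.lf 50123178 0 0) (P.cons (P.lf 0 3959961 0) (P.cons (P.lf 0 958392 0) (P.cons (P.lf 78648 0 0) (P.cons (P.lf 2847 0 0) P.nil)))))) (P.cons (P.cons (P.lf 0 808629 0) (P.cons (P.lf 0 771189 0) (P.cons (P.lf 63084 0 0) (P.cons (P.lf 15351 0 0) (P.cons (P.lf 0 1272 0) P.nil))))) (P.cons (P.cons (P.lf 0 546021 0) (P.cons (P.lf 0 526107 0) (P.cons (P.lf 34770 0 0) (P.cons (P.lf 8151 0 0) P.nil)))) (P.cons (P.cons (P.lf 7116 0 0) (P.cons (P.lf 7098 0 0) (P.cons (P.lf 0 102 0) P.nil))) (P.cons (P.cons (P.lf 1863 0 0) (P.cons (P.lf 1800 0 0) P.nil)) (P.cons (P.cons (P.lf 0 3 0) P.nil) P.nil)))))) 2601)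
 EL.nil)))
noncomputable def S190_198_216_290_27 : EL := (EL.cons 13 (TM.mk (P.lf 0 4294967296 0) 0)
 EL.nil)
noncomputable def S190_198_216_290_28 : EL := (EL.cons 13 (TM.mk (P.cons (P.cons (P.lf 0 2274254633 0) (P.cons (P.lf 69610228 0 0) (P.cons (P.lf 32860288 0 0) (P.lf 0 1564772 0)))) (P.cons (P.cons (P.lf 0 131778528 0) (P.cons (P.lf 3972616 0 0) (P.cons (P.lf 1875316 0 0) (P.lf 0 89300 0)))) (P.cons (P.cons (P.lf 6688684 0 0) (P.cons (P.lf 0 17560 0) (P.cons (P.lf 0 8288 0) (P.lf 392 0 0)))) (P.cons (P.cons (P.lf 183190 0 0) (P.cons (P.lf 0 5012 0) (P.cons (P.lf 0 2364 0) P.nil))) (P.cons (P.cons (P.lf 0 4724 0) (P.cons (P.lf 0 52 0) P.nil)) (P.cons (P.cons (P.lf 0 175 0) P.nil) P.nil)))))) 602)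
 EL.nil)
noncomputable def S190_198_216_290_29 : EL := (EL.cons 13 (TM.mk (P.cons (P.cons (P.lf 0 1204254602 0) (P.cons (P.lf 73719482 0 0) (P.cons (P.lf 33671907 0 0) (P.cons (P.lf 0 2722303 0) (P.cons (P.lf 0 200688 0) (P.cons (P.lf 23943 0 0) P.nil)))))) (P.cons (P.cons (P.lf 0 139557722 0) (P.cons (P.lf 8478701 0 0) (P.cons (P.lf 3873692 0 0) (P.cons (P.lf 0 312168 0) (P.cons (P.lf 0 22906 0) P.nil))))) (P.cons (P.cons (P.lf 3040293 0 0) (P.cons (P.lf 8367 0 0) (P.cons (P.lf 846 0 0) (P.cons (P.lf 0 3122 0) P.nil)))) (P.cons (P.cons (P.lf 604449 0 0) (P.cons (P.lf 0 24696 0) (P.cons (P.lf 0 11461 0) P.nil))) (P.cons (P.cons (P.lf 0 4178 0) (P.cons (P.lf 0 493 0) P.nil)) (P.cons (P.cons (P.lf 0 1045 0) P.nil) P.nil)))))) 6520)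
 EL.nil)
noncomputable def S190_198_216_290_30 : EL := (EL.cons 13 (TM.mk (P.cons (P.lf 1938264196 0 0) (P.cons (P.lf 0 107965044 0) (P.cons (P.lf 0 1502728 0) (P.cons (P.lf 17452 0 0) (P.cons (P.lf 580 0 0) (P.cons (P.lf 0 0 0) P.nil)))))) 48)
 EL.nil)
noncomputable def S190_198_216_290_31 : EL := (EL.cons 13 (TM.mk (P.cons (P.cons (P.lf 1026342233 0 0) (P.cons (P.lf 0 31414211 0) (P.cons (P.lf 0 14829430 0) (P.lf 706161 0 0)))) (P.cons (P.cons (P.lf 2300739 0 0) (P.cons (P.lf 0 42959 0) (P.cons (P.lf 0 20278 0) (P.lf 965 0 0)))) (P.cons (P.cons (P.lf 0 7126828 0) (P.cons (P.lf 132141 0 0) (P.cons (P.lf 62378 0 0) (P.lf 0 2969 0)))) (P.cons (P.cons (P.lf 48600 0 0) (P.cons (P.lf 2927 0 0) (P.cons (P.lf 1381 0 0) P.nil))) (P.cons (P.cons (P.lf 9919 0 0) (P.cons (P.lf 0 134 0) P.nil)) (P.cons (P.cons (P.lf 14 0 0) P.nil) P.nil)))))) 469)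
 EL.nil)
noncomputable def S190_198_216_290_32 : EL := (EL.cons 13 (TM.mk (P.cons (P.cons (P.lf 543464808 0 0) (P.cons (P.lf 0 33268666 0) (P.cons (P.lf 0 15195704 0) (P.cons (P.lf 1228540 0 0) (P.cons (P.lf 90567 0 0) (P.cons (P.lf 0 10805 0) P.nil)))))) (P.cons (P.cons (P.lf 32708592 0 0) (P.cons (P.lf 0 1973201 0) (P.cons (P.lf 0 901718 0) (P.cons (P.lf 72445 0 0) (P.cons (P.lf 5292 0 0) P.nil))))) (P.cons (P.cons (P.lf 0 5301533 0) (P.cons (P.lf 235151 0 0) (P.cons (P.lf 108774 0 0) (P.cons (P.lf 0 7390 0) P.nil)))) (P.cons (P.cons (P.lf 0 240289 0) (P.cons (P.lf 14022 0 0) (P.cons (P.lf 6411 0 0) P.nil))) (P.cons (P.cons (P.lf 18873 0 0) (P.cons (P.lf 0 439 0) P.nil)) (P.cons (P.cons (P.lf 584 0 0) P.nil) P.nil)))))) 4980)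
 EL.nil)
noncomputable def S190_198_216_290_33 : EL := (EL.cons 14 (TM.mk (P.lf 8589934592 0 0) 0)
 EL.nil)
noncomputable def S190_198_216_290_34 : EL := (EL.cons 14 (TM.mk (P.cons (P.cons (P.lf 4548509266 0 0) (P.cons (P.lf 0 139220456 0) (P.cons (P.lf 0 65720576 0) (P.lf 3129544 0 0)))) (P.cons (P.cons (P.lf 263557056 0 0) (P.cons (P.lf 0 7945232 0) (P.cons (P.lf 0 3750632 0) (P.lf 178600 0 0)))) (P.cons (P.cons (P.lf 0 13377368 0) (P.cons (P.lf 35120 0 0) (P.cons (P.lf 16576 0 0) (P.lf 0 784 0)))) (P.cons (P.cons (P.lf 0 366380 0) (P.cons (P.lf 10024 0 0) (P.cons (P.lf 4728 0 0) P.nil))) (P.cons (P.cons (P.lf 9448 0 0) (P.cons (P.lf 104 0 0) P.nil)) (P.cons (P.cons (P.lf 350 0 0) P.nil) P.nil)))))) 1204)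
 EL.nil)
noncomputable def S190_198_216_290_35 : EL := (EL.cons 14 (TM.mk (P.cons (P.cons (P.lf 2408509204 0 0) (P.cons (P.lf 0 147438964 0) (P.cons (P.lf 0 67343814 0) (P.cons (P.lf 5444606 0 0) (P.cons (P.lf 401376 0 0) (P.cons (P.lf 0 47886 0) P.nil)))))) (P.cons (P.cons (P.lf 279115444 0 0) (P.cons (P.lf 0 16957402 0) (P.cons (P.lf 0 7747384 0) (P.cons (P.lf 624336 0 0) (P.cons (P.lf 45812 0 0) P.nil))))) (P.cons (P.cons (P.lf 0 6080586 0) (P.cons (P.lf 0 16734 0) (P.cons (P.lf 0 1692 0) (P.cons (P.lf 6244 0 0) P.nil)))) (P.cons (P.cons (P.lf 0 1208898 0) (P.cons (P.lf 49392 0 0) (P.cons (P.lf 22922 0 0) P.nil))) (P.cons (P.cons (P.lf 8356 0 0) (P.cons (P.lf 986 0 0) P.nil)) (P.cons (P.cons (P.lf 2090 0 0) P.nil) P.nil)))))) 13040)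
 EL.nil)
noncomputable def S190_198_216_290_36 : EL := (EL.cons 14 (TM.mk (P.cons (P.lf 0 3876528392 0) (P.cons (P.lf 215930088 0 0) (P.cons (P.lf 3005456 0 0) (P.cons (P.lf 0 34904 0) (P.cons (P.lf 0 1160 0) (P.cons (P.lf 0 0 0) P.nil)))))) 96)
 EL.nil)
noncomputable def S190_198_216_290_37 : EL := (EL.cons 14 (TM.mk (P.cons (P.cons (P.lf 0 2052684466 0) (P.cons (P.lf 62828422 0 0) (P.cons (P.lf 29658860 0 0) (P.lf 0 1412322 0)))) (P.cons (P.cons (P.lf 0 4601478 0) (P.cons (P.lf 85918 0 0) (P.cons (P.lf 40556 0 0) (P.lf 0 1930 0)))) (P.cons (P.cons (P.lf 14253656 0 0) (P.cons (P.lf 0 264282 0) (P.cons (P.lf 0 124756 0) (P.lf 5938 0 0)))) (P.cons (P.cons (P.lf 0 97200 0) (P.cons (P.lf 0 5854 0) (P.cons (P.lf 0 2762 0) P.nil))) (P.cons (P.cons (P.lf 0 19838 0) (P.cons (P.lf 268 0 0) P.nil)) (P.cons (P.cons (P.lf 0 28 0) P.nil) P.nil)))))) 938)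
 EL.nil)
noncomputable def S190_198_216_290_38 : EL := (EL.cons 14 (TM.mk (P.cons (P.cons (P.lf 0 1086929616 0) (P.cons (P.lf 66537332 0 0) (P.cons (P.lf 30391408 0 0) (P.cons (P.lf 0 2457080 0) (P.cons (P.lf 0 181134 0) (P.cons (P.lf 21610 0 0) P.nil)))))) (P.cons (P.cons (P.lf 0 65417184 0) (P.cons (P.lf 3946402 0 0) (P.cons (P.lf 1803436 0 0) (P.cons (P.lf 0 144890 0) (P.cons (P.lf 0 10584 0) P.nil))))) (P.cons (P.cons (P.lf 10603066 0 0) (P.cons (P.lf 0 470302 0) (P.cons (P.lf 0 217548 0) (P.cons (P.lf 14780 0 0) P.nil)))) (P.cons (P.cons (P.lf 480578 0 0) (P.cons (P.lf 0 28044 0) (P.cons (P.lf 0 12822 0) P.nil))) (P.cons (P.cons (P.lf 0 37746 0) (P.cons (P.lf 878 0 0) P.nil)) (P.cons (P.cons (P.lf 0 1168 0) P.nil) P.nil)))))) 9960)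
 EL.nil)
noncomputable def S190_198_216_290_39 : EL := (EL.cons 14 (TM.mk (P.cons (P.lf 1749428032 0 0) (P.cons (P.lf 0 194893012 0) (P.cons (P.lf 2715308 0 0) (P.cons (P.lf 182602 0 0) (P.cons (P.lf 342 0 0) (P.cons (P.lf 0 82 0) P.nil)))))) 106)
 EL.nil)
noncomputable def S190_198_216_290_40 : EL := (EL.cons 14 (TM.mk (P.cons (P.cons (P.lf 926350430 0 0) (P.cons (P.lf 0 28353668 0) (P.cons (P.lf 0 13384666 0) (P.lf 637362 0 0)))) (P.cons (P.cons (P.lf 0 49522910 0) (P.cons (P.lf 1540580 0 0) (P.cons (P.lf 727248 0 0) (P.lf 0 34630 0)))) (P.cons (P.cons (P.lf 0 7266360 0) (P.cons (P.lf 143410 0 0) (P.cons (P.lf 67696 0 0) (P.lf 0 3222 0)))) (P.cons (P.cons (P.lf 408896 0 0) (P.cons (P.lf 0 4226 0) (P.cons (P.lf 0 1994 0) P.nil))) (P.cons (P.cons (P.lf 11790 0 0) (P.cons (P.lf 0 368 0) P.nil)) (P.cons (P.cons (P.lf 0 576 0) P.nil) P.nil)))))) 746)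
 EL.nil)
noncomputable def S190_198_216_290_41 : EL := (EL.cons 14 (TM.mk (P.cons (P.cons (P.lf 490517532 0 0) (P.cons (P.lf 0 30027452 0) (P.cons (P.lf 0 13715256 0) (P.cons (P.lf 1108848 0 0) (P.cons (P.lf 81744 0 0) (P.cons (P.lf 0 9752 0) P.nil)))))) (P.cons (P.cons (P.lf 2199174 0 0) (P.cons (P.lf 0 108374 0) (P.cons (P.lf 0 49900 0) (P.cons (P.lf 3622 0 0) (P.cons (P.lf 222 0 0) P.nil))))) (P.cons (P.cons (P.lf 0 6809754 0) (P.cons (P.lf 334724 0 0) (P.cons (P.lf 154144 0 0) (P.cons (P.lf 0 11172 0) P.nil)))) (P.cons (P.cons (P.lf 31182 0 0) (P.cons (P.lf 1944 0 0) (P.cons (P.lf 826 0 0) P.nil))) (P.cons (P.cons (P.lf 33236 0 0) (P.cons (P.lf 0 1290 0) P.nil)) (P.cons (P.cons (P.lf 0 286 0) P.nil) P.nil)))))) 6618)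
 EL.nil)
noncomputable def S190_198_216_290_42 : EL := (EL.cons 14 (TM.mk (P.cons (P.lf 0 789494652 0) (P.cons (P.lf 131929112 0 0) (P.cons (P.lf 0 5512428 0) (P.cons (P.lf 0 89446 0) (P.cons (P.lf 5940 0 0) (P.cons (P.lf 124 0 0) P.nil)))))) 88)
 EL.nil)
noncomputable def S190_198_216_290_43 : EL := (EL.cons 14 (TM.mk (P.cons (P.cons (P.lf 0 418050184 0) (P.cons (P.lf 12795650 0 0) (P.cons (P.lf 6040330 0 0) (P.lf 0 287634 0)))) (P.cons (P.cons (P.lf 45635260 0 0) (P.cons (P.lf 0 1407986 0) (P.cons (P.lf 0 664656 0) (P.lf 31650 0 0)))) (P.cons (P.cons (P.lf 2358442 0 0) (P.cons (P.lf 0 35912 0) (P.cons (P.lf 0 16952 0) (P.lf 806 0 0)))) (P.cons (P.cons (P.lf 0 388278 0) (P.cons (P.lf 6166 0 0) (P.cons (P.lf 2910 0 0) P.nil))) (P.cons (P.cons (P.lf 2490 0 0) (P.cons (P.lf 108 0 0) P.nil)) (P.cons (P.cons (P.lf 734 0 0) P.nil) P.nil)))))) 602)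
 EL.nil)
noncomputable def S190_198_216_290_44 : EL := (EL.cons 14 (TM.mk (P.cons (P.cons (P.lf 0 221364332 0) (P.cons (P.lf 13551008 0 0) (P.cons (P.lf 6189520 0 0) (P.cons (P.lf 0 500408 0) (P.cons (P.lf 0 36890 0) (P.cons (P.lf 4400 0 0) P.nil)))))) (P.cons (P.cons (P.lf 11337958 0 0) (P.cons (P.lf 0 705908 0) (P.cons (P.lf 0 322248 0) (P.cons (P.lf 26238 0 0) (P.cons (P.lf 1954 0 0) P.nil))))) (P.cons (P.cons (P.lf 3300060 0 0) (P.cons (P.lf 0 164286 0) (P.cons (P.lf 0 75616 0) (P.cons (P.lf 5520 0 0) P.nil)))) (P.cons (P.cons (P.lf 0 186476 0) (P.cons (P.lf 7620 0 0) (P.cons (P.lf 3540 0 0) P.nil))) (P.cons (P.cons (P.lf 0 16672 0) (P.cons (P.lf 752 0 0) P.nil)) (P.cons (P.cons (P.lf 1002 0 0) P.nil) P.nil)))))) 4436)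
 EL.nil)
noncomputable def S190_198_216_290_45 : EL := (EL.cons 14 (TM.mk (P.cons (P.cons (P.lf 1275344568 0 0) (P.cons (P.lf 0 117106972 0) (P.cons (P.lf 0 51697256 0) (P.cons (P.lf 5979996 0 0) (P.cons (P.lf 585814 0 0) (P.cons (P.lf 0 98052 0) P.nil)))))) (P.cons (P.cons (P.lf 221694210 0 0) (P.cons (P.lf 0 20254428 0) (P.cons (P.lf 0 8944514 0) (P.cons (P.lf 1031384 0 0) (P.cons (P.lf 100852 0 0) P.nil))))) (P.cons (P.cons (P.lf 1593228 0 0) (P.cons (P.lf 0 449306 0) (P.cons (P.lf 0 189072 0) (P.cons (P.lf 31516 0 0) P.nil)))) (P.cons (P.cons (P.lf 0 1364098 0) (P.cons (P.lf 87506 0 0) (P.cons (P.lf 39764 0 0) P.nil))) (P.cons (P.cons (P.lf 0 32452 0) (P.cons (P.lf 3936 0 0) P.nil)) (P.cons (P.cons (P.lf 3910 0 0) P.nil) P.nil)))))) 42560)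
 EL.nil)
noncomputable def S190_198_216_290_46 : EL := (EL.cons 15 (TM.mk (P.lf 4294967296 0 0) 0)
 EL.nil)
noncomputable def S190_198_216_290_47 : EL := (EL.cons 15 (TM.mk (P.cons (P.cons (P.lf 2274254633 0 0) (P.cons (P.lf 0 69610228 0) (P.cons (P.lf 0 32860288 0) (P.lf 1564772 0 0)))) (P.cons (P.cons (P.lf 131778528 0 0) (P.cons (P.lf 0 3972616 0) (P.cons (P.lf 0 1875316 0) (P.lf 89300 0 0)))) (P.cons (P.cons (P.lf 0 6688684 0) (P.cons (P.lf 17560 0 0) (P.cons (P.lf 8288 0 0) (P.lf 0 392 0)))) (P.cons (P.cons (P.lf 0 183190 0) (P.cons (P.lf 5012 0 0) (P.cons (P.lf 2364 0 0) P.nil))) (P.cons (P.cons (P.lf 4724 0 0) (P.cons (P.lf 52 0 0) P.nil)) (P.cons (P.cons (P.lf 175 0 0) P.nil) P.nil)))))) 602)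
 EL.nil)
noncomputable def S190_198_216_290_48 : EL := (EL.cons 15 (TM.mk (P.cons (P.cons (P.lf 1204254602 0 0) (P.cons (P.lf 0 73719482 0) (P.cons (P.lf 0 33671907 0) (P.cons (P.lf 2722303 0 0) (P.cons (P.lf 200688 0 0) (P.cons (P.lf 0 23943 0) P.nil)))))) (P.cons (P.cons (P.lf 139557722 0 0) (P.cons (P.lf 0 8478701 0) (P.cons (P.lf 0 3873692 0) (P.cons (P.lf 312168 0 0) (P.cons (P.lf 22906 0 0) P.nil))))) (P.cons (P.cons (P.lf 0 3040293 0) (P.cons (P.lf 0 8367 0) (P.cons (P.lf 0 846 0) (P.cons (P.lf 3122 0 0) P.nil)))) (P.cons (P.cons (P.lf 0 604449 0) (P.cons (P.lf 24696 0 0) (P.cons (P.lf 11461 0 0) P.nil))) (P.cons (P.cons (P.lf 4178 0 0) (P.cons (P.lf 493 0 0) P.nil)) (P.cons (P.cons (P.lf 1045 0 0) P.nil) P.nil)))))) 6520)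
 EL.nil)
noncomputable def S190_198_216_290 : SL := (SL.cons S190_198_216_290_0 (SL.cons S190_198_216_290_1 (SL.cons S190_198_216_290_2 (SL.cons S190_198_216_290_3 (SL.cons S190_198_216_290_4 (SL.cons S190_198_216_290_5 (SL.cons S190_198_216_290_6 (SL.cons S190_198_216_290_7 (SL.cons S190_198_216_290_8 (SL.cons S190_198_216_290_9 (SL.cons S190_198_216_290_10 (SL.cons S190_198_216_290_11 (SL.cons S190_198_216_290_12 (SL.cons S190_198_216_290_13 (SL.cons S190_198_216_290_14 (SL.cons S190_198_216_290_15 (SL.cons S190_198_216_290_16 (SL.cons S190_198_216_290_17 (SL.cons S190_198_216_290_18 (SL.cons S190_198_216_290_19 (SL.cons S190_198_216_290_20 (SL.cons S190_198_216_290_21 (SL.cons S190_198_216_290_22 (SL.cons S190_198_216_290_23 (SL.cons S190_198_216_290_24 (SL.cons S190_198_216_290_25 (SL.cons S190_198_216_290_26 (SL.cons S190_198_216_290_27 (SL.cons S190_198_216_290_28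 (SL.cons S190_198_216_290_29 (SL.cons S190_198_216_290_30 (SL.cons S190_198_216_290_31 (SL.cons S190_198_216_290_32 (SL.cons S190_198_216_290_33 (SL.cons S190_198_216_290_34 (SL.cons S190_198_216_290_35 (SL.cons S190_198_216_290_36 (SL.cons S190_198_216_290_37 (SL.cons S190_198_216_290_38 (SL.cons S190_198_216_290_39 (SL.cons S190_198_216_290_40 (SL.cons S190_198_216_290_41 (SL.cons S190_198_216_290_42 (SL.cons S190_198_216_290_43 (SL.cons S190_198_216_290_44 (SL.cons S190_198_216_290_45 (SL.cons S190_198_216_290_46 (SL.cons S190_198_216_290_47 (SL.cons S190_198_216_290_48 SL.nil)))))))))))))))))))))))))))))))))))))))))))))))))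
noncomputable def S198_205_364_512_0 : EL := (EL.cons 0 (TM.mk (P.cons (P.lf 7229857428 0 0) (P.cons (P.lf 140566317 0 0) (P.cons (P.lf 0 2519476 0) (P.cons (P.lf 0 107263 0) (P.cons (P.lf 249 0 0) (P.cons (P.lf 38 0 0) P.nil)))))) 84)
 (EL.cons 1 (TM.mk (P.cons (P.lf 0 1448519452 0) (P.cons (P.lf 61900818 0 0) (P.cons (P.lf 2638155 0 0) (P.cons (P.lf 0 21427 0) (P.cons (P.lf 0 1321 0) (P.cons (P.lf 0 1 0) P.nil)))))) 93)
 (EL.cons 5 (TM.mk (P.cons (P.lf 4730828432 0 0) (P.cons (P.lf 0 49979134 0) (P.cons (P.lf 895810 0 0) (P.cons (P.lf 38136 0 0) (P.cons (P.lf 0 84 0) (P.cons (P.lf 0 14 0) P.nil)))))) 103)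
 (EL.cons 9 (TM.mk (P.lf 6442450944 0 0) 2)
 EL.nil))))
noncomputable def S198_205_364_512_1 : EL := (EL.cons 0 (TM.mk (P.cons (P.cons (P.lf 1517740213 0 0) (P.cons (P.lf 0 513654153 0) (P.cons (P.lf 0 34341725 0) (P.lf 11447248 0 0)))) (P.cons (P.cons (P.lf 373014432 0 0) (P.cons (P.lf 0 103800636 0) (P.cons (P.lf 0 6939863 0) (P.lf 2313282 0 0)))) (P.cons (P.cons (P.lf 0 14892848 0) (P.cons (P.lf 0 1864775 0) (P.cons (P.lf 0 124670 0) (P.lf 41555 0 0)))) (P.cons (P.cons (P.lf 0 1037375 0) (P.cons (P.lf 187547 0 0) (P.cons (P.lf 12533 0 0) P.nil))) (P.cons (P.cons (P.lf 16857 0 0) (P.cons (P.lf 5766 0 0) P.nil)) (P.cons (P.cons (P.lf 1365 0 0) P.nil) P.nil)))))) 9092)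
 (EL.cons 1 (TM.mk (P.cons (P.cons (P.lf 0 862990880 0) (P.cons (P.lf 443628831 0 0) (P.cons (P.lf 29659981 0 0) (P.lf 0 9886658 0)))) (P.cons (P.cons (P.lf 69623725 0 0) (P.cons (P.lf 11983047 0 0) (P.cons (P.lf 801152 0 0) (P.lf 0 267051 0)))) (P.cons (P.cons (P.lf 11681541 0 0) (P.cons (P.lf 0 2374873 0) (P.cons (P.lf 0 158766 0) (P.lf 52913 0 0)))) (P.cons (P.cons (P.lf 0 239477 0) (P.cons (P.lf 0 75955 0) (P.cons (P.lf 0 5069 0) P.nil))) (P.cons (P.cons (P.lf 0 23151 0) (P.cons (P.lf 2678 0 0) P.nil)) (P.cons (P.cons (P.lf 136 0 0) P.nil) P.nil)))))) 4809)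
 (EL.cons 5 (TM.mk (P.cons (P.cons (P.lf 1874077168 0 0) (P.cons (P.lf 0 873145154 0) (P.cons (P.lf 0 58376452 0) (P.lf 19458814 0 0)))) (P.cons (P.cons (P.lf 0 56771160 0) (P.cons (P.lf 0 9335948 0) (P.cons (P.lf 0 624184 0) (P.lf 208066 0 0)))) (P.cons (P.cons (P.lf 0 3755072 0) (P.cons (P.lf 1154306 0 0) (P.cons (P.lf 77170 0 0) (P.lf 0 25722 0)))) (P.cons (P.cons (P.lf 292596 0 0) (P.cons (P.lf 0 17646 0) (P.cons (P.lf 0 1174 0) P.nil))) (P.cons (P.cons (P.lf 705 0 0) (P.cons (P.lf 0 1826 0) P.nil)) (P.cons (P.cons (P.lf 0 387 0) P.nil) P.nil)))))) 5850)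
 (EL.cons 9 (TM.mk (P.cons (P.cons (P.lf 2129751286 0 0) (P.cons (P.lf 0 931568592 0) (P.cons (P.lf 0 62282502 0) (P.lf 20760834 0 0)))) (P.cons (P.cons (P.lf 66931927 0 0) (P.cons (P.lf 0 40802502 0) (P.cons (P.lf 0 2727960 0) (P.lf 909318 0 0)))) (P.cons (P.cons (P.lf 0 7985554 0) (P.cons (P.lf 433470 0 0) (P.cons (P.lf 28974 0 0) (P.lf 0 9654 0)))) (P.cons (P.cons (P.lf 0 67272 0) (P.cons (P.lf 43254 0 0) (P.cons (P.lf 2886 0 0) P.nil))) (P.cons (P.cons (P.lf 5899 0 0) (P.cons (P.lf 192 0 0) P.nil)) (P.cons (P.cons (P.lf 75 0 0) P.nil) P.nil)))))) 1642)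
 (EL.cons 2 (TM.mk (P.cons (P.cons (P.lf 899618270 0 0) (P.cons (P.lf 139283499 0 0) (P.cons (P.lf 0 67102396 0) (P.cons (P.lf 0 2539350 0) (P.lf 634837 0 0))))) (P.cons (P.cons (P.lf 0 25309791 0) (P.cons (P.lf 0 3918591 0) (P.cons (P.lf 1887854 0 0) (P.cons (P.lf 71440 0 0) (P.lf 0 17859 0))))) (P.cons (P.cons (P.lf 0 2531030 0) (P.cons (P.lf 0 391865 0) (P.cons (P.lf 188786 0 0) (P.cons (P.lf 7140 0 0) P.nil)))) (P.cons (P.cons (P.lf 0 1639 0) (P.cons (P.lf 0 253 0) (P.cons (P.lf 120 0 0) P.nil))) (P.cons (P.cons (P.lf 1875 0 0) (P.cons (P.lf 289 0 0) P.nil)) (P.cons (P.cons (P.lf 16 0 0) P.nil) P.nil)))))) 2406)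
 (EL.cons 6 (TM.mk (P.cons (P.cons (P.lf 1063021197 0 0) (P.cons (P.lf 164582376 0 0) (P.cons (P.lf 0 79290597 0) (P.cons (P.lf 0 3000588 0) (P.lf 750144 0 0))))) (P.cons (P.cons (P.lf 46560099 0 0) (P.cons (P.lf 7208670 0 0) (P.cons (P.lf 0 3472908 0) (P.cons (P.lf 0 131424 0) (P.lf 32853 0 0))))) (P.cons (P.cons (P.lf 0 494640 0) (P.cons (P.lf 0 76581 0) (P.cons (P.lf 36894 0 0) (P.cons (P.lf 1395 0 0) P.nil)))) (P.cons (P.cons (P.lf 0 49365 0) (P.cons (P.lf 0 7641 0) (P.cons (P.lf 3681 0 0) P.nil))) (P.cons (P.cons (P.lf 0 225 0) (P.cons (P.lf 0 33 0) P.nil)) (P.cons (P.cons (P.lf 21 0 0) P.nil) P.nil)))))) 1452)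
 EL.nil))))))
noncomputable def S198_205_364_512_2 : EL := (EL.cons 0 (TM.mk (P.cons (P.cons (P.lf 213366048 0 0) (P.cons (P.lf 0 87338366 0) (P.cons (P.lf 0 8459080 0) (P.cons (P.lf 1596113 0 0) (P.cons (P.lf 105049 0 0) (P.cons (P.lf 7796 0 0) P.nil)))))) (P.cons (P.cons (P.lf 213136016 0 0) (P.cons (P.lf 0 140966336 0) (P.cons (P.lf 10919262 0 0) (P.cons (P.lf 5861840 0 0) (P.cons (P.lf 0 815822 0) P.nil))))) (P.cons (P.cons (P.lf 0 1404008 0) (P.cons (P.lf 0 3521817 0) (P.cons (P.lf 1195411 0 0) (P.cons (P.lf 269804 0 0) P.nil)))) (P.cons (P.cons (P.lf 0 1586561 0) (P.cons (P.lf 668458 0 0) (P.cons (P.lf 17360 0 0) P.nil))) (P.cons (P.cons (P.lf 11084 0 0) (P.cons (P.lf 22415 0 0) P.nil)) (P.cons (P.cons (P.lf 4029 0 0) P.nil) P.nil)))))) 409557)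
 (EL.cons 1 (TM.mk (P.cons (P.cons (P.lf 0 412276998 0) (P.cons (P.lf 404401984 0 0) (P.cons (P.lf 0 70972042 0) (P.cons (P.lf 0 22117813 0) (P.cons (P.lf 3930356 0 0) (P.cons (P.lf 292061 0 0) P.nil)))))) (P.cons (P.cons (P.lf 31286024 0 0) (P.cons (P.lf 3437245 0 0) (P.cons (P.lf 0 7496153 0) (P.cons (P.lf 0 1109679 0) (P.cons (P.lf 309817 0 0) P.nil))))) (P.cons (P.cons (P.lf 9565195 0 0) (P.cons (P.lf 0 5706800 0) (P.cons (P.lf 74563 0 0) (P.cons (P.lf 188156 0 0) P.nil)))) (P.cons (P.cons (P.lf 0 89223 0) (P.cons (P.lf 0 183762 0) (P.cons (P.lf 37615 0 0) P.nil))) (P.cons (P.cons (P.lf 0 45294 0) (P.cons (P.lf 16105 0 0) P.nil)) (P.cons (P.cons (P.lf 104 0 0) P.nil) P.nil)))))) 192867)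
 (EL.cons 5 (TM.mk (P.cons (P.cons (P.lf 722065644 0 0) (P.cons (P.lf 0 666986287 0) (P.cons (P.lf 109002190 0 0) (P.cons (P.lf 35402428 0 0) (P.cons (P.lf 0 6159444 0) (P.cons (P.lf 0 457702 0) P.nil)))))) (P.cons (P.cons (P.lf 0 25628470 0) (P.cons (P.lf 0 2390022 0) (P.cons (P.lf 5980091 0 0) (P.cons (P.lf 874264 0 0) (P.cons (P.lf 0 246235 0) P.nil))))) (P.cons (P.cons (P.lf 0 4696417 0) (P.cons (P.lf 3233475 0 0) (P.cons (P.lf 0 141765 0) (P.cons (P.lf 0 119910 0) P.nil)))) (P.cons (P.cons (P.lf 325636 0 0) (P.cons (P.lf 0 58360 0) (P.cons (P.lf 0 14581 0) P.nil))) (P.cons (P.cons (P.lf 10126 0 0) (P.cons (P.lf 0 8991 0) P.nil)) (P.cons (P.cons (P.lf 0 1034 0) P.nil) P.nil)))))) 273238)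
 (EL.cons 9 (TM.mk (P.cons (P.cons (P.lf 704055114 0 0) (P.cons (P.lf 0 615917583 0) (P.cons (P.lf 93524586 0 0) (P.cons (P.lf 31738180 0 0) (P.cons (P.lf 0 5401852 0) (P.cons (P.lf 0 401410 0) P.nil)))))) (P.cons (P.cons (P.lf 44252833 0 0) (P.cons (P.lf 0 46333564 0) (P.cons (P.lf 8702205 0 0) (P.cons (P.lf 2610418 0 0) (P.cons (P.lf 0 473199 0) P.nil))))) (P.cons (P.cons (P.lf 0 4584373 0) (P.cons (P.lf 1748179 0 0) (P.cons (P.lf 249933 0 0) (P.cons (P.lf 0 21160 0) P.nil)))) (P.cons (P.cons (P.lf 0 210403 0) (P.cons (P.lf 158209 0 0) (P.cons (P.lf 0 7425 0) P.nil))) (P.cons (P.cons (P.lf 12400 0 0) (P.cons (P.lf 0 901 0) P.nil)) (P.cons (P.cons (P.lf 337 0 0) P.nil) P.nil)))))) 137092)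
 (EL.cons 2 (TM.mk (P.cons (P.cons (P.lf 594793248 0 0) (P.cons (P.lf 0 168077930 0) (P.cons (P.lf 0 102040053 0) (P.cons (P.lf 20831883 0 0) (P.cons (P.lf 3349209 0 0) (P.cons (P.lf 0 566966 0) P.nil)))))) (P.cons (P.cons (P.lf 1958760 0 0) (P.cons (P.lf 0 3772468 0) (P.cons (P.lf 0 1049619 0) (P.cons (P.lf 347118 0 0) (P.cons (P.lf 47272 0 0) P.nil))))) (P.cons (P.cons (P.lf 0 4429507 0) (P.cons (P.lf 487816 0 0) (P.cons (P.lf 590563 0 0) (P.cons (P.lf 0 89038 0) P.nil)))) (P.cons (P.cons (P.lf 0 9714 0) (P.cons (P.lf 39701 0 0) (P.cons (P.lf 9855 0 0) P.nil))) (P.cons (P.cons (P.lf 9652 0 0) (P.cons (P.lf 343 0 0) P.nil)) (P.cons (P.cons (P.lf 78 0 0) P.nil) P.nil)))))) 90899)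
 (EL.cons 6 (TM.mk (P.cons (P.cons (P.lf 702829020 0 0) (P.cons (P.lf 0 198606906 0) (P.cons (P.lf 0 120574182 0) (P.cons (P.lf 24615696 0 0) (P.cons (P.lf 3957546 0 0) (P.cons (P.lf 0 669948 0) P.nil)))))) (P.cons (P.cons (P.lf 52871640 0 0) (P.cons (P.lf 0 18744216 0) (P.cons (P.lf 0 9913614 0) (P.cons (P.lf 2180868 0 0) (P.cons (P.lf 340542 0 0) P.nil))))) (P.cons (P.cons (P.lf 0 1994862 0) (P.cons (P.lf 0 612522 0) (P.cons (P.lf 81474 0 0) (P.cons (P.lf 31902 0 0) P.nil)))) (P.cons (P.cons (P.lf 0 180534 0) (P.cons (P.lf 13122 0 0) (P.cons (P.lf 22566 0 0) P.nil))) (P.cons (P.cons (P.lf 1020 0 0) (P.cons (P.lf 1470 0 0) P.nil)) (P.cons (P.cons (P.lf 252 0 0) P.nil) P.nil)))))) 135774)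
 EL.nil))))))
noncomputable def S198_205_364_512_3 : EL := (EL.cons 0 (TM.mk (P.cons (P.lf 1225859435 0 0) (P.cons (P.lf 0 140566317 0) (P.cons (P.lf 2519476 0 0) (P.cons (P.lf 107263 0 0) (P.cons (P.lf 0 249 0) (P.cons (P.lf 0 38 0) P.nil)))))) 84)
 (EL.cons 1 (TM.mk (P.cons (P.lf 1448519452 0 0) (P.cons (P.lf 0 61900818 0) (P.cons (P.lf 0 2638155 0) (P.cons (P.lf 21427 0 0) (P.cons (P.lf 1321 0 0) (P.cons (P.lf 1 0 0) P.nil)))))) 93)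
 (EL.cons 5 (TM.mk (P.cons (P.lf 1711622512 0 0) (P.cons (P.lf 49979134 0 0) (P.cons (P.lf 0 895810 0) (P.cons (P.lf 0 38136 0) (P.cons (P.lf 84 0 0) (P.cons (P.lf 14 0 0) P.nil)))))) 96)
 EL.nil)))
noncomputable def S198_205_364_512_4 : EL := (EL.cons 0 (TM.mk (P.cons (P.cons (P.lf 405245724 0 0) (P.cons (P.lf 0 177257406 0) (P.cons (P.lf 0 11851015 0) (P.lf 3950337 0 0)))) (P.cons (P.cons (P.lf 0 33732838 0) (P.cons (P.lf 12561837 0 0) (P.cons (P.lf 839854 0 0) (P.lf 0 279950 0)))) (P.cons (P.cons (P.lf 0 2146958 0) (P.cons (P.lf 608426 0 0) (P.cons (P.lf 40675 0 0) (P.lf 0 13558 0)))) (P.cons (P.cons (P.lf 223068 0 0) (P.cons (P.lf 0 32693 0) (P.cons (P.lf 0 2186 0) P.nil))) (P.cons (P.cons (P.lf 499 0 0) (P.cons (P.lf 0 1379 0) P.nil)) (P.cons (P.cons (P.lf 0 288 0) P.nil) P.nil)))))) 1534)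
 (EL.cons 1 (TM.mk (P.cons (P.cons (P.lf 478852875 0 0) (P.cons (P.lf 0 209453705 0) (P.cons (P.lf 0 14003583 0) (P.lf 4667861 0 0)))) (P.cons (P.cons (P.lf 0 5414265 0) (P.cons (P.lf 0 223261 0) (P.cons (P.lf 0 14925 0) (P.lf 4974 0 0)))) (P.cons (P.cons (P.lf 0 3310693 0) (P.cons (P.lf 870975 0 0) (P.cons (P.lf 58228 0 0) (P.lf 0 19408 0)))) (P.cons (P.cons (P.lf 41276 0 0) (P.cons (P.lf 19168 0 0) (P.cons (P.lf 1278 0 0) P.nil))) (P.cons (P.cons (P.lf 5900 0 0) (P.cons (P.lf 0 875 0) P.nil)) (P.cons (P.cons (P.lf 0 22 0) P.nil) P.nil)))))) 1211)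
 (EL.cons 5 (TM.mk (P.cons (P.cons (P.lf 565829724 0 0) (P.cons (P.lf 0 247498006 0) (P.cons (P.lf 0 16547138 0) (P.lf 5515712 0 0)))) (P.cons (P.cons (P.lf 34304540 0 0) (P.cons (P.lf 0 18067264 0) (P.cons (P.lf 0 1207934 0) (P.lf 402644 0 0)))) (P.cons (P.cons (P.lf 0 1898486 0) (P.cons (P.lf 0 71840 0) (P.cons (P.lf 0 4804 0) (P.lf 1602 0 0)))) (P.cons (P.cons (P.lf 0 101736 0) (P.cons (P.lf 26040 0 0) (P.cons (P.lf 1738 0 0) P.nil))) (P.cons (P.cons (P.lf 1786 0 0) (P.cons (P.lf 554 0 0) P.nil)) (P.cons (P.cons (P.lf 126 0 0) P.nil) P.nil)))))) 938)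
 EL.nil)))
noncomputable def S198_205_364_512_5 : EL := (EL.cons 0 (TM.mk (P.cons (P.cons (P.lf 133966499 0 0) (P.cons (P.lf 0 117195829 0) (P.cons (P.lf 17795710 0 0) (P.cons (P.lf 6039089 0 0) (P.cons (P.lf 0 1027854 0) (P.cons (P.lf 0 76378 0) P.nil)))))) (P.cons (P.cons (P.lf 0 6941251 0) (P.cons (P.lf 4622282 0 0) (P.cons (P.lf 0 384748 0) (P.cons (P.lf 0 195779 0) (P.cons (P.lf 27820 0 0) P.nil))))) (P.cons (P.cons (P.lf 0 1562510 0) (P.cons (P.lf 1102710 0 0) (P.cons (P.lf 0 105737 0) (P.cons (P.lf 0 48570 0) P.nil)))) (P.cons (P.cons (P.lf 89017 0 0) (P.cons (P.lf 0 36413 0) (P.cons (P.lf 0 1905 0) P.nil))) (P.cons (P.cons (P.lf 5865 0 0) (P.cons (P.lf 0 3686 0) P.nil)) (P.cons (P.cons (P.lf 0 369 0) P.nil) P.nil)))))) 53466)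
 (EL.cons 1 (TM.mk (P.cons (P.cons (P.lf 158299618 0 0) (P.cons (P.lf 0 138482791 0) (P.cons (P.lf 21028050 0 0) (P.cons (P.lf 7136004 0 0) (P.cons (P.lf 0 1214550 0) (P.cons (P.lf 0 90251 0) P.nil)))))) (P.cons (P.cons (P.lf 3185043 0 0) (P.cons (P.lf 0 4499726 0) (P.cons (P.lf 1057991 0 0) (P.cons (P.lf 281975 0 0) (P.cons (P.lf 0 54491 0) P.nil))))) (P.cons (P.cons (P.lf 0 1744248 0) (P.cons (P.lf 1090460 0 0) (P.cons (P.lf 0 65715 0) (P.cons (P.lf 0 42834 0) P.nil)))) (P.cons (P.cons (P.lf 0 19038 0) (P.cons (P.lf 35698 0 0) (P.cons (P.lf 0 7321 0) P.nil))) (P.cons (P.cons (P.lf 6976 0 0) (P.cons (P.lf 0 2716 0) P.nil)) (P.cons (P.cons (P.lf 37 0 0) P.nil) P.nil)))))) 49724)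
 (EL.cons 5 (TM.mk (P.cons (P.cons (P.lf 187052502 0 0) (P.cons (P.lf 0 163636232 0) (P.cons (P.lf 24847496 0 0) (P.cons (P.lf 8432160 0 0) (P.cons (P.lf 0 1435156 0) (P.cons (P.lf 0 106644 0) P.nil)))))) (P.cons (P.cons (P.lf 17218944 0 0) (P.cons (P.lf 0 17087998 0) (P.cons (P.lf 3037534 0 0) (P.cons (P.lf 939750 0 0) (P.cons (P.lf 0 167624 0) P.nil))))) (P.cons (P.cons (P.lf 0 972564 0) (P.cons (P.lf 190648 0 0) (P.cons (P.lf 120906 0 0) (P.cons (P.lf 10214 0 0) P.nil)))) (P.cons (P.cons (P.lf 0 101784 0) (P.cons (P.lf 65682 0 0) (P.cons (P.lf 0 1796 0) P.nil))) (P.cons (P.cons (P.lf 2046 0 0) (P.cons (P.lf 1010 0 0) P.nil)) (P.cons (P.cons (P.lf 244 0 0) P.nil) P.nil)))))) 46986)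
 EL.nil)))
noncomputable def S198_205_364_512_6 : EL := (EL.cons 12 (TM.mk (P.lf 8589934592 0 0) 0)
 (EL.cons 3 (TM.mk (P.cons (P.lf 0 1622502108 0) (P.cons (P.lf 93024183 0 0) (P.cons (P.lf 999371 0 0) (P.cons (P.lf 0 13687 0) (P.cons (P.lf 0 311 0) (P.cons (P.lf 0 0 0) P.nil)))))) 48)
 (EL.cons 7 (TM.mk (P.cons (P.lf 0 1917206655 0) (P.cons (P.lf 0 27991081 0) (P.cons (P.lf 706038 0 0) (P.cons (P.lf 11051 0 0) (P.cons (P.lf 0 79 0) (P.cons (P.lf 0 3 0) P.nil)))))) 46)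
 EL.nil)))
noncomputable def S198_205_364_512_7 : EL := (EL.cons 12 (TM.mk (P.cons (P.cons (P.lf 2839668382 0 0) (P.cons (P.lf 0 1242091456 0) (P.cons (P.lf 0 83043336 0) (P.lf 27681112 0 0)))) (P.cons (P.cons (P.lf 89242570 0 0) (P.cons (P.lf 0 54403336 0) (P.cons (P.lf 0 3637280 0) (P.lf 1212424 0 0)))) (P.cons (P.cons (P.lf 0 10647406 0) (P.cons (P.lf 577960 0 0) (P.cons (P.lf 38632 0 0) (P.lf 0 12872 0)))) (P.cons (P.cons (P.lf 0 89696 0) (P.cons (P.lf 57672 0 0) (P.cons (P.lf 3848 0 0) P.nil))) (P.cons (P.cons (P.lf 7866 0 0) (P.cons (P.lf 256 0 0) P.nil)) (P.cons (P.cons (P.lf 100 0 0) P.nil) P.nil)))))) 2164)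
 (EL.cons 3 (TM.mk (P.cons (P.cons (P.lf 618192436 0 0) (P.cons (P.lf 0 469222664 0) (P.cons (P.lf 0 31371130 0) (P.lf 10457042 0 0)))) (P.cons (P.cons (P.lf 0 252697136 0) (P.cons (P.lf 6350458 0 0) (P.cons (P.lf 424576 0 0) (P.lf 0 141524 0)))) (P.cons (P.cons (P.lf 0 2584733 0) (P.cons (P.lf 1685664 0 0) (P.cons (P.lf 112694 0 0) (P.lf 0 37560 0)))) (P.cons (P.cons (P.lf 356628 0 0) (P.cons (P.lf 17968 0 0) (P.cons (P.lf 1198 0 0) P.nil))) (P.cons (P.cons (P.lf 7484 0 0) (P.cons (P.lf 0 1548 0) P.nil)) (P.cons (P.cons (P.lf 0 201 0) P.nil) P.nil)))))) 3773)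
 (EL.cons 7 (TM.mk (P.cons (P.cons (P.lf 0 981200527 0) (P.cons (P.lf 489009609 0 0) (P.cons (P.lf 32694048 0 0) (P.lf 0 10898016 0)))) (P.cons (P.cons (P.lf 76036851 0 0) (P.cons (P.lf 0 1910859 0) (P.cons (P.lf 0 127754 0) (P.lf 42584 0 0)))) (P.cons (P.cons (P.lf 0 1957053 0) (P.cons (P.lf 0 438496 0) (P.cons (P.lf 0 29320 0) (P.lf 9774 0 0)))) (P.cons (P.cons (P.lf 0 124263 0) (P.cons (P.lf 18401 0 0) (P.cons (P.lf 1226 0 0) P.nil))) (P.cons (P.cons (P.lf 3388 0 0) (P.cons (P.lf 563 0 0) P.nil)) (P.cons (P.cons (P.lf 131 0 0) P.nil) P.nil)))))) 3839)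
 (EL.cons 10 (TM.mk (P.cons (P.cons (P.lf 0 2381402793 0) (P.cons (P.lf 0 368700954 0) (P.cons (P.lf 177628491 0 0) (P.cons (P.lf 6721983 0 0) (P.lf 0 1680495 0))))) (P.cons (P.cons (P.lf 0 69536622 0) (P.cons (P.lf 0 10766013 0) (P.cons (P.lf 5186724 0 0) (P.cons (P.lf 196281 0 0) (P.lf 0 49068 0))))) (P.cons (P.cons (P.lf 1246350 0 0) (P.cons (P.lf 192966 0 0) (P.cons (P.lf 0 92964 0) (P.cons (P.lf 0 3516 0) P.nil)))) (P.cons (P.cons (P.lf 53058 0 0) (P.cons (P.lf 8214 0 0) (P.cons (P.lf 0 3957 0) P.nil))) (P.cons (P.cons (P.lf 0 114 0) (P.cons (P.lf 0 18 0) P.nil)) (P.cons (P.cons (P.lf 0 18 0) P.nil) P.nil)))))) 1353)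
 EL.nil))))
noncomputable def S198_205_364_512_8 : EL := (EL.cons 12 (TM.mk (P.cons (P.cons (P.lf 938740152 0 0) (P.cons (P.lf 0 821223444 0) (P.cons (P.lf 124699448 0 0) (P.cons (P.lf 42317574 0 0) (P.cons (P.lf 0 7202470 0) (P.cons (P.lf 0 535214 0) P.nil)))))) (P.cons (P.cons (P.lf 59003778 0 0) (P.cons (P.lf 0 61778086 0) (P.cons (P.lf 11602940 0 0) (P.cons (P.lf 3480558 0 0) (P.cons (P.lf 0 630932 0) P.nil))))) (P.cons (P.cons (P.lf 0 6112498 0) (P.cons (P.lf 2330906 0 0) (P.cons (P.lf 333244 0 0) (P.cons (P.lf 0 28214 0) P.nil)))) (P.cons (P.cons (P.lf 0 280538 0) (P.cons (P.lf 210946 0 0) (P.cons (P.lf 0 9900 0) P.nil))) (P.cons (P.cons (P.lf 16534 0 0) (P.cons (P.lf 0 1202 0) P.nil)) (P.cons (P.cons (P.lf 450 0 0) P.nil) P.nil)))))) 182760)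
 (EL.cons 3 (TM.mk (P.cons (P.cons (P.lf 586038323 0 0) (P.cons (P.lf 0 644127530 0) (P.cons (P.lf 126557341 0 0) (P.cons (P.lf 37036038 0 0) (P.cons (P.lf 0 6802161 0) (P.cons (P.lf 0 505466 0) P.nil)))))) (P.cons (P.cons (P.lf 0 153249796 0) (P.cons (P.lf 56922214 0 0) (P.cons (P.lf 8939433 0 0) (P.cons (P.lf 0 582095 0) (P.cons (P.lf 0 205870 0) P.nil))))) (P.cons (P.cons (P.lf 0 10394842 0) (P.cons (P.lf 7646047 0 0) (P.cons (P.lf 0 277648 0) (P.cons (P.lf 0 275864 0) P.nil)))) (P.cons (P.cons (P.lf 803454 0 0) (P.cons (P.lf 0 34652 0) (P.cons (P.lf 0 42312 0) P.nil))) (P.cons (P.cons (P.lf 32175 0 0) (P.cons (P.lf 0 19116 0) P.nil)) (P.cons (P.cons (P.lf 0 1324 0) P.nil) P.nil)))))) 267468)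
 (EL.cons 7 (TM.mk (P.cons (P.cons (P.lf 0 439212809 0) (P.cons (P.lf 423783993 0 0) (P.cons (P.lf 0 73000535 0) (P.cons (P.lf 0 22994279 0) (P.cons (P.lf 4063665 0 0) (P.cons (P.lf 301969 0 0) P.nil)))))) (P.cons (P.cons (P.lf 46113034 0 0) (P.cons (P.lf 0 17127955 0) (P.cons (P.lf 0 2689886 0) (P.cons (P.lf 175153 0 0) (P.cons (P.lf 61953 0 0) P.nil))))) (P.cons (P.cons (P.lf 1469279 0 0) (P.cons (P.lf 0 1684667 0) (P.cons (P.lf 180285 0 0) (P.cons (P.lf 76710 0 0) P.nil)))) (P.cons (P.cons (P.lf 0 379417 0) (P.cons (P.lf 116171 0 0) (P.cons (P.lf 7997 0 0) P.nil))) (P.cons (P.cons (P.lf 4331 0 0) (P.cons (P.lf 4369 0 0) P.nil)) (P.cons (P.cons (P.lf 804 0 0) P.nil) P.nil)))))) 137496)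
 (EL.cons 10 (TM.mk (P.cons (P.cons (P.lf 0 1574492592 0) (P.cons (P.lf 444923436 0 0) (P.cons (P.lf 270112866 0 0) (P.cons (P.lf 0 55144620 0) (P.cons (P.lf 0 8865786 0) (P.cons (P.lf 1500840 0 0) P.nil)))))) (P.cons (P.cons (P.lf 0 95456706 0) (P.cons (P.lf 35495346 0 0) (P.cons (P.lf 18265074 0 0) (P.cons (P.lf 0 4080522 0) (P.cons (P.lf 0 633450 0) P.nil))))) (P.cons (P.cons (P.lf 5282772 0 0) (P.cons (P.lf 1017810 0 0) (P.cons (P.lf 0 349716 0) (P.cons (P.lf 0 32208 0) P.nil)))) (P.cons (P.cons (P.lf 283092 0 0) (P.cons (P.lf 0 28632 0) (P.cons (P.lf 0 37170 0) P.nil))) (P.cons (P.cons (P.lf 0 4968 0) (P.cons (P.lf 0 2316 0) P.nil)) (P.cons (P.cons (P.lf 0 354 0) P.nil) P.nil)))))) 261426)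
 EL.nil))))
noncomputable def S198_205_364_512_9 : EL := (EL.cons 3 (TM.mk (P.cons (P.lf 0 1622502108 0) (P.cons (P.lf 93024183 0 0) (P.cons (P.lf 999371 0 0) (P.cons (P.lf 0 13687 0) (P.cons (P.lf 0 311 0) (P.cons (P.lf 0 0 0) P.nil)))))) 48)
 (EL.cons 7 (TM.mk (P.cons (P.lf 0 1917206655 0) (P.cons (P.lf 0 27991081 0) (P.cons (P.lf 706038 0 0) (P.cons (P.lf 11051 0 0) (P.cons (P.lf 0 79 0) (P.cons (P.lf 0 3 0) P.nil)))))) 46)
 EL.nil))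
noncomputable def S198_205_364_512_10 : EL := (EL.cons 3 (TM.mk (P.cons (P.cons (P.lf 0 536368220 0) (P.cons (P.lf 234611332 0 0) (P.cons (P.lf 15685565 0 0) (P.lf 0 5228521 0)))) (P.cons (P.cons (P.lf 13895515 0 0) (P.cons (P.lf 0 3175229 0) (P.cons (P.lf 0 212288 0) (P.lf 70762 0 0)))) (P.cons (P.cons (P.lf 3307945 0 0) (P.cons (P.lf 0 842832 0) (P.cons (P.lf 0 56347 0) (P.lf 18780 0 0)))) (P.cons (P.cons (P.lf 0 92505 0) (P.cons (P.lf 0 8984 0) (P.cons (P.lf 0 599 0) P.nil))) (P.cons (P.cons (P.lf 0 3940 0) (P.cons (P.lf 774 0 0) P.nil)) (P.cons (P.cons (P.lf 69 0 0) P.nil) P.nil)))))) 889)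
 (EL.cons 7 (TM.mk (P.cons (P.cons (P.lf 0 633791917 0) (P.cons (P.lf 277225161 0 0) (P.cons (P.lf 18534627 0 0) (P.lf 0 6178209 0)))) (P.cons (P.cons (P.lf 0 29171565 0) (P.cons (P.lf 16189869 0 0) (P.cons (P.lf 1082416 0 0) (P.lf 0 360805 0)))) (P.cons (P.cons (P.lf 2319015 0 0) (P.cons (P.lf 0 53809 0) (P.cons (P.lf 0 3595 0) (P.lf 1197 0 0)))) (P.cons (P.cons (P.lf 65703 0 0) (P.cons (P.lf 0 20824 0) (P.cons (P.lf 0 1390 0) P.nil))) (P.cons (P.cons (P.lf 0 2249 0) (P.cons (P.lf 0 256 0) P.nil)) (P.cons (P.cons (P.lf 0 70 0) P.nil) P.nil)))))) 742)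
 EL.nil))
noncomputable def S198_205_364_512_11 : EL := (EL.cons 3 (TM.mk (P.cons (P.cons (P.lf 0 177313093 0) (P.cons (P.lf 155116054 0 0) (P.cons (P.lf 0 23553743 0) (P.cons (P.lf 0 7993116 0) (P.cons (P.lf 1360431 0 0) (P.cons (P.lf 101092 0 0) P.nil)))))) (P.cons (P.cons (P.lf 0 978844 0) (P.cons (P.lf 2775508 0 0) (P.cons (P.lf 0 841185 0) (P.cons (P.lf 0 199145 0) (P.cons (P.lf 41174 0 0) P.nil))))) (P.cons (P.cons (P.lf 1902746 0 0) (P.cons (P.lf 0 1204835 0) (P.cons (P.lf 77216 0 0) (P.cons (P.lf 47944 0 0) P.nil)))) (P.cons (P.cons (P.lf 0 7836 0) (P.cons (P.lf 0 20480 0) (P.cons (P.lf 6630 0 0) P.nil))) (P.cons (P.cons (P.lf 0 6999 0) (P.cons (P.lf 2910 0 0) P.nil)) (P.cons (P.cons (P.lf 68 0 0) P.nil) P.nil)))))) 51200)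
 (EL.cons 7 (TM.mk (P.cons (P.cons (P.lf 0 209519507 0) (P.cons (P.lf 183290691 0 0) (P.cons (P.lf 0 27831947 0) (P.cons (P.lf 0 9444953 0) (P.cons (P.lf 1607535 0 0) (P.cons (P.lf 119455 0 0) P.nil)))))) (P.cons (P.cons (P.lf 0 16228154 0) (P.cons (P.lf 16464419 0 0) (P.cons (P.lf 0 2996030 0) (P.cons (P.lf 0 914729 0) (P.cons (P.lf 164289 0 0) P.nil))))) (P.cons (P.cons (P.lf 1249151 0 0) (P.cons (P.lf 0 386429 0) (P.cons (P.lf 0 101937 0) (P.cons (P.lf 0 1566 0) P.nil)))) (P.cons (P.cons (P.lf 88589 0 0) (P.cons (P.lf 0 60811 0) (P.cons (P.lf 2237 0 0) P.nil))) (P.cons (P.cons (P.lf 0 3211 0) (P.cons (P.lf 0 299 0) P.nil)) (P.cons (P.cons (P.lf 0 186 0) P.nil) P.nil)))))) 46478)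
 EL.nil))
noncomputable def S198_205_364_512_12 : EL := (EL.cons 4 (TM.mk (P.cons (P.lf 1622502108 0 0) (P.cons (P.lf 0 93024183 0) (P.cons (P.lf 0 999371 0) (P.cons (P.lf 13687 0 0) (P.cons (P.lf 311 0 0) (P.cons (P.lf 0 0 0) P.nil)))))) 48)
 (EL.cons 8 (TM.mk (P.cons (P.lf 1917206655 0 0) (P.cons (P.lf 27991081 0 0) (P.cons (P.lf 0 706038 0) (P.cons (P.lf 0 11051 0) (P.cons (P.lf 79 0 0) (P.cons (P.lf 3 0 0) P.nil)))))) 46)
 EL.nil))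
noncomputable def S198_205_364_512_13 : EL := (EL.cons 4 (TM.mk (P.cons (P.cons (P.lf 536368220 0 0) (P.cons (P.lf 0 234611332 0) (P.cons (P.lf 0 15685565 0) (P.lf 5228521 0 0)))) (P.cons (P.cons (P.lf 0 13895515 0) (P.cons (P.lf 3175229 0 0) (P.cons (P.lf 212288 0 0) (P.lf 0 70762 0)))) (P.cons (P.cons (P.lf 0 3307945 0) (P.cons (P.lf 842832 0 0) (P.cons (P.lf 56347 0 0) (P.lf 0 18780 0)))) (P.cons (P.cons (P.lf 92505 0 0) (P.cons (P.lf 8984 0 0) (P.cons (P.lf 599 0 0) P.nil))) (P.cons (P.cons (P.lf 3940 0 0) (P.cons (P.lf 0 774 0) P.nil)) (P.cons (P.cons (P.lf 0 69 0) P.nil) P.nil)))))) 889)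
 (EL.cons 8 (TM.mk (P.cons (P.cons (P.lf 633791917 0 0) (P.cons (P.lf 0 277225161 0) (P.cons (P.lf 0 18534627 0) (P.lf 6178209 0 0)))) (P.cons (P.cons (P.lf 29171565 0 0) (P.cons (P.lf 0 16189869 0) (P.cons (P.lf 0 1082416 0) (P.lf 360805 0 0)))) (P.cons (P.cons (P.lf 0 2319015 0) (P.cons (P.lf 53809 0 0) (P.cons (P.lf 3595 0 0) (P.lf 0 1197 0)))) (P.cons (P.cons (P.lf 0 65703 0) (P.cons (P.lf 20824 0 0) (P.cons (P.lf 1390 0 0) P.nil))) (P.cons (P.cons (P.lf 2249 0 0) (P.cons (P.lf 256 0 0) P.nil)) (P.cons (P.cons (P.lf 70 0 0) P.nil) P.nil)))))) 742)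
 EL.nil))
noncomputable def S198_205_364_512_14 : EL := (EL.cons 4 (TM.mk (P.cons (P.cons (P.lf 177313093 0 0) (P.cons (P.lf 0 155116054 0) (P.cons (P.lf 23553743 0 0) (P.cons (P.lf 7993116 0 0) (P.cons (P.lf 0 1360431 0) (P.cons (P.lf 0 101092 0) P.nil)))))) (P.cons (P.cons (P.lf 978844 0 0) (P.cons (P.lf 0 2775508 0) (P.cons (P.lf 841185 0 0) (P.cons (P.lf 199145 0 0) (P.cons (P.lf 0 41174 0) P.nil))))) (P.cons (P.cons (P.lf 0 1902746 0) (P.cons (P.lf 1204835 0 0) (P.cons (P.lf 0 77216 0) (P.cons (P.lf 0 47944 0) P.nil)))) (P.cons (P.cons (P.lf 7836 0 0) (P.cons (P.lf 20480 0 0) (P.cons (P.lf 0 6630 0) P.nil))) (P.cons (P.cons (P.lf 6999 0 0) (P.cons (P.lf 0 2910 0) P.nil)) (P.cons (P.cons (P.lf 0 68 0) P.nil) P.nil)))))) 51200)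
 (EL.cons 8 (TM.mk (P.cons (P.cons (P.lf 209519507 0 0) (P.cons (P.lf 0 183290691 0) (P.cons (P.lf 27831947 0 0) (P.cons (P.lf 9444953 0 0) (P.cons (P.lf 0 1607535 0) (P.cons (P.lf 0 119455 0) P.nil)))))) (P.cons (P.cons (P.lf 16228154 0 0) (P.cons (P.lf 0 16464419 0) (P.cons (P.lf 2996030 0 0) (P.cons (P.lf 914729 0 0) (P.cons (P.lf 0 164289 0) P.nil))))) (P.cons (P.cons (P.lf 0 1249151 0) (P.cons (P.lf 386429 0 0) (P.cons (P.lf 101937 0 0) (P.cons (P.lf 1566 0 0) P.nil)))) (P.cons (P.cons (P.lf 0 88589 0) (P.cons (P.lf 60811 0 0) (P.cons (P.lf 0 2237 0) P.nil))) (P.cons (P.cons (P.lf 3211 0 0) (P.cons (P.lf 299 0 0) P.nil)) (P.cons (P.cons (P.lf 186 0 0) P.nil) P.nil)))))) 46478)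
 EL.nil))
noncomputable def S198_205_364_512_15 : EL := (EL.cons 4 (TM.mk (P.cons (P.lf 0 653791698 0) (P.cons (P.lf 74968702 0 0) (P.cons (P.lf 0 1343720 0) (P.cons (P.lf 0 57207 0) (P.cons (P.lf 133 0 0) (P.cons (P.lf 20 0 0) P.nil)))))) 48)
 (EL.cons 8 (TM.mk (P.cons (P.lf 0 772543708 0) (P.cons (P.lf 33013770 0 0) (P.cons (P.lf 1407016 0 0) (P.cons (P.lf 0 11428 0) (P.cons (P.lf 0 705 0) (P.cons (P.lf 0 1 0) P.nil)))))) 46)
 EL.nil))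
noncomputable def S198_205_364_512_16 : EL := (EL.cons 4 (TM.mk (P.cons (P.cons (P.lf 0 216131053 0) (P.cons (P.lf 94537283 0 0) (P.cons (P.lf 6320541 0 0) (P.lf 0 2106846 0)))) (P.cons (P.cons (P.lf 17990847 0 0) (P.cons (P.lf 0 6699646 0) (P.cons (P.lf 0 447922 0) (P.lf 149307 0 0)))) (P.cons (P.cons (P.lf 1145044 0 0) (P.cons (P.lf 0 324494 0) (P.cons (P.lf 0 21693 0) (P.lf 7230 0 0)))) (P.cons (P.cons (P.lf 0 118969 0) (P.cons (P.lf 17436 0 0) (P.cons (P.lf 1166 0 0) P.nil))) (P.cons (P.cons (P.lf 0 266 0) (P.cons (P.lf 735 0 0) P.nil)) (P.cons (P.cons (P.lf 153 0 0) P.nil) P.nil)))))) 827)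
 (EL.cons 8 (TM.mk (P.cons (P.cons (P.lf 0 255388200 0) (P.cons (P.lf 111708643 0 0) (P.cons (P.lf 7468578 0 0) (P.lf 0 2489526 0)))) (P.cons (P.cons (P.lf 2887608 0 0) (P.cons (P.lf 119073 0 0) (P.cons (P.lf 7960 0 0) (P.lf 0 2653 0)))) (P.cons (P.cons (P.lf 1765703 0 0) (P.cons (P.lf 0 464520 0) (P.cons (P.lf 0 31055 0) (P.lf 10351 0 0)))) (P.cons (P.cons (P.lf 0 22014 0) (P.cons (P.lf 0 10223 0) (P.cons (P.lf 0 682 0) P.nil))) (P.cons (P.cons (P.lf 0 3147 0) (P.cons (P.lf 467 0 0) P.nil)) (P.cons (P.cons (P.lf 12 0 0) P.nil) P.nil)))))) 636)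
 EL.nil))
noncomputable def S198_205_364_512_17 : EL := (EL.cons 4 (TM.mk (P.cons (P.cons (P.lf 0 71448799 0) (P.cons (P.lf 62504442 0 0) (P.cons (P.lf 0 9491045 0) (P.cons (P.lf 0 3220847 0) (P.cons (P.lf 548189 0 0) (P.cons (P.lf 40735 0 0) P.nil)))))) (P.cons (P.cons (P.lf 3702000 0 0) (P.cons (P.lf 0 2465217 0) (P.cons (P.lf 205199 0 0) (P.cons (P.lf 104415 0 0) (P.cons (P.lf 0 14837 0) P.nil))))) (P.cons (P.cons (P.lf 833339 0 0) (P.cons (P.lf 0 588112 0) (P.cons (P.lf 56393 0 0) (P.cons (P.lf 25904 0 0) P.nil)))) (P.cons (P.cons (P.lf 0 47475 0) (P.cons (P.lf 19420 0 0) (P.cons (P.lf 1016 0 0) P.nil))) (P.cons (P.cons (P.lf 0 3128 0) (P.cons (P.lf 1965 0 0) P.nil)) (P.cons (P.cons (P.lf 196 0 0) P.nil) P.nil)))))) 28525)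
 (EL.cons 8 (TM.mk (P.cons (P.cons (P.lf 0 84426463 0) (P.cons (P.lf 73857489 0 0) (P.cons (P.lf 0 11214960 0) (P.cons (P.lf 0 3805869 0) (P.cons (P.lf 647760 0 0) (P.cons (P.lf 48134 0 0) P.nil)))))) (P.cons (P.cons (P.lf 0 1698690 0) (P.cons (P.lf 2399854 0 0) (P.cons (P.lf 0 564262 0) (P.cons (P.lf 0 150387 0) (P.cons (P.lf 29062 0 0) P.nil))))) (P.cons (P.cons (P.lf 930266 0 0) (P.cons (P.lf 0 581579 0) (P.cons (P.lf 35048 0 0) (P.cons (P.lf 22845 0 0) P.nil)))) (P.cons (P.cons (P.lf 10154 0 0) (P.cons (P.lf 0 19039 0) (P.cons (P.lf 3905 0 0) P.nil))) (P.cons (P.cons (P.lf 0 3721 0) (P.cons (P.lf 1449 0 0) P.nil)) (P.cons (P.cons (P.lf 0 20 0) P.nil) P.nil)))))) 26508)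
 EL.nil))
noncomputable def S198_205_364_512_18 : EL := (EL.cons 4 (TM.mk (P.cons (P.lf 263447167 0 0) (P.cons (P.lf 0 45313267 0) (P.cons (P.lf 2111174 0 0) (P.cons (P.lf 12837 0 0) (P.cons (P.lf 0 1912 0) (P.cons (P.lf 0 20 0) P.nil)))))) 38)
 (EL.cons 8 (TM.mk (P.cons (P.lf 311298617 0 0) (P.cons (P.lf 0 31150916 0) (P.cons (P.lf 4006 0 0) (P.cons (P.lf 47931 0 0) (P.cons (P.lf 317 0 0) (P.cons (P.lf 0 25 0) P.nil)))))) 35)
 EL.nil))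
noncomputable def S198_205_364_512_19 : EL := (EL.cons 4 (TM.mk (P.cons (P.cons (P.lf 87090603 0 0) (P.cons (P.lf 0 38094059 0) (P.cons (P.lf 0 2546879 0) (P.lf 848959 0 0)))) (P.cons (P.cons (P.lf 0 12242694 0) (P.cons (P.lf 4883717 0 0) (P.cons (P.lf 326513 0 0) (P.lf 0 108837 0)))) (P.cons (P.cons (P.lf 0 99403 0) (P.cons (P.lf 0 560 0) (P.cons (P.lf 0 37 0) (P.lf 12 0 0)))) (P.cons (P.cons (P.lf 79592 0 0) (P.cons (P.lf 0 16506 0) (P.cons (P.lf 0 1103 0) P.nil))) (P.cons (P.cons (P.lf 0 2400 0) (P.cons (P.lf 40 0 0) P.nil)) (P.cons (P.cons (P.lf 0 102 0) P.nil) P.nil)))))) 642)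
 (EL.cons 8 (TM.mk (P.cons (P.cons (P.lf 102909379 0 0) (P.cons (P.lf 0 45013305 0) (P.cons (P.lf 0 3009484 0) (P.lf 1003161 0 0)))) (P.cons (P.cons (P.lf 0 7063753 0) (P.cons (P.lf 2532801 0 0) (P.cons (P.lf 169337 0 0) (P.lf 0 56445 0)))) (P.cons (P.cons (P.lf 0 708169 0) (P.cons (P.lf 217656 0 0) (P.cons (P.lf 14551 0 0) (P.lf 0 4850 0)))) (P.cons (P.cons (P.lf 51248 0 0) (P.cons (P.lf 0 6961 0) (P.cons (P.lf 0 465 0) P.nil))) (P.cons (P.cons (P.lf 1208 0 0) (P.cons (P.lf 0 548 0) P.nil)) (P.cons (P.cons (P.lf 0 89 0) P.nil) P.nil)))))) 521)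
 EL.nil))
noncomputable def S198_205_364_512_20 : EL := (EL.cons 4 (TM.mk (P.cons (P.cons (P.lf 28790490 0 0) (P.cons (P.lf 0 25186336 0) (P.cons (P.lf 3824443 0 0) (P.cons (P.lf 1297849 0 0) (P.cons (P.lf 0 220893 0) (P.cons (P.lf 0 16413 0) P.nil)))))) (P.cons (P.cons (P.lf 0 3142398 0) (P.cons (P.lf 2437394 0 0) (P.cons (P.lf 0 301954 0) (P.cons (P.lf 0 116485 0) (P.cons (P.lf 18643 0 0) P.nil))))) (P.cons (P.cons (P.lf 0 268003 0) (P.cons (P.lf 195540 0 0) (P.cons (P.lf 0 20339 0) (P.cons (P.lf 0 8824 0) P.nil)))) (P.cons (P.cons (P.lf 39544 0 0) (P.cons (P.lf 0 22236 0) (P.cons (P.lf 975 0 0) P.nil))) (P.cons (P.cons (P.lf 363 0 0) (P.cons (P.lf 0 485 0) P.nil)) (P.cons (P.cons (P.lf 0 166 0) P.nil) P.nil)))))) 16249)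
 (EL.cons 8 (TM.mk (P.cons (P.cons (P.lf 34019876 0 0) (P.cons (P.lf 0 29761079 0) (P.cons (P.lf 4519098 0 0) (P.cons (P.lf 1533585 0 0) (P.cons (P.lf 0 261016 0) (P.cons (P.lf 0 19395 0) P.nil)))))) (P.cons (P.cons (P.lf 0 1265995 0) (P.cons (P.lf 739287 0 0) (P.cons (P.lf 0 31725 0) (P.cons (P.lf 0 27326 0) (P.cons (P.lf 3254 0 0) P.nil))))) (P.cons (P.cons (P.lf 0 435052 0) (P.cons (P.lf 308123 0 0) (P.cons (P.lf 0 29942 0) (P.cons (P.lf 0 13624 0) P.nil)))) (P.cons (P.cons (P.lf 17265 0 0) (P.cons (P.lf 0 5419 0) (P.cons (P.lf 0 865 0) P.nil))) (P.cons (P.cons (P.lf 1977 0 0) (P.cons (P.lf 0 1182 0) P.nil)) (P.cons (P.cons (P.lf 0 78 0) P.nil) P.nil)))))) 14544)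
 EL.nil))
noncomputable def S198_205_364_512_21 : EL := (EL.cons 4 (TM.mk (P.cons (P.cons (P.lf 0 1154560656 0) (P.cons (P.lf 703833996 0 0) (P.cons (P.lf 47056695 0 0) (P.lf 0 15685563 0)))) (P.cons (P.cons (P.lf 266592651 0 0) (P.cons (P.lf 0 9525687 0) (P.cons (P.lf 0 636864 0) (P.lf 212286 0 0)))) (P.cons (P.cons (P.lf 5892678 0 0) (P.cons (P.lf 0 2528496 0) (P.cons (P.lf 0 169041 0) (P.lf 56340 0 0)))) (P.cons (P.cons (P.lf 0 449133 0) (P.cons (P.lf 0 26952 0) (P.cons (P.lf 0 1797 0) P.nil))) (P.cons (P.cons (P.lf 0 11424 0) (P.cons (P.lf 2322 0 0) P.nil)) (P.cons (P.cons (P.lf 270 0 0) P.nil) P.nil)))))) 2865)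
 (EL.cons 8 (TM.mk (P.cons (P.cons (P.lf 347408610 0 0) (P.cons (P.lf 0 211784448 0) (P.cons (P.lf 0 14159421 0) (P.lf 4719807 0 0)))) (P.cons (P.cons (P.lf 0 105208416 0) (P.cons (P.lf 18100728 0 0) (P.cons (P.lf 1210170 0 0) (P.lf 0 403389 0)))) (P.cons (P.cons (P.lf 4276068 0 0) (P.cons (P.lf 384687 0 0) (P.cons (P.lf 25725 0 0) (P.lf 0 8577 0)))) (P.cons (P.cons (P.lf 189966 0 0) (P.cons (P.lf 0 39225 0) (P.cons (P.lf 0 2616 0) P.nil))) (P.cons (P.cons (P.lf 0 5637 0) (P.cons (P.lf 0 819 0) P.nil)) (P.cons (P.cons (P.lf 0 201 0) P.nil) P.nil)))))) 3078)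
 (EL.cons 11 (TM.mk (P.cons (P.cons (P.lf 2381402793 0 0) (P.cons (P.lf 368700954 0 0) (P.cons (P.lf 0 177628491 0) (P.cons (P.lf 0 6721983 0) (P.lf 1680495 0 0))))) (P.cons (P.cons (P.lf 69536622 0 0) (P.cons (P.lf 10766013 0 0) (P.cons (P.lf 0 5186724 0) (P.cons (P.lf 0 196281 0) (P.lf 49068 0 0))))) (P.cons (P.cons (P.lf 0 1246350 0) (P.cons (P.lf 0 192966 0) (P.cons (P.lf 92964 0 0) (P.cons (P.lf 3516 0 0) P.nil)))) (P.cons (P.cons (P.lf 0 53058 0) (P.cons (P.lf 0 8214 0) (P.cons (P.lf 3957 0 0) P.nil))) (P.cons (P.cons (P.lf 114 0 0) (P.cons (P.lf 18 0 0) P.nil)) (P.cons (P.cons (P.lf 18 0 0) P.nil) P.nil)))))) 1353)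
 EL.nil)))
noncomputable def S198_205_364_512_22 : EL := (EL.cons 4 (TM.mk (P.cons (P.cons (P.lf 0 381675708 0) (P.cons (P.lf 399621792 0 0) (P.cons (P.lf 0 75055542 0) (P.cons (P.lf 0 22514577 0) (P.cons (P.lf 4081296 0 0) (P.cons (P.lf 303279 0 0) P.nil)))))) (P.cons (P.cons (P.lf 76135476 0 0) (P.cons (P.lf 0 27073353 0) (P.cons (P.lf 0 4890309 0) (P.cons (P.lf 191475 0 0) (P.cons (P.lf 123522 0 0) P.nil))))) (P.cons (P.cons (P.lf 6148794 0 0) (P.cons (P.lf 0 4425441 0) (P.cons (P.lf 177432 0 0) (P.cons (P.lf 161904 0 0) P.nil)))) (P.cons (P.cons (P.lf 0 405645 0) (P.cons (P.lf 7086 0 0) (P.cons (P.lf 24471 0 0) P.nil))) (P.cons (P.cons (P.lf 0 19587 0) (P.cons (P.lf 11013 0 0) P.nil)) (P.cons (P.cons (P.lf 696 0 0) P.nil) P.nil)))))) 108123)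
 (EL.cons 8 (TM.mk (P.cons (P.cons (P.lf 114846651 0 0) (P.cons (P.lf 0 120246651 0) (P.cons (P.lf 22584294 0 0) (P.cons (P.lf 6774663 0 0) (P.cons (P.lf 0 1228065 0) (P.cons (P.lf 0 91257 0) P.nil)))))) (P.cons (P.cons (P.lf 0 31170594 0) (P.cons (P.lf 16796187 0 0) (P.cons (P.lf 0 153072 0) (P.cons (P.lf 0 544941 0) (P.cons (P.lf 51168 0 0) P.nil))))) (P.cons (P.cons (P.lf 0 110064 0) (P.cons (P.lf 649119 0 0) (P.cons (P.lf 0 141111 0) (P.cons (P.lf 0 39138 0) P.nil)))) (P.cons (P.cons (P.lf 234003 0 0) (P.cons (P.lf 0 88491 0) (P.cons (P.lf 0 2880 0) P.nil))) (P.cons (P.cons (P.lf 0 3771 0) (P.cons (P.lf 0 2334 0) P.nil)) (P.cons (P.cons (P.lf 0 495 0) P.nil) P.nil)))))) 45498)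
 (EL.cons 11 (TM.mk (P.cons (P.cons (P.lf 787246296 0 0) (P.cons (P.lf 0 222461718 0) (P.cons (P.lf 0 135056433 0) (P.cons (P.lf 27572310 0 0) (P.cons (P.lf 4432893 0 0) (P.cons (P.lf 0 750420 0) P.nil)))))) (P.cons (P.cons (P.lf 47728353 0 0) (P.cons (P.lf 0 17747673 0) (P.cons (P.lf 0 9132537 0) (P.cons (P.lf 2040261 0 0) (P.cons (P.lf 316725 0 0) P.nil))))) (P.cons (P.cons (P.lf 0 2641386 0) (P.cons (P.lf 0 508905 0) (P.cons (P.lf 174858 0 0) (P.cons (P.lf 16104 0 0) P.nil)))) (P.cons (P.cons (P.lf 0 141546 0) (P.cons (P.lf 14316 0 0) (P.cons (P.lf 18585 0 0) P.nil))) (P.cons (P.cons (P.lf 2484 0 0) (P.cons (P.lf 1158 0 0) P.nil)) (P.cons (P.cons (P.lf 177 0 0) P.nil) P.nil)))))) 130713)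
 EL.nil)))
noncomputable def S198_205_364_512_23 : EL := (EL.cons 4 (TM.mk (P.cons (P.cons (P.lf 465233400 0 0) (P.cons (P.lf 0 283611849 0) (P.cons (P.lf 0 18961623 0) (P.lf 6320538 0 0)))) (P.cons (P.cons (P.lf 0 134097834 0) (P.cons (P.lf 20098941 0 0) (P.cons (P.lf 1343766 0 0) (P.lf 0 447921 0)))) (P.cons (P.cons (P.lf 3498009 0 0) (P.cons (P.lf 973482 0 0) (P.cons (P.lf 65079 0 0) (P.lf 0 21690 0)))) (P.cons (P.cons (P.lf 387207 0 0) (P.cons (P.lf 0 52311 0) (P.cons (P.lf 0 3498 0) P.nil))) (P.cons (P.cons (P.lf 0 5127 0) (P.cons (P.lf 0 2205 0) P.nil)) (P.cons (P.cons (P.lf 0 522 0) P.nil) P.nil)))))) 2895)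
 (EL.cons 8 (TM.mk (P.cons (P.cons (P.lf 0 139989255 0) (P.cons (P.lf 85339125 0 0) (P.cons (P.lf 5705577 0 0) (P.lf 0 1901859 0)))) (P.cons (P.cons (P.lf 50420133 0 0) (P.cons (P.lf 0 12186552 0) (P.cons (P.lf 0 814761 0) (P.lf 271587 0 0)))) (P.cons (P.cons (P.lf 0 4067436 0) (P.cons (P.lf 210600 0 0) (P.cons (P.lf 14076 0 0) (P.lf 0 4689 0)))) (P.cons (P.cons (P.lf 0 5049 0) (P.cons (P.lf 29904 0 0) (P.cons (P.lf 1995 0 0) P.nil))) (P.cons (P.cons (P.lf 8052 0 0) (P.cons (P.lf 0 525 0) P.nil)) (P.cons (P.cons (P.lf 0 6 0) P.nil) P.nil)))))) 1806)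
 (EL.cons 11 (TM.mk (P.cons (P.cons (P.lf 0 959592822 0) (P.cons (P.lf 0 148569066 0) (P.cons (P.lf 71575890 0 0) (P.cons (P.lf 2708640 0 0) (P.lf 0 677160 0))))) (P.cons (P.cons (P.lf 26997111 0 0) (P.cons (P.lf 4179831 0 0) (P.cons (P.lf 0 2013711 0) (P.cons (P.lf 0 76203 0) (P.lf 19050 0 0))))) (P.cons (P.cons (P.lf 2699766 0 0) (P.cons (P.lf 417990 0 0) (P.cons (P.lf 0 201372 0) (P.cons (P.lf 0 7617 0) P.nil)))) (P.cons (P.cons (P.lf 1749 0 0) (P.cons (P.lf 270 0 0) (P.cons (P.lf 0 129 0) P.nil))) (P.cons (P.cons (P.lf 0 2001 0) (P.cons (P.lf 0 309 0) P.nil)) (P.cons (P.cons (P.lf 0 18 0) P.nil) P.nil)))))) 2544)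
 EL.nil)))
noncomputable def S198_205_364_512_24 : EL := (EL.cons 4 (TM.mk (P.cons (P.cons (P.lf 153797277 0 0) (P.cons (P.lf 0 161028702 0) (P.cons (P.lf 30243837 0 0) (P.cons (P.lf 9072309 0 0) (P.cons (P.lf 0 1644567 0) (P.cons (P.lf 0 122205 0) P.nil)))))) (P.cons (P.cons (P.lf 0 39496779 0) (P.cons (P.lf 20141667 0 0) (P.cons (P.lf 236568 0 0) (P.cons (P.lf 0 597303 0) (P.cons (P.lf 44514 0 0) P.nil))))) (P.cons (P.cons (P.lf 0 813459 0) (P.cons (P.lf 1256958 0 0) (P.cons (P.lf 0 203103 0) (P.cons (P.lf 0 66402 0) P.nil)))) (P.cons (P.cons (P.lf 325704 0 0) (P.cons (P.lf 0 113172 0) (P.cons (P.lf 0 6720 0) P.nil))) (P.cons (P.cons (P.lf 0 180 0) (P.cons (P.lf 0 5310 0) P.nil)) (P.cons (P.cons (P.lf 0 858 0) P.nil) P.nil)))))) 46983)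
 (EL.cons 8 (TM.mk (P.cons (P.cons (P.lf 0 46277775 0) (P.cons (P.lf 48453717 0 0) (P.cons (P.lf 0 9100404 0) (P.cons (P.lf 0 2729868 0) (P.cons (P.lf 494850 0 0) (P.cons (P.lf 36771 0 0) P.nil)))))) (P.cons (P.cons (P.lf 15213555 0 0) (P.cons (P.lf 0 9546105 0) (P.cons (P.lf 583440 0 0) (P.cons (P.lf 376098 0 0) (P.cons (P.lf 0 48990 0) P.nil))))) (P.cons (P.cons (P.lf 0 647271 0) (P.cons (P.lf 96627 0 0) (P.cons (P.lf 58929 0 0) (P.cons (P.lf 4863 0 0) P.nil)))) (P.cons (P.cons (P.lf 0 104961 0) (P.cons (P.lf 55230 0 0) (P.cons (P.lf 0 2211 0) P.nil))) (P.cons (P.cons (P.lf 6996 0 0) (P.cons (P.lf 0 990 0) P.nil)) (P.cons (P.cons (P.lf 174 0 0) P.nil) P.nil)))))) 18666)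
 (EL.cons 11 (TM.mk (P.cons (P.cons (P.lf 0 317223066 0) (P.cons (P.lf 89641563 0 0) (P.cons (P.lf 54421362 0 0) (P.cons (P.lf 0 11110338 0) (P.cons (P.lf 0 1786245 0) (P.cons (P.lf 302382 0 0) P.nil)))))) (P.cons (P.cons (P.lf 0 1044672 0) (P.cons (P.lf 2011983 0 0) (P.cons (P.lf 559797 0 0) (P.cons (P.lf 0 185130 0) (P.cons (P.lf 0 25212 0) P.nil))))) (P.cons (P.cons (P.lf 2362404 0 0) (P.cons (P.lf 0 260169 0) (P.cons (P.lf 0 314967 0) (P.cons (P.lf 47487 0 0) P.nil)))) (P.cons (P.cons (P.lf 5181 0 0) (P.cons (P.lf 0 21174 0) (P.cons (P.lf 0 5256 0) P.nil))) (P.cons (P.cons (P.lf 0 5148 0) (P.cons (P.lf 0 183 0) P.nil)) (P.cons (P.cons (P.lf 0 42 0) P.nil) P.nil)))))) 48468)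
 EL.nil)))
noncomputable def S198_205_364_512_25 : EL := (EL.cons 4 (TM.mk (P.cons (P.cons (P.lf 0 187467081 0) (P.cons (P.lf 114282174 0 0) (P.cons (P.lf 7640637 0 0) (P.lf 0 2546877 0)))) (P.cons (P.cons (P.lf 64783287 0 0) (P.cons (P.lf 0 14651151 0) (P.cons (P.lf 0 979539 0) (P.lf 326511 0 0)))) (P.cons (P.cons (P.lf 0 4392099 0) (P.cons (P.lf 1680 0 0) (P.cons (P.lf 111 0 0) (P.lf 0 39 0)))) (P.cons (P.cons (P.lf 0 110076 0) (P.cons (P.lf 49521 0 0) (P.cons (P.lf 3309 0 0) P.nil))) (P.cons (P.cons (P.lf 12297 0 0) (P.cons (P.lf 0 123 0) P.nil)) (P.cons (P.cons (P.lf 186 0 0) P.nil) P.nil)))))) 2178)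
 (EL.cons 8 (TM.mk (P.cons (P.cons (P.lf 56409057 0 0) (P.cons (P.lf 0 34387635 0) (P.cons (P.lf 0 2299077 0) (P.lf 766359 0 0)))) (P.cons (P.cons (P.lf 0 23551077 0) (P.cons (P.lf 6882177 0 0) (P.cons (P.lf 460125 0 0) (P.lf 0 153375 0)))) (P.cons (P.cons (P.lf 2769084 0 0) (P.cons (P.lf 0 345225 0) (P.cons (P.lf 0 23079 0) (P.lf 7692 0 0)))) (P.cons (P.cons (P.lf 0 78942 0) (P.cons (P.lf 0 10497 0) (P.cons (P.lf 0 699 0) P.nil))) (P.cons (P.cons (P.lf 0 4530 0) (P.cons (P.lf 987 0 0) P.nil)) (P.cons (P.cons (P.lf 198 0 0) P.nil) P.nil)))))) 1113)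
 (EL.cons 11 (TM.mk (P.cons (P.cons (P.lf 386670573 0 0) (P.cons (P.lf 59866314 0 0) (P.cons (P.lf 0 28841700 0) (P.cons (P.lf 0 1091454 0) (P.lf 272862 0 0))))) (P.cons (P.cons (P.lf 0 33047847 0) (P.cons (P.lf 0 5116635 0) (P.cons (P.lf 2465034 0 0) (P.cons (P.lf 93282 0 0) (P.lf 0 23319 0))))) (P.cons (P.cons (P.lf 0 702336 0) (P.cons (P.lf 0 108738 0) (P.cons (P.lf 52386 0 0) (P.cons (P.lf 1980 0 0) P.nil)))) (P.cons (P.cons (P.lf 71628 0 0) (P.cons (P.lf 11088 0 0) (P.cons (P.lf 0 5340 0) P.nil))) (P.cons (P.cons (P.lf 1497 0 0) (P.cons (P.lf 231 0 0) P.nil)) (P.cons (P.cons (P.lf 0 48 0) P.nil) P.nil)))))) 2283)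
 EL.nil)))
noncomputable def S198_205_364_512_26 : EL := (EL.cons 4 (TM.mk (P.cons (P.cons (P.lf 0 61973037 0) (P.cons (P.lf 64886958 0 0) (P.cons (P.lf 0 12186837 0) (P.cons (P.lf 0 3655710 0) (P.cons (P.lf 662682 0 0) (P.cons (P.lf 49242 0 0) P.nil)))))) (P.cons (P.cons (P.lf 19468485 0 0) (P.cons (P.lf 0 11836353 0) (P.cons (P.lf 603390 0 0) (P.cons (P.lf 450279 0 0) (P.cons (P.lf 0 55929 0) P.nil))))) (P.cons (P.cons (P.lf 0 546528 0) (P.cons (P.lf 0 81132 0) (P.cons (P.lf 94812 0 0) (P.cons (P.lf 15210 0 0) P.nil)))) (P.cons (P.cons (P.lf 0 160362 0) (P.cons (P.lf 80187 0 0) (P.cons (P.lf 0 2028 0) P.nil))) (P.cons (P.cons (P.lf 7518 0 0) (P.cons (P.lf 0 216 0) P.nil)) (P.cons (P.cons (P.lf 429 0 0) P.nil) P.nil)))))) 25152)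
 (EL.cons 8 (TM.mk (P.cons (P.cons (P.lf 18647757 0 0) (P.cons (P.lf 0 19524558 0) (P.cons (P.lf 3667032 0 0) (P.cons (P.lf 1100007 0 0) (P.cons (P.lf 0 199401 0) (P.cons (P.lf 0 14817 0) P.nil)))))) (P.cons (P.cons (P.lf 0 7199490 0) (P.cons (P.lf 4966044 0 0) (P.cons (P.lf 0 445344 0) (P.cons (P.lf 0 214617 0) (P.cons (P.lf 31173 0 0) P.nil))))) (P.cons (P.cons (P.lf 600810 0 0) (P.cons (P.lf 0 247452 0) (P.cons (P.lf 0 12525 0) (P.cons (P.lf 6051 0 0) P.nil)))) (P.cons (P.cons (P.lf 31272 0 0) (P.cons (P.lf 0 22557 0) (P.cons (P.lf 2427 0 0) P.nil))) (P.cons (P.cons (P.lf 0 5451 0) (P.cons (P.lf 1725 0 0) P.nil)) (P.cons (P.cons (P.lf 66 0 0) P.nil) P.nil)))))) 10599)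
 (EL.cons 11 (TM.mk (P.cons (P.cons (P.lf 127825908 0 0) (P.cons (P.lf 0 36121314 0) (P.cons (P.lf 0 21929235 0) (P.cons (P.lf 4476939 0 0) (P.cons (P.lf 719772 0 0) (P.cons (P.lf 0 121845 0) P.nil)))))) (P.cons (P.cons (P.lf 0 6907788 0) (P.cons (P.lf 1260234 0 0) (P.cons (P.lf 1031712 0 0) (P.cons (P.lf 0 182079 0) (P.cons (P.lf 0 31107 0) P.nil))))) (P.cons (P.cons (P.lf 0 1054806 0) (P.cons (P.lf 173565 0 0) (P.cons (P.lf 153357 0 0) (P.cons (P.lf 0 26169 0) P.nil)))) (P.cons (P.cons (P.lf 53307 0 0) (P.cons (P.lf 2715 0 0) (P.cons (P.lf 0 5202 0) P.nil))) (P.cons (P.cons (P.lf 2808 0 0) (P.cons (P.lf 0 492 0) P.nil)) (P.cons (P.cons (P.lf 0 105 0) P.nil) P.nil)))))) 31125)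
 EL.nil)))
noncomputable def S198_205_364_512_27 : EL := (EL.cons 13 (TM.mk (P.lf 0 4294967296 0) 0)
 EL.nil)
noncomputable def S198_205_364_512_28 : EL := (EL.cons 13 (TM.mk (P.cons (P.cons (P.lf 0 1419834191 0) (P.cons (P.lf 621045728 0 0) (P.cons (P.lf 41521668 0 0) (P.lf 0 13840556 0)))) (P.cons (P.cons (P.lf 0 44621285 0) (P.cons (P.lf 27201668 0 0) (P.cons (P.lf 1818640 0 0) (P.lf 0 606212 0)))) (P.cons (P.cons (P.lf 5323703 0 0) (P.cons (P.lf 0 288980 0) (P.cons (P.lf 0 19316 0) (P.lf 6436 0 0)))) (P.cons (P.cons (P.lf 44848 0 0) (P.cons (P.lf 0 28836 0) (P.cons (P.lf 0 1924 0) P.nil))) (P.cons (P.cons (P.lf 0 3933 0) (P.cons (P.lf 0 128 0) P.nil)) (P.cons (P.cons (P.lf 0 50 0) P.nil) P.nil)))))) 1082)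
 EL.nil)
noncomputable def S198_205_364_512_29 : EL := (EL.cons 13 (TM.mk (P.cons (P.cons (P.lf 0 469370076 0) (P.cons (P.lf 410611722 0 0) (P.cons (P.lf 0 62349724 0) (P.cons (P.lf 0 21158787 0) (P.cons (P.lf 3601235 0 0) (P.cons (P.lf 267607 0 0) P.nil)))))) (P.cons (P.cons (P.lf 0 29501889 0) (P.cons (P.lf 30889043 0 0) (P.cons (P.lf 0 5801470 0) (P.cons (P.lf 0 1740279 0) (P.cons (P.lf 315466 0 0) P.nil))))) (P.cons (P.cons (P.lf 3056249 0 0) (P.cons (P.lf 0 1165453 0) (P.cons (P.lf 0 166622 0) (P.cons (P.lf 14107 0 0) P.nil)))) (P.cons (P.cons (P.lf 140269 0 0) (P.cons (P.lf 0 105473 0) (P.cons (P.lf 4950 0 0) P.nil))) (P.cons (P.cons (P.lf 0 8267 0) (P.cons (P.lf 601 0 0) P.nil)) (P.cons (P.cons (P.lf 0 225 0) P.nil) P.nil)))))) 91380)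
 EL.nil)
noncomputable def S198_205_364_512_30 : EL := (EL.cons 13 (TM.mk (P.cons (P.lf 1730668916 0 0) (P.cons (P.lf 0 99225796 0) (P.cons (P.lf 0 1065996 0) (P.cons (P.lf 14600 0 0) (P.cons (P.lf 332 0 0) (P.cons (P.lf 0 0 0) P.nil)))))) 44)
 EL.nil)
noncomputable def S198_205_364_512_31 : EL := (EL.cons 13 (TM.mk (P.cons (P.cons (P.lf 572126102 0 0) (P.cons (P.lf 0 250252088 0) (P.cons (P.lf 0 16731270 0) (P.lf 5577090 0 0)))) (P.cons (P.cons (P.lf 0 14821883 0) (P.cons (P.lf 3386911 0 0) (P.cons (P.lf 226441 0 0) (P.lf 0 75480 0)))) (P.cons (P.cons (P.lf 0 3528475 0) (P.cons (P.lf 899021 0 0) (P.cons (P.lf 60104 0 0) (P.lf 0 20033 0)))) (P.cons (P.cons (P.lf 98672 0 0) (P.cons (P.lf 9583 0 0) (P.cons (P.lf 639 0 0) P.nil))) (P.cons (P.cons (P.lf 4203 0 0) (P.cons (P.lf 0 826 0) P.nil)) (P.cons (P.cons (P.lf 0 74 0) P.nil) P.nil)))))) 928)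
 EL.nil)
noncomputable def S198_205_364_512_32 : EL := (EL.cons 13 (TM.mk (P.cons (P.cons (P.lf 189133966 0 0) (P.cons (P.lf 0 165457125 0) (P.cons (P.lf 25123993 0 0) (P.cons (P.lf 8525991 0 0) (P.cons (P.lf 0 1451127 0) (P.cons (P.lf 0 107832 0) P.nil)))))) (P.cons (P.cons (P.lf 1044101 0 0) (P.cons (P.lf 0 2960542 0) (P.cons (P.lf 897264 0 0) (P.cons (P.lf 212422 0 0) (P.cons (P.lf 0 43919 0) P.nil))))) (P.cons (P.cons (P.lf 0 2029596 0) (P.cons (P.lf 1285158 0 0) (P.cons (P.lf 0 82364 0) (P.cons (P.lf 0 51141 0) P.nil)))) (P.cons (P.cons (P.lf 8359 0 0) (P.cons (P.lf 21846 0 0) (P.cons (P.lf 0 7072 0) P.nil))) (P.cons (P.cons (P.lf 7466 0 0) (P.cons (P.lf 0 3104 0) P.nil)) (P.cons (P.cons (P.lf 0 73 0) P.nil) P.nil)))))) 54590)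
 EL.nil)
noncomputable def S198_205_364_512_33 : EL := (EL.cons 14 (TM.mk (P.lf 8589934592 0 0) 0)
 EL.nil)
noncomputable def S198_205_364_512_34 : EL := (EL.cons 14 (TM.mk (P.cons (P.cons (P.lf 2839668382 0 0) (P.cons (P.lf 0 1242091456 0) (P.cons (P.lf 0 83043336 0) (P.lf 27681112 0 0)))) (P.cons (P.cons (P.lf 89242570 0 0) (P.cons (P.lf 0 54403336 0) (P.cons (P.lf 0 3637280 0) (P.lf 1212424 0 0)))) (P.cons (P.cons (P.lf 0 10647406 0) (P.cons (P.lf 577960 0 0) (P.cons (P.lf 38632 0 0) (P.lf 0 12872 0)))) (P.cons (P.cons (P.lf 0 89696 0) (P.cons (P.lf 57672 0 0) (P.cons (P.lf 3848 0 0) P.nil))) (P.cons (P.cons (P.lf 7866 0 0) (P.cons (P.lf 256 0 0) P.nil)) (P.cons (P.cons (P.lf 100 0 0) P.nil) P.nil)))))) 2164)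
 EL.nil)
noncomputable def S198_205_364_512_35 : EL := (EL.cons 14 (TM.mk (P.cons (P.cons (P.lf 938740152 0 0) (P.cons (P.lf 0 821223444 0) (P.cons (P.lf 124699448 0 0) (P.cons (P.lf 42317574 0 0) (P.cons (P.lf 0 7202470 0) (P.cons (P.lf 0 535214 0) P.nil)))))) (P.cons (P.cons (P.lf 59003778 0 0) (P.cons (P.lf 0 61778086 0) (P.cons (P.lf 11602940 0 0) (P.cons (P.lf 3480558 0 0) (P.cons (P.lf 0 630932 0) P.nil))))) (P.cons (P.cons (P.lf 0 6112498 0) (P.cons (P.lf 2330906 0 0) (P.cons (P.lf 333244 0 0) (P.cons (P.lf 0 28214 0) P.nil)))) (P.cons (P.cons (P.lf 0 280538 0) (P.cons (P.lf 210946 0 0) (P.cons (P.lf 0 9900 0) P.nil))) (P.cons (P.cons (P.lf 16534 0 0) (P.cons (P.lf 0 1202 0) P.nil)) (P.cons (P.cons (P.lf 450 0 0) P.nil) P.nil)))))) 182760)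
 EL.nil)
noncomputable def S198_205_364_512_36 : EL := (EL.cons 14 (TM.mk (P.cons (P.lf 0 3461337832 0) (P.cons (P.lf 198451592 0 0) (P.cons (P.lf 2131992 0 0) (P.cons (P.lf 0 29200 0) (P.cons (P.lf 0 664 0) (P.cons (P.lf 0 0 0) P.nil)))))) 88)
 EL.nil)
noncomputable def S198_205_364_512_37 : EL := (EL.cons 14 (TM.mk (P.cons (P.cons (P.lf 0 1144252204 0) (P.cons (P.lf 500504176 0 0) (P.cons (P.lf 33462540 0 0) (P.lf 0 11154180 0)))) (P.cons (P.cons (P.lf 29643766 0 0) (P.cons (P.lf 0 6773822 0) (P.cons (P.lf 0 452882 0) (P.lf 150960 0 0)))) (P.cons (P.cons (P.lf 7056950 0 0) (P.cons (P.lf 0 1798042 0) (P.cons (P.lf 0 120208 0) (P.lf 40066 0 0)))) (P.cons (P.cons (P.lf 0 197344 0) (P.cons (P.lf 0 19166 0) (P.cons (P.lf 0 1278 0) P.nil))) (P.cons (P.cons (P.lf 0 8406 0) (P.cons (P.lf 1652 0 0) P.nil)) (P.cons (P.cons (P.lf 148 0 0) P.nil) P.nil)))))) 1856)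
 EL.nil)
noncomputable def S198_205_364_512_38 : EL := (EL.cons 14 (TM.mk (P.cons (P.cons (P.lf 0 378267932 0) (P.cons (P.lf 330914250 0 0) (P.cons (P.lf 0 50247986 0) (P.cons (P.lf 0 17051982 0) (P.cons (P.lf 2902254 0 0) (P.cons (P.lf 215664 0 0) P.nil)))))) (P.cons (P.cons (P.lf 0 2088202 0) (P.cons (P.lf 5921084 0 0) (P.cons (P.lf 0 1794528 0) (P.cons (P.lf 0 424844 0) (P.cons (P.lf 87838 0 0) P.nil))))) (P.cons (P.cons (P.lf 4059192 0 0) (P.cons (P.lf 0 2570316 0) (P.cons (P.lf 164728 0 0) (P.cons (P.lf 102282 0 0) P.nil)))) (P.cons (P.cons (P.lf 0 16718 0) (P.cons (P.lf 0 43692 0) (P.cons (P.lf 14144 0 0) P.nil))) (P.cons (P.cons (P.lf 0 14932 0) (P.cons (P.lf 6208 0 0) P.nil)) (P.cons (P.cons (P.lf 146 0 0) P.nil) P.nil)))))) 109180)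
 EL.nil)
noncomputable def S198_205_364_512_39 : EL := (EL.cons 14 (TM.mk (P.cons (P.lf 1394755624 0 0) (P.cons (P.lf 0 159933232 0) (P.cons (P.lf 2866604 0 0) (P.cons (P.lf 122042 0 0) (P.cons (P.lf 0 284 0) (P.cons (P.lf 0 44 0) P.nil)))))) 88)
 EL.nil)
noncomputable def S198_205_364_512_40 : EL := (EL.cons 14 (TM.mk (P.cons (P.cons (P.lf 461079580 0 0) (P.cons (P.lf 0 201679538 0) (P.cons (P.lf 0 13483822 0) (P.lf 4494606 0 0)))) (P.cons (P.cons (P.lf 0 38380474 0) (P.cons (P.lf 14292580 0 0) (P.cons (P.lf 955568 0 0) (P.lf 0 318522 0)))) (P.cons (P.cons (P.lf 0 2442762 0) (P.cons (P.lf 692254 0 0) (P.cons (P.lf 46280 0 0) (P.lf 0 15426 0)))) (P.cons (P.cons (P.lf 253802 0 0) (P.cons (P.lf 0 37198 0) (P.cons (P.lf 0 2488 0) P.nil))) (P.cons (P.cons (P.lf 568 0 0) (P.cons (P.lf 0 1570 0) P.nil)) (P.cons (P.cons (P.lf 0 328 0) P.nil) P.nil)))))) 1724)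
 EL.nil)
noncomputable def S198_205_364_512_41 : EL := (EL.cons 14 (TM.mk (P.cons (P.cons (P.lf 152424106 0 0) (P.cons (P.lf 0 133342810 0) (P.cons (P.lf 20247564 0 0) (P.cons (P.lf 6871142 0 0) (P.cons (P.lf 0 1169470 0) (P.cons (P.lf 0 86902 0) P.nil)))))) (P.cons (P.cons (P.lf 0 7897602 0) (P.cons (P.lf 5259130 0 0) (P.cons (P.lf 0 437758 0) (P.cons (P.lf 0 222754 0) (P.cons (P.lf 31654 0 0) P.nil))))) (P.cons (P.cons (P.lf 0 1777790 0) (P.cons (P.lf 1254640 0 0) (P.cons (P.lf 0 120306 0) (P.cons (P.lf 0 55262 0) P.nil)))) (P.cons (P.cons (P.lf 101282 0 0) (P.cons (P.lf 0 41430 0) (P.cons (P.lf 0 2168 0) P.nil))) (P.cons (P.cons (P.lf 6674 0 0) (P.cons (P.lf 0 4194 0) P.nil)) (P.cons (P.cons (P.lf 0 420 0) P.nil) P.nil)))))) 60808)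
 EL.nil)
noncomputable def S198_205_364_512_42 : EL := (EL.cons 14 (TM.mk (P.cons (P.lf 0 562020624 0) (P.cons (P.lf 96668304 0 0) (P.cons (P.lf 0 4503838 0) (P.cons (P.lf 0 27386 0) (P.cons (P.lf 4080 0 0) (P.cons (P.lf 44 0 0) P.nil)))))) 68)
 EL.nil)
noncomputable def S198_205_364_512_43 : EL := (EL.cons 14 (TM.mk (P.cons (P.cons (P.lf 0 185793288 0) (P.cons (P.lf 81267326 0 0) (P.cons (P.lf 5433342 0 0) (P.lf 0 1811114 0)))) (P.cons (P.cons (P.lf 26117748 0 0) (P.cons (P.lf 0 10418598 0) (P.cons (P.lf 0 696562 0) (P.lf 232186 0 0)))) (P.cons (P.cons (P.lf 212060 0 0) (P.cons (P.lf 1196 0 0) (P.cons (P.lf 80 0 0) (P.lf 0 26 0)))) (P.cons (P.cons (P.lf 0 169798 0) (P.cons (P.lf 35214 0 0) (P.cons (P.lf 2354 0 0) P.nil))) (P.cons (P.cons (P.lf 5122 0 0) (P.cons (P.lf 0 86 0) P.nil)) (P.cons (P.cons (P.lf 218 0 0) P.nil) P.nil)))))) 1330)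
 EL.nil)
noncomputable def S198_205_364_512_44 : EL := (EL.cons 14 (TM.mk (P.cons (P.cons (P.lf 0 61419714 0) (P.cons (P.lf 53730852 0 0) (P.cons (P.lf 0 8158812 0) (P.cons (P.lf 0 2768746 0) (P.cons (P.lf 471240 0 0) (P.cons (P.lf 35016 0 0) P.nil)))))) (P.cons (P.cons (P.lf 6703784 0 0) (P.cons (P.lf 0 5199774 0) (P.cons (P.lf 644170 0 0) (P.cons (P.lf 248502 0 0) (P.cons (P.lf 0 39772 0) P.nil))))) (P.cons (P.cons (P.lf 571740 0 0) (P.cons (P.lf 0 417154 0) (P.cons (P.lf 43390 0 0) (P.cons (P.lf 18826 0 0) P.nil)))) (P.cons (P.cons (P.lf 0 84362 0) (P.cons (P.lf 47438 0 0) (P.cons (P.lf 0 2082 0) P.nil))) (P.cons (P.cons (P.lf 0 776 0) (P.cons (P.lf 1036 0 0) P.nil)) (P.cons (P.cons (P.lf 356 0 0) P.nil) P.nil)))))) 34618)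
 EL.nil)
noncomputable def S198_205_364_512_45 : EL := (EL.cons 14 (TM.mk (P.cons (P.cons (P.lf 310329572 0 0) (P.cons (P.lf 0 407221188 0) (P.cons (P.lf 150895628 0 0) (P.cons (P.lf 6922318 0 0) (P.cons (P.lf 0 12351986 0) (P.cons (P.lf 857272 0 0) P.nil)))))) (P.cons (P.cons (P.lf 29258284 0 0) (P.cons (P.lf 0 43431768 0) (P.cons (P.lf 18297460 0 0) (P.cons (P.lf 390328 0 0) (P.cons (P.lf 0 1534664 0) P.nil))))) (P.cons (P.cons (P.lf 0 2571260 0) (P.cons (P.lf 1719976 0 0) (P.cons (P.lf 113436 0 0) (P.cons (P.lf 0 151746 0) P.nil)))) (P.cons (P.cons (P.lf 0 239182 0) (P.cons (P.lf 268652 0 0) (P.cons (P.lf 0 64442 0) P.nil))) (P.cons (P.cons (P.lf 10370 0 0) (P.cons (P.lf 0 1802 0) P.nil)) (P.cons (P.cons (P.lf 796 0 0) P.nil) P.nil)))))) 793934)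
 EL.nil)
noncomputable def S198_205_364_512_46 : EL := (EL.cons 15 (TM.mk (P.lf 4294967296 0 0) 0)
 EL.nil)
noncomputable def S198_205_364_512_47 : EL := (EL.cons 15 (TM.mk (P.cons (P.cons (P.lf 1419834191 0 0) (P.cons (P.lf 0 621045728 0) (P.cons (P.lf 0 41521668 0) (P.lf 13840556 0 0)))) (P.cons (P.cons (P.lf 44621285 0 0) (P.cons (P.lf 0 27201668 0) (P.cons (P.lf 0 1818640 0) (P.lf 606212 0 0)))) (P.cons (P.cons (P.lf 0 5323703 0) (P.cons (P.lf 288980 0 0) (P.cons (P.lf 19316 0 0) (P.lf 0 6436 0)))) (P.cons (P.cons (P.lf 0 44848 0) (P.cons (P.lf 28836 0 0) (P.cons (P.lf 1924 0 0) P.nil))) (P.cons (P.cons (P.lf 3933 0 0) (P.cons (P.lf 128 0 0) P.nil)) (P.cons (P.cons (P.lf 50 0 0) P.nil) P.nil)))))) 1082)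
 EL.nil)
noncomputable def S198_205_364_512_48 : EL := (EL.cons 15 (TM.mk (P.cons (P.cons (P.lf 469370076 0 0) (P.cons (P.lf 0 410611722 0) (P.cons (P.lf 62349724 0 0) (P.cons (P.lf 21158787 0 0) (P.cons (P.lf 0 3601235 0) (P.cons (P.lf 0 267607 0) P.nil)))))) (P.cons (P.cons (P.lf 29501889 0 0) (P.cons (P.lf 0 30889043 0) (P.cons (P.lf 5801470 0 0) (P.cons (P.lf 1740279 0 0) (P.cons (P.lf 0 315466 0) P.nil))))) (P.cons (P.cons (P.lf 0 3056249 0) (P.cons (P.lf 1165453 0 0) (P.cons (P.lf 166622 0 0) (P.cons (P.lf 0 14107 0) P.nil)))) (P.cons (P.cons (P.lf 0 140269 0) (P.cons (P.lf 105473 0 0) (P.cons (P.lf 0 4950 0) P.nil))) (P.cons (P.cons (P.lf 8267 0 0) (P.cons (P.lf 0 601 0) P.nil)) (P.cons (P.cons (P.lf 225 0 0) P.nil) P.nil)))))) 91380)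
 EL.nil)
noncomputable def S198_205_364_512 : SL := (SL.cons S198_205_364_512_0 (SL.cons S198_205_364_512_1 (SL.cons S198_205_364_512_2 (SL.cons S198_205_364_512_3 (SL.cons S198_205_364_512_4 (SL.cons S198_205_364_512_5 (SL.cons S198_205_364_512_6 (SL.cons S198_205_364_512_7 (SL.cons S198_205_364_512_8 (SL.cons S198_205_364_512_9 (SL.cons S198_205_364_512_10 (SL.cons S198_205_364_512_11 (SL.cons S198_205_364_512_12 (SL.cons S198_205_364_512_13 (SL.cons S198_205_364_512_14 (SL.cons S198_205_364_512_15 (SL.cons S198_205_364_512_16 (SL.cons S198_205_364_512_17 (SL.cons S198_205_364_512_18 (SL.cons S198_205_364_512_19 (SL.cons S198_205_364_512_20 (SL.cons S198_205_364_512_21 (SL.cons S198_205_364_512_22 (SL.cons S198_205_364_512_23 (SL.cons S198_205_364_512_24 (SL.cons S198_205_364_512_25 (SL.cons S198_205_364_512_26 (SL.cons S198_205_364_512_27 (SL.cons S198_205_364_512_28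 (SL.cons S198_205_364_512_29 (SL.cons S198_205_364_512_30 (SL.cons S198_205_364_512_31 (SL.cons S198_205_364_512_32 (SL.cons S198_205_364_512_33 (SL.cons S198_205_364_512_34 (SL.cons S198_205_364_512_35 (SL.cons S198_205_364_512_36 (SL.cons S198_205_364_512_37 (SL.cons S198_205_364_512_38 (SL.cons S198_205_364_512_39 (SL.cons S198_205_364_512_40 (SL.cons S198_205_364_512_41 (SL.cons S198_205_364_512_42 (SL.cons S198_205_364_512_43 (SL.cons S198_205_364_512_44 (SL.cons S198_205_364_512_45 (SL.cons S198_205_364_512_46 (SL.cons S198_205_364_512_47 (SL.cons S198_205_364_512_48 SL.nil)))))))))))))))))))))))))))))))))))))))))))))))))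
theorem S183_198_512_586_ok : band (seq (shp 5 183 198 512 586) S183_198_512_586) (sok S183_198_512_586) = true := by decide +kernel

theorem S183_198_512_660_ok : band (seq (shp 5 183 198 512 660) S183_198_512_660) (sok S183_198_512_660) = true := by decide +kernel

theorem S183_198_586_660_ok : band (seq (shp 5 183 198 586 660) S183_198_586_660) (sok S183_198_586_660) = true := by decide +kernel

theorem S183_198_660_808_ok : band (seq (shp 5 183 198 660 808) S183_198_660_808) (sok S183_198_660_808) = true := by decide +kernel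

theorem S190_198_216_290_ok : band (seq (shp 5 190 198 216 290) S190_198_216_290) (sok S190_198_216_290) = true := by decide +kernel

theorem S198_205_364_512_ok : band (seq (shp 5 198 205 364 512) S198_205_364_512) (sok S198_205_364_512) = true := by decide +kernel

end Vale.Agent.P098.Ck
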