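import Vale.Agent.P098.CkDefs

namespace Vale.Agent.P098.Ck

noncomputable def S154_169_586_660_0 : EL := (EL.cons 0 (TM.mk (P.cons (P.lf 5451310535 0 0) (P.cons (P.lf 338075945 0 0) (P.cons (P.lf 3807979 0 0) (P.cons (P.lf 0 751584 0) (P.cons (P.lf 0 26892 0) (P.cons (P.lf 418 0 0) P.nil)))))) 212)
 (EL.cons 1 (TM.mk (P.cons (P.lf 0 1800696082 0) (P.cons (P.lf 1034199 0 0) (P.cons (P.lf 11296008 0 0) (P.cons (P.lf 258390 0 0) (P.cons (P.lf 0 13243 0) (P.cons (P.lf 0 742 0) P.nil)))))) 140)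
 (EL.cons 5 (TM.mk (P.cons (P.lf 5363200660 0 0) (P.cons (P.lf 0 120204780 0) (P.cons (P.lf 0 1353950 0) (P.cons (P.lf 267230 0 0) (P.cons (P.lf 9562 0 0) (P.cons (P.lf 0 146 0) P.nil)))))) 103)
 (EL.cons 9 (TM.mk (P.lf 6442450944 0 0) 2)
 EL.nil))))
noncomputable def S154_169_586_660_1 : EL := (EL.cons 0 (TM.mk (P.cons (P.cons (P.lf 0 2443609770 0) (P.cons (P.lf 118164227 0 0) (P.cons (P.lf 0 6465464 0) (P.lf 0 718381 0)))) (P.cons (P.cons (P.lf 530433824 0 0) (P.cons (P.lf 0 25120543 0) (P.cons (P.lf 1374500 0 0) (P.lf 152735 0 0)))) (P.cons (P.cons (P.lf 33407214 0 0) (P.cons (P.lf 0 7228199 0) (P.cons (P.lf 395489 0 0) (P.lf 43940 0 0)))) (P.cons (P.cons (P.lf 0 5786327 0) (P.cons (P.lf 0 319497 0) (P.cons (P.lf 17473 0 0) P.nil))) (P.cons (P.cons (P.lf 0 458994 0) (P.cons (P.lf 28903 0 0) P.nil)) (P.cons (P.cons (P.lf 13851 0 0) P.nil) P.nil))))))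 19153)
 (EL.cons 1 (TM.mk (P.cons (P.cons (P.lf 188777519 0 0) (P.cons (P.lf 60651725 0 0) (P.cons (P.lf 0 3318612 0) (P.lf 0 368729 0)))) (P.cons (P.cons (P.lf 0 184692564 0) (P.cons (P.lf 29956370 0 0) (P.cons (P.lf 0 1639081 0) (P.lf 0 182110 0)))) (P.cons (P.cons (P.lf 28369389 0 0) (P.cons (P.lf 1328135 0 0) (P.cons (P.lf 0 72665 0) (P.lf 0 8065 0)))) (P.cons (P.cons (P.lf 3177126 0 0) (P.cons (P.lf 0 269257 0) (P.cons (P.lf 14722 0 0) P.nil))) (P.cons (P.cons (P.lf 0 164272 0) (P.cons (P.lf 0 22300 0) P.nil)) (P.cons (P.cons (P.lf 0 21239 0) P.nil) P.nil)))))) 9799)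
 (EL.cons 5 (TM.mk (P.cons (P.cons (P.lf 80377353 0 0) (P.cons (P.lf 0 284235110 0) (P.cons (P.lf 15552200 0 0) (P.lf 1728024 0 0)))) (P.cons (P.cons (P.lf 62444967 0 0) (P.cons (P.lf 0 31535428 0) (P.cons (P.lf 1725492 0 0) (P.lf 191718 0 0)))) (P.cons (P.cons (P.lf 0 34587362 0) (P.cons (P.lf 987426 0 0) (P.cons (P.lf 0 54024 0) (P.lf 0 6000 0)))) (P.cons (P.cons (P.lf 379907 0 0) (P.cons (P.lf 199094 0 0) (P.cons (P.lf 0 10890 0) P.nil))) (P.cons (P.cons (P.lf 197685 0 0) (P.cons (P.lf 0 2354 0) P.nil)) (P.cons (P.cons (P.lf 196 0 0) P.nil) P.nil)))))) 8592)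
 (EL.cons 9 (TM.mk (P.cons (P.cons (P.lf 0 695701474 0) (P.cons (P.lf 0 213724554 0) (P.cons (P.lf 11694144 0 0) (P.lf 1299348 0 0)))) (P.cons (P.cons (P.lf 221509101 0 0) (P.cons (P.lf 0 35706330 0) (P.cons (P.lf 1953702 0 0) (P.lf 217074 0 0)))) (P.cons (P.cons (P.lf 0 20037562 0) (P.cons (P.lf 0 1396404 0) (P.cons (P.lf 76404 0 0) (P.lf 8484 0 0)))) (P.cons (P.cons (P.lf 0 1480107 0) (P.cons (P.lf 75432 0 0) (P.cons (P.lf 0 4122 0) P.nil))) (P.cons (P.cons (P.lf 30429 0 0) (P.cons (P.lf 6984 0 0) P.nil)) (P.cons (P.cons (P.lf 4506 0 0) P.nil) P.nil)))))) 2162)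
 (EL.cons 2 (TM.mk (P.cons (P.cons (P.lf 803085356 0 0) (P.cons (P.lf 0 100767912 0) (P.cons (P.lf 0 15384653 0) (P.cons (P.lf 469996 0 0) (P.lf 39164 0 0))))) (P.cons (P.cons (P.lf 44261794 0 0) (P.cons (P.lf 0 5553790 0) (P.cons (P.lf 0 847918 0) (P.cons (P.lf 25900 0 0) (P.lf 2157 0 0))))) (P.cons (P.cons (P.lf 0 5805092 0) (P.cons (P.lf 728398 0 0) (P.cons (P.lf 111206 0 0) (P.cons (P.lf 0 3397 0) P.nil)))) (P.cons (P.cons (P.lf 0 453490 0) (P.cons (P.lf 56902 0 0) (P.cons (P.lf 8685 0 0) P.nil))) (P.cons (P.cons (P.lf 3510 0 0) (P.cons (P.lf 0 438 0) P.nil)) (P.cons (P.cons (P.lf 1167 0 0) P.nil) P.nil)))))) 1565)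
 (EL.cons 6 (TM.mk (P.cons (P.cons (P.lf 481330584 0 0) (P.cons (P.lf 0 60395421 0) (P.cons (P.lf 0 9220818 0) (P.cons (P.lf 281691 0 0) (P.lf 23472 0 0))))) (P.cons (P.cons (P.lf 80414484 0 0) (P.cons (P.lf 0 10090083 0) (P.cons (P.lf 0 1540494 0) (P.cons (P.lf 47061 0 0) (P.lf 3921 0 0))))) (P.cons (P.cons (P.lf 3144864 0 0) (P.cons (P.lf 0 394605 0) (P.cons (P.lf 0 60243 0) (P.cons (P.lf 1839 0 0) P.nil)))) (P.cons (P.cons (P.lf 0 169893 0) (P.cons (P.lf 21315 0 0) (P.cons (P.lf 3252 0 0) P.nil))) (P.cons (P.cons (P.lf 0 15735 0) (P.cons (P.lf 1974 0 0) P.nil)) (P.cons (P.cons (P.lf 0 126 0) P.nil) P.nil)))))) 927)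
 EL.nil))))))
noncomputable def S154_169_586_660_2 : EL := (EL.cons 0 (TM.mk (P.cons (P.cons (P.lf 464187697 0 0) (P.cons (P.lf 97552590 0 0) (P.cons (P.lf 0 19177128 0) (P.cons (P.lf 921400 0 0) (P.cons (P.lf 126835 0 0) (P.cons (P.lf 0 9205 0) P.nil)))))) (P.cons (P.cons (P.lf 0 246058111 0) (P.cons (P.lf 8932356 0 0) (P.cons (P.lf 0 2508495 0) (P.cons (P.lf 166720 0 0) (P.cons (P.lf 18503 0 0) P.nil))))) (P.cons (P.cons (P.lf 36820720 0 0) (P.cons (P.lf 0 6901514 0) (P.cons (P.lf 710076 0 0) (P.cons (P.lf 5577 0 0) P.nil)))) (P.cons (P.cons (P.lf 1675913 0 0) (P.cons (P.lf 0 722860 0) (P.cons (P.lf 129842 0 0) P.nil))) (P.cons (P.cons (P.lf 0 691227 0) (P.cons (P.lf 82950 0 0) P.nil)) (P.cons (P.cons (P.lf 0 16821 0) P.nil) P.nil)))))) 109471)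
 (EL.cons 1 (TM.mk (P.cons (P.cons (P.lf 0 19772774 0) (P.cons (P.lf 0 12722716 0) (P.cons (P.lf 0 1346296 0) (P.cons (P.lf 300849 0 0) (P.cons (P.lf 18714 0 0) (P.cons (P.lf 0 1354 0) P.nil)))))) (P.cons (P.cons (P.lf 39486557 0 0) (P.cons (P.lf 5902723 0 0) (P.cons (P.lf 0 2321819 0) (P.cons (P.lf 182843 0 0) (P.cons (P.lf 18318 0 0) P.nil))))) (P.cons (P.cons (P.lf 0 16787544 0) (P.cons (P.lf 1168778 0 0) (P.cons (P.lf 0 442014 0) (P.cons (P.lf 34261 0 0) P.nil)))) (P.cons (P.cons (P.lf 2109955 0 0) (P.cons (P.lf 0 436837 0) (P.cons (P.lf 13926 0 0) P.nil))) (P.cons (P.cons (P.lf 132570 0 0) (P.cons (P.lf 0 66414 0) P.nil)) (P.cons (P.cons (P.lf 0 36796 0) P.nil) P.nil)))))) 51278)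
 (EL.cons 5 (TM.mk (P.cons (P.cons (P.lf 0 79900835 0) (P.cons (P.lf 17628157 0 0) (P.cons (P.lf 11991694 0 0) (P.cons (P.lf 0 1524985 0) (P.cons (P.lf 0 118743 0) (P.cons (P.lf 8608 0 0) P.nil)))))) (P.cons (P.cons (P.lf 33268373 0 0) (P.cons (P.lf 0 11092535 0) (P.cons (P.lf 4010013 0 0) (P.cons (P.lf 0 304959 0) (P.cons (P.lf 0 31180 0) P.nil))))) (P.cons (P.cons (P.lf 444378 0 0) (P.cons (P.lf 1519652 0 0) (P.cons (P.lf 127937 0 0) (P.cons (P.lf 0 32334 0) P.nil)))) (P.cons (P.cons (P.lf 0 1795207 0) (P.cons (P.lf 492745 0 0) (P.cons (P.lf 0 47185 0) P.nil))) (P.cons (P.cons (P.lf 193593 0 0) (P.cons (P.lf 834 0 0) P.nil)) (P.cons (P.cons (P.lf 17686 0 0) P.nil) P.nil)))))) 51550)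
 (EL.cons 9 (TM.mk (P.cons (P.cons (P.lf 75126771 0 0) (P.cons (P.lf 46158981 0 0) (P.cons (P.lf 4564554 0 0) (P.cons (P.lf 0 1056517 0) (P.cons (P.lf 0 64983 0) (P.cons (P.lf 4716 0 0) P.nil)))))) (P.cons (P.cons (P.lf 0 47840242 0) (P.cons (P.lf 0 6985225 0) (P.cons (P.lf 2751277 0 0) (P.cons (P.lf 0 216783 0) (P.cons (P.lf 0 21712 0) P.nil))))) (P.cons (P.cons (P.lf 11943684 0 0) (P.cons (P.lf 0 824305 0) (P.cons (P.lf 335649 0 0) (P.cons (P.lf 0 26782 0) P.nil)))) (P.cons (P.cons (P.lf 0 1058227 0) (P.cons (P.lf 207997 0 0) (P.cons (P.lf 0 907 0) P.nil))) (P.cons (P.cons (P.lf 0 46030 0) (P.cons (P.lf 26752 0 0) P.nil)) (P.cons (P.cons (P.lf 10326 0 0) P.nil) P.nil)))))) 19642)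
 (EL.cons 2 (TM.mk (P.cons (P.cons (P.lf 0 173445682 0) (P.cons (P.lf 0 31520508 0) (P.cons (P.lf 12923988 0 0) (P.cons (P.lf 877365 0 0) (P.cons (P.lf 0 136136 0) (P.cons (P.lf 0 7093 0) P.nil)))))) (P.cons (P.cons (P.lf 45665139 0 0) (P.cons (P.lf 0 17568556 0) (P.cons (P.lf 1258425 0 0) (P.cons (P.lf 244209 0 0) (P.cons (P.lf 0 26139 0) P.nil))))) (P.cons (P.cons (P.lf 0 698135 0) (P.cons (P.lf 0 366001 0) (P.cons (P.lf 95107 0 0) (P.cons (P.lf 7920 0 0) P.nil)))) (P.cons (P.cons (P.lf 0 945579 0) (P.cons (P.lf 212698 0 0) (P.cons (P.lf 1164 0 0) P.nil))) (P.cons (P.cons (P.lf 0 8583 0) (P.cons (P.lf 11160 0 0) P.nil)) (P.cons (P.cons (P.lf 7014 0 0) P.nil) P.nil)))))) 17887)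
 (EL.cons 6 (TM.mk (P.cons (P.cons (P.lf 0 103954968 0) (P.cons (P.lf 0 18891870 0) (P.cons (P.lf 7746012 0 0) (P.cons (P.lf 525846 0 0) (P.cons (P.lf 0 81594 0) (P.cons (P.lf 0 4248 0) P.nil)))))) (P.cons (P.cons (P.lf 15731472 0 0) (P.cons (P.lf 0 12644730 0) (P.cons (P.lf 1621422 0 0) (P.cons (P.lf 205236 0 0) (P.cons (P.lf 0 24798 0) P.nil))))) (P.cons (P.cons (P.lf 1856418 0 0) (P.cons (P.lf 0 1541616 0) (P.cons (P.lf 200250 0 0) (P.cons (P.lf 25122 0 0) P.nil)))) (P.cons (P.cons (P.lf 0 468426 0) (P.cons (P.lf 11598 0 0) (P.cons (P.lf 17472 0 0) P.nil))) (P.cons (P.cons (P.lf 0 60246 0) (P.cons (P.lf 12048 0 0) P.nil)) (P.cons (P.cons (P.lf 0 6 0) P.nil) P.nil)))))) 14370)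
 EL.nil))))))
noncomputable def S154_169_586_660_3 : EL := (EL.cons 0 (TM.mk (P.cons (P.lf 3004406328 0 0) (P.cons (P.lf 0 338075945 0) (P.cons (P.lf 0 3807979 0) (P.cons (P.lf 751584 0 0) (P.cons (P.lf 26892 0 0) (P.cons (P.lf 0 418 0) P.nil)))))) 212)
 (EL.cons 1 (TM.mk (P.cons (P.lf 1800696082 0 0) (P.cons (P.lf 0 1034199 0) (P.cons (P.lf 0 11296008 0) (P.cons (P.lf 0 258390 0) (P.cons (P.lf 13243 0 0) (P.cons (P.lf 742 0 0) P.nil)))))) 140)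
 (EL.cons 5 (TM.mk (P.cons (P.lf 1079250284 0 0) (P.cons (P.lf 120204780 0 0) (P.cons (P.lf 1353950 0 0) (P.cons (P.lf 0 267230 0) (P.cons (P.lf 0 9562 0) (P.cons (P.lf 146 0 0) P.nil)))))) 96)
 EL.nil)))
noncomputable def S154_169_586_660_4 : EL := (EL.cons 0 (TM.mk (P.cons (P.cons (P.lf 0 324437069 0) (P.cons (P.lf 0 99669427 0) (P.cons (P.lf 5453507 0 0) (P.lf 605944 0 0)))) (P.cons (P.cons (P.lf 139807548 0 0) (P.cons (P.lf 0 5436003 0) (P.cons (P.lf 297434 0 0) (P.lf 33045 0 0)))) (P.cons (P.cons (P.lf 0 20557184 0) (P.cons (P.lf 1348855 0 0) (P.cons (P.lf 0 73803 0) (P.lf 0 8201 0)))) (P.cons (P.cons (P.lf 149164 0 0) (P.cons (P.lf 104626 0 0) (P.cons (P.lf 0 5721 0) P.nil))) (P.cons (P.cons (P.lf 126641 0 0) (P.cons (P.lf 0 4932 0) P.nil)) (P.cons (P.cons (P.lf 10 0 0) P.nil) P.nil)))))) 3824)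
 (EL.cons 1 (TM.mk (P.cons (P.cons (P.lf 0 194451913 0) (P.cons (P.lf 0 59737042 0) (P.cons (P.lf 3268569 0 0) (P.lf 363172 0 0)))) (P.cons (P.cons (P.lf 62024540 0 0) (P.cons (P.lf 0 9945781 0) (P.cons (P.lf 544190 0 0) (P.lf 60463 0 0)))) (P.cons (P.cons (P.lf 0 4416330 0) (P.cons (P.lf 0 9830 0) (P.cons (P.lf 536 0 0) (P.lf 58 0 0)))) (P.cons (P.cons (P.lf 0 770964 0) (P.cons (P.lf 92484 0 0) (P.cons (P.lf 0 5056 0) P.nil))) (P.cons (P.cons (P.lf 33560 0 0) (P.cons (P.lf 5379 0 0) P.nil)) (P.cons (P.cons (P.lf 5026 0 0) P.nil) P.nil)))))) 2261)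
 (EL.cons 5 (TM.mk (P.cons (P.cons (P.lf 0 116545088 0) (P.cons (P.lf 0 35803498 0) (P.cons (P.lf 1959022 0 0) (P.lf 217668 0 0)))) (P.cons (P.cons (P.lf 24127014 0 0) (P.cons (P.lf 0 9969308 0) (P.cons (P.lf 545478 0 0) (P.lf 60606 0 0)))) (P.cons (P.cons (P.lf 630034 0 0) (P.cons (P.lf 0 945060 0) (P.cons (P.lf 51708 0 0) (P.lf 5742 0 0)))) (P.cons (P.cons (P.lf 0 546404 0) (P.cons (P.lf 0 12056 0) (P.cons (P.lf 660 0 0) P.nil))) (P.cons (P.cons (P.lf 0 34884 0) (P.cons (P.lf 4082 0 0) P.nil)) (P.cons (P.cons (P.lf 1496 0 0) P.nil) P.nil)))))) 1534)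
 EL.nil)))
noncomputable def S154_169_586_660_5 : EL := (EL.cons 0 (TM.mk (P.cons (P.cons (P.lf 35035011 0 0) (P.cons (P.lf 21526020 0 0) (P.cons (P.lf 2128656 0 0) (P.cons (P.lf 0 492700 0) (P.cons (P.lf 0 30302 0) (P.cons (P.lf 2199 0 0) P.nil)))))) (P.cons (P.cons (P.lf 0 26252442 0) (P.cons (P.lf 0 5679778 0) (P.cons (P.lf 1043513 0 0) (P.cons (P.lf 0 45652 0) (P.cons (P.lf 0 6714 0) P.nil))))) (P.cons (P.cons (P.lf 8035952 0 0) (P.cons (P.lf 0 45135 0) (P.cons (P.lf 9451 0 0) (P.cons (P.lf 0 488 0) P.nil)))) (P.cons (P.cons (P.lf 0 1083216 0) (P.cons (P.lf 149767 0 0) (P.cons (P.lf 0 19130 0) P.nil))) (P.cons (P.cons (P.lf 21737 0 0) (P.cons (P.lf 1425 0 0) P.nil)) (P.cons (P.cons (P.lf 9043 0 0) P.nil) P.nil)))))) 16524)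
 (EL.cons 1 (TM.mk (P.cons (P.cons (P.lf 20998293 0 0) (P.cons (P.lf 12901655 0 0) (P.cons (P.lf 1275813 0 0) (P.cons (P.lf 0 295299 0) (P.cons (P.lf 0 18161 0) (P.cons (P.lf 1316 0 0) P.nil)))))) (P.cons (P.cons (P.lf 0 13383637 0) (P.cons (P.lf 0 1959813 0) (P.cons (P.lf 768260 0 0) (P.cons (P.lf 0 60420 0) (P.cons (P.lf 0 6056 0) P.nil))))) (P.cons (P.cons (P.lf 3214271 0 0) (P.cons (P.lf 0 310207 0) (P.cons (P.lf 85368 0 0) (P.cons (P.lf 0 5596 0) P.nil)))) (P.cons (P.cons (P.lf 0 216826 0) (P.cons (P.lf 68664 0 0) (P.cons (P.lf 0 5313 0) P.nil))) (P.cons (P.cons (P.lf 0 31563 0) (P.cons (P.lf 9262 0 0) P.nil)) (P.cons (P.cons (P.lf 4179 0 0) P.nil) P.nil)))))) 10167)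
 (EL.cons 5 (TM.mk (P.cons (P.cons (P.lf 12585362 0 0) (P.cons (P.lf 7732628 0 0) (P.cons (P.lf 764660 0 0) (P.cons (P.lf 0 176988 0) (P.cons (P.lf 0 10884 0) (P.cons (P.lf 788 0 0) P.nil)))))) (P.cons (P.cons (P.lf 0 6612544 0) (P.cons (P.lf 0 308930 0) (P.cons (P.lf 546064 0 0) (P.cons (P.lf 0 56028 0) (P.cons (P.lf 0 4848 0) P.nil))))) (P.cons (P.cons (P.lf 1123998 0 0) (P.cons (P.lf 0 258718 0) (P.cons (P.lf 108520 0 0) (P.cons (P.lf 0 8752 0) P.nil)))) (P.cons (P.cons (P.lf 32400 0 0) (P.cons (P.lf 16080 0 0) (P.cons (P.lf 6498 0 0) P.nil))) (P.cons (P.cons (P.lf 0 23072 0) (P.cons (P.lf 8410 0 0) P.nil)) (P.cons (P.cons (P.lf 224 0 0) P.nil) P.nil)))))) 6372)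
 EL.nil)))
noncomputable def S154_169_586_660_6 : EL := (EL.cons 12 (TM.mk (P.lf 8589934592 0 0) 0)
 (EL.cons 3 (TM.mk (P.cons (P.lf 0 2540061705 0) (P.cons (P.lf 142912387 0 0) (P.cons (P.lf 5630085 0 0) (P.cons (P.lf 0 945 0) (P.cons (P.lf 0 5182 0) (P.cons (P.lf 0 116 0) P.nil)))))) 67)
 (EL.cons 7 (TM.mk (P.cons (P.lf 0 1522390337 0) (P.cons (P.lf 0 84780425 0) (P.cons (P.lf 1405728 0 0) (P.cons (P.lf 110195 0 0) (P.cons (P.lf 1257 0 0) (P.cons (P.lf 0 72 0) P.nil)))))) 47)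
 EL.nil)))
noncomputable def S154_169_586_660_7 : EL := (EL.cons 12 (TM.mk (P.cons (P.cons (P.lf 0 927601966 0) (P.cons (P.lf 0 284966072 0) (P.cons (P.lf 15592192 0 0) (P.lf 1732464 0 0)))) (P.cons (P.cons (P.lf 295345468 0 0) (P.cons (P.lf 0 47608440 0) (P.cons (P.lf 2604936 0 0) (P.lf 289432 0 0)))) (P.cons (P.cons (P.lf 0 26716750 0) (P.cons (P.lf 0 1861872 0) (P.cons (P.lf 101872 0 0) (P.lf 11312 0 0)))) (P.cons (P.cons (P.lf 0 1973476 0) (P.cons (P.lf 100576 0 0) (P.cons (P.lf 0 5496 0) P.nil))) (P.cons (P.cons (P.lf 40572 0 0) (P.cons (P.lf 9312 0 0) P.nil)) (P.cons (P.cons (P.lf 6008 0 0) P.nil) P.nil)))))) 2858)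
 (EL.cons 3 (TM.mk (P.cons (P.cons (P.lf 1842543324 0 0) (P.cons (P.lf 0 168530130 0) (P.cons (P.lf 9221286 0 0) (P.lf 1024586 0 0)))) (P.cons (P.cons (P.lf 0 335387575 0) (P.cons (P.lf 0 18673760 0) (P.cons (P.lf 1021748 0 0) (P.lf 113522 0 0)))) (P.cons (P.cons (P.lf 0 30504651 0) (P.cons (P.lf 856570 0 0) (P.cons (P.lf 0 46866 0) (P.lf 0 5210 0)))) (P.cons (P.cons (P.lf 537036 0 0) (P.cons (P.lf 183778 0 0) (P.cons (P.lf 0 10050 0) P.nil))) (P.cons (P.cons (P.lf 166654 0 0) (P.cons (P.lf 4244 0 0) P.nil)) (P.cons (P.cons (P.lf 4448 0 0) P.nil) P.nil)))))) 8037)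
 (EL.cons 7 (TM.mk (P.cons (P.cons (P.lf 0 765939743 0) (P.cons (P.lf 200471012 0 0) (P.cons (P.lf 0 10968970 0) (P.lf 0 1218776 0)))) (P.cons (P.cons (P.lf 198963162 0 0) (P.cons (P.lf 11077904 0 0) (P.cons (P.lf 0 606142 0) (P.lf 0 67350 0)))) (P.cons (P.cons (P.lf 6959188 0 0) (P.cons (P.lf 0 1128241 0) (P.cons (P.lf 61732 0 0) (P.lf 6856 0 0)))) (P.cons (P.cons (P.lf 0 1341495 0) (P.cons (P.lf 0 52856 0) (P.cons (P.lf 2895 0 0) P.nil))) (P.cons (P.cons (P.lf 0 42618 0) (P.cons (P.lf 4530 0 0) P.nil)) (P.cons (P.cons (P.lf 3699 0 0) P.nil) P.nil)))))) 5440)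
 (EL.cons 10 (TM.mk (P.cons (P.cons (P.lf 0 1357929747 0) (P.cons (P.lf 170387553 0 0) (P.cons (P.lf 26013771 0 0) (P.cons (P.lf 0 794715 0) (P.lf 0 66225 0))))) (P.cons (P.cons (P.lf 0 151243551 0) (P.cons (P.lf 18977430 0 0) (P.cons (P.lf 2897361 0 0) (P.cons (P.lf 0 88512 0) (P.lf 0 7374 0))))) (P.cons (P.cons (P.lf 0 1703559 0) (P.cons (P.lf 213756 0 0) (P.cons (P.lf 32634 0 0) (P.cons (P.lf 0 996 0) P.nil)))) (P.cons (P.cons (P.lf 336231 0 0) (P.cons (P.lf 0 42189 0) (P.cons (P.lf 0 6441 0) P.nil))) (P.cons (P.cons (P.lf 12030 0 0) (P.cons (P.lf 0 1509 0) P.nil)) (P.cons (P.cons (P.lf 0 183 0) P.nil) P.nil)))))) 801)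
 EL.nil))))
noncomputable def S154_169_586_660_8 : EL := (EL.cons 12 (TM.mk (P.cons (P.cons (P.lf 100169028 0 0) (P.cons (P.lf 61545308 0 0) (P.cons (P.lf 6086072 0 0) (P.cons (P.lf 0 1408690 0) (P.cons (P.lf 0 86644 0) (P.cons (P.lf 6288 0 0) P.nil)))))) (P.cons (P.cons (P.lf 0 63786990 0) (P.cons (P.lf 0 9313634 0) (P.cons (P.lf 3668370 0 0) (P.cons (P.lf 0 289044 0) (P.cons (P.lf 0 28950 0) P.nil))))) (P.cons (P.cons (P.lf 15924912 0 0) (P.cons (P.lf 0 1099074 0) (P.cons (P.lf 447532 0 0) (P.cons (P.lf 0 35710 0) P.nil)))) (P.cons (P.cons (P.lf 0 1410970 0) (P.cons (P.lf 277330 0 0) (P.cons (P.lf 0 1210 0) P.nil))) (P.cons (P.cons (P.lf 0 61374 0) (P.cons (P.lf 35670 0 0) P.nil)) (P.cons (P.cons (P.lf 13768 0 0) P.nil) P.nil)))))) 26160)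
 (EL.cons 3 (TM.mk (P.cons (P.cons (P.lf 0 368321553 0) (P.cons (P.lf 0 67653368 0) (P.cons (P.lf 17678941 0 0) (P.cons (P.lf 0 1118249 0) (P.cons (P.lf 0 128100 0) (P.cons (P.lf 9295 0 0) P.nil)))))) (P.cons (P.cons (P.lf 178609937 0 0) (P.cons (P.lf 0 9505476 0) (P.cons (P.lf 4403959 0 0) (P.cons (P.lf 0 367225 0) (P.cons (P.lf 0 35596 0) P.nil))))) (P.cons (P.cons (P.lf 0 22231750 0) (P.cons (P.lf 4311719 0 0) (P.cons (P.lf 43097 0 0) (P.cons (P.lf 0 56745 0) P.nil)))) (P.cons (P.cons (P.lf 0 1614357 0) (P.cons (P.lf 810253 0 0) (P.cons (P.lf 0 66258 0) P.nil))) (P.cons (P.cons (P.lf 357137 0 0) (P.cons (P.lf 12426 0 0) P.nil)) (P.cons (P.cons (P.lf 26563 0 0) P.nil) P.nil)))))) 61839)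
 (EL.cons 7 (TM.mk (P.cons (P.cons (P.lf 183176108 0 0) (P.cons (P.lf 18430295 0 0) (P.cons (P.lf 0 12633989 0) (P.cons (P.lf 1160155 0 0) (P.cons (P.lf 106549 0 0) (P.cons (P.lf 0 7732 0) P.nil)))))) (P.cons (P.cons (P.lf 0 105957409 0) (P.cons (P.lf 5638969 0 0) (P.cons (P.lf 0 2612571 0) (P.cons (P.lf 217848 0 0) (P.cons (P.lf 21111 0 0) P.nil))))) (P.cons (P.cons (P.lf 19119713 0 0) (P.cons (P.lf 0 2873503 0) (P.cons (P.lf 120669 0 0) (P.cons (P.lf 21467 0 0) P.nil)))) (P.cons (P.cons (P.lf 0 201161 0) (P.cons (P.lf 0 280472 0) (P.cons (P.lf 36904 0 0) P.nil))) (P.cons (P.cons (P.lf 0 251591 0) (P.cons (P.lf 26237 0 0) P.nil)) (P.cons (P.cons (P.lf 4093 0 0) P.nil) P.nil)))))) 32563)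
 (EL.cons 10 (TM.mk (P.cons (P.cons (P.lf 293277738 0 0) (P.cons (P.lf 53297742 0 0) (P.cons (P.lf 0 21853062 0) (P.cons (P.lf 0 1483524 0) (P.cons (P.lf 230196 0 0) (P.cons (P.lf 12000 0 0) P.nil)))))) (P.cons (P.cons (P.lf 0 60713982 0) (P.cons (P.lf 32705226 0 0) (P.cons (P.lf 0 3357390 0) (P.cons (P.lf 0 496404 0) (P.cons (P.lf 57150 0 0) P.nil))))) (P.cons (P.cons (P.lf 0 1585434 0) (P.cons (P.lf 2577114 0 0) (P.cons (P.lf 0 398154 0) (P.cons (P.lf 0 44610 0) P.nil)))) (P.cons (P.cons (P.lf 1374990 0 0) (P.cons (P.lf 0 142188 0) (P.cons (P.lf 0 31806 0) P.nil))) (P.cons (P.cons (P.lf 87786 0 0) (P.cons (P.lf 0 21282 0) P.nil)) (P.cons (P.cons (P.lf 0 3768 0) P.nil) P.nil)))))) 26910)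
 EL.nil))))
noncomputable def S154_169_586_660_9 : EL := (EL.cons 3 (TM.mk (P.cons (P.lf 0 2540061705 0) (P.cons (P.lf 142912387 0 0) (P.cons (P.lf 5630085 0 0) (P.cons (P.lf 0 945 0) (P.cons (P.lf 0 5182 0) (P.cons (P.lf 0 116 0) P.nil)))))) 67)
 (EL.cons 7 (TM.mk (P.cons (P.lf 0 1522390337 0) (P.cons (P.lf 0 84780425 0) (P.cons (P.lf 1405728 0 0) (P.cons (P.lf 110195 0 0) (P.cons (P.lf 1257 0 0) (P.cons (P.lf 0 72 0) P.nil)))))) 47)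
 EL.nil))
noncomputable def S154_169_586_660_10 : EL := (EL.cons 3 (TM.mk (P.cons (P.cons (P.lf 274293849 0 0) (P.cons (P.lf 84265065 0 0) (P.cons (P.lf 0 4610643 0) (P.lf 0 512293 0)))) (P.cons (P.cons (P.lf 0 102766966 0) (P.cons (P.lf 9336880 0 0) (P.cons (P.lf 0 510874 0) (P.lf 0 56761 0)))) (P.cons (P.cons (P.lf 12205941 0 0) (P.cons (P.lf 0 428285 0) (P.cons (P.lf 23433 0 0) (P.lf 2605 0 0)))) (P.cons (P.cons (P.lf 332748 0 0) (P.cons (P.lf 0 91889 0) (P.cons (P.lf 5025 0 0) P.nil))) (P.cons (P.cons (P.lf 0 61814 0) (P.cons (P.lf 0 2122 0) P.nil)) (P.cons (P.cons (P.lf 0 2557 0) P.nil) P.nil)))))) 1916)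
 (EL.cons 7 (TM.mk (P.cons (P.cons (P.lf 164398489 0 0) (P.cons (P.lf 50504411 0 0) (P.cons (P.lf 0 2763397 0) (P.lf 0 307043 0)))) (P.cons (P.cons (P.lf 0 43188756 0) (P.cons (P.lf 11250164 0 0) (P.cons (P.lf 0 615562 0) (P.lf 0 68394 0)))) (P.cons (P.cons (P.lf 1668214 0 0) (P.cons (P.lf 753227 0 0) (P.cons (P.lf 0 41213 0) (P.lf 0 4577 0)))) (P.cons (P.cons (P.lf 649878 0 0) (P.cons (P.lf 0 10895 0) (P.cons (P.lf 594 0 0) P.nil))) (P.cons (P.cons (P.lf 11568 0 0) (P.cons (P.lf 0 3600 0) P.nil)) (P.cons (P.cons (P.lf 0 2079 0) P.nil) P.nil)))))) 1104)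
 EL.nil))
noncomputable def S154_169_586_660_11 : EL := (EL.cons 3 (TM.mk (P.cons (P.cons (P.lf 0 29620191 0) (P.cons (P.lf 0 18199076 0) (P.cons (P.lf 0 1799663 0) (P.cons (P.lf 416551 0 0) (P.cons (P.lf 25620 0 0) (P.cons (P.lf 0 1859 0) P.nil)))))) (P.cons (P.cons (P.lf 20528477 0 0) (P.cons (P.lf 3778002 0 0) (P.cons (P.lf 0 983489 0) (P.cons (P.lf 62033 0 0) (P.cons (P.lf 7118 0 0) P.nil))))) (P.cons (P.cons (P.lf 0 5704612 0) (P.cons (P.lf 210383 0 0) (P.cons (P.lf 0 67315 0) (P.cons (P.lf 4827 0 0) P.nil)))) (P.cons (P.cons (P.lf 640353 0 0) (P.cons (P.lf 0 106403 0) (P.cons (P.lf 10206 0 0) P.nil))) (P.cons (P.cons (P.lf 5057 0 0) (P.cons (P.lf 0 6690 0) P.nil)) (P.cons (P.cons (P.lf 0 5981 0) P.nil) P.nil)))))) 11123)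
 (EL.cons 7 (TM.mk (P.cons (P.cons (P.lf 0 17752912 0) (P.cons (P.lf 0 10907647 0) (P.cons (P.lf 0 1078631 0) (P.cons (P.lf 249661 0 0) (P.cons (P.lf 15355 0 0) (P.cons (P.lf 0 1114 0) P.nil)))))) (P.cons (P.cons (P.lf 10316297 0 0) (P.cons (P.lf 1043215 0 0) (P.cons (P.lf 0 710211 0) (P.cons (P.lf 65130 0 0) (P.cons (P.lf 5985 0 0) P.nil))))) (P.cons (P.cons (P.lf 0 2176411 0) (P.cons (P.lf 296783 0 0) (P.cons (P.lf 0 114525 0) (P.cons (P.lf 8951 0 0) P.nil)))) (P.cons (P.cons (P.lf 83737 0 0) (P.cons (P.lf 0 39038 0) (P.cons (P.lf 0 3524 0) P.nil))) (P.cons (P.cons (P.lf 26605 0 0) (P.cons (P.lf 0 9349 0) P.nil)) (P.cons (P.cons (P.lf 0 1871 0) P.nil) P.nil)))))) 6453)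
 EL.nil))
noncomputable def S154_169_586_660_12 : EL := (EL.cons 4 (TM.mk (P.cons (P.lf 2540061705 0 0) (P.cons (P.lf 0 142912387 0) (P.cons (P.lf 0 5630085 0) (P.cons (P.lf 945 0 0) (P.cons (P.lf 5182 0 0) (P.cons (P.lf 116 0 0) P.nil)))))) 67)
 (EL.cons 8 (TM.mk (P.cons (P.lf 1522390337 0 0) (P.cons (P.lf 84780425 0 0) (P.cons (P.lf 0 1405728 0) (P.cons (P.lf 0 110195 0) (P.cons (P.lf 0 1257 0) (P.cons (P.lf 72 0 0) P.nil)))))) 47)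
 EL.nil))
noncomputable def S154_169_586_660_13 : EL := (EL.cons 4 (TM.mk (P.cons (P.cons (P.lf 0 274293849 0) (P.cons (P.lf 0 84265065 0) (P.cons (P.lf 4610643 0 0) (P.lf 512293 0 0)))) (P.cons (P.cons (P.lf 102766966 0 0) (P.cons (P.lf 0 9336880 0) (P.cons (P.lf 510874 0 0) (P.lf 56761 0 0)))) (P.cons (P.cons (P.lf 0 12205941 0) (P.cons (P.lf 428285 0 0) (P.cons (P.lf 0 23433 0) (P.lf 0 2605 0)))) (P.cons (P.cons (P.lf 0 332748 0) (P.cons (P.lf 91889 0 0) (P.cons (P.lf 0 5025 0) P.nil))) (P.cons (P.cons (P.lf 61814 0 0) (P.cons (P.lf 2122 0 0) P.nil)) (P.cons (P.cons (P.lf 2557 0 0) P.nil) P.nil)))))) 1916)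
 (EL.cons 8 (TM.mk (P.cons (P.cons (P.lf 0 164398489 0) (P.cons (P.lf 0 50504411 0) (P.cons (P.lf 2763397 0 0) (P.lf 307043 0 0)))) (P.cons (P.cons (P.lf 43188756 0 0) (P.cons (P.lf 0 11250164 0) (P.cons (P.lf 615562 0 0) (P.lf 68394 0 0)))) (P.cons (P.cons (P.lf 0 1668214 0) (P.cons (P.lf 0 753227 0) (P.cons (P.lf 41213 0 0) (P.lf 4577 0 0)))) (P.cons (P.cons (P.lf 0 649878 0) (P.cons (P.lf 10895 0 0) (P.cons (P.lf 0 594 0) P.nil))) (P.cons (P.cons (P.lf 0 11568 0) (P.cons (P.lf 3600 0 0) P.nil)) (P.cons (P.cons (P.lf 2079 0 0) P.nil) P.nil)))))) 1104)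
 EL.nil))
noncomputable def S154_169_586_660_14 : EL := (EL.cons 4 (TM.mk (P.cons (P.cons (P.lf 29620191 0 0) (P.cons (P.lf 18199076 0 0) (P.cons (P.lf 1799663 0 0) (P.cons (P.lf 0 416551 0) (P.cons (P.lf 0 25620 0) (P.cons (P.lf 1859 0 0) P.nil)))))) (P.cons (P.cons (P.lf 0 20528477 0) (P.cons (P.lf 0 3778002 0) (P.cons (P.lf 983489 0 0) (P.cons (P.lf 0 62033 0) (P.cons (P.lf 0 7118 0) P.nil))))) (P.cons (P.cons (P.lf 5704612 0 0) (P.cons (P.lf 0 210383 0) (P.cons (P.lf 67315 0 0) (P.cons (P.lf 0 4827 0) P.nil)))) (P.cons (P.cons (P.lf 0 640353 0) (P.cons (P.lf 106403 0 0) (P.cons (P.lf 0 10206 0) P.nil))) (P.cons (P.cons (P.lf 0 5057 0) (P.cons (P.lf 6690 0 0) P.nil)) (P.cons (P.cons (P.lf 5981 0 0) P.nil) P.nil)))))) 11123)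
 (EL.cons 8 (TM.mk (P.cons (P.cons (P.lf 17752912 0 0) (P.cons (P.lf 10907647 0 0) (P.cons (P.lf 1078631 0 0) (P.cons (P.lf 0 249661 0) (P.cons (P.lf 0 15355 0) (P.cons (P.lf 1114 0 0) P.nil)))))) (P.cons (P.cons (P.lf 0 10316297 0) (P.cons (P.lf 0 1043215 0) (P.cons (P.lf 710211 0 0) (P.cons (P.lf 0 65130 0) (P.cons (P.lf 0 5985 0) P.nil))))) (P.cons (P.cons (P.lf 2176411 0 0) (P.cons (P.lf 0 296783 0) (P.cons (P.lf 114525 0 0) (P.cons (P.lf 0 8951 0) P.nil)))) (P.cons (P.cons (P.lf 0 83737 0) (P.cons (P.lf 39038 0 0) (P.cons (P.lf 3524 0 0) P.nil))) (P.cons (P.cons (P.lf 0 26605 0) (P.cons (P.lf 9349 0 0) P.nil)) (P.cons (P.cons (P.lf 1871 0 0) P.nil) P.nil)))))) 6453)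
 EL.nil))
noncomputable def S154_169_586_660_15 : EL := (EL.cons 4 (TM.mk (P.cons (P.lf 0 1602350041 0) (P.cons (P.lf 180307170 0 0) (P.cons (P.lf 2030922 0 0) (P.cons (P.lf 0 400845 0) (P.cons (P.lf 0 14342 0) (P.cons (P.lf 223 0 0) P.nil)))))) 116)
 (EL.cons 8 (TM.mk (P.cons (P.lf 0 960371244 0) (P.cons (P.lf 551573 0 0) (P.cons (P.lf 6024538 0 0) (P.cons (P.lf 137808 0 0) (P.cons (P.lf 0 7063 0) (P.cons (P.lf 0 396 0) P.nil)))))) 71)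
 EL.nil))
noncomputable def S154_169_586_660_16 : EL := (EL.cons 4 (TM.mk (P.cons (P.cons (P.lf 173033103 0 0) (P.cons (P.lf 53157028 0 0) (P.cons (P.lf 0 2908537 0) (P.lf 0 323170 0)))) (P.cons (P.cons (P.lf 0 74564025 0) (P.cons (P.lf 2899201 0 0) (P.cons (P.lf 0 158631 0) (P.lf 0 17624 0)))) (P.cons (P.cons (P.lf 10963831 0 0) (P.cons (P.lf 0 719389 0) (P.cons (P.lf 39361 0 0) (P.lf 4374 0 0)))) (P.cons (P.cons (P.lf 0 79554 0) (P.cons (P.lf 0 55800 0) (P.cons (P.lf 3051 0 0) P.nil))) (P.cons (P.cons (P.lf 0 67542 0) (P.cons (P.lf 2630 0 0) P.nil)) (P.cons (P.cons (P.lf 0 5 0) P.nil) P.nil)))))) 2048)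
 (EL.cons 8 (TM.mk (P.cons (P.cons (P.lf 103707687 0 0) (P.cons (P.lf 31859756 0 0) (P.cons (P.lf 0 1743237 0) (P.lf 0 193692 0)))) (P.cons (P.cons (P.lf 0 33079755 0) (P.cons (P.lf 5304417 0 0) (P.cons (P.lf 0 290235 0) (P.lf 0 32247 0)))) (P.cons (P.cons (P.lf 2355376 0 0) (P.cons (P.lf 5243 0 0) (P.cons (P.lf 0 286 0) (P.lf 0 31 0)))) (P.cons (P.cons (P.lf 411181 0 0) (P.cons (P.lf 0 49325 0) (P.cons (P.lf 2697 0 0) P.nil))) (P.cons (P.cons (P.lf 0 17899 0) (P.cons (P.lf 0 2869 0) P.nil)) (P.cons (P.cons (P.lf 0 2681 0) P.nil) P.nil)))))) 1196)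
 EL.nil))
noncomputable def S154_169_586_660_17 : EL := (EL.cons 4 (TM.mk (P.cons (P.cons (P.lf 0 18685339 0) (P.cons (P.lf 0 11480544 0) (P.cons (P.lf 0 1135283 0) (P.cons (P.lf 262773 0 0) (P.cons (P.lf 16161 0 0) (P.cons (P.lf 0 1172 0) P.nil)))))) (P.cons (P.cons (P.lf 14001302 0 0) (P.cons (P.lf 3029215 0 0) (P.cons (P.lf 0 556540 0) (P.cons (P.lf 24347 0 0) (P.cons (P.lf 3581 0 0) P.nil))))) (P.cons (P.cons (P.lf 0 4285841 0) (P.cons (P.lf 24072 0 0) (P.cons (P.lf 0 5040 0) (P.cons (P.lf 260 0 0) P.nil)))) (P.cons (P.cons (P.lf 577715 0 0) (P.cons (P.lf 0 79875 0) (P.cons (P.lf 10202 0 0) P.nil))) (P.cons (P.cons (P.lf 0 11593 0) (P.cons (P.lf 0 760 0) P.nil)) (P.cons (P.cons (P.lf 0 4823 0) P.nil) P.nil)))))) 8823)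
 (EL.cons 8 (TM.mk (P.cons (P.cons (P.lf 0 11199090 0) (P.cons (P.lf 0 6880883 0) (P.cons (P.lf 0 680434 0) (P.cons (P.lf 157493 0 0) (P.cons (P.lf 9686 0 0) (P.cons (P.lf 0 702 0) P.nil)))))) (P.cons (P.cons (P.lf 7137940 0 0) (P.cons (P.lf 1045234 0 0) (P.cons (P.lf 0 409739 0) (P.cons (P.lf 32224 0 0) (P.cons (P.lf 3230 0 0) P.nil))))) (P.cons (P.cons (P.lf 0 1714278 0) (P.cons (P.lf 165444 0 0) (P.cons (P.lf 0 45530 0) (P.cons (P.lf 2985 0 0) P.nil)))) (P.cons (P.cons (P.lf 115641 0 0) (P.cons (P.lf 0 36621 0) (P.cons (P.lf 2834 0 0) P.nil))) (P.cons (P.cons (P.lf 16834 0 0) (P.cons (P.lf 0 4940 0) P.nil)) (P.cons (P.cons (P.lf 0 2229 0) P.nil) P.nil)))))) 5411)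
 EL.nil))
noncomputable def S154_169_586_660_18 : EL := (EL.cons 4 (TM.mk (P.cons (P.lf 1010812316 0 0) (P.cons (P.lf 0 170615069 0) (P.cons (P.lf 2877933 0 0) (P.cons (P.lf 577438 0 0) (P.cons (P.lf 0 318 0) (P.cons (P.lf 0 1395 0) P.nil)))))) 149)
 (EL.cons 8 (TM.mk (P.cons (P.lf 605832095 0 0) (P.cons (P.lf 0 34434094 0) (P.cons (P.lf 0 5123725 0) (P.cons (P.lf 127889 0 0) (P.cons (P.lf 19006 0 0) (P.cons (P.lf 218 0 0) P.nil)))))) 96)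
 EL.nil))
noncomputable def S154_169_586_660_19 : EL := (EL.cons 4 (TM.mk (P.cons (P.cons (P.lf 0 109154670 0) (P.cons (P.lf 0 33533108 0) (P.cons (P.lf 1834795 0 0) (P.lf 203865 0 0)))) (P.cons (P.cons (P.lf 53178717 0 0) (P.cons (P.lf 57777 0 0) (P.cons (P.lf 0 3161 0) (P.lf 0 351 0)))) (P.cons (P.cons (P.lf 0 9320860 0) (P.cons (P.lf 631040 0 0) (P.cons (P.lf 0 34528 0) (P.lf 0 3837 0)))) (P.cons (P.cons (P.lf 335021 0 0) (P.cons (P.lf 13709 0 0) (P.cons (P.lf 0 749 0) P.nil))) (P.cons (P.cons (P.lf 54908 0 0) (P.cons (P.lf 0 4714 0) P.nil)) (P.cons (P.cons (P.lf 0 2415 0) P.nil) P.nil)))))) 1985)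
 (EL.cons 8 (TM.mk (P.cons (P.cons (P.lf 0 65422039 0) (P.cons (P.lf 0 20098126 0) (P.cons (P.lf 1099688 0 0) (P.lf 122187 0 0)))) (P.cons (P.cons (P.lf 24548603 0 0) (P.cons (P.lf 0 2215403 0) (P.cons (P.lf 121217 0 0) (P.lf 13467 0 0)))) (P.cons (P.cons (P.lf 0 2514924 0) (P.cons (P.lf 229507 0 0) (P.cons (P.lf 0 12557 0) (P.lf 0 1395 0)))) (P.cons (P.cons (P.lf 0 222065 0) (P.cons (P.lf 38711 0 0) (P.cons (P.lf 0 2117 0) P.nil))) (P.cons (P.cons (P.lf 29053 0 0) (P.cons (P.lf 25 0 0) P.nil)) (P.cons (P.cons (P.lf 1670 0 0) P.nil) P.nil)))))) 1160)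
 EL.nil))
noncomputable def S154_169_586_660_20 : EL := (EL.cons 4 (TM.mk (P.cons (P.cons (P.lf 11787293 0 0) (P.cons (P.lf 7242285 0 0) (P.cons (P.lf 716172 0 0) (P.cons (P.lf 0 165765 0) (P.cons (P.lf 0 10195 0) (P.cons (P.lf 739 0 0) P.nil)))))) (P.cons (P.cons (P.lf 0 9495650 0) (P.cons (P.lf 0 2318398 0) (P.cons (P.lf 310788 0 0) (P.cons (P.lf 0 6032 0) (P.cons (P.lf 0 1685 0) P.nil))))) (P.cons (P.cons (P.lf 3174459 0 0) (P.cons (P.lf 76275 0 0) (P.cons (P.lf 0 18159 0) (P.cons (P.lf 1066 0 0) P.nil)))) (P.cons (P.cons (P.lf 0 496975 0) (P.cons (P.lf 55481 0 0) (P.cons (P.lf 0 7393 0) P.nil))) (P.cons (P.cons (P.lf 21846 0 0) (P.cons (P.lf 0 2307 0) P.nil)) (P.cons (P.cons (P.lf 3422 0 0) P.nil) P.nil)))))) 7124)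
 (EL.cons 8 (TM.mk (P.cons (P.cons (P.lf 7064735 0 0) (P.cons (P.lf 4340675 0 0) (P.cons (P.lf 429239 0 0) (P.cons (P.lf 0 99352 0) (P.cons (P.lf 0 6110 0) (P.cons (P.lf 443 0 0) P.nil)))))) (P.cons (P.cons (P.lf 0 4900320 0) (P.cons (P.lf 0 903587 0) (P.cons (P.lf 234326 0 0) (P.cons (P.lf 0 14738 0) (P.cons (P.lf 0 1694 0) P.nil))))) (P.cons (P.cons (P.lf 1319105 0 0) (P.cons (P.lf 0 76890 0) (P.cons (P.lf 13227 0 0) (P.cons (P.lf 0 519 0) P.nil)))) (P.cons (P.cons (P.lf 0 123811 0) (P.cons (P.lf 30436 0 0) (P.cons (P.lf 0 3976 0) P.nil))) (P.cons (P.cons (P.lf 0 8899 0) (P.cons (P.lf 2057 0 0) P.nil)) (P.cons (P.cons (P.lf 2156 0 0) P.nil) P.nil)))))) 4078)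
 EL.nil))
noncomputable def S154_169_586_660_21 : EL := (EL.cons 4 (TM.mk (P.cons (P.cons (P.lf 0 1568249475 0) (P.cons (P.lf 252795195 0 0) (P.cons (P.lf 0 13831929 0) (P.lf 0 1536879 0)))) (P.cons (P.cons (P.lf 232620609 0 0) (P.cons (P.lf 28010640 0 0) (P.cons (P.lf 0 1532622 0) (P.lf 0 170283 0)))) (P.cons (P.cons (P.lf 42710592 0 0) (P.cons (P.lf 0 1284855 0) (P.cons (P.lf 70299 0 0) (P.lf 7815 0 0)))) (P.cons (P.cons (P.lf 0 204288 0) (P.cons (P.lf 0 275667 0) (P.cons (P.lf 15075 0 0) P.nil))) (P.cons (P.cons (P.lf 0 228468 0) (P.cons (P.lf 0 6366 0) P.nil)) (P.cons (P.cons (P.lf 0 7005 0) P.nil) P.nil)))))) 6102)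
 (EL.cons 8 (TM.mk (P.cons (P.cons (P.lf 930338232 0 0) (P.cons (P.lf 0 149966601 0) (P.cons (P.lf 8205573 0 0) (P.lf 911733 0 0)))) (P.cons (P.cons (P.lf 0 242151918 0) (P.cons (P.lf 172260 0 0) (P.cons (P.lf 0 9420 0) (P.lf 0 1044 0)))) (P.cons (P.cons (P.lf 0 5290974 0) (P.cons (P.lf 1881468 0 0) (P.cons (P.lf 0 102945 0) (P.lf 0 11433 0)))) (P.cons (P.cons (P.lf 1991373 0 0) (P.cons (P.lf 41961 0 0) (P.cons (P.lf 0 2301 0) P.nil))) (P.cons (P.cons (P.lf 54186 0 0) (P.cons (P.lf 0 8130 0) P.nil)) (P.cons (P.cons (P.lf 0 5778 0) P.nil) P.nil)))))) 4317)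
 (EL.cons 11 (TM.mk (P.cons (P.cons (P.lf 1357929747 0 0) (P.cons (P.lf 0 170387553 0) (P.cons (P.lf 0 26013771 0) (P.cons (P.lf 794715 0 0) (P.lf 66225 0 0))))) (P.cons (P.cons (P.lf 151243551 0 0) (P.cons (P.lf 0 18977430 0) (P.cons (P.lf 0 2897361 0) (P.cons (P.lf 88512 0 0) (P.lf 7374 0 0))))) (P.cons (P.cons (P.lf 1703559 0 0) (P.cons (P.lf 0 213756 0) (P.cons (P.lf 0 32634 0) (P.cons (P.lf 996 0 0) P.nil)))) (P.cons (P.cons (P.lf 0 336231 0) (P.cons (P.lf 42189 0 0) (P.cons (P.lf 6441 0 0) P.nil))) (P.cons (P.cons (P.lf 0 12030 0) (P.cons (P.lf 1509 0 0) P.nil)) (P.cons (P.cons (P.lf 183 0 0) P.nil) P.nil)))))) 801)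
 EL.nil)))
noncomputable def S154_169_586_660_22 : EL := (EL.cons 4 (TM.mk (P.cons (P.cons (P.lf 169350681 0 0) (P.cons (P.lf 24727146 0 0) (P.cons (P.lf 0 9739302 0) (P.cons (P.lf 767400 0 0) (P.cons (P.lf 76860 0 0) (P.cons (P.lf 0 5577 0) P.nil)))))) (P.cons (P.cons (P.lf 0 79040730 0) (P.cons (P.lf 6641739 0 0) (P.cons (P.lf 0 2693724 0) (P.cons (P.lf 214629 0 0) (P.cons (P.lf 21357 0 0) P.nil))))) (P.cons (P.cons (P.lf 8263569 0 0) (P.cons (P.lf 0 2050668 0) (P.cons (P.lf 0 55206 0) (P.cons (P.lf 30786 0 0) P.nil)))) (P.cons (P.cons (P.lf 1127355 0 0) (P.cons (P.lf 0 458328 0) (P.cons (P.lf 38232 0 0) P.nil))) (P.cons (P.cons (P.lf 0 176040 0) (P.cons (P.lf 0 9558 0) P.nil)) (P.cons (P.cons (P.lf 0 16272 0) P.nil) P.nil)))))) 25347)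
 (EL.cons 8 (TM.mk (P.cons (P.cons (P.lf 0 100464510 0) (P.cons (P.lf 0 14668971 0) (P.cons (P.lf 5777679 0 0) (P.cons (P.lf 0 455247 0) (P.cons (P.lf 0 45597 0) (P.cons (P.lf 3309 0 0) P.nil)))))) (P.cons (P.cons (P.lf 58136853 0 0) (P.cons (P.lf 0 2297877 0) (P.cons (P.lf 951180 0 0) (P.cons (P.lf 0 76359 0) (P.cons (P.lf 0 7563 0) P.nil))))) (P.cons (P.cons (P.lf 0 10648062 0) (P.cons (P.lf 1585143 0 0) (P.cons (P.lf 0 117597 0) (P.cons (P.lf 0 6258 0) P.nil)))) (P.cons (P.cons (P.lf 142449 0 0) (P.cons (P.lf 120717 0 0) (P.cons (P.lf 0 20214 0) P.nil))) (P.cons (P.cons (P.lf 139098 0 0) (P.cons (P.lf 0 17793 0) P.nil)) (P.cons (P.cons (P.lf 0 2982 0) P.nil) P.nil)))))) 13044)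
 (EL.cons 11 (TM.mk (P.cons (P.cons (P.lf 0 146638869 0) (P.cons (P.lf 0 26648871 0) (P.cons (P.lf 10926531 0 0) (P.cons (P.lf 741762 0 0) (P.cons (P.lf 0 115098 0) (P.cons (P.lf 0 6000 0) P.nil)))))) (P.cons (P.cons (P.lf 30356991 0 0) (P.cons (P.lf 0 16352613 0) (P.cons (P.lf 1678695 0 0) (P.cons (P.lf 248202 0 0) (P.cons (P.lf 0 28575 0) P.nil))))) (P.cons (P.cons (P.lf 792717 0 0) (P.cons (P.lf 0 1288557 0) (P.cons (P.lf 199077 0 0) (P.cons (P.lf 22305 0 0) P.nil)))) (P.cons (P.cons (P.lf 0 687495 0) (P.cons (P.lf 71094 0 0) (P.cons (P.lf 15903 0 0) P.nil))) (P.cons (P.cons (P.lf 0 43893 0) (P.cons (P.lf 10641 0 0) P.nil)) (P.cons (P.cons (P.lf 1884 0 0) P.nil) P.nil)))))) 13455)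
 EL.nil)))
noncomputable def S154_169_586_660_23 : EL := (EL.cons 4 (TM.mk (P.cons (P.cons (P.lf 989300616 0 0) (P.cons (P.lf 0 159471081 0) (P.cons (P.lf 8725611 0 0) (P.lf 969510 0 0)))) (P.cons (P.cons (P.lf 0 202405695 0) (P.cons (P.lf 0 8697606 0) (P.cons (P.lf 475893 0 0) (P.lf 52869 0 0)))) (P.cons (P.cons (P.lf 0 20879643 0) (P.cons (P.lf 2158167 0 0) (P.cons (P.lf 0 118083 0) (P.lf 0 13122 0)))) (P.cons (P.cons (P.lf 1970412 0 0) (P.cons (P.lf 167400 0 0) (P.cons (P.lf 0 9153 0) P.nil))) (P.cons (P.cons (P.lf 198555 0 0) (P.cons (P.lf 0 7896 0) P.nil)) (P.cons (P.cons (P.lf 0 4239 0) P.nil) P.nil)))))) 6675)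
 (EL.cons 8 (TM.mk (P.cons (P.cons (P.lf 0 586886334 0) (P.cons (P.lf 94603602 0 0) (P.cons (P.lf 0 5176329 0) (P.lf 0 575148 0)))) (P.cons (P.cons (P.lf 185777163 0 0) (P.cons (P.lf 0 5431380 0) (P.cons (P.lf 297180 0 0) (P.lf 33018 0 0)))) (P.cons (P.cons (P.lf 0 3956064 0) (P.cons (P.lf 0 1390464 0) (P.cons (P.lf 76077 0 0) (P.lf 8448 0 0)))) (P.cons (P.cons (P.lf 0 1782816 0) (P.cons (P.lf 40584 0 0) (P.cons (P.lf 0 2217 0) P.nil))) (P.cons (P.cons (P.lf 27957 0 0) (P.cons (P.lf 9441 0 0) P.nil)) (P.cons (P.cons (P.lf 8637 0 0) P.nil) P.nil)))))) 4296)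
 (EL.cons 11 (TM.mk (P.cons (P.cons (P.lf 0 856624380 0) (P.cons (P.lf 107485773 0 0) (P.cons (P.lf 16410297 0 0) (P.cons (P.lf 0 501330 0) (P.lf 0 41775 0))))) (P.cons (P.cons (P.lf 0 47212581 0) (P.cons (P.lf 5924043 0 0) (P.cons (P.lf 904446 0 0) (P.cons (P.lf 0 27627 0) (P.lf 0 2301 0))))) (P.cons (P.cons (P.lf 6192099 0 0) (P.cons (P.lf 0 776958 0) (P.cons (P.lf 0 118620 0) (P.cons (P.lf 3624 0 0) P.nil)))) (P.cons (P.cons (P.lf 483723 0 0) (P.cons (P.lf 0 60696 0) (P.cons (P.lf 0 9264 0) P.nil))) (P.cons (P.cons (P.lf 0 3744 0) (P.cons (P.lf 468 0 0) P.nil)) (P.cons (P.cons (P.lf 0 1245 0) P.nil) P.nil)))))) 1647)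
 EL.nil)))
noncomputable def S154_169_586_660_24 : EL := (EL.cons 4 (TM.mk (P.cons (P.cons (P.lf 0 106831686 0) (P.cons (P.lf 0 15598653 0) (P.cons (P.lf 6143853 0 0) (P.cons (P.lf 0 484101 0) (P.cons (P.lf 0 48486 0) (P.cons (P.lf 3519 0 0) P.nil)))))) (P.cons (P.cons (P.lf 55872063 0 0) (P.cons (P.lf 0 3312183 0) (P.cons (P.lf 1353609 0 0) (P.cons (P.lf 0 108159 0) (P.cons (P.lf 0 10743 0) P.nil))))) (P.cons (P.cons (P.lf 0 7781490 0) (P.cons (P.lf 1563933 0 0) (P.cons (P.lf 0 74397 0) (P.cons (P.lf 0 10731 0) P.nil)))) (P.cons (P.cons (P.lf 0 528432 0) (P.cons (P.lf 225624 0 0) (P.cons (P.lf 0 29841 0) P.nil))) (P.cons (P.cons (P.lf 162420 0 0) (P.cons (P.lf 0 13137 0) P.nil)) (P.cons (P.cons (P.lf 5688 0 0) P.nil) P.nil)))))) 17919)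
 (EL.cons 8 (TM.mk (P.cons (P.cons (P.lf 63376140 0 0) (P.cons (P.lf 9253644 0 0) (P.cons (P.lf 0 3644739 0) (P.cons (P.lf 287184 0 0) (P.cons (P.lf 28764 0 0) (P.cons (P.lf 0 2085 0) P.nil)))))) (P.cons (P.cons (P.lf 0 40240290 0) (P.cons (P.lf 928929 0 0) (P.cons (P.lf 0 394968 0) (P.cons (P.lf 32013 0 0) (P.cons (P.lf 3153 0 0) P.nil))))) (P.cons (P.cons (P.lf 8640087 0 0) (P.cons (P.lf 0 1102026 0) (P.cons (P.lf 116022 0 0) (P.cons (P.lf 600 0 0) P.nil)))) (P.cons (P.cons (P.lf 0 386475 0) (P.cons (P.lf 0 23100 0) (P.cons (P.lf 9906 0 0) P.nil))) (P.cons (P.cons (P.lf 0 97464 0) (P.cons (P.lf 17745 0 0) P.nil)) (P.cons (P.cons (P.lf 6948 0 0) P.nil) P.nil)))))) 8553)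
 (EL.cons 11 (TM.mk (P.cons (P.cons (P.lf 92504364 0 0) (P.cons (P.lf 16810938 0 0) (P.cons (P.lf 0 6892794 0) (P.cons (P.lf 0 467928 0) (P.cons (P.lf 72606 0 0) (P.cons (P.lf 3783 0 0) P.nil)))))) (P.cons (P.cons (P.lf 0 24354741 0) (P.cons (P.lf 9369897 0 0) (P.cons (P.lf 0 671160 0) (P.cons (P.lf 0 130245 0) (P.cons (P.lf 13941 0 0) P.nil))))) (P.cons (P.cons (P.lf 372339 0 0) (P.cons (P.lf 195201 0 0) (P.cons (P.lf 0 50724 0) (P.cons (P.lf 0 4224 0) P.nil)))) (P.cons (P.cons (P.lf 504309 0 0) (P.cons (P.lf 0 113439 0) (P.cons (P.lf 0 621 0) P.nil))) (P.cons (P.cons (P.lf 4578 0 0) (P.cons (P.lf 0 5952 0) P.nil)) (P.cons (P.cons (P.lf 0 3741 0) P.nil) P.nil)))))) 9528)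
 EL.nil)))
noncomputable def S154_169_586_660_25 : EL := (EL.cons 4 (TM.mk (P.cons (P.cons (P.lf 0 624081642 0) (P.cons (P.lf 100599324 0 0) (P.cons (P.lf 0 5504385 0) (P.lf 0 611595 0)))) (P.cons (P.cons (P.lf 162796740 0 0) (P.cons (P.lf 0 173334 0) (P.cons (P.lf 9486 0 0) (P.lf 1056 0 0)))) (P.cons (P.cons (P.lf 7370895 0 0) (P.cons (P.lf 0 1893120 0) (P.cons (P.lf 103581 0 0) (P.lf 11508 0 0)))) (P.cons (P.cons (P.lf 0 2267316 0) (P.cons (P.lf 0 41127 0) (P.cons (P.lf 2247 0 0) P.nil))) (P.cons (P.cons (P.lf 0 85740 0) (P.cons (P.lf 14145 0 0) P.nil)) (P.cons (P.cons (P.lf 12711 0 0) P.nil) P.nil)))))) 5721)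
 (EL.cons 8 (TM.mk (P.cons (P.cons (P.lf 370226178 0 0) (P.cons (P.lf 0 59678898 0) (P.cons (P.lf 3265389 0 0) (P.lf 362820 0 0)))) (P.cons (P.cons (P.lf 0 138024186 0) (P.cons (P.lf 6784020 0 0) (P.cons (P.lf 0 371190 0) (P.lf 0 41241 0)))) (P.cons (P.cons (P.lf 8268726 0 0) (P.cons (P.lf 816651 0 0) (P.cons (P.lf 0 44682 0) (P.lf 0 4962 0)))) (P.cons (P.cons (P.lf 1244145 0 0) (P.cons (P.lf 0 82569 0) (P.cons (P.lf 4515 0 0) P.nil))) (P.cons (P.cons (P.lf 0 85731 0) (P.cons (P.lf 0 6579 0) P.nil)) (P.cons (P.cons (P.lf 0 7170 0) P.nil) P.nil)))))) 3948)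
 (EL.cons 11 (TM.mk (P.cons (P.cons (P.lf 540385341 0 0) (P.cons (P.lf 0 67805373 0) (P.cons (P.lf 0 10352124 0) (P.cons (P.lf 316254 0 0) (P.lf 26352 0 0))))) (P.cons (P.cons (P.lf 0 620721 0) (P.cons (P.lf 77886 0 0) (P.cons (P.lf 11889 0 0) (P.cons (P.lf 0 363 0) (P.lf 0 30 0))))) (P.cons (P.cons (P.lf 0 6779643 0) (P.cons (P.lf 850680 0 0) (P.cons (P.lf 129876 0 0) (P.cons (P.lf 0 3966 0) P.nil)))) (P.cons (P.cons (P.lf 0 151188 0) (P.cons (P.lf 18969 0 0) (P.cons (P.lf 2895 0 0) P.nil))) (P.cons (P.cons (P.lf 29301 0 0) (P.cons (P.lf 0 3675 0) P.nil)) (P.cons (P.cons (P.lf 1413 0 0) P.nil) P.nil)))))) 1983)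
 EL.nil)))
noncomputable def S154_169_586_660_26 : EL := (EL.cons 4 (TM.mk (P.cons (P.cons (P.lf 67392753 0 0) (P.cons (P.lf 9840114 0 0) (P.cons (P.lf 0 3875733 0) (P.cons (P.lf 305385 0 0) (P.cons (P.lf 30585 0 0) (P.cons (P.lf 0 2220 0) P.nil)))))) (P.cons (P.cons (P.lf 0 39037578 0) (P.cons (P.lf 1535790 0 0) (P.cons (P.lf 0 635838 0) (P.cons (P.lf 51048 0 0) (P.cons (P.lf 5055 0 0) P.nil))))) (P.cons (P.cons (P.lf 6742479 0 0) (P.cons (P.lf 0 1125945 0) (P.cons (P.lf 103566 0 0) (P.cons (P.lf 2253 0 0) P.nil)))) (P.cons (P.cons (P.lf 135312 0 0) (P.cons (P.lf 0 91449 0) (P.cons (P.lf 18075 0 0) P.nil))) (P.cons (P.cons (P.lf 0 131970 0) (P.cons (P.lf 18501 0 0) P.nil)) (P.cons (P.cons (P.lf 1368 0 0) P.nil) P.nil)))))) 13194)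
 (EL.cons 8 (TM.mk (P.cons (P.cons (P.lf 0 39979644 0) (P.cons (P.lf 0 5837487 0) (P.cons (P.lf 2299215 0 0) (P.cons (P.lf 0 181164 0) (P.cons (P.lf 0 18144 0) (P.cons (P.lf 1317 0 0) P.nil)))))) (P.cons (P.cons (P.lf 27634218 0 0) (P.cons (P.lf 0 257562 0) (P.cons (P.lf 119796 0 0) (P.cons (P.lf 0 10002 0) (P.cons (P.lf 0 966 0) P.nil))))) (P.cons (P.cons (P.lf 0 6790056 0) (P.cons (P.lf 741102 0 0) (P.cons (P.lf 0 92304 0) (P.cons (P.lf 1155 0 0) P.nil)))) (P.cons (P.cons (P.lf 494181 0 0) (P.cons (P.lf 0 23244 0) (P.cons (P.lf 0 2682 0) P.nil))) (P.cons (P.cons (P.lf 59775 0 0) (P.cons (P.lf 0 13566 0) P.nil)) (P.cons (P.cons (P.lf 0 8334 0) P.nil) P.nil)))))) 6369)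
 (EL.cons 11 (TM.mk (P.cons (P.cons (P.lf 0 58354635 0) (P.cons (P.lf 0 10604862 0) (P.cons (P.lf 4348188 0 0) (P.cons (P.lf 295182 0 0) (P.cons (P.lf 0 45801 0) (P.cons (P.lf 0 2388 0) P.nil)))))) (P.cons (P.cons (P.lf 18646956 0 0) (P.cons (P.lf 0 5314158 0) (P.cons (P.lf 178746 0 0) (P.cons (P.lf 65553 0 0) (P.cons (P.lf 0 6216 0) P.nil))))) (P.cons (P.cons (P.lf 0 969954 0) (P.cons (P.lf 232926 0 0) (P.cons (P.lf 0 1458 0) (P.cons (P.lf 0 2610 0) P.nil)))) (P.cons (P.cons (P.lf 0 338994 0) (P.cons (P.lf 91587 0 0) (P.cons (P.lf 0 2343 0) P.nil))) (P.cons (P.cons (P.lf 15417 0 0) (P.cons (P.lf 0 18 0) P.nil)) (P.cons (P.cons (P.lf 3255 0 0) P.nil) P.nil)))))) 7254)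
 EL.nil)))
noncomputable def S154_169_586_660_27 : EL := (EL.cons 13 (TM.mk (P.lf 0 4294967296 0) 0)
 EL.nil)
noncomputable def S154_169_586_660_28 : EL := (EL.cons 13 (TM.mk (P.cons (P.cons (P.lf 463800983 0 0) (P.cons (P.lf 142483036 0 0) (P.cons (P.lf 0 7796096 0) (P.lf 0 866232 0)))) (P.cons (P.cons (P.lf 0 147672734 0) (P.cons (P.lf 23804220 0 0) (P.cons (P.lf 0 1302468 0) (P.lf 0 144716 0)))) (P.cons (P.cons (P.lf 13358375 0 0) (P.cons (P.lf 930936 0 0) (P.cons (P.lf 0 50936 0) (P.lf 0 5656 0)))) (P.cons (P.cons (P.lf 986738 0 0) (P.cons (P.lf 0 50288 0) (P.cons (P.lf 2748 0 0) P.nil))) (P.cons (P.cons (P.lf 0 20286 0) (P.cons (P.lf 0 4656 0) P.nil)) (P.cons (P.cons (P.lf 0 3004 0) P.nil) P.nil)))))) 1429)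
 EL.nil)
noncomputable def S154_169_586_660_29 : EL := (EL.cons 13 (TM.mk (P.cons (P.cons (P.lf 0 50084514 0) (P.cons (P.lf 0 30772654 0) (P.cons (P.lf 0 3043036 0) (P.cons (P.lf 704345 0 0) (P.cons (P.lf 43322 0 0) (P.cons (P.lf 0 3144 0) P.nil)))))) (P.cons (P.cons (P.lf 31893495 0 0) (P.cons (P.lf 4656817 0 0) (P.cons (P.lf 0 1834185 0) (P.cons (P.lf 144522 0 0) (P.cons (P.lf 14475 0 0) P.nil))))) (P.cons (P.cons (P.lf 0 7962456 0) (P.cons (P.lf 549537 0 0) (P.cons (P.lf 0 223766 0) (P.cons (P.lf 17855 0 0) P.nil)))) (P.cons (P.cons (P.lf 705485 0 0) (P.cons (P.lf 0 138665 0) (P.cons (P.lf 605 0 0) P.nil))) (P.cons (P.cons (P.lf 30687 0 0) (P.cons (P.lf 0 17835 0) P.nil)) (P.cons (P.cons (P.lf 0 6884 0) P.nil) P.nil)))))) 13080)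
 EL.nil)
noncomputable def S154_169_586_660_30 : EL := (EL.cons 13 (TM.mk (P.cons (P.lf 2709399152 0 0) (P.cons (P.lf 0 152439880 0) (P.cons (P.lf 0 6005424 0) (P.cons (P.lf 1008 0 0) (P.cons (P.lf 5528 0 0) (P.cons (P.lf 124 0 0) P.nil)))))) 64)
 EL.nil)
noncomputable def S154_169_586_660_31 : EL := (EL.cons 13 (TM.mk (P.cons (P.cons (P.lf 0 292580106 0) (P.cons (P.lf 0 89882737 0) (P.cons (P.lf 4918020 0 0) (P.lf 546446 0 0)))) (P.cons (P.cons (P.lf 109618098 0 0) (P.cons (P.lf 0 9959339 0) (P.cons (P.lf 544933 0 0) (P.lf 60546 0 0)))) (P.cons (P.cons (P.lf 0 13019671 0) (P.cons (P.lf 456838 0 0) (P.cons (P.lf 0 24996 0) (P.lf 0 2779 0)))) (P.cons (P.cons (P.lf 0 354932 0) (P.cons (P.lf 98015 0 0) (P.cons (P.lf 0 5360 0) P.nil))) (P.cons (P.cons (P.lf 65935 0 0) (P.cons (P.lf 2264 0 0) P.nil)) (P.cons (P.cons (P.lf 2728 0 0) P.nil) P.nil)))))) 2024)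
 EL.nil)
noncomputable def S154_169_586_660_32 : EL := (EL.cons 13 (TM.mk (P.cons (P.cons (P.lf 31594871 0 0) (P.cons (P.lf 19412348 0 0) (P.cons (P.lf 1919641 0 0) (P.cons (P.lf 0 444322 0) (P.cons (P.lf 0 27328 0) (P.cons (P.lf 1983 0 0) P.nil)))))) (P.cons (P.cons (P.lf 0 21897043 0) (P.cons (P.lf 0 4029869 0) (P.cons (P.lf 1049055 0 0) (P.cons (P.lf 0 66169 0) (P.cons (P.lf 0 7593 0) P.nil))))) (P.cons (P.cons (P.lf 6084920 0 0) (P.cons (P.lf 0 224409 0) (P.cons (P.lf 71803 0 0) (P.cons (P.lf 0 5149 0) P.nil)))) (P.cons (P.cons (P.lf 0 683044 0) (P.cons (P.lf 113497 0 0) (P.cons (P.lf 0 10887 0) P.nil))) (P.cons (P.cons (P.lf 0 5395 0) (P.cons (P.lf 7136 0 0) P.nil)) (P.cons (P.cons (P.lf 6380 0 0) P.nil) P.nil)))))) 11842)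
 EL.nil)
noncomputable def S154_169_586_660_33 : EL := (EL.cons 14 (TM.mk (P.lf 8589934592 0 0) 0)
 EL.nil)
noncomputable def S154_169_586_660_34 : EL := (EL.cons 14 (TM.mk (P.cons (P.cons (P.lf 0 927601966 0) (P.cons (P.lf 0 284966072 0) (P.cons (P.lf 15592192 0 0) (P.lf 1732464 0 0)))) (P.cons (P.cons (P.lf 295345468 0 0) (P.cons (P.lf 0 47608440 0) (P.cons (P.lf 2604936 0 0) (P.lf 289432 0 0)))) (P.cons (P.cons (P.lf 0 26716750 0) (P.cons (P.lf 0 1861872 0) (P.cons (P.lf 101872 0 0) (P.lf 11312 0 0)))) (P.cons (P.cons (P.lf 0 1973476 0) (P.cons (P.lf 100576 0 0) (P.cons (P.lf 0 5496 0) P.nil))) (P.cons (P.cons (P.lf 40572 0 0) (P.cons (P.lf 9312 0 0) P.nil)) (P.cons (P.cons (P.lf 6008 0 0) P.nil) P.nil)))))) 2858)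
 EL.nil)
noncomputable def S154_169_586_660_35 : EL := (EL.cons 14 (TM.mk (P.cons (P.cons (P.lf 100169028 0 0) (P.cons (P.lf 61545308 0 0) (P.cons (P.lf 6086072 0 0) (P.cons (P.lf 0 1408690 0) (P.cons (P.lf 0 86644 0) (P.cons (P.lf 6288 0 0) P.nil)))))) (P.cons (P.cons (P.lf 0 63786990 0) (P.cons (P.lf 0 9313634 0) (P.cons (P.lf 3668370 0 0) (P.cons (P.lf 0 289044 0) (P.cons (P.lf 0 28950 0) P.nil))))) (P.cons (P.cons (P.lf 15924912 0 0) (P.cons (P.lf 0 1099074 0) (P.cons (P.lf 447532 0 0) (P.cons (P.lf 0 35710 0) P.nil)))) (P.cons (P.cons (P.lf 0 1410970 0) (P.cons (P.lf 277330 0 0) (P.cons (P.lf 0 1210 0) P.nil))) (P.cons (P.cons (P.lf 0 61374 0) (P.cons (P.lf 35670 0 0) P.nil)) (P.cons (P.cons (P.lf 13768 0 0) P.nil) P.nil)))))) 26160)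
 EL.nil)
noncomputable def S154_169_586_660_36 : EL := (EL.cons 14 (TM.mk (P.cons (P.lf 0 5418798304 0) (P.cons (P.lf 304879760 0 0) (P.cons (P.lf 12010848 0 0) (P.cons (P.lf 0 2016 0) (P.cons (P.lf 0 11056 0) (P.cons (P.lf 0 248 0) P.nil)))))) 128)
 EL.nil)
noncomputable def S154_169_586_660_37 : EL := (EL.cons 14 (TM.mk (P.cons (P.cons (P.lf 585160212 0 0) (P.cons (P.lf 179765474 0 0) (P.cons (P.lf 0 9836040 0) (P.lf 0 1092892 0)))) (P.cons (P.cons (P.lf 0 219236196 0) (P.cons (P.lf 19918678 0 0) (P.cons (P.lf 0 1089866 0) (P.lf 0 121092 0)))) (P.cons (P.cons (P.lf 26039342 0 0) (P.cons (P.lf 0 913676 0) (P.cons (P.lf 49992 0 0) (P.lf 5558 0 0)))) (P.cons (P.cons (P.lf 709864 0 0) (P.cons (P.lf 0 196030 0) (P.cons (P.lf 10720 0 0) P.nil))) (P.cons (P.cons (P.lf 0 131870 0) (P.cons (P.lf 0 4528 0) P.nil)) (P.cons (P.cons (P.lf 0 5456 0) P.nil) P.nil))))))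 4048)
 EL.nil)
noncomputable def S154_169_586_660_38 : EL := (EL.cons 14 (TM.mk (P.cons (P.cons (P.lf 0 63189742 0) (P.cons (P.lf 0 38824696 0) (P.cons (P.lf 0 3839282 0) (P.cons (P.lf 888644 0 0) (P.cons (P.lf 54656 0 0) (P.cons (P.lf 0 3966 0) P.nil)))))) (P.cons (P.cons (P.lf 43794086 0 0) (P.cons (P.lf 8059738 0 0) (P.cons (P.lf 0 2098110 0) (P.cons (P.lf 132338 0 0) (P.cons (P.lf 15186 0 0) P.nil))))) (P.cons (P.cons (P.lf 0 12169840 0) (P.cons (P.lf 448818 0 0) (P.cons (P.lf 0 143606 0) (P.cons (P.lf 10298 0 0) P.nil)))) (P.cons (P.cons (P.lf 1366088 0 0) (P.cons (P.lf 0 226994 0) (P.cons (P.lf 21774 0 0) P.nil))) (P.cons (P.cons (P.lf 10790 0 0) (P.cons (P.lf 0 14272 0) P.nil)) (P.cons (P.cons (P.lf 0 12760 0) P.nil) P.nil)))))) 23684)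
 EL.nil)
noncomputable def S154_169_586_660_39 : EL := (EL.cons 14 (TM.mk (P.cons (P.lf 3418346756 0 0) (P.cons (P.lf 0 384655298 0) (P.cons (P.lf 0 4332634 0) (P.cons (P.lf 855136 0 0) (P.cons (P.lf 30598 0 0) (P.cons (P.lf 0 476 0) P.nil)))))) 234)
 EL.nil)
noncomputable def S154_169_586_660_40 : EL := (EL.cons 14 (TM.mk (P.cons (P.cons (P.lf 0 369137288 0) (P.cons (P.lf 0 113401660 0) (P.cons (P.lf 6204880 0 0) (P.lf 689430 0 0)))) (P.cons (P.cons (P.lf 159069922 0 0) (P.cons (P.lf 0 6184964 0) (P.cons (P.lf 338414 0 0) (P.lf 37598 0 0)))) (P.cons (P.cons (P.lf 0 23389508 0) (P.cons (P.lf 1534698 0 0) (P.cons (P.lf 0 83972 0) (P.lf 0 9332 0)))) (P.cons (P.cons (P.lf 169716 0 0) (P.cons (P.lf 119042 0 0) (P.cons (P.lf 0 6510 0) P.nil))) (P.cons (P.cons (P.lf 144090 0 0) (P.cons (P.lf 0 5612 0) P.nil)) (P.cons (P.cons (P.lf 12 0 0) P.nil) P.nil)))))) 4330)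
 EL.nil)
noncomputable def S154_169_586_660_41 : EL := (EL.cons 14 (TM.mk (P.cons (P.cons (P.lf 39862058 0 0) (P.cons (P.lf 24491828 0 0) (P.cons (P.lf 2421938 0 0) (P.cons (P.lf 0 560584 0) (P.cons (P.lf 0 34478 0) (P.cons (P.lf 2502 0 0) P.nil)))))) (P.cons (P.cons (P.lf 0 29869446 0) (P.cons (P.lf 0 6462326 0) (P.cons (P.lf 1187286 0 0) (P.cons (P.lf 0 51942 0) (P.cons (P.lf 0 7640 0) P.nil))))) (P.cons (P.cons (P.lf 9143128 0 0) (P.cons (P.lf 0 51354 0) (P.cons (P.lf 10754 0 0) (P.cons (P.lf 0 556 0) P.nil)))) (P.cons (P.cons (P.lf 0 1232460 0) (P.cons (P.lf 170402 0 0) (P.cons (P.lf 0 21766 0) P.nil))) (P.cons (P.cons (P.lf 24732 0 0) (P.cons (P.lf 1622 0 0) P.nil)) (P.cons (P.cons (P.lf 10290 0 0) P.nil) P.nil)))))) 18776)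
 EL.nil)
noncomputable def S154_169_586_660_42 : EL := (EL.cons 14 (TM.mk (P.cons (P.lf 0 2156399608 0) (P.cons (P.lf 363978814 0 0) (P.cons (P.lf 0 6139592 0) (P.cons (P.lf 0 1231868 0) (P.cons (P.lf 680 0 0) (P.cons (P.lf 2978 0 0) P.nil)))))) 304)
 EL.nil)
noncomputable def S154_169_586_660_43 : EL := (EL.cons 14 (TM.mk (P.cons (P.cons (P.lf 232863298 0 0) (P.cons (P.lf 71537298 0 0) (P.cons (P.lf 0 3914230 0) (P.lf 0 434914 0)))) (P.cons (P.cons (P.lf 0 113447930 0) (P.cons (P.lf 0 123258 0) (P.cons (P.lf 6744 0 0) (P.lf 750 0 0)))) (P.cons (P.cons (P.lf 19884502 0 0) (P.cons (P.lf 0 1346220 0) (P.cons (P.lf 73660 0 0) (P.lf 8186 0 0)))) (P.cons (P.cons (P.lf 0 714712 0) (P.cons (P.lf 0 29246 0) (P.cons (P.lf 1598 0 0) P.nil))) (P.cons (P.cons (P.lf 0 117138 0) (P.cons (P.lf 10058 0 0) P.nil)) (P.cons (P.cons (P.lf 5154 0 0) P.nil) P.nil)))))) 4196)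
 EL.nil)
noncomputable def S154_169_586_660_44 : EL := (EL.cons 14 (TM.mk (P.cons (P.cons (P.lf 0 25146226 0) (P.cons (P.lf 0 15450208 0) (P.cons (P.lf 0 1527834 0) (P.cons (P.lf 353634 0 0) (P.cons (P.lf 21750 0 0) (P.cons (P.lf 0 1578 0) P.nil)))))) (P.cons (P.cons (P.lf 20257388 0 0) (P.cons (P.lf 4945916 0 0) (P.cons (P.lf 0 663016 0) (P.cons (P.lf 12870 0 0) (P.cons (P.lf 3596 0 0) P.nil))))) (P.cons (P.cons (P.lf 0 6772180 0) (P.cons (P.lf 0 162722 0) (P.cons (P.lf 38740 0 0) (P.cons (P.lf 0 2276 0) P.nil)))) (P.cons (P.cons (P.lf 1060214 0 0) (P.cons (P.lf 0 118360 0) (P.cons (P.lf 15772 0 0) P.nil))) (P.cons (P.cons (P.lf 0 46606 0) (P.cons (P.lf 4922 0 0) P.nil)) (P.cons (P.cons (P.lf 0 7302 0) P.nil) P.nil)))))) 15152)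
 EL.nil)
noncomputable def S154_169_586_660_45 : EL := (EL.cons 14 (TM.mk (P.cons (P.cons (P.lf 0 10816960 0) (P.cons (P.lf 0 9969146 0) (P.cons (P.lf 0 2517122 0) (P.cons (P.lf 82136 0 0) (P.cons (P.lf 79548 0 0) (P.cons (P.lf 864 0 0) P.nil)))))) (P.cons (P.cons (P.lf 10332256 0 0) (P.cons (P.lf 4682772 0 0) (P.cons (P.lf 0 304418 0) (P.cons (P.lf 0 180380 0) (P.cons (P.lf 26242 0 0) P.nil))))) (P.cons (P.cons (P.lf 0 4224404 0) (P.cons (P.lf 0 589444 0) (P.cons (P.lf 144362 0 0) (P.cons (P.lf 0 41092 0) P.nil)))) (P.cons (P.cons (P.lf 875288 0 0) (P.cons (P.lf 0 79362 0) (P.cons (P.lf 3788 0 0) P.nil))) (P.cons (P.cons (P.lf 0 76286 0) (P.cons (P.lf 17298 0 0) P.nil)) (P.cons (P.cons (P.lf 0 3098 0) P.nil) P.nil)))))) 38224)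
 EL.nil)
noncomputable def S154_169_586_660_46 : EL := (EL.cons 15 (TM.mk (P.lf 4294967296 0 0) 0)
 EL.nil)
noncomputable def S154_169_586_660_47 : EL := (EL.cons 15 (TM.mk (P.cons (P.cons (P.lf 0 463800983 0) (P.cons (P.lf 0 142483036 0) (P.cons (P.lf 7796096 0 0) (P.lf 866232 0 0)))) (P.cons (P.cons (P.lf 147672734 0 0) (P.cons (P.lf 0 23804220 0) (P.cons (P.lf 1302468 0 0) (P.lf 144716 0 0)))) (P.cons (P.cons (P.lf 0 13358375 0) (P.cons (P.lf 0 930936 0) (P.cons (P.lf 50936 0 0) (P.lf 5656 0 0)))) (P.cons (P.cons (P.lf 0 986738 0) (P.cons (P.lf 50288 0 0) (P.cons (P.lf 0 2748 0) P.nil))) (P.cons (P.cons (P.lf 20286 0 0) (P.cons (P.lf 4656 0 0) P.nil)) (P.cons (P.cons (P.lf 3004 0 0) P.nil) P.nil)))))) 1429)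
 EL.nil)
noncomputable def S154_169_586_660_48 : EL := (EL.cons 15 (TM.mk (P.cons (P.cons (P.lf 50084514 0 0) (P.cons (P.lf 30772654 0 0) (P.cons (P.lf 3043036 0 0) (P.cons (P.lf 0 704345 0) (P.cons (P.lf 0 43322 0) (P.cons (P.lf 3144 0 0) P.nil)))))) (P.cons (P.cons (P.lf 0 31893495 0) (P.cons (P.lf 0 4656817 0) (P.cons (P.lf 1834185 0 0) (P.cons (P.lf 0 144522 0) (P.cons (P.lf 0 14475 0) P.nil))))) (P.cons (P.cons (P.lf 7962456 0 0) (P.cons (P.lf 0 549537 0) (P.cons (P.lf 223766 0 0) (P.cons (P.lf 0 17855 0) P.nil)))) (P.cons (P.cons (P.lf 0 705485 0) (P.cons (P.lf 138665 0 0) (P.cons (P.lf 0 605 0) P.nil))) (P.cons (P.cons (P.lf 0 30687 0) (P.cons (P.lf 17835 0 0) P.nil)) (P.cons (P.cons (P.lf 6884 0 0) P.nil) P.nil)))))) 13080)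
 EL.nil)
noncomputable def S154_169_586_660 : SL := (SL.cons S154_169_586_660_0 (SL.cons S154_169_586_660_1 (SL.cons S154_169_586_660_2 (SL.cons S154_169_586_660_3 (SL.cons S154_169_586_660_4 (SL.cons S154_169_586_660_5 (SL.cons S154_169_586_660_6 (SL.cons S154_169_586_660_7 (SL.cons S154_169_586_660_8 (SL.cons S154_169_586_660_9 (SL.cons S154_169_586_660_10 (SL.cons S154_169_586_660_11 (SL.cons S154_169_586_660_12 (SL.cons S154_169_586_660_13 (SL.cons S154_169_586_660_14 (SL.cons S154_169_586_660_15 (SL.cons S154_169_586_660_16 (SL.cons S154_169_586_660_17 (SL.cons S154_169_586_660_18 (SL.cons S154_169_586_660_19 (SL.cons S154_169_586_660_20 (SL.cons S154_169_586_660_21 (SL.cons S154_169_586_660_22 (SL.cons S154_169_586_660_23 (SL.cons S154_169_586_660_24 (SL.cons S154_169_586_660_25 (SL.cons S154_169_586_660_26 (SL.cons S154_169_586_660_27 (SL.cons S154_169_586_660_28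 (SL.cons S154_169_586_660_29 (SL.cons S154_169_586_660_30 (SL.cons S154_169_586_660_31 (SL.cons S154_169_586_660_32 (SL.cons S154_169_586_660_33 (SL.cons S154_169_586_660_34 (SL.cons S154_169_586_660_35 (SL.cons S154_169_586_660_36 (SL.cons S154_169_586_660_37 (SL.cons S154_169_586_660_38 (SL.cons S154_169_586_660_39 (SL.cons S154_169_586_660_40 (SL.cons S154_169_586_660_41 (SL.cons S154_169_586_660_42 (SL.cons S154_169_586_660_43 (SL.cons S154_169_586_660_44 (SL.cons S154_169_586_660_45 (SL.cons S154_169_586_660_46 (SL.cons S154_169_586_660_47 (SL.cons S154_169_586_660_48 SL.nil)))))))))))))))))))))))))))))))))))))))))))))))))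
noncomputable def S154_169_660_734_0 : EL := (EL.cons 0 (TM.mk (P.cons (P.lf 5451310535 0 0) (P.cons (P.lf 338075945 0 0) (P.cons (P.lf 3807979 0 0) (P.cons (P.lf 0 751584 0) (P.cons (P.lf 0 26892 0) (P.cons (P.lf 418 0 0) P.nil)))))) 212)
 (EL.cons 1 (TM.mk (P.cons (P.lf 0 1800696082 0) (P.cons (P.lf 1034199 0 0) (P.cons (P.lf 11296008 0 0) (P.cons (P.lf 258390 0 0) (P.cons (P.lf 0 13243 0) (P.cons (P.lf 0 742 0) P.nil)))))) 140)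
 (EL.cons 5 (TM.mk (P.cons (P.lf 5363200660 0 0) (P.cons (P.lf 0 120204780 0) (P.cons (P.lf 0 1353950 0) (P.cons (P.lf 267230 0 0) (P.cons (P.lf 9562 0 0) (P.cons (P.lf 0 146 0) P.nil)))))) 103)
 (EL.cons 9 (TM.mk (P.lf 6442450944 0 0) 2)
 EL.nil))))
noncomputable def S154_169_660_734_1 : EL := (EL.cons 0 (TM.mk (P.cons (P.cons (P.lf 0 2238890271 0) (P.cons (P.lf 83681703 0 0) (P.cons (P.lf 0 10775777 0) (P.lf 0 718381 0)))) (P.cons (P.cons (P.lf 486912501 0 0) (P.cons (P.lf 0 17789910 0) (P.cons (P.lf 2290828 0 0) (P.lf 152735 0 0)))) (P.cons (P.cons (P.lf 20884348 0 0) (P.cons (P.lf 0 5118876 0) (P.cons (P.lf 659161 0 0) (P.lf 43940 0 0)))) (P.cons (P.cons (P.lf 0 6339878 0) (P.cons (P.lf 0 226259 0) (P.cons (P.lf 29129 0 0) P.nil))) (P.cons (P.cons (P.lf 0 408923 0) (P.cons (P.lf 20468 0 0) P.nil)) (P.cons (P.cons (P.lf 18703 0 0) P.nil) P.nil))))))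 20769)
 (EL.cons 1 (TM.mk (P.cons (P.cons (P.lf 293856620 0 0) (P.cons (P.lf 42952420 0 0) (P.cons (P.lf 0 5531023 0) (P.lf 0 368729 0)))) (P.cons (P.cons (P.lf 0 132793153 0) (P.cons (P.lf 21214540 0 0) (P.cons (P.lf 0 2731811 0) (P.lf 0 182110 0)))) (P.cons (P.cons (P.lf 30670398 0 0) (P.cons (P.lf 940560 0 0) (P.cons (P.lf 0 121108 0) (P.lf 0 8065 0)))) (P.cons (P.cons (P.lf 2710614 0 0) (P.cons (P.lf 0 190677 0) (P.cons (P.lf 24544 0 0) P.nil))) (P.cons (P.cons (P.lf 0 202917 0) (P.cons (P.lf 0 15788 0) P.nil)) (P.cons (P.cons (P.lf 0 20586 0) P.nil) P.nil)))))) 10645)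
 (EL.cons 5 (TM.mk (P.cons (P.cons (P.lf 0 412059872 0) (P.cons (P.lf 0 201290022 0) (P.cons (P.lf 25920336 0 0) (P.lf 1728024 0 0)))) (P.cons (P.cons (P.lf 7809837 0 0) (P.cons (P.lf 0 22332800 0) (P.cons (P.lf 2875818 0 0) (P.lf 191718 0 0)))) (P.cons (P.cons (P.lf 0 32876638 0) (P.cons (P.lf 699274 0 0) (P.cons (P.lf 0 90046 0) (P.lf 0 6000 0)))) (P.cons (P.cons (P.lf 724847 0 0) (P.cons (P.lf 140994 0 0) (P.cons (P.lf 0 18152 0) P.nil))) (P.cons (P.cons (P.lf 193601 0 0) (P.cons (P.lf 0 1666 0) P.nil)) (P.cons (P.cons (P.lf 0 1424 0) P.nil) P.nil)))))) 9218)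
 (EL.cons 9 (TM.mk (P.cons (P.cons (P.lf 0 1065979186 0) (P.cons (P.lf 0 151355754 0) (P.cons (P.lf 19490244 0 0) (P.lf 1299348 0 0)))) (P.cons (P.cons (P.lf 159647895 0 0) (P.cons (P.lf 0 25286556 0) (P.cons (P.lf 3256176 0 0) (P.lf 217074 0 0)))) (P.cons (P.cons (P.lf 0 22456840 0) (P.cons (P.lf 0 988908 0) (P.cons (P.lf 127338 0 0) (P.lf 8484 0 0)))) (P.cons (P.cons (P.lf 0 1349409 0) (P.cons (P.lf 53418 0 0) (P.cons (P.lf 0 6876 0) P.nil))) (P.cons (P.cons (P.lf 42531 0 0) (P.cons (P.lf 4944 0 0) P.nil)) (P.cons (P.cons (P.lf 4608 0 0) P.nil) P.nil)))))) 2408)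
 (EL.cons 2 (TM.mk (P.cons (P.cons (P.lf 544397571 0 0) (P.cons (P.lf 0 155413203 0) (P.cons (P.lf 0 11624655 0) (P.cons (P.lf 783329 0 0) (P.lf 39164 0 0))))) (P.cons (P.cons (P.lf 30004301 0 0) (P.cons (P.lf 0 8565547 0) (P.cons (P.lf 0 640687 0) (P.cons (P.lf 43171 0 0) (P.lf 2157 0 0))))) (P.cons (P.cons (P.lf 0 3935171 0) (P.cons (P.lf 1123402 0 0) (P.cons (P.lf 84029 0 0) (P.cons (P.lf 0 5661 0) P.nil)))) (P.cons (P.cons (P.lf 0 307414 0) (P.cons (P.lf 87758 0 0) (P.cons (P.lf 6561 0 0) P.nil))) (P.cons (P.cons (P.lf 2379 0 0) (P.cons (P.lf 0 677 0) P.nil)) (P.cons (P.cons (P.lf 790 0 0) P.nil) P.nil)))))) 1688)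
 (EL.cons 6 (TM.mk (P.cons (P.cons (P.lf 326285616 0 0) (P.cons (P.lf 0 93147168 0) (P.cons (P.lf 0 6967257 0) (P.cons (P.lf 469488 0 0) (P.lf 23472 0 0))))) (P.cons (P.cons (P.lf 54511578 0 0) (P.cons (P.lf 0 15561822 0) (P.cons (P.lf 0 1163997 0) (P.cons (P.lf 78435 0 0) (P.lf 3921 0 0))))) (P.cons (P.cons (P.lf 2131848 0 0) (P.cons (P.lf 0 608592 0) (P.cons (P.lf 0 45519 0) (P.cons (P.lf 3066 0 0) P.nil)))) (P.cons (P.cons (P.lf 0 115167 0) (P.cons (P.lf 32877 0 0) (P.cons (P.lf 2457 0 0) P.nil))) (P.cons (P.cons (P.lf 0 10665 0) (P.cons (P.lf 3045 0 0) P.nil)) (P.cons (P.cons (P.lf 0 84 0) P.nil) P.nil)))))) 966)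
 EL.nil))))))
noncomputable def S154_169_660_734_2 : EL := (EL.cons 0 (TM.mk (P.cons (P.cons (P.lf 591657643 0 0) (P.cons (P.lf 35125014 0 0) (P.cons (P.lf 0 11463854 0) (P.cons (P.lf 1485992 0 0) (P.cons (P.lf 4070 0 0) (P.cons (P.lf 0 15340 0) P.nil)))))) (P.cons (P.cons (P.lf 0 236645232 0) (P.cons (P.lf 1369531 0 0) (P.cons (P.lf 0 1189304 0) (P.cons (P.lf 249120 0 0) (P.cons (P.lf 592 0 0) P.nil))))) (P.cons (P.cons (P.lf 25861724 0 0) (P.cons (P.lf 0 4071734 0) (P.cons (P.lf 691044 0 0) (P.cons (P.lf 0 7993 0) P.nil)))) (P.cons (P.cons (P.lf 694568 0 0) (P.cons (P.lf 0 290340 0) (P.cons (P.lf 82666 0 0) P.nil))) (P.cons (P.cons (P.lf 0 532933 0) (P.cons (P.lf 70650 0 0) P.nil)) (P.cons (P.cons (P.lf 5404 0 0) P.nil) P.nil)))))) 114275)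
 (EL.cons 1 (TM.mk (P.cons (P.cons (P.lf 0 47945338 0) (P.cons (P.lf 0 14021796 0) (P.cons (P.lf 781278 0 0) (P.cons (P.lf 384174 0 0) (P.cons (P.lf 596 0 0) (P.cons (P.lf 0 2264 0) P.nil)))))) (P.cons (P.cons (P.lf 43713375 0 0) (P.cons (P.lf 0 724667 0) (P.cons (P.lf 0 909141 0) (P.cons (P.lf 264390 0 0) (P.cons (P.lf 589 0 0) P.nil))))) (P.cons (P.cons (P.lf 0 15897437 0) (P.cons (P.lf 0 100032 0) (P.cons (P.lf 0 176727 0) (P.cons (P.lf 49686 0 0) P.nil)))) (P.cons (P.cons (P.lf 1323175 0 0) (P.cons (P.lf 0 333848 0) (P.cons (P.lf 37984 0 0) P.nil))) (P.cons (P.cons (P.lf 29055 0 0) (P.cons (P.lf 0 37581 0) P.nil)) (P.cons (P.cons (P.lf 0 32892 0) P.nil) P.nil)))))) 51997)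
 (EL.cons 5 (TM.mk (P.cons (P.cons (P.lf 0 10471212 0) (P.cons (P.lf 44276571 0 0) (P.cons (P.lf 796268 0 0) (P.cons (P.lf 0 2053557 0) (P.cons (P.lf 0 3804 0) (P.cons (P.lf 14357 0 0) P.nil)))))) (P.cons (P.cons (P.lf 24265117 0 0) (P.cons (P.lf 495124 0 0) (P.cons (P.lf 1642952 0 0) (P.cons (P.lf 0 443802 0) (P.cons (P.lf 0 999 0) P.nil))))) (P.cons (P.cons (P.lf 3710758 0 0) (P.cons (P.lf 1594145 0 0) (P.cons (P.lf 0 99412 0) (P.cons (P.lf 0 40948 0) P.nil)))) (P.cons (P.cons (P.lf 0 1002250 0) (P.cons (P.lf 299289 0 0) (P.cons (P.lf 0 48681 0) P.nil))) (P.cons (P.cons (P.lf 186449 0 0) (P.cons (P.lf 0 6413 0) P.nil)) (P.cons (P.cons (P.lf 9402 0 0) P.nil) P.nil)))))) 52767)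
 (EL.cons 9 (TM.mk (P.cons (P.cons (P.lf 176378778 0 0) (P.cons (P.lf 50087173 0 0) (P.cons (P.lf 0 2893902 0) (P.cons (P.lf 0 1345773 0) (P.cons (P.lf 0 2088 0) (P.cons (P.lf 7861 0 0) P.nil)))))) (P.cons (P.cons (P.lf 0 52831239 0) (P.cons (P.lf 866538 0 0) (P.cons (P.lf 1076554 0 0) (P.cons (P.lf 0 313432 0) (P.cons (P.lf 0 697 0) P.nil))))) (P.cons (P.cons (P.lf 11387668 0 0) (P.cons (P.lf 129199 0 0) (P.cons (P.lf 129079 0 0) (P.cons (P.lf 0 38634 0) P.nil)))) (P.cons (P.cons (P.lf 0 666436 0) (P.cons (P.lf 173001 0 0) (P.cons (P.lf 0 17025 0) P.nil))) (P.cons (P.cons (P.lf 0 2673 0) (P.cons (P.lf 16498 0 0) P.nil)) (P.cons (P.cons (P.lf 9990 0 0) P.nil) P.nil)))))) 21653)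
 (EL.cons 2 (TM.mk (P.cons (P.cons (P.lf 0 180153945 0) (P.cons (P.lf 25850261 0 0) (P.cons (P.lf 14443183 0 0) (P.cons (P.lf 0 433755 0) (P.cons (P.lf 0 182790 0) (P.cons (P.lf 0 1788 0) P.nil)))))) (P.cons (P.cons (P.lf 17051883 0 0) (P.cons (P.lf 0 10551245 0) (P.cons (P.lf 1990192 0 0) (P.cons (P.lf 0 14242 0) (P.cons (P.lf 0 36500 0) P.nil))))) (P.cons (P.cons (P.lf 0 1005986 0) (P.cons (P.lf 69423 0 0) (P.cons (P.lf 111684 0 0) (P.cons (P.lf 0 2930 0) P.nil)))) (P.cons (P.cons (P.lf 0 530527 0) (P.cons (P.lf 196605 0 0) (P.cons (P.lf 0 7374 0) P.nil))) (P.cons (P.cons (P.lf 6024 0 0) (P.cons (P.lf 3116 0 0) P.nil)) (P.cons (P.cons (P.lf 4820 0 0) P.nil) P.nil)))))) 19090)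
 (EL.cons 6 (TM.mk (P.cons (P.cons (P.lf 0 107975574 0) (P.cons (P.lf 15493398 0 0) (P.cons (P.lf 8656548 0 0) (P.cons (P.lf 0 259968 0) (P.cons (P.lf 0 109554 0) (P.cons (P.lf 0 1068 0) P.nil)))))) (P.cons (P.cons (P.lf 0 1868046 0) (P.cons (P.lf 0 4589382 0) (P.cons (P.lf 2161944 0 0) (P.cons (P.lf 0 37638 0) (P.cons (P.lf 0 34140 0) P.nil))))) (P.cons (P.cons (P.lf 0 278520 0) (P.cons (P.lf 0 548736 0) (P.cons (P.lf 266196 0 0) (P.cons (P.lf 0 4686 0) P.nil)))) (P.cons (P.cons (P.lf 0 372942 0) (P.cons (P.lf 83814 0 0) (P.cons (P.lf 17340 0 0) P.nil))) (P.cons (P.cons (P.lf 0 35562 0) (P.cons (P.lf 12306 0 0) P.nil)) (P.cons (P.cons (P.lf 594 0 0) P.nil) P.nil)))))) 14838)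
 EL.nil))))))
noncomputable def S154_169_660_734_3 : EL := (EL.cons 0 (TM.mk (P.cons (P.lf 3004406328 0 0) (P.cons (P.lf 0 338075945 0) (P.cons (P.lf 0 3807979 0) (P.cons (P.lf 751584 0 0) (P.cons (P.lf 26892 0 0) (P.cons (P.lf 0 418 0) P.nil)))))) 212)
 (EL.cons 1 (TM.mk (P.cons (P.lf 1800696082 0 0) (P.cons (P.lf 0 1034199 0) (P.cons (P.lf 0 11296008 0) (P.cons (P.lf 0 258390 0) (P.cons (P.lf 13243 0 0) (P.cons (P.lf 742 0 0) P.nil)))))) 140)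
 (EL.cons 5 (TM.mk (P.cons (P.lf 1079250284 0 0) (P.cons (P.lf 120204780 0 0) (P.cons (P.lf 1353950 0 0) (P.cons (P.lf 0 267230 0) (P.cons (P.lf 0 9562 0) (P.cons (P.lf 146 0 0) P.nil)))))) 96)
 EL.nil)))
noncomputable def S154_169_660_734_4 : EL := (EL.cons 0 (TM.mk (P.cons (P.cons (P.lf 0 497114317 0) (P.cons (P.lf 0 70584034 0) (P.cons (P.lf 9089180 0 0) (P.lf 605944 0 0)))) (P.cons (P.cons (P.lf 130389670 0 0) (P.cons (P.lf 0 3849674 0) (P.cons (P.lf 495725 0 0) (P.lf 33045 0 0)))) (P.cons (P.cons (P.lf 0 18220294 0) (P.cons (P.lf 955233 0 0) (P.cons (P.lf 0 123008 0) (P.lf 0 8201 0)))) (P.cons (P.cons (P.lf 330437 0 0) (P.cons (P.lf 74093 0 0) (P.cons (P.lf 0 9539 0) P.nil))) (P.cons (P.cons (P.lf 118093 0 0) (P.cons (P.lf 0 3494 0) P.nil)) (P.cons (P.cons (P.lf 0 1168 0) P.nil) P.nil)))))) 4116)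
 (EL.cons 1 (TM.mk (P.cons (P.cons (P.lf 0 297946318 0) (P.cons (P.lf 0 42304661 0) (P.cons (P.lf 5447615 0 0) (P.lf 363172 0 0)))) (P.cons (P.cons (P.lf 44793474 0 0) (P.cons (P.lf 0 7043415 0) (P.cons (P.lf 906986 0 0) (P.lf 60463 0 0)))) (P.cons (P.cons (P.lf 0 4433364 0) (P.cons (P.lf 0 6961 0) (P.cons (P.lf 894 0 0) (P.lf 58 0 0)))) (P.cons (P.cons (P.lf 0 610728 0) (P.cons (P.lf 65495 0 0) (P.cons (P.lf 0 8431 0) P.nil))) (P.cons (P.cons (P.lf 42883 0 0) (P.cons (P.lf 3810 0 0) P.nil)) (P.cons (P.cons (P.lf 4751 0 0) P.nil) P.nil)))))) 2471)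
 (EL.cons 5 (TM.mk (P.cons (P.cons (P.lf 0 178574636 0) (P.cons (P.lf 0 25355370 0) (P.cons (P.lf 3265038 0 0) (P.lf 217668 0 0)))) (P.cons (P.cons (P.lf 6855192 0 0) (P.cons (P.lf 0 7060078 0) (P.cons (P.lf 909132 0 0) (P.lf 60606 0 0)))) (P.cons (P.cons (P.lf 0 1007286 0) (P.cons (P.lf 0 669274 0) (P.cons (P.lf 86182 0 0) (P.lf 5742 0 0)))) (P.cons (P.cons (P.lf 0 567290 0) (P.cons (P.lf 0 8538 0) (P.cons (P.lf 1100 0 0) P.nil))) (P.cons (P.cons (P.lf 0 27812 0) (P.cons (P.lf 2890 0 0) P.nil)) (P.cons (P.cons (P.lf 1952 0 0) P.nil) P.nil)))))) 1608)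
 EL.nil)))
noncomputable def S154_169_660_734_5 : EL := (EL.cons 0 (TM.mk (P.cons (P.cons (P.lf 82253402 0 0) (P.cons (P.lf 23357914 0 0) (P.cons (P.lf 0 1349557 0) (P.cons (P.lf 0 627593 0) (P.cons (P.lf 0 972 0) (P.cons (P.lf 3665 0 0) P.nil)))))) (P.cons (P.cons (P.lf 0 33893300 0) (P.cons (P.lf 0 2224283 0) (P.cons (P.lf 653906 0 0) (P.cons (P.lf 0 75545 0) (P.cons (P.lf 0 214 0) P.nil))))) (P.cons (P.cons (P.lf 7978717 0 0) (P.cons (P.lf 0 14825 0) (P.cons (P.lf 5412 0 0) (P.cons (P.lf 0 773 0) P.nil)))) (P.cons (P.cons (P.lf 0 856567 0) (P.cons (P.lf 79228 0 0) (P.cons (P.lf 0 15686 0) P.nil))) (P.cons (P.cons (P.lf 21566 0 0) (P.cons (P.lf 0 1149 0) P.nil)) (P.cons (P.cons (P.lf 6289 0 0) P.nil) P.nil)))))) 17034)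
 (EL.cons 1 (TM.mk (P.cons (P.cons (P.lf 49298716 0 0) (P.cons (P.lf 13999605 0 0) (P.cons (P.lf 0 808858 0) (P.cons (P.lf 0 376149 0) (P.cons (P.lf 0 583 0) (P.cons (P.lf 2195 0 0) P.nil)))))) (P.cons (P.cons (P.lf 0 14794899 0) (P.cons (P.lf 234161 0 0) (P.cons (P.lf 301365 0 0) (P.cons (P.lf 0 87388 0) (P.cons (P.lf 0 193 0) P.nil))))) (P.cons (P.cons (P.lf 2882130 0 0) (P.cons (P.lf 0 51847 0) (P.cons (P.lf 40978 0 0) (P.cons (P.lf 0 8386 0) P.nil)))) (P.cons (P.cons (P.lf 0 102540 0) (P.cons (P.lf 44805 0 0) (P.cons (P.lf 0 6549 0) P.nil))) (P.cons (P.cons (P.lf 0 18125 0) (P.cons (P.lf 4423 0 0) P.nil)) (P.cons (P.cons (P.lf 3414 0 0) P.nil) P.nil)))))) 10178)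
 (EL.cons 5 (TM.mk (P.cons (P.cons (P.lf 29547270 0 0) (P.cons (P.lf 8390686 0 0) (P.cons (P.lf 0 484790 0) (P.cons (P.lf 0 225444 0) (P.cons (P.lf 0 348 0) (P.cons (P.lf 1316 0 0) P.nil)))))) (P.cons (P.cons (P.lf 0 5559460 0) (P.cons (P.lf 1079702 0 0) (P.cons (P.lf 126350 0 0) (P.cons (P.lf 0 77614 0) (P.cons (P.lf 0 154 0) P.nil))))) (P.cons (P.cons (P.lf 959010 0 0) (P.cons (P.lf 48338 0 0) (P.cons (P.lf 41100 0 0) (P.cons (P.lf 0 12602 0) P.nil)))) (P.cons (P.cons (P.lf 82410 0 0) (P.cons (P.lf 29496 0 0) (P.cons (P.lf 0 96 0) P.nil))) (P.cons (P.cons (P.lf 0 8558 0) (P.cons (P.lf 5908 0 0) P.nil)) (P.cons (P.cons (P.lf 1092 0 0) P.nil) P.nil)))))) 6382)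
 EL.nil)))
noncomputable def S154_169_660_734_6 : EL := (EL.cons 12 (TM.mk (P.lf 8589934592 0 0) 0)
 (EL.cons 3 (TM.mk (P.cons (P.lf 0 2540061705 0) (P.cons (P.lf 142912387 0 0) (P.cons (P.lf 5630085 0 0) (P.cons (P.lf 0 945 0) (P.cons (P.lf 0 5182 0) (P.cons (P.lf 0 116 0) P.nil)))))) 67)
 (EL.cons 7 (TM.mk (P.cons (P.lf 0 1522390337 0) (P.cons (P.lf 0 84780425 0) (P.cons (P.lf 1405728 0 0) (P.cons (P.lf 110195 0 0) (P.cons (P.lf 1257 0 0) (P.cons (P.lf 0 72 0) P.nil)))))) 47)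
 EL.nil)))
noncomputable def S154_169_660_734_7 : EL := (EL.cons 12 (TM.mk (P.cons (P.cons (P.lf 0 1421305582 0) (P.cons (P.lf 0 201807672 0) (P.cons (P.lf 25986992 0 0) (P.lf 1732464 0 0)))) (P.cons (P.cons (P.lf 212863860 0 0) (P.cons (P.lf 0 33715408 0) (P.cons (P.lf 4341568 0 0) (P.lf 289432 0 0)))) (P.cons (P.cons (P.lf 0 29942454 0) (P.cons (P.lf 0 1318544 0) (P.cons (P.lf 169784 0 0) (P.lf 11312 0 0)))) (P.cons (P.cons (P.lf 0 1799212 0) (P.cons (P.lf 71224 0 0) (P.cons (P.lf 0 9168 0) P.nil))) (P.cons (P.cons (P.lf 56708 0 0) (P.cons (P.lf 6592 0 0) P.nil)) (P.cons (P.cons (P.lf 6144 0 0) P.nil) P.nil)))))) 3186)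
 (EL.cons 3 (TM.mk (P.cons (P.cons (P.lf 1550564930 0 0) (P.cons (P.lf 0 119349902 0) (P.cons (P.lf 15368816 0 0) (P.lf 1024586 0 0)))) (P.cons (P.cons (P.lf 0 367739864 0) (P.cons (P.lf 0 13224406 0) (P.cons (P.lf 1702920 0 0) (P.lf 113522 0 0)))) (P.cons (P.cons (P.lf 0 29020647 0) (P.cons (P.lf 606606 0 0) (P.cons (P.lf 0 78116 0) (P.lf 0 5210 0)))) (P.cons (P.cons (P.lf 855442 0 0) (P.cons (P.lf 130146 0 0) (P.cons (P.lf 0 16756 0) P.nil))) (P.cons (P.cons (P.lf 174013 0 0) (P.cons (P.lf 3004 0 0) P.nil)) (P.cons (P.cons (P.lf 3650 0 0) P.nil) P.nil)))))) 8669)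
 (EL.cons 7 (TM.mk (P.cons (P.cons (P.lf 0 418623789 0) (P.cons (P.lf 141969846 0 0) (P.cons (P.lf 0 18281616 0) (P.lf 0 1218776 0)))) (P.cons (P.cons (P.lf 218155630 0 0) (P.cons (P.lf 7845167 0 0) (P.cons (P.lf 0 1010231 0) (P.lf 0 67350 0)))) (P.cons (P.cons (P.lf 5004509 0 0) (P.cons (P.lf 0 798999 0) (P.cons (P.lf 102888 0 0) (P.lf 6856 0 0)))) (P.cons (P.cons (P.lf 0 1433064 0) (P.cons (P.lf 0 37433 0) (P.cons (P.lf 4823 0 0) P.nil))) (P.cons (P.cons (P.lf 0 34768 0) (P.cons (P.lf 3208 0 0) P.nil)) (P.cons (P.cons (P.lf 4178 0 0) P.nil) P.nil)))))) 5950)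
 (EL.cons 10 (TM.mk (P.cons (P.cons (P.lf 0 920516919 0) (P.cons (P.lf 262786779 0 0) (P.cons (P.lf 19656027 0 0) (P.cons (P.lf 0 1324527 0) (P.lf 0 66225 0))))) (P.cons (P.cons (P.lf 0 102525369 0) (P.cons (P.lf 29268675 0 0) (P.cons (P.lf 2189247 0 0) (P.cons (P.lf 0 147522 0) (P.lf 0 7374 0))))) (P.cons (P.cons (P.lf 0 1154814 0) (P.cons (P.lf 329673 0 0) (P.cons (P.lf 24657 0 0) (P.cons (P.lf 0 1659 0) P.nil)))) (P.cons (P.cons (P.lf 227925 0 0) (P.cons (P.lf 0 65067 0) (P.cons (P.lf 0 4866 0) P.nil))) (P.cons (P.cons (P.lf 8154 0 0) (P.cons (P.lf 0 2328 0) P.nil)) (P.cons (P.cons (P.lf 0 123 0) P.nil) P.nil)))))) 861)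
 EL.nil))))
noncomputable def S154_169_660_734_8 : EL := (EL.cons 12 (TM.mk (P.cons (P.cons (P.lf 235171704 0 0) (P.cons (P.lf 66782898 0 0) (P.cons (P.lf 0 3858536 0) (P.cons (P.lf 0 1794364 0) (P.cons (P.lf 0 2784 0) (P.cons (P.lf 10482 0 0) P.nil)))))) (P.cons (P.cons (P.lf 0 70441652 0) (P.cons (P.lf 1155384 0 0) (P.cons (P.lf 1435406 0 0) (P.cons (P.lf 0 417910 0) (P.cons (P.lf 0 930 0) P.nil))))) (P.cons (P.cons (P.lf 15183558 0 0) (P.cons (P.lf 172266 0 0) (P.cons (P.lf 172106 0 0) (P.cons (P.lf 0 51512 0) P.nil)))) (P.cons (P.cons (P.lf 0 888582 0) (P.cons (P.lf 230668 0 0) (P.cons (P.lf 0 22700 0) P.nil))) (P.cons (P.cons (P.lf 0 3564 0) (P.cons (P.lf 21998 0 0) P.nil)) (P.cons (P.cons (P.lf 13320 0 0) P.nil) P.nil)))))) 28842)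
 (EL.cons 3 (TM.mk (P.cons (P.cons (P.lf 0 443577592 0) (P.cons (P.lf 0 13612885 0) (P.cons (P.lf 8762812 0 0) (P.cons (P.lf 0 1688474 0) (P.cons (P.lf 0 4115 0) (P.cons (P.lf 15495 0 0) P.nil)))))) (P.cons (P.cons (P.lf 173799320 0 0) (P.cons (P.lf 2798797 0 0) (P.cons (P.lf 1587431 0 0) (P.cons (P.lf 0 525676 0) (P.cons (P.lf 0 1141 0) P.nil))))) (P.cons (P.cons (P.lf 0 13924194 0) (P.cons (P.lf 3738161 0 0) (P.cons (P.lf 0 341431 0) (P.cons (P.lf 0 68132 0) P.nil)))) (P.cons (P.cons (P.lf 0 276401 0) (P.cons (P.lf 520006 0 0) (P.cons (P.lf 0 77954 0) P.nil))) (P.cons (P.cons (P.lf 365563 0 0) (P.cons (P.lf 0 1916 0) P.nil)) (P.cons (P.cons (P.lf 15516 0 0) P.nil) P.nil)))))) 66573)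
 (EL.cons 7 (TM.mk (P.cons (P.cons (P.lf 180211825 0 0) (P.cons (P.lf 0 15475371 0) (P.cons (P.lf 0 3837676 0) (P.cons (P.lf 1634438 0 0) (P.cons (P.lf 3421 0 0) (P.cons (P.lf 0 12885 0) P.nil)))))) (P.cons (P.cons (P.lf 0 103103589 0) (P.cons (P.lf 0 1660344 0) (P.cons (P.lf 0 941713 0) (P.cons (P.lf 311849 0 0) (P.cons (P.lf 678 0 0) P.nil))))) (P.cons (P.cons (P.lf 14031641 0 0) (P.cons (P.lf 0 2124663 0) (P.cons (P.lf 255258 0 0) (P.cons (P.lf 22962 0 0) P.nil)))) (P.cons (P.cons (P.lf 0 622359 0) (P.cons (P.lf 0 145701 0) (P.cons (P.lf 29575 0 0) P.nil))) (P.cons (P.cons (P.lf 0 202337 0) (P.cons (P.lf 21682 0 0) P.nil)) (P.cons (P.cons (P.lf 9358 0 0) P.nil) P.nil)))))) 33658)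
 (EL.cons 10 (TM.mk (P.cons (P.cons (P.lf 304620672 0 0) (P.cons (P.lf 0 43709976 0) (P.cons (P.lf 0 24421854 0) (P.cons (P.lf 733434 0 0) (P.cons (P.lf 309078 0 0) (P.cons (P.lf 3024 0 0) P.nil)))))) (P.cons (P.cons (P.lf 0 11693892 0) (P.cons (P.lf 15381738 0 0) (P.cons (P.lf 0 4739256 0) (P.cons (P.lf 65346 0 0) (P.cons (P.lf 79116 0 0) P.nil))))) (P.cons (P.cons (P.lf 1718274 0 0) (P.cons (P.lf 651150 0 0) (P.cons (P.lf 0 509622 0) (P.cons (P.lf 10260 0 0) P.nil)))) (P.cons (P.cons (P.lf 967710 0 0) (P.cons (P.lf 0 261690 0) (P.cons (P.lf 0 26694 0) P.nil))) (P.cons (P.cons (P.lf 47442 0 0) (P.cons (P.lf 0 18474 0) P.nil)) (P.cons (P.cons (P.lf 0 3330 0) P.nil) P.nil)))))) 30042)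
 EL.nil))))
noncomputable def S154_169_660_734_9 : EL := (EL.cons 3 (TM.mk (P.cons (P.lf 0 2540061705 0) (P.cons (P.lf 142912387 0 0) (P.cons (P.lf 5630085 0 0) (P.cons (P.lf 0 945 0) (P.cons (P.lf 0 5182 0) (P.cons (P.lf 0 116 0) P.nil)))))) 67)
 (EL.cons 7 (TM.mk (P.cons (P.lf 0 1522390337 0) (P.cons (P.lf 0 84780425 0) (P.cons (P.lf 1405728 0 0) (P.cons (P.lf 110195 0 0) (P.cons (P.lf 1257 0 0) (P.cons (P.lf 0 72 0) P.nil)))))) 47)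
 EL.nil))
noncomputable def S154_169_660_734_10 : EL := (EL.cons 3 (TM.mk (P.cons (P.cons (P.lf 420283046 0 0) (P.cons (P.lf 59674951 0 0) (P.cons (P.lf 0 7684408 0) (P.lf 0 512293 0)))) (P.cons (P.cons (P.lf 0 86590823 0) (P.cons (P.lf 6612203 0 0) (P.cons (P.lf 0 851460 0) (P.lf 0 56761 0)))) (P.cons (P.cons (P.lf 11463939 0 0) (P.cons (P.lf 0 303303 0) (P.cons (P.lf 39058 0 0) (P.lf 2605 0 0)))) (P.cons (P.cons (P.lf 173545 0 0) (P.cons (P.lf 0 65073 0) (P.cons (P.lf 8378 0 0) P.nil))) (P.cons (P.cons (P.lf 0 65492 0) (P.cons (P.lf 0 1502 0) P.nil)) (P.cons (P.cons (P.lf 0 2158 0) P.nil) P.nil)))))) 2074)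
 (EL.cons 7 (TM.mk (P.cons (P.cons (P.lf 251897364 0 0) (P.cons (P.lf 35766285 0 0) (P.cons (P.lf 0 4605663 0) (P.lf 0 307043 0)))) (P.cons (P.cons (P.lf 0 23697851 0) (P.cons (P.lf 7967156 0 0) (P.cons (P.lf 0 1025939 0) (P.lf 0 68394 0)))) (P.cons (P.cons (P.lf 2973182 0 0) (P.cons (P.lf 533421 0 0) (P.cons (P.lf 0 68688 0) (P.lf 0 4577 0)))) (P.cons (P.cons (P.lf 630999 0 0) (P.cons (P.lf 0 7715 0) (P.cons (P.lf 992 0 0) P.nil))) (P.cons (P.cons (P.lf 5330 0 0) (P.cons (P.lf 0 2549 0) P.nil)) (P.cons (P.cons (P.lf 0 2284 0) P.nil) P.nil)))))) 1200)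
 EL.nil))
noncomputable def S154_169_660_734_11 : EL := (EL.cons 3 (TM.mk (P.cons (P.cons (P.lf 0 69540766 0) (P.cons (P.lf 0 19747843 0) (P.cons (P.lf 1140976 0 0) (P.cons (P.lf 530596 0 0) (P.cons (P.lf 823 0 0) (P.cons (P.lf 0 3099 0) P.nil)))))) (P.cons (P.cons (P.lf 24742340 0 0) (P.cons (P.lf 769429 0 0) (P.cons (P.lf 0 488647 0) (P.cons (P.lf 93722 0 0) (P.cons (P.lf 227 0 0) P.nil))))) (P.cons (P.cons (P.lf 0 5507622 0) (P.cons (P.lf 12053 0 0) (P.cons (P.lf 0 29539 0) (P.cons (P.lf 7102 0 0) P.nil)))) (P.cons (P.cons (P.lf 469171 0 0) (P.cons (P.lf 0 64592 0) (P.cons (P.lf 10516 0 0) P.nil))) (P.cons (P.cons (P.lf 0 3911 0) (P.cons (P.lf 0 2594 0) P.nil)) (P.cons (P.cons (P.lf 0 4542 0) P.nil) P.nil)))))) 11723)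
 (EL.cons 7 (TM.mk (P.cons (P.cons (P.lf 0 41679377 0) (P.cons (P.lf 0 11835903 0) (P.cons (P.lf 683846 0 0) (P.cons (P.lf 318014 0 0) (P.cons (P.lf 493 0 0) (P.cons (P.lf 0 1857 0) P.nil)))))) (P.cons (P.cons (P.lf 10163259 0 0) (P.cons (P.lf 0 863898 0) (P.cons (P.lf 0 216313 0) (P.cons (P.lf 91775 0 0) (P.cons (P.lf 192 0 0) P.nil))))) (P.cons (P.cons (P.lf 0 1957249 0) (P.cons (P.lf 0 31005 0) (P.cons (P.lf 0 45300 0) (P.cons (P.lf 12960 0 0) P.nil)))) (P.cons (P.cons (P.lf 0 885 0) (P.cons (P.lf 0 41535 0) (P.cons (P.lf 2509 0 0) P.nil))) (P.cons (P.cons (P.lf 11017 0 0) (P.cons (P.lf 0 6122 0) P.nil)) (P.cons (P.cons (P.lf 0 2288 0) P.nil) P.nil)))))) 6846)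
 EL.nil))
noncomputable def S154_169_660_734_12 : EL := (EL.cons 4 (TM.mk (P.cons (P.lf 2540061705 0 0) (P.cons (P.lf 0 142912387 0) (P.cons (P.lf 0 5630085 0) (P.cons (P.lf 945 0 0) (P.cons (P.lf 5182 0 0) (P.cons (P.lf 116 0 0) P.nil)))))) 67)
 (EL.cons 8 (TM.mk (P.cons (P.lf 1522390337 0 0) (P.cons (P.lf 84780425 0 0) (P.cons (P.lf 0 1405728 0) (P.cons (P.lf 0 110195 0) (P.cons (P.lf 0 1257 0) (P.cons (P.lf 72 0 0) P.nil)))))) 47)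
 EL.nil))
noncomputable def S154_169_660_734_13 : EL := (EL.cons 4 (TM.mk (P.cons (P.cons (P.lf 0 420283046 0) (P.cons (P.lf 0 59674951 0) (P.cons (P.lf 7684408 0 0) (P.lf 512293 0 0)))) (P.cons (P.cons (P.lf 86590823 0 0) (P.cons (P.lf 0 6612203 0) (P.cons (P.lf 851460 0 0) (P.lf 56761 0 0)))) (P.cons (P.cons (P.lf 0 11463939 0) (P.cons (P.lf 303303 0 0) (P.cons (P.lf 0 39058 0) (P.lf 0 2605 0)))) (P.cons (P.cons (P.lf 0 173545 0) (P.cons (P.lf 65073 0 0) (P.cons (P.lf 0 8378 0) P.nil))) (P.cons (P.cons (P.lf 65492 0 0) (P.cons (P.lf 1502 0 0) P.nil)) (P.cons (P.cons (P.lf 2158 0 0) P.nil) P.nil)))))) 2074)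
 (EL.cons 8 (TM.mk (P.cons (P.cons (P.lf 0 251897364 0) (P.cons (P.lf 0 35766285 0) (P.cons (P.lf 4605663 0 0) (P.lf 307043 0 0)))) (P.cons (P.cons (P.lf 23697851 0 0) (P.cons (P.lf 0 7967156 0) (P.cons (P.lf 1025939 0 0) (P.lf 68394 0 0)))) (P.cons (P.cons (P.lf 0 2973182 0) (P.cons (P.lf 0 533421 0) (P.cons (P.lf 68688 0 0) (P.lf 4577 0 0)))) (P.cons (P.cons (P.lf 0 630999 0) (P.cons (P.lf 7715 0 0) (P.cons (P.lf 0 992 0) P.nil))) (P.cons (P.cons (P.lf 0 5330 0) (P.cons (P.lf 2549 0 0) P.nil)) (P.cons (P.cons (P.lf 2284 0 0) P.nil) P.nil)))))) 1200)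
 EL.nil))
noncomputable def S154_169_660_734_14 : EL := (EL.cons 4 (TM.mk (P.cons (P.cons (P.lf 69540766 0 0) (P.cons (P.lf 19747843 0 0) (P.cons (P.lf 0 1140976 0) (P.cons (P.lf 0 530596 0) (P.cons (P.lf 0 823 0) (P.cons (P.lf 3099 0 0) P.nil)))))) (P.cons (P.cons (P.lf 0 24742340 0) (P.cons (P.lf 0 769429 0) (P.cons (P.lf 488647 0 0) (P.cons (P.lf 0 93722 0) (P.cons (P.lf 0 227 0) P.nil))))) (P.cons (P.cons (P.lf 5507622 0 0) (P.cons (P.lf 0 12053 0) (P.cons (P.lf 29539 0 0) (P.cons (P.lf 0 7102 0) P.nil)))) (P.cons (P.cons (P.lf 0 469171 0) (P.cons (P.lf 64592 0 0) (P.cons (P.lf 0 10516 0) P.nil))) (P.cons (P.cons (P.lf 3911 0 0) (P.cons (P.lf 2594 0 0) P.nil)) (P.cons (P.cons (P.lf 4542 0 0) P.nil) P.nil)))))) 11723)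
 (EL.cons 8 (TM.mk (P.cons (P.cons (P.lf 41679377 0 0) (P.cons (P.lf 11835903 0 0) (P.cons (P.lf 0 683846 0) (P.cons (P.lf 0 318014 0) (P.cons (P.lf 0 493 0) (P.cons (P.lf 1857 0 0) P.nil)))))) (P.cons (P.cons (P.lf 0 10163259 0) (P.cons (P.lf 863898 0 0) (P.cons (P.lf 216313 0 0) (P.cons (P.lf 0 91775 0) (P.cons (P.lf 0 192 0) P.nil))))) (P.cons (P.cons (P.lf 1957249 0 0) (P.cons (P.lf 31005 0 0) (P.cons (P.lf 45300 0 0) (P.cons (P.lf 0 12960 0) P.nil)))) (P.cons (P.cons (P.lf 885 0 0) (P.cons (P.lf 41535 0 0) (P.cons (P.lf 0 2509 0) P.nil))) (P.cons (P.cons (P.lf 0 11017 0) (P.cons (P.lf 6122 0 0) P.nil)) (P.cons (P.cons (P.lf 2288 0 0) P.nil) P.nil)))))) 6846)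
 EL.nil))
noncomputable def S154_169_660_734_15 : EL := (EL.cons 4 (TM.mk (P.cons (P.lf 0 1602350041 0) (P.cons (P.lf 180307170 0 0) (P.cons (P.lf 2030922 0 0) (P.cons (P.lf 0 400845 0) (P.cons (P.lf 0 14342 0) (P.cons (P.lf 223 0 0) P.nil)))))) 116)
 (EL.cons 8 (TM.mk (P.cons (P.lf 0 960371244 0) (P.cons (P.lf 551573 0 0) (P.cons (P.lf 6024538 0 0) (P.cons (P.lf 137808 0 0) (P.cons (P.lf 0 7063 0) (P.cons (P.lf 0 396 0) P.nil)))))) 71)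
 EL.nil))
noncomputable def S154_169_660_734_16 : EL := (EL.cons 4 (TM.mk (P.cons (P.cons (P.lf 265127636 0 0) (P.cons (P.lf 37644818 0 0) (P.cons (P.lf 0 4847563 0) (P.lf 0 323170 0)))) (P.cons (P.cons (P.lf 0 69541157 0) (P.cons (P.lf 2053159 0 0) (P.cons (P.lf 0 264387 0) (P.lf 0 17624 0)))) (P.cons (P.cons (P.lf 9717490 0 0) (P.cons (P.lf 0 509458 0) (P.cons (P.lf 65604 0 0) (P.lf 4374 0 0)))) (P.cons (P.cons (P.lf 0 176233 0) (P.cons (P.lf 0 39516 0) (P.cons (P.lf 5087 0 0) P.nil))) (P.cons (P.cons (P.lf 0 62983 0) (P.cons (P.lf 1863 0 0) P.nil)) (P.cons (P.cons (P.lf 623 0 0) P.nil) P.nil)))))) 2204)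
 (EL.cons 8 (TM.mk (P.cons (P.cons (P.lf 158904703 0 0) (P.cons (P.lf 22562486 0 0) (P.cons (P.lf 0 2905395 0) (P.lf 0 193692 0)))) (P.cons (P.cons (P.lf 0 23889853 0) (P.cons (P.lf 3756488 0 0) (P.cons (P.lf 0 483726 0) (P.lf 0 32247 0)))) (P.cons (P.cons (P.lf 2364461 0 0) (P.cons (P.lf 3713 0 0) (P.cons (P.lf 0 477 0) (P.lf 0 31 0)))) (P.cons (P.cons (P.lf 325722 0 0) (P.cons (P.lf 0 34931 0) (P.cons (P.lf 4497 0 0) P.nil))) (P.cons (P.cons (P.lf 0 22871 0) (P.cons (P.lf 0 2032 0) P.nil)) (P.cons (P.cons (P.lf 0 2534 0) P.nil) P.nil)))))) 1308)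
 EL.nil))
noncomputable def S154_169_660_734_17 : EL := (EL.cons 4 (TM.mk (P.cons (P.cons (P.lf 0 43868481 0) (P.cons (P.lf 0 12457554 0) (P.cons (P.lf 719763 0 0) (P.cons (P.lf 334716 0 0) (P.cons (P.lf 518 0 0) (P.cons (P.lf 0 1954 0) P.nil)))))) (P.cons (P.cons (P.lf 18076426 0 0) (P.cons (P.lf 1186284 0 0) (P.cons (P.lf 0 348750 0) (P.cons (P.lf 40290 0 0) (P.cons (P.lf 114 0 0) P.nil))))) (P.cons (P.cons (P.lf 0 4255316 0) (P.cons (P.lf 7906 0 0) (P.cons (P.lf 0 2886 0) (P.cons (P.lf 412 0 0) P.nil)))) (P.cons (P.cons (P.lf 456836 0 0) (P.cons (P.lf 0 42255 0) (P.cons (P.lf 8366 0 0) P.nil))) (P.cons (P.cons (P.lf 0 11502 0) (P.cons (P.lf 613 0 0) P.nil)) (P.cons (P.cons (P.lf 0 3354 0) P.nil) P.nil)))))) 9095)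
 (EL.cons 8 (TM.mk (P.cons (P.cons (P.lf 0 26292649 0) (P.cons (P.lf 0 7466456 0) (P.cons (P.lf 431391 0 0) (P.cons (P.lf 200613 0 0) (P.cons (P.lf 311 0 0) (P.cons (P.lf 0 1171 0) P.nil)))))) (P.cons (P.cons (P.lf 7890613 0 0) (P.cons (P.lf 0 124886 0) (P.cons (P.lf 0 160728 0) (P.cons (P.lf 46607 0 0) (P.cons (P.lf 103 0 0) P.nil))))) (P.cons (P.cons (P.lf 0 1537136 0) (P.cons (P.lf 27652 0 0) (P.cons (P.lf 0 21855 0) (P.cons (P.lf 4473 0 0) P.nil)))) (P.cons (P.cons (P.lf 54688 0 0) (P.cons (P.lf 0 23896 0) (P.cons (P.lf 3493 0 0) P.nil))) (P.cons (P.cons (P.lf 9667 0 0) (P.cons (P.lf 0 2359 0) P.nil)) (P.cons (P.cons (P.lf 0 1821 0) P.nil) P.nil)))))) 5417)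
 EL.nil))
noncomputable def S154_169_660_734_18 : EL := (EL.cons 4 (TM.mk (P.cons (P.lf 1010812316 0 0) (P.cons (P.lf 0 170615069 0) (P.cons (P.lf 2877933 0 0) (P.cons (P.lf 577438 0 0) (P.cons (P.lf 0 318 0) (P.cons (P.lf 0 1395 0) P.nil)))))) 149)
 (EL.cons 8 (TM.mk (P.cons (P.lf 605832095 0 0) (P.cons (P.lf 0 34434094 0) (P.cons (P.lf 0 5123725 0) (P.cons (P.lf 127889 0 0) (P.cons (P.lf 19006 0 0) (P.cons (P.lf 218 0 0) P.nil)))))) 96)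
 EL.nil))
noncomputable def S154_169_660_734_19 : EL := (EL.cons 4 (TM.mk (P.cons (P.cons (P.lf 0 167250770 0) (P.cons (P.lf 0 23747523 0) (P.cons (P.lf 3057993 0 0) (P.lf 203865 0 0)))) (P.cons (P.cons (P.lf 53278817 0 0) (P.cons (P.lf 40917 0 0) (P.cons (P.lf 0 5268 0) (P.lf 0 351 0)))) (P.cons (P.cons (P.lf 0 8227583 0) (P.cons (P.lf 446891 0 0) (P.cons (P.lf 0 57546 0) (P.lf 0 3837 0)))) (P.cons (P.cons (P.lf 358775 0 0) (P.cons (P.lf 9707 0 0) (P.cons (P.lf 0 1248 0) P.nil))) (P.cons (P.cons (P.lf 46739 0 0) (P.cons (P.lf 0 3339 0) P.nil)) (P.cons (P.cons (P.lf 0 2795 0) P.nil) P.nil)))))) 2122)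
 (EL.cons 8 (TM.mk (P.cons (P.cons (P.lf 0 100242036 0) (P.cons (P.lf 0 14233119 0) (P.cons (P.lf 1832813 0 0) (P.lf 122187 0 0)))) (P.cons (P.cons (P.lf 20710416 0 0) (P.cons (P.lf 0 1568907 0) (P.cons (P.lf 202029 0 0) (P.lf 13467 0 0)))) (P.cons (P.cons (P.lf 0 2117302 0) (P.cons (P.lf 162533 0 0) (P.cons (P.lf 0 20929 0) (P.lf 0 1395 0)))) (P.cons (P.cons (P.lf 0 154996 0) (P.cons (P.lf 27414 0 0) (P.cons (P.lf 0 3529 0) P.nil))) (P.cons (P.cons (P.lf 29096 0 0) (P.cons (P.lf 17 0 0) P.nil)) (P.cons (P.cons (P.lf 1268 0 0) P.nil) P.nil)))))) 1265)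
 EL.nil))
noncomputable def S154_169_660_734_20 : EL := (EL.cons 4 (TM.mk (P.cons (P.cons (P.lf 27673604 0 0) (P.cons (P.lf 7858613 0 0) (P.cons (P.lf 0 454049 0) (P.cons (P.lf 0 211149 0) (P.cons (P.lf 0 327 0) (P.cons (P.lf 1232 0 0) P.nil)))))) (P.cons (P.cons (P.lf 0 12960182 0) (P.cons (P.lf 0 1190496 0) (P.cons (P.lf 245549 0 0) (P.cons (P.lf 0 13536 0) (P.cons (P.lf 0 53 0) P.nil))))) (P.cons (P.cons (P.lf 3264628 0 0) (P.cons (P.lf 19696 0 0) (P.cons (P.lf 0 9550 0) (P.cons (P.lf 1637 0 0) P.nil)))) (P.cons (P.cons (P.lf 0 413933 0) (P.cons (P.lf 28598 0 0) (P.cons (P.lf 0 5867 0) P.nil))) (P.cons (P.cons (P.lf 17572 0 0) (P.cons (P.lf 0 1860 0) P.nil)) (P.cons (P.cons (P.lf 2325 0 0) P.nil) P.nil)))))) 7126)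
 (EL.cons 8 (TM.mk (P.cons (P.cons (P.lf 16586222 0 0) (P.cons (P.lf 4710073 0 0) (P.cons (P.lf 0 272135 0) (P.cons (P.lf 0 126552 0) (P.cons (P.lf 0 196 0) (P.cons (P.lf 739 0 0) P.nil)))))) (P.cons (P.cons (P.lf 0 5910840 0) (P.cons (P.lf 0 186222 0) (P.cons (P.lf 116703 0 0) (P.cons (P.lf 0 22281 0) (P.cons (P.lf 0 54 0) P.nil))))) (P.cons (P.cons (P.lf 1212968 0 0) (P.cons (P.lf 0 32316 0) (P.cons (P.lf 8685 0 0) (P.cons (P.lf 0 887 0) P.nil)))) (P.cons (P.cons (P.lf 0 78017 0) (P.cons (P.lf 15882 0 0) (P.cons (P.lf 0 3204 0) P.nil))) (P.cons (P.cons (P.lf 0 6274 0) (P.cons (P.lf 689 0 0) P.nil)) (P.cons (P.cons (P.lf 1559 0 0) P.nil) P.nil)))))) 4036)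
 EL.nil))
noncomputable def S154_169_660_734_21 : EL := (EL.cons 4 (TM.mk (P.cons (P.cons (P.lf 0 1130281884 0) (P.cons (P.lf 179024853 0 0) (P.cons (P.lf 0 23053224 0) (P.lf 0 1536879 0)))) (P.cons (P.cons (P.lf 281149041 0 0) (P.cons (P.lf 19836609 0 0) (P.cons (P.lf 0 2554380 0) (P.lf 0 170283 0)))) (P.cons (P.cons (P.lf 40484586 0 0) (P.cons (P.lf 0 909909 0) (P.cons (P.lf 117174 0 0) (P.lf 7815 0 0)))) (P.cons (P.cons (P.lf 0 681897 0) (P.cons (P.lf 0 195219 0) (P.cons (P.lf 25134 0 0) P.nil))) (P.cons (P.cons (P.lf 0 239505 0) (P.cons (P.lf 0 4506 0) P.nil)) (P.cons (P.cons (P.lf 0 5808 0) P.nil) P.nil)))))) 6576)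
 (EL.cons 8 (TM.mk (P.cons (P.cons (P.lf 670521153 0 0) (P.cons (P.lf 0 106203561 0) (P.cons (P.lf 13675953 0 0) (P.lf 911733 0 0)))) (P.cons (P.cons (P.lf 0 241853481 0) (P.cons (P.lf 121989 0 0) (P.cons (P.lf 0 15708 0) (P.lf 0 1044 0)))) (P.cons (P.cons (P.lf 0 2031327 0) (P.cons (P.lf 1332420 0 0) (P.cons (P.lf 0 171576 0) (P.lf 0 11433 0)))) (P.cons (P.cons (P.lf 2064063 0 0) (P.cons (P.lf 29718 0 0) (P.cons (P.lf 0 3831 0) P.nil))) (P.cons (P.cons (P.lf 40098 0 0) (P.cons (P.lf 0 5757 0) P.nil)) (P.cons (P.cons (P.lf 0 6462 0) P.nil) P.nil)))))) 4731)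
 (EL.cons 11 (TM.mk (P.cons (P.cons (P.lf 920516919 0 0) (P.cons (P.lf 0 262786779 0) (P.cons (P.lf 0 19656027 0) (P.cons (P.lf 1324527 0 0) (P.lf 66225 0 0))))) (P.cons (P.cons (P.lf 102525369 0 0) (P.cons (P.lf 0 29268675 0) (P.cons (P.lf 0 2189247 0) (P.cons (P.lf 147522 0 0) (P.lf 7374 0 0))))) (P.cons (P.cons (P.lf 1154814 0 0) (P.cons (P.lf 0 329673 0) (P.cons (P.lf 0 24657 0) (P.cons (P.lf 1659 0 0) P.nil)))) (P.cons (P.cons (P.lf 0 227925 0) (P.cons (P.lf 65067 0 0) (P.cons (P.lf 4866 0 0) P.nil))) (P.cons (P.cons (P.lf 0 8154 0) (P.cons (P.lf 2328 0 0) P.nil)) (P.cons (P.cons (P.lf 123 0 0) P.nil) P.nil)))))) 861)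
 EL.nil)))
noncomputable def S154_169_660_734_22 : EL := (EL.cons 4 (TM.mk (P.cons (P.cons (P.lf 187018413 0 0) (P.cons (P.lf 0 3067479 0) (P.cons (P.lf 0 3810918 0) (P.cons (P.lf 1109535 0 0) (P.cons (P.lf 2469 0 0) (P.cons (P.lf 0 9297 0) P.nil)))))) (P.cons (P.cons (P.lf 0 74528490 0) (P.cons (P.lf 0 1014684 0) (P.cons (P.lf 0 1038039 0) (P.cons (P.lf 309699 0 0) (P.cons (P.lf 684 0 0) P.nil))))) (P.cons (P.cons (P.lf 4208286 0 0) (P.cons (P.lf 0 1863054 0) (P.cons (P.lf 155946 0 0) (P.cons (P.lf 37617 0 0) P.nil)))) (P.cons (P.cons (P.lf 372786 0 0) (P.cons (P.lf 0 292299 0) (P.cons (P.lf 44235 0 0) P.nil))) (P.cons (P.cons (P.lf 0 184737 0) (P.cons (P.lf 0 339 0) P.nil)) (P.cons (P.cons (P.lf 0 10029 0) P.nil) P.nil)))))) 27414)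
 (EL.cons 8 (TM.mk (P.cons (P.cons (P.lf 0 110945601 0) (P.cons (P.lf 1819734 0 0) (P.cons (P.lf 2260761 0 0) (P.cons (P.lf 0 658212 0) (P.cons (P.lf 0 1464 0) (P.cons (P.lf 5514 0 0) P.nil)))))) (P.cons (P.cons (P.lf 56633424 0 0) (P.cons (P.lf 398223 0 0) (P.cons (P.lf 362700 0 0) (P.cons (P.lf 0 110037 0) (P.cons (P.lf 0 243 0) P.nil))))) (P.cons (P.cons (P.lf 0 7994445 0) (P.cons (P.lf 1046829 0 0) (P.cons (P.lf 0 150279 0) (P.cons (P.lf 0 5001 0) P.nil)))) (P.cons (P.cons (P.lf 310737 0 0) (P.cons (P.lf 52083 0 0) (P.cons (P.lf 0 13533 0) P.nil))) (P.cons (P.cons (P.lf 106677 0 0) (P.cons (P.lf 0 13902 0) P.nil)) (P.cons (P.cons (P.lf 0 5823 0) P.nil) P.nil)))))) 13395)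
 (EL.cons 11 (TM.mk (P.cons (P.cons (P.lf 0 152310336 0) (P.cons (P.lf 21854988 0 0) (P.cons (P.lf 12210927 0 0) (P.cons (P.lf 0 366717 0) (P.cons (P.lf 0 154539 0) (P.cons (P.lf 0 1512 0) P.nil)))))) (P.cons (P.cons (P.lf 5846946 0 0) (P.cons (P.lf 0 7690869 0) (P.cons (P.lf 2369628 0 0) (P.cons (P.lf 0 32673 0) (P.cons (P.lf 0 39558 0) P.nil))))) (P.cons (P.cons (P.lf 0 859137 0) (P.cons (P.lf 0 325575 0) (P.cons (P.lf 254811 0 0) (P.cons (P.lf 0 5130 0) P.nil)))) (P.cons (P.cons (P.lf 0 483855 0) (P.cons (P.lf 130845 0 0) (P.cons (P.lf 13347 0 0) P.nil))) (P.cons (P.cons (P.lf 0 23721 0) (P.cons (P.lf 9237 0 0) P.nil)) (P.cons (P.cons (P.lf 1665 0 0) P.nil) P.nil)))))) 15021)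
 EL.nil)))
noncomputable def S154_169_660_734_23 : EL := (EL.cons 4 (TM.mk (P.cons (P.cons (P.lf 713017017 0 0) (P.cons (P.lf 0 112934451 0) (P.cons (P.lf 14542689 0 0) (P.lf 969510 0 0)))) (P.cons (P.cons (P.lf 0 217474299 0) (P.cons (P.lf 0 6159477 0) (P.cons (P.lf 793161 0 0) (P.lf 52869 0 0)))) (P.cons (P.cons (P.lf 0 17140617 0) (P.cons (P.lf 1528374 0 0) (P.cons (P.lf 0 196812 0) (P.lf 0 13122 0)))) (P.cons (P.cons (P.lf 2260449 0 0) (P.cons (P.lf 118548 0 0) (P.cons (P.lf 0 15261 0) P.nil))) (P.cons (P.cons (P.lf 184881 0 0) (P.cons (P.lf 0 5592 0) P.nil)) (P.cons (P.cons (P.lf 0 6126 0) P.nil) P.nil)))))) 7209)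
 (EL.cons 8 (TM.mk (P.cons (P.cons (P.lf 0 422985627 0) (P.cons (P.lf 66996513 0 0) (P.cons (P.lf 0 8627217 0) (P.lf 0 575148 0)))) (P.cons (P.cons (P.lf 176367297 0 0) (P.cons (P.lf 0 3846402 0) (P.cons (P.lf 495303 0 0) (P.lf 33018 0 0)))) (P.cons (P.cons (P.lf 0 6365046 0) (P.cons (P.lf 0 984699 0) (P.cons (P.lf 126798 0 0) (P.lf 8448 0 0)))) (P.cons (P.cons (P.lf 0 1712499 0) (P.cons (P.lf 28737 0 0) (P.cons (P.lf 0 3696 0) P.nil))) (P.cons (P.cons (P.lf 44316 0 0) (P.cons (P.lf 6684 0 0) P.nil)) (P.cons (P.cons (P.lf 8676 0 0) P.nil) P.nil)))))) 4620)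
 (EL.cons 11 (TM.mk (P.cons (P.cons (P.lf 0 580690743 0) (P.cons (P.lf 165774084 0 0) (P.cons (P.lf 12399633 0 0) (P.cons (P.lf 0 835551 0) (P.lf 0 41775 0))))) (P.cons (P.cons (P.lf 0 32004588 0) (P.cons (P.lf 9136584 0 0) (P.cons (P.lf 683400 0 0) (P.cons (P.lf 0 46050 0) (P.lf 0 2301 0))))) (P.cons (P.cons (P.lf 4197516 0 0) (P.cons (P.lf 0 1198296 0) (P.cons (P.lf 0 89631 0) (P.cons (P.lf 6039 0 0) P.nil)))) (P.cons (P.cons (P.lf 327909 0 0) (P.cons (P.lf 0 93609 0) (P.cons (P.lf 0 6999 0) P.nil))) (P.cons (P.cons (P.lf 0 2538 0) (P.cons (P.lf 723 0 0) P.nil)) (P.cons (P.cons (P.lf 0 843 0) P.nil) P.nil)))))) 1779)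
 EL.nil)))
noncomputable def S154_169_660_734_24 : EL := (EL.cons 4 (TM.mk (P.cons (P.cons (P.lf 0 117977040 0) (P.cons (P.lf 1935063 0 0) (P.cons (P.lf 2404044 0 0) (P.cons (P.lf 0 699927 0) (P.cons (P.lf 0 1557 0) (P.cons (P.lf 5865 0 0) P.nil)))))) (P.cons (P.cons (P.lf 53652675 0 0) (P.cons (P.lf 531222 0 0) (P.cons (P.lf 519567 0 0) (P.cons (P.lf 0 155988 0) (P.cons (P.lf 0 345 0) P.nil))))) (P.cons (P.cons (P.lf 0 5038434 0) (P.cons (P.lf 1134969 0 0) (P.cons (P.lf 0 140544 0) (P.cons (P.lf 0 11184 0) P.nil)))) (P.cons (P.cons (P.lf 0 190053 0) (P.cons (P.lf 116847 0 0) (P.cons (P.lf 0 23820 0) P.nil))) (P.cons (P.cons (P.lf 135429 0 0) (P.cons (P.lf 0 12759 0) P.nil)) (P.cons (P.cons (P.lf 378 0 0) P.nil) P.nil)))))) 18360)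
 (EL.cons 8 (TM.mk (P.cons (P.cons (P.lf 69987939 0 0) (P.cons (P.lf 0 1147944 0) (P.cons (P.lf 0 1426158 0) (P.cons (P.lf 415221 0 0) (P.cons (P.lf 924 0 0) (P.cons (P.lf 0 3477 0) P.nil)))))) (P.cons (P.cons (P.lf 0 39663885 0) (P.cons (P.lf 0 186624 0) (P.cons (P.lf 0 148563 0) (P.cons (P.lf 46053 0 0) (P.cons (P.lf 99 0 0) P.nil))))) (P.cons (P.cons (P.lf 6898086 0 0) (P.cons (P.lf 0 643692 0) (P.cons (P.lf 110835 0 0) (P.cons (P.lf 0 1671 0) P.nil)))) (P.cons (P.cons (P.lf 0 400551 0) (P.cons (P.lf 4854 0 0) (P.cons (P.lf 3708 0 0) P.nil))) (P.cons (P.cons (P.lf 0 67314 0) (P.cons (P.lf 12081 0 0) P.nil)) (P.cons (P.cons (P.lf 7824 0 0) P.nil) P.nil)))))) 8607)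
 (EL.cons 11 (TM.mk (P.cons (P.cons (P.lf 96082104 0 0) (P.cons (P.lf 0 13786806 0) (P.cons (P.lf 0 7703031 0) (P.cons (P.lf 231336 0 0) (P.cons (P.lf 97488 0 0) (P.cons (P.lf 954 0 0) P.nil)))))) (P.cons (P.cons (P.lf 0 9094338 0) (P.cons (P.lf 5627331 0 0) (P.cons (P.lf 0 1061436 0) (P.cons (P.lf 7596 0 0) (P.cons (P.lf 19467 0 0) P.nil))))) (P.cons (P.cons (P.lf 536526 0 0) (P.cons (P.lf 0 37026 0) (P.cons (P.lf 0 59565 0) (P.cons (P.lf 1563 0 0) P.nil)))) (P.cons (P.cons (P.lf 282948 0 0) (P.cons (P.lf 0 104856 0) (P.cons (P.lf 3933 0 0) P.nil))) (P.cons (P.cons (P.lf 0 3213 0) (P.cons (P.lf 0 1662 0) P.nil)) (P.cons (P.cons (P.lf 0 2571 0) P.nil) P.nil)))))) 10170)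
 EL.nil)))
noncomputable def S154_169_660_734_25 : EL := (EL.cons 4 (TM.mk (P.cons (P.cons (P.lf 0 449793342 0) (P.cons (P.lf 71242569 0 0) (P.cons (P.lf 0 9173982 0) (P.lf 0 611595 0)))) (P.cons (P.cons (P.lf 162496443 0 0) (P.cons (P.lf 0 122754 0) (P.cons (P.lf 15807 0 0) (P.lf 1056 0 0)))) (P.cons (P.cons (P.lf 4091064 0 0) (P.cons (P.lf 0 1340670 0) (P.cons (P.lf 172641 0 0) (P.lf 11508 0 0)))) (P.cons (P.cons (P.lf 0 2338575 0) (P.cons (P.lf 0 29124 0) (P.cons (P.lf 3747 0 0) P.nil))) (P.cons (P.cons (P.lf 0 61230 0) (P.cons (P.lf 10020 0 0) P.nil)) (P.cons (P.cons (P.lf 13851 0 0) P.nil) P.nil)))))) 6333)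
 (EL.cons 8 (TM.mk (P.cons (P.cons (P.lf 266832510 0 0) (P.cons (P.lf 0 42263487 0) (P.cons (P.lf 5442315 0 0) (P.lf 362820 0 0)))) (P.cons (P.cons (P.lf 0 126270876 0) (P.cons (P.lf 4804314 0 0) (P.cons (P.lf 0 618657 0) (P.lf 0 41241 0)))) (P.cons (P.cons (P.lf 9683580 0 0) (P.cons (P.lf 578337 0 0) (P.cons (P.lf 0 74472 0) (P.lf 0 4962 0)))) (P.cons (P.cons (P.lf 1101090 0 0) (P.cons (P.lf 0 58473 0) (P.cons (P.lf 7527 0 0) P.nil))) (P.cons (P.cons (P.lf 0 97134 0) (P.cons (P.lf 0 4659 0) P.nil)) (P.cons (P.cons (P.lf 0 6507 0) P.nil) P.nil)))))) 4098)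
 (EL.cons 11 (TM.mk (P.cons (P.cons (P.lf 366317808 0 0) (P.cons (P.lf 0 104575455 0) (P.cons (P.lf 0 7822074 0) (P.cons (P.lf 527091 0 0) (P.lf 26352 0 0))))) (P.cons (P.cons (P.lf 0 420777 0) (P.cons (P.lf 120120 0 0) (P.cons (P.lf 8985 0 0) (P.cons (P.lf 0 603 0) (P.lf 0 30 0))))) (P.cons (P.cons (P.lf 0 4595799 0) (P.cons (P.lf 1311996 0 0) (P.cons (P.lf 98133 0 0) (P.cons (P.lf 0 6612 0) P.nil)))) (P.cons (P.cons (P.lf 0 102486 0) (P.cons (P.lf 29256 0 0) (P.cons (P.lf 2187 0 0) P.nil))) (P.cons (P.cons (P.lf 19863 0 0) (P.cons (P.lf 0 5670 0) P.nil)) (P.cons (P.cons (P.lf 957 0 0) P.nil) P.nil)))))) 2034)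
 EL.nil)))
noncomputable def S154_169_660_734_26 : EL := (EL.cons 4 (TM.mk (P.cons (P.cons (P.lf 74423592 0 0) (P.cons (P.lf 0 1220697 0) (P.cons (P.lf 0 1516545 0) (P.cons (P.lf 441537 0 0) (P.cons (P.lf 981 0 0) (P.cons (P.lf 0 3699 0) P.nil)))))) (P.cons (P.cons (P.lf 0 38033100 0) (P.cons (P.lf 0 266430 0) (P.cons (P.lf 0 242433 0) (P.cons (P.lf 73557 0 0) (P.cons (P.lf 162 0 0) P.nil))))) (P.cons (P.cons (P.lf 4917717 0 0) (P.cons (P.lf 0 694413 0) (P.cons (P.lf 110463 0 0) (P.cons (P.lf 540 0 0) P.nil)))) (P.cons (P.cons (P.lf 16110 0 0) (P.cons (P.lf 0 32685 0) (P.cons (P.lf 10764 0 0) P.nil))) (P.cons (P.cons (P.lf 0 99084 0) (P.cons (P.lf 13779 0 0) P.nil)) (P.cons (P.cons (P.lf 4236 0 0) P.nil) P.nil)))))) 13740)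
 (EL.cons 8 (TM.mk (P.cons (P.cons (P.lf 0 44150571 0) (P.cons (P.lf 724158 0 0) (P.cons (P.lf 899664 0 0) (P.cons (P.lf 0 261933 0) (P.cons (P.lf 0 582 0) (P.cons (P.lf 2193 0 0) P.nil)))))) (P.cons (P.cons (P.lf 27505272 0 0) (P.cons (P.lf 76983 0 0) (P.cons (P.lf 43098 0 0) (P.cons (P.lf 0 14313 0) (P.cons (P.lf 0 30 0) P.nil))))) (P.cons (P.cons (P.lf 0 5661444 0) (P.cons (P.lf 397833 0 0) (P.cons (P.lf 0 77184 0) (P.cons (P.lf 3267 0 0) P.nil)))) (P.cons (P.cons (P.lf 442035 0 0) (P.cons (P.lf 0 26169 0) (P.cons (P.lf 1386 0 0) P.nil))) (P.cons (P.cons (P.lf 37812 0 0) (P.cons (P.lf 0 8346 0) P.nil)) (P.cons (P.cons (P.lf 0 7839 0) P.nil) P.nil)))))) 6420)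
 (EL.cons 11 (TM.mk (P.cons (P.cons (P.lf 0 60611583 0) (P.cons (P.lf 8697147 0 0) (P.cons (P.lf 4859313 0 0) (P.cons (P.lf 0 145935 0) (P.cons (P.lf 0 61497 0) (P.cons (P.lf 0 600 0) P.nil)))))) (P.cons (P.cons (P.lf 9147201 0 0) (P.cons (P.lf 0 4039227 0) (P.cons (P.lf 396183 0 0) (P.cons (P.lf 3417 0 0) (P.cons (P.lf 0 8820 0) P.nil))))) (P.cons (P.cons (P.lf 0 526893 0) (P.cons (P.lf 203808 0 0) (P.cons (P.lf 0 10866 0) (P.cons (P.lf 0 393 0) P.nil)))) (P.cons (P.cons (P.lf 0 172188 0) (P.cons (P.lf 72702 0 0) (P.cons (P.lf 0 6075 0) P.nil))) (P.cons (P.cons (P.lf 12699 0 0) (P.cons (P.lf 0 2706 0) P.nil)) (P.cons (P.cons (P.lf 1911 0 0) P.nil) P.nil)))))) 7815)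
 EL.nil)))
noncomputable def S154_169_660_734_27 : EL := (EL.cons 13 (TM.mk (P.lf 0 4294967296 0) 0)
 EL.nil)
noncomputable def S154_169_660_734_28 : EL := (EL.cons 13 (TM.mk (P.cons (P.cons (P.lf 710652791 0 0) (P.cons (P.lf 100903836 0 0) (P.cons (P.lf 0 12993496 0) (P.lf 0 866232 0)))) (P.cons (P.cons (P.lf 0 106431930 0) (P.cons (P.lf 16857704 0 0) (P.cons (P.lf 0 2170784 0) (P.lf 0 144716 0)))) (P.cons (P.cons (P.lf 14971227 0 0) (P.cons (P.lf 659272 0 0) (P.cons (P.lf 0 84892 0) (P.lf 0 5656 0)))) (P.cons (P.cons (P.lf 899606 0 0) (P.cons (P.lf 0 35612 0) (P.cons (P.lf 4584 0 0) P.nil))) (P.cons (P.cons (P.lf 0 28354 0) (P.cons (P.lf 0 3296 0) P.nil)) (P.cons (P.cons (P.lf 0 3072 0) P.nil) P.nil)))))) 1593)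
 EL.nil)
noncomputable def S154_169_660_734_29 : EL := (EL.cons 13 (TM.mk (P.cons (P.cons (P.lf 0 117585852 0) (P.cons (P.lf 0 33391449 0) (P.cons (P.lf 1929268 0 0) (P.cons (P.lf 897182 0 0) (P.cons (P.lf 1392 0 0) (P.cons (P.lf 0 5241 0) P.nil)))))) (P.cons (P.cons (P.lf 35220826 0 0) (P.cons (P.lf 0 577692 0) (P.cons (P.lf 0 717703 0) (P.cons (P.lf 208955 0 0) (P.cons (P.lf 465 0 0) P.nil))))) (P.cons (P.cons (P.lf 0 7591779 0) (P.cons (P.lf 0 86133 0) (P.cons (P.lf 0 86053 0) (P.cons (P.lf 25756 0 0) P.nil)))) (P.cons (P.cons (P.lf 444291 0 0) (P.cons (P.lf 0 115334 0) (P.cons (P.lf 11350 0 0) P.nil))) (P.cons (P.cons (P.lf 1782 0 0) (P.cons (P.lf 0 10999 0) P.nil)) (P.cons (P.cons (P.lf 0 6660 0) P.nil) P.nil)))))) 14421)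
 EL.nil)
noncomputable def S154_169_660_734_30 : EL := (EL.cons 13 (TM.mk (P.cons (P.lf 2709399152 0 0) (P.cons (P.lf 0 152439880 0) (P.cons (P.lf 0 6005424 0) (P.cons (P.lf 1008 0 0) (P.cons (P.lf 5528 0 0) (P.cons (P.lf 124 0 0) P.nil)))))) 64)
 EL.nil)
noncomputable def S154_169_660_734_31 : EL := (EL.cons 13 (TM.mk (P.cons (P.cons (P.lf 0 448301916 0) (P.cons (P.lf 0 63653282 0) (P.cons (P.lf 8196702 0 0) (P.lf 546446 0 0)))) (P.cons (P.cons (P.lf 92363545 0 0) (P.cons (P.lf 0 7053017 0) (P.cons (P.lf 908224 0 0) (P.lf 60546 0 0)))) (P.cons (P.cons (P.lf 0 12228202 0) (P.cons (P.lf 323524 0 0) (P.cons (P.lf 0 41662 0) (P.lf 0 2779 0)))) (P.cons (P.cons (P.lf 0 185115 0) (P.cons (P.lf 69412 0 0) (P.cons (P.lf 0 8937 0) P.nil))) (P.cons (P.cons (P.lf 69859 0 0) (P.cons (P.lf 1603 0 0) P.nil)) (P.cons (P.cons (P.lf 2302 0 0) P.nil) P.nil)))))) 2192)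
 EL.nil)
noncomputable def S154_169_660_734_32 : EL := (EL.cons 13 (TM.mk (P.cons (P.cons (P.lf 74176818 0 0) (P.cons (P.lf 21064366 0 0) (P.cons (P.lf 0 1217042 0) (P.cons (P.lf 0 565970 0) (P.cons (P.lf 0 878 0) (P.cons (P.lf 3306 0 0) P.nil)))))) (P.cons (P.cons (P.lf 0 26391830 0) (P.cons (P.lf 0 820725 0) (P.cons (P.lf 521224 0 0) (P.cons (P.lf 0 99971 0) (P.cons (P.lf 0 243 0) P.nil))))) (P.cons (P.cons (P.lf 5874797 0 0) (P.cons (P.lf 0 12857 0) (P.cons (P.lf 31509 0 0) (P.cons (P.lf 0 7576 0) P.nil)))) (P.cons (P.cons (P.lf 0 500450 0) (P.cons (P.lf 68899 0 0) (P.cons (P.lf 0 11218 0) P.nil))) (P.cons (P.cons (P.lf 4172 0 0) (P.cons (P.lf 2767 0 0) P.nil)) (P.cons (P.cons (P.lf 4845 0 0) P.nil) P.nil)))))) 12482)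
 EL.nil)
noncomputable def S154_169_660_734_33 : EL := (EL.cons 14 (TM.mk (P.lf 8589934592 0 0) 0)
 EL.nil)
noncomputable def S154_169_660_734_34 : EL := (EL.cons 14 (TM.mk (P.cons (P.cons (P.lf 0 1421305582 0) (P.cons (P.lf 0 201807672 0) (P.cons (P.lf 25986992 0 0) (P.lf 1732464 0 0)))) (P.cons (P.cons (P.lf 212863860 0 0) (P.cons (P.lf 0 33715408 0) (P.cons (P.lf 4341568 0 0) (P.lf 289432 0 0)))) (P.cons (P.cons (P.lf 0 29942454 0) (P.cons (P.lf 0 1318544 0) (P.cons (P.lf 169784 0 0) (P.lf 11312 0 0)))) (P.cons (P.cons (P.lf 0 1799212 0) (P.cons (P.lf 71224 0 0) (P.cons (P.lf 0 9168 0) P.nil))) (P.cons (P.cons (P.lf 56708 0 0) (P.cons (P.lf 6592 0 0) P.nil)) (P.cons (P.cons (P.lf 6144 0 0) P.nil) P.nil)))))) 3186)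
 EL.nil)
noncomputable def S154_169_660_734_35 : EL := (EL.cons 14 (TM.mk (P.cons (P.cons (P.lf 235171704 0 0) (P.cons (P.lf 66782898 0 0) (P.cons (P.lf 0 3858536 0) (P.cons (P.lf 0 1794364 0) (P.cons (P.lf 0 2784 0) (P.cons (P.lf 10482 0 0) P.nil)))))) (P.cons (P.cons (P.lf 0 70441652 0) (P.cons (P.lf 1155384 0 0) (P.cons (P.lf 1435406 0 0) (P.cons (P.lf 0 417910 0) (P.cons (P.lf 0 930 0) P.nil))))) (P.cons (P.cons (P.lf 15183558 0 0) (P.cons (P.lf 172266 0 0) (P.cons (P.lf 172106 0 0) (P.cons (P.lf 0 51512 0) P.nil)))) (P.cons (P.cons (P.lf 0 888582 0) (P.cons (P.lf 230668 0 0) (P.cons (P.lf 0 22700 0) P.nil))) (P.cons (P.cons (P.lf 0 3564 0) (P.cons (P.lf 21998 0 0) P.nil)) (P.cons (P.cons (P.lf 13320 0 0) P.nil) P.nil)))))) 28842)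
 EL.nil)
noncomputable def S154_169_660_734_36 : EL := (EL.cons 14 (TM.mk (P.cons (P.lf 0 5418798304 0) (P.cons (P.lf 304879760 0 0) (P.cons (P.lf 12010848 0 0) (P.cons (P.lf 0 2016 0) (P.cons (P.lf 0 11056 0) (P.cons (P.lf 0 248 0) P.nil)))))) 128)
 EL.nil)
noncomputable def S154_169_660_734_37 : EL := (EL.cons 14 (TM.mk (P.cons (P.cons (P.lf 896603832 0 0) (P.cons (P.lf 127306564 0 0) (P.cons (P.lf 0 16393404 0) (P.lf 0 1092892 0)))) (P.cons (P.cons (P.lf 0 184727090 0) (P.cons (P.lf 14106034 0 0) (P.cons (P.lf 0 1816448 0) (P.lf 0 121092 0)))) (P.cons (P.cons (P.lf 24456404 0 0) (P.cons (P.lf 0 647048 0) (P.cons (P.lf 83324 0 0) (P.lf 5558 0 0)))) (P.cons (P.cons (P.lf 370230 0 0) (P.cons (P.lf 0 138824 0) (P.cons (P.lf 17874 0 0) P.nil))) (P.cons (P.cons (P.lf 0 139718 0) (P.cons (P.lf 0 3206 0) P.nil)) (P.cons (P.cons (P.lf 0 4604 0) P.nil) P.nil))))))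 4384)
 EL.nil)
noncomputable def S154_169_660_734_38 : EL := (EL.cons 14 (TM.mk (P.cons (P.cons (P.lf 0 148353636 0) (P.cons (P.lf 0 42128732 0) (P.cons (P.lf 2434084 0 0) (P.cons (P.lf 1131940 0 0) (P.cons (P.lf 1756 0 0) (P.cons (P.lf 0 6612 0) P.nil)))))) (P.cons (P.cons (P.lf 52783660 0 0) (P.cons (P.lf 1641450 0 0) (P.cons (P.lf 0 1042448 0) (P.cons (P.lf 199942 0 0) (P.cons (P.lf 486 0 0) P.nil))))) (P.cons (P.cons (P.lf 0 11749594 0) (P.cons (P.lf 25714 0 0) (P.cons (P.lf 0 63018 0) (P.cons (P.lf 15152 0 0) P.nil)))) (P.cons (P.cons (P.lf 1000900 0 0) (P.cons (P.lf 0 137798 0) (P.cons (P.lf 22436 0 0) P.nil))) (P.cons (P.cons (P.lf 0 8344 0) (P.cons (P.lf 0 5534 0) P.nil)) (P.cons (P.cons (P.lf 0 9690 0) P.nil) P.nil)))))) 24964)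
 EL.nil)
noncomputable def S154_169_660_734_39 : EL := (EL.cons 14 (TM.mk (P.cons (P.lf 3418346756 0 0) (P.cons (P.lf 0 384655298 0) (P.cons (P.lf 0 4332634 0) (P.cons (P.lf 855136 0 0) (P.cons (P.lf 30598 0 0) (P.cons (P.lf 0 476 0) P.nil)))))) 234)
 EL.nil)
noncomputable def S154_169_660_734_40 : EL := (EL.cons 14 (TM.mk (P.cons (P.cons (P.lf 0 565605624 0) (P.cons (P.lf 0 80308946 0) (P.cons (P.lf 10341468 0 0) (P.lf 689430 0 0)))) (P.cons (P.cons (P.lf 148354470 0 0) (P.cons (P.lf 0 4380074 0) (P.cons (P.lf 564026 0 0) (P.lf 37598 0 0)))) (P.cons (P.cons (P.lf 0 20730646 0) (P.cons (P.lf 1086844 0 0) (P.cons (P.lf 0 139956 0) (P.lf 0 9332 0)))) (P.cons (P.cons (P.lf 375964 0 0) (P.cons (P.lf 84302 0 0) (P.cons (P.lf 0 10854 0) P.nil))) (P.cons (P.cons (P.lf 134364 0 0) (P.cons (P.lf 0 3976 0) P.nil)) (P.cons (P.cons (P.lf 0 1330 0) P.nil) P.nil))))))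 4662)
 EL.nil)
noncomputable def S154_169_660_734_41 : EL := (EL.cons 14 (TM.mk (P.cons (P.cons (P.lf 93586094 0 0) (P.cons (P.lf 26576116 0 0) (P.cons (P.lf 0 1535496 0) (P.cons (P.lf 0 714062 0) (P.cons (P.lf 0 1106 0) (P.cons (P.lf 4170 0 0) P.nil)))))) (P.cons (P.cons (P.lf 0 38563044 0) (P.cons (P.lf 0 2530740 0) (P.cons (P.lf 744000 0 0) (P.cons (P.lf 0 85954 0) (P.cons (P.lf 0 244 0) P.nil))))) (P.cons (P.cons (P.lf 9078008 0 0) (P.cons (P.lf 0 16868 0) (P.cons (P.lf 6158 0 0) (P.cons (P.lf 0 880 0) P.nil)))) (P.cons (P.cons (P.lf 0 974584 0) (P.cons (P.lf 90144 0 0) (P.cons (P.lf 0 17848 0) P.nil))) (P.cons (P.cons (P.lf 24538 0 0) (P.cons (P.lf 0 1308 0) P.nil)) (P.cons (P.cons (P.lf 7156 0 0) P.nil) P.nil)))))) 19356)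
 EL.nil)
noncomputable def S154_169_660_734_42 : EL := (EL.cons 14 (TM.mk (P.cons (P.lf 0 2156399608 0) (P.cons (P.lf 363978814 0 0) (P.cons (P.lf 0 6139592 0) (P.cons (P.lf 0 1231868 0) (P.cons (P.lf 680 0 0) (P.cons (P.lf 2978 0 0) P.nil)))))) 304)
 EL.nil)
noncomputable def S154_169_660_734_43 : EL := (EL.cons 14 (TM.mk (P.cons (P.cons (P.lf 356801644 0 0) (P.cons (P.lf 50661384 0 0) (P.cons (P.lf 0 6523720 0) (P.lf 0 434914 0)))) (P.cons (P.cons (P.lf 0 113661478 0) (P.cons (P.lf 0 87290 0) (P.cons (P.lf 11240 0 0) (P.lf 750 0 0)))) (P.cons (P.cons (P.lf 17552178 0 0) (P.cons (P.lf 0 953368 0) (P.cons (P.lf 122766 0 0) (P.lf 8186 0 0)))) (P.cons (P.cons (P.lf 0 765388 0) (P.cons (P.lf 0 20710 0) (P.cons (P.lf 2664 0 0) P.nil))) (P.cons (P.cons (P.lf 0 99710 0) (P.cons (P.lf 7124 0 0) P.nil)) (P.cons (P.cons (P.lf 5964 0 0) P.nil) P.nil)))))) 4488)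
 EL.nil)
noncomputable def S154_169_660_734_44 : EL := (EL.cons 14 (TM.mk (P.cons (P.cons (P.lf 0 59037022 0) (P.cons (P.lf 0 16765042 0) (P.cons (P.lf 968638 0 0) (P.cons (P.lf 450452 0 0) (P.cons (P.lf 698 0 0) (P.cons (P.lf 0 2630 0) P.nil)))))) (P.cons (P.cons (P.lf 27648390 0 0) (P.cons (P.lf 2539726 0 0) (P.cons (P.lf 0 523838 0) (P.cons (P.lf 28878 0 0) (P.cons (P.lf 114 0 0) P.nil))))) (P.cons (P.cons (P.lf 0 6964540 0) (P.cons (P.lf 0 42020 0) (P.cons (P.lf 20374 0 0) (P.cons (P.lf 0 3494 0) P.nil)))) (P.cons (P.cons (P.lf 883058 0 0) (P.cons (P.lf 0 61010 0) (P.cons (P.lf 12518 0 0) P.nil))) (P.cons (P.cons (P.lf 0 37488 0) (P.cons (P.lf 3968 0 0) P.nil)) (P.cons (P.cons (P.lf 0 4960 0) P.nil) P.nil)))))) 15156)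
 EL.nil)
noncomputable def S154_169_660_734_45 : EL := (EL.cons 14 (TM.mk (P.cons (P.cons (P.lf 0 38911920 0) (P.cons (P.lf 0 16575022 0) (P.cons (P.lf 0 219062 0) (P.cons (P.lf 637016 0 0) (P.cons (P.lf 44412 0 0) (P.cons (P.lf 0 7874 0) P.nil)))))) (P.cons (P.cons (P.lf 17483098 0 0) (P.cons (P.lf 2195624 0 0) (P.cons (P.lf 0 716632 0) (P.cons (P.lf 37070 0 0) (P.cons (P.lf 21820 0 0) P.nil))))) (P.cons (P.cons (P.lf 0 5077636 0) (P.cons (P.lf 0 348992 0) (P.cons (P.lf 16690 0 0) (P.cons (P.lf 0 1238 0) P.nil)))) (P.cons (P.cons (P.lf 719568 0 0) (P.cons (P.lf 0 77870 0) (P.cons (P.lf 1448 0 0) P.nil))) (P.cons (P.cons (P.lf 0 58048 0) (P.cons (P.lf 2510 0 0) P.nil)) (P.cons (P.cons (P.lf 0 2670 0) P.nil) P.nil)))))) 30394)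
 EL.nil)
noncomputable def S154_169_660_734_46 : EL := (EL.cons 15 (TM.mk (P.lf 4294967296 0 0) 0)
 EL.nil)
noncomputable def S154_169_660_734_47 : EL := (EL.cons 15 (TM.mk (P.cons (P.cons (P.lf 0 710652791 0) (P.cons (P.lf 0 100903836 0) (P.cons (P.lf 12993496 0 0) (P.lf 866232 0 0)))) (P.cons (P.cons (P.lf 106431930 0 0) (P.cons (P.lf 0 16857704 0) (P.cons (P.lf 2170784 0 0) (P.lf 144716 0 0)))) (P.cons (P.cons (P.lf 0 14971227 0) (P.cons (P.lf 0 659272 0) (P.cons (P.lf 84892 0 0) (P.lf 5656 0 0)))) (P.cons (P.cons (P.lf 0 899606 0) (P.cons (P.lf 35612 0 0) (P.cons (P.lf 0 4584 0) P.nil))) (P.cons (P.cons (P.lf 28354 0 0) (P.cons (P.lf 3296 0 0) P.nil)) (P.cons (P.cons (P.lf 3072 0 0) P.nil) P.nil)))))) 1593)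
 EL.nil)
noncomputable def S154_169_660_734_48 : EL := (EL.cons 15 (TM.mk (P.cons (P.cons (P.lf 117585852 0 0) (P.cons (P.lf 33391449 0 0) (P.cons (P.lf 0 1929268 0) (P.cons (P.lf 0 897182 0) (P.cons (P.lf 0 1392 0) (P.cons (P.lf 5241 0 0) P.nil)))))) (P.cons (P.cons (P.lf 0 35220826 0) (P.cons (P.lf 577692 0 0) (P.cons (P.lf 717703 0 0) (P.cons (P.lf 0 208955 0) (P.cons (P.lf 0 465 0) P.nil))))) (P.cons (P.cons (P.lf 7591779 0 0) (P.cons (P.lf 86133 0 0) (P.cons (P.lf 86053 0 0) (P.cons (P.lf 0 25756 0) P.nil)))) (P.cons (P.cons (P.lf 0 444291 0) (P.cons (P.lf 115334 0 0) (P.cons (P.lf 0 11350 0) P.nil))) (P.cons (P.cons (P.lf 0 1782 0) (P.cons (P.lf 10999 0 0) P.nil)) (P.cons (P.cons (P.lf 6660 0 0) P.nil) P.nil)))))) 14421)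
 EL.nil)
noncomputable def S154_169_660_734 : SL := (SL.cons S154_169_660_734_0 (SL.cons S154_169_660_734_1 (SL.cons S154_169_660_734_2 (SL.cons S154_169_660_734_3 (SL.cons S154_169_660_734_4 (SL.cons S154_169_660_734_5 (SL.cons S154_169_660_734_6 (SL.cons S154_169_660_734_7 (SL.cons S154_169_660_734_8 (SL.cons S154_169_660_734_9 (SL.cons S154_169_660_734_10 (SL.cons S154_169_660_734_11 (SL.cons S154_169_660_734_12 (SL.cons S154_169_660_734_13 (SL.cons S154_169_660_734_14 (SL.cons S154_169_660_734_15 (SL.cons S154_169_660_734_16 (SL.cons S154_169_660_734_17 (SL.cons S154_169_660_734_18 (SL.cons S154_169_660_734_19 (SL.cons S154_169_660_734_20 (SL.cons S154_169_660_734_21 (SL.cons S154_169_660_734_22 (SL.cons S154_169_660_734_23 (SL.cons S154_169_660_734_24 (SL.cons S154_169_660_734_25 (SL.cons S154_169_660_734_26 (SL.cons S154_169_660_734_27 (SL.cons S154_169_660_734_28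 (SL.cons S154_169_660_734_29 (SL.cons S154_169_660_734_30 (SL.cons S154_169_660_734_31 (SL.cons S154_169_660_734_32 (SL.cons S154_169_660_734_33 (SL.cons S154_169_660_734_34 (SL.cons S154_169_660_734_35 (SL.cons S154_169_660_734_36 (SL.cons S154_169_660_734_37 (SL.cons S154_169_660_734_38 (SL.cons S154_169_660_734_39 (SL.cons S154_169_660_734_40 (SL.cons S154_169_660_734_41 (SL.cons S154_169_660_734_42 (SL.cons S154_169_660_734_43 (SL.cons S154_169_660_734_44 (SL.cons S154_169_660_734_45 (SL.cons S154_169_660_734_46 (SL.cons S154_169_660_734_47 (SL.cons S154_169_660_734_48 SL.nil)))))))))))))))))))))))))))))))))))))))))))))))))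
noncomputable def S154_169_660_808_0 : EL := (EL.cons 0 (TM.mk (P.cons (P.lf 5451310535 0 0) (P.cons (P.lf 338075945 0 0) (P.cons (P.lf 3807979 0 0) (P.cons (P.lf 0 751584 0) (P.cons (P.lf 0 26892 0) (P.cons (P.lf 418 0 0) P.nil)))))) 212)
 (EL.cons 1 (TM.mk (P.cons (P.lf 0 1800696082 0) (P.cons (P.lf 1034199 0 0) (P.cons (P.lf 11296008 0 0) (P.cons (P.lf 258390 0 0) (P.cons (P.lf 0 13243 0) (P.cons (P.lf 0 742 0) P.nil)))))) 140)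
 (EL.cons 5 (TM.mk (P.cons (P.lf 5363200660 0 0) (P.cons (P.lf 0 120204780 0) (P.cons (P.lf 0 1353950 0) (P.cons (P.lf 267230 0 0) (P.cons (P.lf 9562 0 0) (P.cons (P.lf 0 146 0) P.nil)))))) 103)
 (EL.cons 9 (TM.mk (P.lf 6442450944 0 0) 2)
 EL.nil))))
noncomputable def S154_169_660_808_1 : EL := (EL.cons 0 (TM.mk (P.cons (P.cons (P.lf 0 2166702734 0) (P.cons (P.lf 119949964 0 0) (P.cons (P.lf 0 51723773 0) (P.lf 0 5747077 0)))) (P.cons (P.cons (P.lf 471566148 0 0) (P.cons (P.lf 0 25500174 0) (P.cons (P.lf 10995973 0 0) (P.lf 1221783 0 0)))) (P.cons (P.cons (P.lf 16468574 0 0) (P.cons (P.lf 0 7337435 0) (P.cons (P.lf 3163979 0 0) (P.lf 351547 0 0)))) (P.cons (P.cons (P.lf 0 6535067 0) (P.cons (P.lf 0 324323 0) (P.cons (P.lf 139845 0 0) P.nil))) (P.cons (P.cons (P.lf 0 391271 0) (P.cons (P.lf 29340 0 0) P.nil)) (P.cons (P.cons (P.lf 20428 0 0) P.nil) P.nil))))))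 85054)
 (EL.cons 1 (TM.mk (P.cons (P.cons (P.lf 330909282 0 0) (P.cons (P.lf 61568311 0 0) (P.cons (P.lf 0 26548946 0) (P.lf 0 2949878 0)))) (P.cons (P.cons (P.lf 0 114492542 0) (P.cons (P.lf 30409078 0 0) (P.cons (P.lf 0 13112732 0) (P.lf 0 1456963 0)))) (P.cons (P.cons (P.lf 31481776 0 0) (P.cons (P.lf 1348207 0 0) (P.cons (P.lf 0 581358 0) (P.lf 0 64592 0)))) (P.cons (P.cons (P.lf 2546117 0 0) (P.cons (P.lf 0 273327 0) (P.cons (P.lf 117857 0 0) P.nil))) (P.cons (P.cons (P.lf 0 216549 0) (P.cons (P.lf 0 22633 0) P.nil)) (P.cons (P.cons (P.lf 0 20350 0) P.nil) P.nil)))))) 45111)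
 (EL.cons 5 (TM.mk (P.cons (P.cons (P.lf 0 585701540 0) (P.cons (P.lf 0 288530554 0) (P.cons (P.lf 124417630 0 0) (P.lf 13824178 0 0)))) (P.cons (P.cons (P.lf 0 11455423 0) (P.cons (P.lf 0 32012004 0) (P.cons (P.lf 13803936 0 0) (P.lf 1533770 0 0)))) (P.cons (P.cons (P.lf 0 32273408 0) (P.cons (P.lf 1002350 0 0) (P.cons (P.lf 0 432224 0) (P.lf 0 48020 0)))) (P.cons (P.cons (P.lf 846477 0 0) (P.cons (P.lf 202102 0 0) (P.cons (P.lf 0 87146 0) P.nil))) (P.cons (P.cons (P.lf 192161 0 0) (P.cons (P.lf 0 2390 0) P.nil)) (P.cons (P.cons (P.lf 0 1996 0) P.nil) P.nil)))))) 38660)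
 (EL.cons 9 (TM.mk (P.cons (P.cons (P.lf 0 1196545348 0) (P.cons (P.lf 0 216954420 0) (P.cons (P.lf 93553194 0 0) (P.lf 10394796 0 0)))) (P.cons (P.cons (P.lf 137834589 0 0) (P.cons (P.lf 0 36245934 0) (P.cons (P.lf 15629652 0 0) (P.lf 1736628 0 0)))) (P.cons (P.cons (P.lf 0 23309920 0) (P.cons (P.lf 0 1417506 0) (P.cons (P.lf 611244 0 0) (P.lf 67914 0 0)))) (P.cons (P.cons (P.lf 0 1303323 0) (P.cons (P.lf 76572 0 0) (P.cons (P.lf 0 33018 0) P.nil))) (P.cons (P.cons (P.lf 46803 0 0) (P.cons (P.lf 7086 0 0) P.nil)) (P.cons (P.cons (P.lf 4638 0 0) P.nil) P.nil)))))) 9818)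
 (EL.cons 2 (TM.mk (P.cons (P.cons (P.lf 378182207 0 0) (P.cons (P.lf 0 352311713 0) (P.cons (P.lf 0 36158641 0) (P.cons (P.lf 7519989 0 0) (P.lf 626661 0 0))))) (P.cons (P.cons (P.lf 20843392 0 0) (P.cons (P.lf 0 19417547 0) (P.cons (P.lf 0 1992870 0) (P.cons (P.lf 414461 0 0) (P.lf 34537 0 0))))) (P.cons (P.cons (P.lf 0 2733685 0) (P.cons (P.lf 2546679 0 0) (P.cons (P.lf 261371 0 0) (P.cons (P.lf 0 54357 0) P.nil)))) (P.cons (P.cons (P.lf 0 213553 0) (P.cons (P.lf 198945 0 0) (P.cons (P.lf 20415 0 0) P.nil))) (P.cons (P.cons (P.lf 1653 0 0) (P.cons (P.lf 0 1538 0) P.nil)) (P.cons (P.cons (P.lf 548 0 0) P.nil) P.nil)))))) 12772)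
 (EL.cons 6 (TM.mk (P.cons (P.cons (P.lf 226664154 0 0) (P.cons (P.lf 0 211158630 0) (P.cons (P.lf 0 21671742 0) (P.cons (P.lf 4507119 0 0) (P.lf 375591 0 0))))) (P.cons (P.cons (P.lf 37868112 0 0) (P.cons (P.lf 0 35277648 0) (P.cons (P.lf 0 3620634 0) (P.cons (P.lf 752988 0 0) (P.lf 62748 0 0))))) (P.cons (P.cons (P.lf 1480953 0 0) (P.cons (P.lf 0 1379643 0) (P.cons (P.lf 0 141594 0) (P.cons (P.lf 29445 0 0) P.nil)))) (P.cons (P.cons (P.lf 0 80004 0) (P.cons (P.lf 74532 0 0) (P.cons (P.lf 7647 0 0) P.nil))) (P.cons (P.cons (P.lf 0 7410 0) (P.cons (P.lf 6903 0 0) P.nil)) (P.cons (P.cons (P.lf 0 60 0) P.nil) P.nil)))))) 6858)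
 EL.nil))))))
noncomputable def S154_169_660_808_2 : EL := (EL.cons 0 (TM.mk (P.cons (P.cons (P.lf 616793017 0 0) (P.cons (P.lf 33183632 0 0) (P.cons (P.lf 0 28570058 0) (P.cons (P.lf 10709015 0 0) (P.cons (P.lf 0 1285167 0) (P.cons (P.lf 0 589267 0) P.nil)))))) (P.cons (P.cons (P.lf 0 236217606 0) (P.cons (P.lf 0 541980 0) (P.cons (P.lf 0 1847558 0) (P.cons (P.lf 1820902 0 0) (P.cons (P.lf 0 187558 0) P.nil))))) (P.cons (P.cons (P.lf 22473347 0 0) (P.cons (P.lf 0 5424119 0) (P.cons (P.lf 2681520 0 0) (P.cons (P.lf 0 35563 0) P.nil)))) (P.cons (P.cons (P.lf 477797 0 0) (P.cons (P.lf 0 304183 0) (P.cons (P.lf 224212 0 0) P.nil))) (P.cons (P.cons (P.lf 0 470166 0) (P.cons (P.lf 107296 0 0) P.nil)) (P.cons (P.cons (P.lf 12651 0 0) P.nil) P.nil)))))) 1236133)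
 (EL.cons 1 (TM.mk (P.cons (P.cons (P.lf 0 60803425 0) (P.cons (P.lf 0 22632139 0) (P.cons (P.lf 7654609 0 0) (P.cons (P.lf 2899432 0 0) (P.cons (P.lf 0 189661 0) (P.cons (P.lf 0 86964 0) P.nil)))))) (P.cons (P.cons (P.lf 42342247 0 0) (P.cons (P.lf 0 3517880 0) (P.cons (P.lf 0 542770 0) (P.cons (P.lf 1944889 0 0) (P.cons (P.lf 0 185618 0) P.nil))))) (P.cons (P.cons (P.lf 0 16124831 0) (P.cons (P.lf 0 612294 0) (P.cons (P.lf 0 125559 0) (P.cons (P.lf 365320 0 0) P.nil)))) (P.cons (P.cons (P.lf 1031451 0 0) (P.cons (P.lf 0 490917 0) (P.cons (P.lf 201400 0 0) P.nil))) (P.cons (P.cons (P.lf 0 1926 0) (P.cons (P.lf 0 49089 0) P.nil)) (P.cons (P.cons (P.lf 0 30977 0) P.nil) P.nil)))))) 543175)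
 (EL.cons 5 (TM.mk (P.cons (P.cons (P.lf 32559107 0 0) (P.cons (P.lf 79535738 0 0) (P.cons (P.lf 0 20945921 0) (P.cons (P.lf 0 15324766 0) (P.cons (P.lf 1203148 0 0) (P.cons (P.lf 551657 0 0) P.nil)))))) (P.cons (P.cons (P.lf 25962302 0 0) (P.cons (P.lf 4930510 0 0) (P.cons (P.lf 1380618 0 0) (P.cons (P.lf 0 3260508 0) (P.cons (P.lf 316011 0 0) P.nil))))) (P.cons (P.cons (P.lf 5164718 0 0) (P.cons (P.lf 2546864 0 0) (P.cons (P.lf 0 880719 0) (P.cons (P.lf 0 309611 0) P.nil)))) (P.cons (P.cons (P.lf 0 751617 0) (P.cons (P.lf 403915 0 0) (P.cons (P.lf 0 195024 0) P.nil))) (P.cons (P.cons (P.lf 179833 0 0) (P.cons (P.lf 0 12741 0) P.nil)) (P.cons (P.cons (P.lf 6513 0 0) P.nil) P.nil)))))) 603878)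
 (EL.cons 9 (TM.mk (P.cons (P.cons (P.lf 222232311 0 0) (P.cons (P.lf 80589142 0 0) (P.cons (P.lf 0 27444843 0) (P.cons (P.lf 0 10162164 0) (P.cons (P.lf 658414 0 0) (P.cons (P.lf 301893 0 0) P.nil)))))) (P.cons (P.cons (P.lf 0 51199561 0) (P.cons (P.lf 4180420 0 0) (P.cons (P.lf 638574 0 0) (P.cons (P.lf 0 2305654 0) (P.cons (P.lf 219997 0 0) P.nil))))) (P.cons (P.cons (P.lf 11607558 0 0) (P.cons (P.lf 545554 0 0) (P.cons (P.lf 64144 0 0) (P.cons (P.lf 0 284341 0) P.nil)))) (P.cons (P.cons (P.lf 0 513291 0) (P.cons (P.lf 260971 0 0) (P.cons (P.lf 0 101740 0) P.nil))) (P.cons (P.cons (P.lf 11185 0 0) (P.cons (P.lf 22414 0 0) P.nil)) (P.cons (P.cons (P.lf 9711 0 0) P.nil) P.nil)))))) 292910)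
 (EL.cons 2 (TM.mk (P.cons (P.cons (P.lf 0 140478260 0) (P.cons (P.lf 105397351 0 0) (P.cons (P.lf 48143536 0 0) (P.cons (P.lf 0 9369720 0) (P.cons (P.lf 0 2926305 0) (P.cons (P.lf 59506 0 0) P.nil)))))) (P.cons (P.cons (P.lf 8439806 0 0) (P.cons (P.lf 0 13521684 0) (P.cons (P.lf 6905463 0 0) (P.cons (P.lf 0 1293322 0) (P.cons (P.lf 0 584465 0) P.nil))))) (P.cons (P.cons (P.lf 0 829333 0) (P.cons (P.lf 555761 0 0) (P.cons (P.lf 374793 0 0) (P.cons (P.lf 0 72472 0) P.nil)))) (P.cons (P.cons (P.lf 0 341488 0) (P.cons (P.lf 363088 0 0) (P.cons (P.lf 0 28620 0) P.nil))) (P.cons (P.cons (P.lf 7087 0 0) (P.cons (P.lf 0 1783 0) P.nil)) (P.cons (P.cons (P.lf 3363 0 0) P.nil) P.nil)))))) 273008)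
 (EL.cons 6 (TM.mk (P.cons (P.cons (P.lf 0 84195882 0) (P.cons (P.lf 63170082 0 0) (P.cons (P.lf 28854906 0 0) (P.cons (P.lf 0 5615754 0) (P.cons (P.lf 0 1753884 0) (P.cons (P.lf 35664 0 0) P.nil)))))) (P.cons (P.cons (P.lf 0 4367514 0) (P.cons (P.lf 0 1032198 0) (P.cons (P.lf 7369176 0 0) (P.cons (P.lf 0 1403850 0) (P.cons (P.lf 0 546648 0) P.nil))))) (P.cons (P.cons (P.lf 0 569970 0) (P.cons (P.lf 0 94602 0) (P.cons (P.lf 907050 0 0) (P.cons (P.lf 0 172848 0) P.nil)))) (P.cons (P.cons (P.lf 0 272646 0) (P.cons (P.lf 231444 0 0) (P.cons (P.lf 56796 0 0) P.nil))) (P.cons (P.cons (P.lf 0 23412 0) (P.cons (P.lf 23958 0 0) P.nil)) (P.cons (P.cons (P.lf 558 0 0) P.nil) P.nil)))))) 233526)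
 EL.nil))))))
noncomputable def S154_169_660_808_3 : EL := (EL.cons 0 (TM.mk (P.cons (P.lf 3004406328 0 0) (P.cons (P.lf 0 338075945 0) (P.cons (P.lf 0 3807979 0) (P.cons (P.lf 751584 0 0) (P.cons (P.lf 26892 0 0) (P.cons (P.lf 0 418 0) P.nil)))))) 212)
 (EL.cons 1 (TM.mk (P.cons (P.lf 1800696082 0 0) (P.cons (P.lf 0 1034199 0) (P.cons (P.lf 0 11296008 0) (P.cons (P.lf 0 258390 0) (P.cons (P.lf 13243 0 0) (P.cons (P.lf 742 0 0) P.nil)))))) 140)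
 (EL.cons 5 (TM.mk (P.cons (P.lf 1079250284 0 0) (P.cons (P.lf 120204780 0 0) (P.cons (P.lf 1353950 0 0) (P.cons (P.lf 0 267230 0) (P.cons (P.lf 0 9562 0) (P.cons (P.lf 146 0 0) P.nil)))))) 96)
 EL.nil)))
noncomputable def S154_169_660_808_4 : EL := (EL.cons 0 (TM.mk (P.cons (P.cons (P.lf 0 558003225 0) (P.cons (P.lf 0 101175660 0) (P.cons (P.lf 43628085 0 0) (P.lf 4847563 0 0)))) (P.cons (P.cons (P.lf 127068767 0 0) (P.cons (P.lf 0 5518154 0) (P.cons (P.lf 2379487 0 0) (P.lf 264387 0 0)))) (P.cons (P.cons (P.lf 0 17396268 0) (P.cons (P.lf 1369241 0 0) (P.cons (P.lf 0 590431 0) (P.lf 0 65603 0)))) (P.cons (P.cons (P.lf 394358 0 0) (P.cons (P.lf 106207 0 0) (P.cons (P.lf 0 45796 0) P.nil))) (P.cons (P.cons (P.lf 115082 0 0) (P.cons (P.lf 0 5009 0) P.nil)) (P.cons (P.cons (P.lf 0 1589 0) P.nil) P.nil)))))) 17096)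
 (EL.cons 1 (TM.mk (P.cons (P.cons (P.lf 0 334440189 0) (P.cons (P.lf 0 60639804 0) (P.cons (P.lf 26148568 0 0) (P.lf 2905395 0 0)))) (P.cons (P.cons (P.lf 38717510 0 0) (P.cons (P.lf 0 10096083 0) (P.cons (P.lf 4353543 0 0) (P.lf 483725 0 0)))) (P.cons (P.cons (P.lf 0 4439371 0) (P.cons (P.lf 0 9978 0) (P.cons (P.lf 4303 0 0) (P.lf 476 0 0)))) (P.cons (P.cons (P.lf 0 554227 0) (P.cons (P.lf 93883 0 0) (P.cons (P.lf 0 40481 0) P.nil))) (P.cons (P.cons (P.lf 46171 0 0) (P.cons (P.lf 5460 0 0) P.nil)) (P.cons (P.cons (P.lf 4651 0 0) P.nil) P.nil)))))) 10526)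
 (EL.cons 5 (TM.mk (P.cons (P.cons (P.lf 0 200447300 0) (P.cons (P.lf 0 36344570 0) (P.cons (P.lf 15672188 0 0) (P.lf 1741352 0 0)))) (P.cons (P.cons (P.lf 764854 0 0) (P.cons (P.lf 0 10119966 0) (P.cons (P.lf 4363842 0 0) (P.lf 484870 0 0)))) (P.cons (P.cons (P.lf 0 1584632 0) (P.cons (P.lf 0 959342 0) (P.cons (P.lf 413678 0 0) (P.lf 45962 0 0)))) (P.cons (P.cons (P.lf 0 574656 0) (P.cons (P.lf 0 12238 0) (P.cons (P.lf 5276 0 0) P.nil))) (P.cons (P.cons (P.lf 0 25316 0) (P.cons (P.lf 4142 0 0) P.nil)) (P.cons (P.cons (P.lf 2110 0 0) P.nil) P.nil)))))) 6882)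
 EL.nil)))
noncomputable def S154_169_660_808_5 : EL := (EL.cons 0 (TM.mk (P.cons (P.cons (P.lf 103636979 0 0) (P.cons (P.lf 37582361 0 0) (P.cons (P.lf 0 12798771 0) (P.cons (P.lf 0 4739076 0) (P.cons (P.lf 307047 0 0) (P.cons (P.lf 140784 0 0) P.nil)))))) (P.cons (P.cons (P.lf 0 35538598 0) (P.cons (P.lf 0 2279499 0) (P.cons (P.lf 1737998 0 0) (P.cons (P.lf 0 541958 0) (P.cons (P.lf 68043 0 0) P.nil))))) (P.cons (P.cons (P.lf 7968534 0 0) (P.cons (P.lf 0 12589 0) (P.cons (P.lf 12624 0 0) (P.cons (P.lf 0 5602 0) P.nil)))) (P.cons (P.cons (P.lf 0 792302 0) (P.cons (P.lf 100003 0 0) (P.cons (P.lf 0 54390 0) P.nil))) (P.cons (P.cons (P.lf 20244 0 0) (P.cons (P.lf 0 2738 0) P.nil)) (P.cons (P.cons (P.lf 5370 0 0) P.nil) P.nil)))))) 206215)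
 (EL.cons 1 (TM.mk (P.cons (P.cons (P.lf 62115000 0 0) (P.cons (P.lf 22525051 0 0) (P.cons (P.lf 0 7670964 0) (P.cons (P.lf 0 2840371 0) (P.cons (P.lf 184029 0 0) (P.cons (P.lf 84378 0 0) P.nil)))))) (P.cons (P.cons (P.lf 0 14346196 0) (P.cons (P.lf 1155510 0 0) (P.cons (P.lf 182889 0 0) (P.cons (P.lf 0 642808 0) (P.cons (P.lf 61383 0 0) P.nil))))) (P.cons (P.cons (P.lf 2862930 0 0) (P.cons (P.lf 10509 0 0) (P.cons (P.lf 65945 0 0) (P.cons (P.lf 0 61286 0) P.nil)))) (P.cons (P.cons (P.lf 0 64470 0) (P.cons (P.lf 62291 0 0) (P.cons (P.lf 0 28464 0) P.nil))) (P.cons (P.cons (P.lf 0 14632 0) (P.cons (P.lf 5263 0 0) P.nil)) (P.cons (P.cons (P.lf 3065 0 0) P.nil) P.nil)))))) 122864)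
 (EL.cons 5 (TM.mk (P.cons (P.cons (P.lf 37228732 0 0) (P.cons (P.lf 13500428 0 0) (P.cons (P.lf 0 4597606 0) (P.cons (P.lf 0 1702382 0) (P.cons (P.lf 110298 0 0) (P.cons (P.lf 50572 0 0) P.nil)))))) (P.cons (P.cons (P.lf 0 4430572 0) (P.cons (P.lf 2203962 0 0) (P.cons (P.lf 0 405096 0) (P.cons (P.lf 0 575854 0) (P.cons (P.lf 49138 0 0) P.nil))))) (P.cons (P.cons (P.lf 1035928 0 0) (P.cons (P.lf 186326 0 0) (P.cons (P.lf 16892 0 0) (P.cons (P.lf 0 92786 0) P.nil)))) (P.cons (P.cons (P.lf 110610 0 0) (P.cons (P.lf 51432 0 0) (P.cons (P.lf 0 14572 0) P.nil))) (P.cons (P.cons (P.lf 0 3468 0) (P.cons (P.lf 8444 0 0) P.nil)) (P.cons (P.cons (P.lf 1326 0 0) P.nil) P.nil)))))) 76332)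
 EL.nil)))
noncomputable def S154_169_660_808_6 : EL := (EL.cons 12 (TM.mk (P.lf 8589934592 0 0) 0)
 (EL.cons 3 (TM.mk (P.cons (P.lf 0 2540061705 0) (P.cons (P.lf 142912387 0 0) (P.cons (P.lf 5630085 0 0) (P.cons (P.lf 0 945 0) (P.cons (P.lf 0 5182 0) (P.cons (P.lf 0 116 0) P.nil)))))) 67)
 (EL.cons 7 (TM.mk (P.cons (P.lf 0 1522390337 0) (P.cons (P.lf 0 84780425 0) (P.cons (P.lf 1405728 0 0) (P.cons (P.lf 110195 0 0) (P.cons (P.lf 1257 0 0) (P.cons (P.lf 0 72 0) P.nil)))))) 47)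
 EL.nil)))
noncomputable def S154_169_660_808_7 : EL := (EL.cons 12 (TM.mk (P.cons (P.cons (P.lf 0 1595393798 0) (P.cons (P.lf 0 289272560 0) (P.cons (P.lf 124737592 0 0) (P.lf 13859728 0 0)))) (P.cons (P.cons (P.lf 183779452 0 0) (P.cons (P.lf 0 48327912 0) (P.cons (P.lf 20839536 0 0) (P.lf 2315504 0 0)))) (P.cons (P.cons (P.lf 0 31079894 0) (P.cons (P.lf 0 1890008 0) (P.cons (P.lf 814992 0 0) (P.lf 90552 0 0)))) (P.cons (P.cons (P.lf 0 1737764 0) (P.cons (P.lf 102096 0 0) (P.cons (P.lf 0 44024 0) P.nil))) (P.cons (P.cons (P.lf 62404 0 0) (P.cons (P.lf 9448 0 0) P.nil)) (P.cons (P.cons (P.lf 6184 0 0) P.nil) P.nil)))))) 13066)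
 (EL.cons 3 (TM.mk (P.cons (P.cons (P.lf 1447608430 0 0) (P.cons (P.lf 0 171077006 0) (P.cons (P.lf 73770334 0 0) (P.lf 8196700 0 0)))) (P.cons (P.cons (P.lf 0 379147825 0) (P.cons (P.lf 0 18955962 0) (P.cons (P.lf 8174020 0 0) (P.lf 908222 0 0)))) (P.cons (P.cons (P.lf 0 28497363 0) (P.cons (P.lf 869516 0 0) (P.cons (P.lf 0 374944 0) (P.lf 0 41660 0)))) (P.cons (P.cons (P.lf 967718 0 0) (P.cons (P.lf 186554 0 0) (P.cons (P.lf 0 80442 0) P.nil))) (P.cons (P.cons (P.lf 176613 0 0) (P.cons (P.lf 4306 0 0) P.nil)) (P.cons (P.cons (P.lf 3362 0 0) P.nil) P.nil)))))) 36621)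
 (EL.cons 7 (TM.mk (P.cons (P.cons (P.lf 0 296154333 0) (P.cons (P.lf 203500587 0 0) (P.cons (P.lf 0 87751751 0) (P.lf 0 9750196 0)))) (P.cons (P.cons (P.lf 224923213 0 0) (P.cons (P.lf 11245318 0 0) (P.cons (P.lf 0 4849110 0) (P.lf 0 538791 0)))) (P.cons (P.cons (P.lf 4315256 0 0) (P.cons (P.lf 0 1145292 0) (P.cons (P.lf 493861 0 0) (P.lf 54873 0 0)))) (P.cons (P.cons (P.lf 0 1465356 0) (P.cons (P.lf 0 53654 0) (P.cons (P.lf 23135 0 0) P.nil))) (P.cons (P.cons (P.lf 0 31998 0) (P.cons (P.lf 4597 0 0) P.nil)) (P.cons (P.cons (P.lf 4345 0 0) P.nil) P.nil)))))) 25839)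
 (EL.cons 10 (TM.mk (P.cons (P.cons (P.lf 0 639464868 0) (P.cons (P.lf 595720683 0 0) (P.cons (P.lf 61140321 0 0) (P.cons (P.lf 0 12715485 0) (P.lf 0 1059621 0))))) (P.cons (P.cons (P.lf 0 71222343 0) (P.cons (P.lf 66350199 0 0) (P.cons (P.lf 6809688 0 0) (P.cons (P.lf 0 1416225 0) (P.lf 0 118017 0))))) (P.cons (P.cons (P.lf 0 802224 0) (P.cons (P.lf 747348 0 0) (P.cons (P.lf 76701 0 0) (P.cons (P.lf 0 15951 0) P.nil)))) (P.cons (P.cons (P.lf 158334 0 0) (P.cons (P.lf 0 147504 0) (P.cons (P.lf 0 15138 0) P.nil))) (P.cons (P.cons (P.lf 5664 0 0) (P.cons (P.lf 0 5277 0) P.nil)) (P.cons (P.cons (P.lf 0 84 0) P.nil) P.nil)))))) 5712)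
 EL.nil))))
noncomputable def S154_169_660_808_8 : EL := (EL.cons 12 (TM.mk (P.cons (P.cons (P.lf 296309748 0 0) (P.cons (P.lf 107452190 0 0) (P.cons (P.lf 0 36593124 0) (P.cons (P.lf 0 13549552 0) (P.cons (P.lf 877886 0 0) (P.cons (P.lf 402524 0 0) P.nil)))))) (P.cons (P.cons (P.lf 0 68266082 0) (P.cons (P.lf 5573894 0 0) (P.cons (P.lf 851432 0 0) (P.cons (P.lf 0 3074206 0) (P.cons (P.lf 293330 0 0) P.nil))))) (P.cons (P.cons (P.lf 15476744 0 0) (P.cons (P.lf 727406 0 0) (P.cons (P.lf 85526 0 0) (P.cons (P.lf 0 379122 0) P.nil)))) (P.cons (P.cons (P.lf 0 684388 0) (P.cons (P.lf 347962 0 0) (P.cons (P.lf 0 135654 0) P.nil))) (P.cons (P.cons (P.lf 14914 0 0) (P.cons (P.lf 29886 0 0) P.nil)) (P.cons (P.cons (P.lf 12948 0 0) P.nil) P.nil)))))) 390518)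
 (EL.cons 3 (TM.mk (P.cons (P.cons (P.lf 0 450104236 0) (P.cons (P.lf 0 2177110 0) (P.cons (P.lf 15341657 0 0) (P.cons (P.lf 0 12317048 0) (P.cons (P.lf 1297961 0 0) (P.cons (P.lf 595136 0 0) P.nil)))))) (P.cons (P.cons (P.lf 177663179 0 0) (P.cons (P.lf 8828899 0 0) (P.cons (P.lf 195010 0 0) (P.cons (P.lf 0 3874542 0) (P.cons (P.lf 360666 0 0) P.nil))))) (P.cons (P.cons (P.lf 0 10595358 0) (P.cons (P.lf 5704377 0 0) (P.cons (P.lf 0 2172266 0) (P.cons (P.lf 0 521274 0) P.nil)))) (P.cons (P.cons (P.lf 163999 0 0) (P.cons (P.lf 718183 0 0) (P.cons (P.lf 0 332279 0) P.nil))) (P.cons (P.cons (P.lf 362283 0 0) (P.cons (P.lf 0 8156 0) P.nil)) (P.cons (P.cons (P.lf 11404 0 0) P.nil) P.nil)))))) 762583)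
 (EL.cons 7 (TM.mk (P.cons (P.cons (P.lf 162523318 0 0) (P.cons (P.lf 0 36601480 0) (P.cons (P.lf 3803377 0 0) (P.cons (P.lf 12085135 0 0) (P.cons (P.lf 0 1079581 0) (P.cons (P.lf 0 495005 0) P.nil)))))) (P.cons (P.cons (P.lf 0 105395763 0) (P.cons (P.lf 0 5237600 0) (P.cons (P.lf 0 115685 0) (P.cons (P.lf 2298510 0 0) (P.cons (P.lf 0 213957 0) P.nil))))) (P.cons (P.cons (P.lf 12185169 0 0) (P.cons (P.lf 0 3090848 0) (P.cons (P.lf 1295137 0 0) (P.cons (P.lf 180575 0 0) P.nil)))) (P.cons (P.cons (P.lf 0 740006 0) (P.cons (P.lf 0 182105 0) (P.cons (P.lf 100747 0 0) P.nil))) (P.cons (P.cons (P.lf 0 183159 0) (P.cons (P.lf 32654 0 0) P.nil)) (P.cons (P.cons (P.lf 11085 0 0) P.nil) P.nil)))))) 352093)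
 (EL.cons 10 (TM.mk (P.cons (P.cons (P.lf 237533418 0 0) (P.cons (P.lf 0 178215426 0) (P.cons (P.lf 0 81405468 0) (P.cons (P.lf 15843180 0 0) (P.cons (P.lf 4948062 0 0) (P.cons (P.lf 0 100626 0) P.nil)))))) (P.cons (P.cons (P.lf 0 906366 0) (P.cons (P.lf 12836694 0 0) (P.cons (P.lf 0 16256532 0) (P.cons (P.lf 3078264 0 0) (P.cons (P.lf 1266660 0 0) P.nil))))) (P.cons (P.cons (P.lf 1877814 0 0) (P.cons (P.lf 0 612522 0) (P.cons (P.lf 0 1728828 0) (P.cons (P.lf 330858 0 0) P.nil)))) (P.cons (P.cons (P.lf 680976 0 0) (P.cons (P.lf 0 619890 0) (P.cons (P.lf 0 84870 0) P.nil))) (P.cons (P.cons (P.lf 30000 0 0) (P.cons (P.lf 0 32856 0) P.nil)) (P.cons (P.cons (P.lf 0 2502 0) P.nil) P.nil)))))) 513366)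
 EL.nil))))
noncomputable def S154_169_660_808_9 : EL := (EL.cons 3 (TM.mk (P.cons (P.lf 0 2540061705 0) (P.cons (P.lf 142912387 0 0) (P.cons (P.lf 5630085 0 0) (P.cons (P.lf 0 945 0) (P.cons (P.lf 0 5182 0) (P.cons (P.lf 0 116 0) P.nil)))))) 67)
 (EL.cons 7 (TM.mk (P.cons (P.lf 0 1522390337 0) (P.cons (P.lf 0 84780425 0) (P.cons (P.lf 1405728 0 0) (P.cons (P.lf 110195 0 0) (P.cons (P.lf 1257 0 0) (P.cons (P.lf 0 72 0) P.nil)))))) 47)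
 EL.nil))
noncomputable def S154_169_660_808_10 : EL := (EL.cons 3 (TM.mk (P.cons (P.cons (P.lf 471761296 0 0) (P.cons (P.lf 85538503 0 0) (P.cons (P.lf 0 36885167 0) (P.lf 0 4098350 0)))) (P.cons (P.cons (P.lf 0 80886841 0) (P.cons (P.lf 9477981 0 0) (P.cons (P.lf 0 4087010 0) (P.lf 0 454111 0)))) (P.cons (P.cons (P.lf 11202297 0 0) (P.cons (P.lf 0 434758 0) (P.cons (P.lf 187472 0 0) (P.lf 20830 0 0)))) (P.cons (P.cons (P.lf 117407 0 0) (P.cons (P.lf 0 93277 0) (P.cons (P.lf 40221 0 0) P.nil))) (P.cons (P.cons (P.lf 0 66792 0) (P.cons (P.lf 0 2153 0) P.nil)) (P.cons (P.cons (P.lf 0 2014 0) P.nil) P.nil)))))) 9062)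
 (EL.cons 7 (TM.mk (P.cons (P.cons (P.lf 282750942 0 0) (P.cons (P.lf 51267648 0 0) (P.cons (P.lf 0 22107188 0) (P.lf 0 2456353 0)))) (P.cons (P.cons (P.lf 0 16825028 0) (P.cons (P.lf 11420179 0 0) (P.cons (P.lf 0 4924509 0) (P.lf 0 547167 0)))) (P.cons (P.cons (P.lf 3433337 0 0) (P.cons (P.lf 764610 0 0) (P.cons (P.lf 0 329708 0) (P.lf 0 36633 0)))) (P.cons (P.cons (P.lf 624342 0 0) (P.cons (P.lf 0 11060 0) (P.cons (P.lf 4769 0 0) P.nil))) (P.cons (P.cons (P.lf 3129 0 0) (P.cons (P.lf 0 3653 0) P.nil)) (P.cons (P.cons (P.lf 0 2354 0) P.nil) P.nil)))))) 5102)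
 EL.nil))
noncomputable def S154_169_660_808_11 : EL := (EL.cons 3 (TM.mk (P.cons (P.cons (P.lf 0 87619414 0) (P.cons (P.lf 0 31773838 0) (P.cons (P.lf 10820663 0 0) (P.cons (P.lf 4006630 0 0) (P.cons (P.lf 0 259591 0) (P.cons (P.lf 0 119026 0) P.nil)))))) (P.cons (P.cons (P.lf 25116185 0 0) (P.cons (P.lf 139489 0 0) (P.cons (P.lf 0 860576 0) (P.cons (P.lf 683622 0 0) (P.cons (P.lf 0 72132 0) P.nil))))) (P.cons (P.cons (P.lf 0 5518050 0) (P.cons (P.lf 0 51933 0) (P.cons (P.lf 0 35108 0) (P.cons (P.lf 52080 0 0) P.nil)))) (P.cons (P.cons (P.lf 415087 0 0) (P.cons (P.lf 0 87149 0) (P.cons (P.lf 42097 0 0) P.nil))) (P.cons (P.cons (P.lf 0 5823 0) (P.cons (P.lf 0 2636 0) P.nil)) (P.cons (P.cons (P.lf 0 3992 0) P.nil) P.nil)))))) 146889)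
 (EL.cons 7 (TM.mk (P.cons (P.cons (P.lf 0 52514846 0) (P.cons (P.lf 0 19043704 0) (P.cons (P.lf 6485383 0 0) (P.cons (P.lf 2401381 0 0) (P.cons (P.lf 0 155587 0) (P.cons (P.lf 0 71339 0) P.nil)))))) (P.cons (P.cons (P.lf 9174267 0 0) (P.cons (P.lf 0 2048384 0) (P.cons (P.lf 210265 0 0) (P.cons (P.lf 678570 0 0) (P.cons (P.lf 0 60651 0) P.nil))))) (P.cons (P.cons (P.lf 0 2020677 0) (P.cons (P.lf 0 166346 0) (P.cons (P.lf 0 29549 0) (P.cons (P.lf 95315 0 0) P.nil)))) (P.cons (P.cons (P.lf 0 38828 0) (P.cons (P.lf 0 66557 0) (P.cons (P.lf 22867 0 0) P.nil))) (P.cons (P.cons (P.lf 5811 0 0) (P.cons (P.lf 0 8524 0) P.nil)) (P.cons (P.cons (P.lf 0 2367 0) P.nil) P.nil)))))) 86745)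
 EL.nil))
noncomputable def S154_169_660_808_12 : EL := (EL.cons 4 (TM.mk (P.cons (P.lf 2540061705 0 0) (P.cons (P.lf 0 142912387 0) (P.cons (P.lf 0 5630085 0) (P.cons (P.lf 945 0 0) (P.cons (P.lf 5182 0 0) (P.cons (P.lf 116 0 0) P.nil)))))) 67)
 (EL.cons 8 (TM.mk (P.cons (P.lf 1522390337 0 0) (P.cons (P.lf 84780425 0 0) (P.cons (P.lf 0 1405728 0) (P.cons (P.lf 0 110195 0) (P.cons (P.lf 0 1257 0) (P.cons (P.lf 72 0 0) P.nil)))))) 47)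
 EL.nil))
noncomputable def S154_169_660_808_13 : EL := (EL.cons 4 (TM.mk (P.cons (P.cons (P.lf 0 471761296 0) (P.cons (P.lf 0 85538503 0) (P.cons (P.lf 36885167 0 0) (P.lf 4098350 0 0)))) (P.cons (P.cons (P.lf 80886841 0 0) (P.cons (P.lf 0 9477981 0) (P.cons (P.lf 4087010 0 0) (P.lf 454111 0 0)))) (P.cons (P.cons (P.lf 0 11202297 0) (P.cons (P.lf 434758 0 0) (P.cons (P.lf 0 187472 0) (P.lf 0 20830 0)))) (P.cons (P.cons (P.lf 0 117407 0) (P.cons (P.lf 93277 0 0) (P.cons (P.lf 0 40221 0) P.nil))) (P.cons (P.cons (P.lf 66792 0 0) (P.cons (P.lf 2153 0 0) P.nil)) (P.cons (P.cons (P.lf 2014 0 0) P.nil) P.nil)))))) 9062)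
 (EL.cons 8 (TM.mk (P.cons (P.cons (P.lf 0 282750942 0) (P.cons (P.lf 0 51267648 0) (P.cons (P.lf 22107188 0 0) (P.lf 2456353 0 0)))) (P.cons (P.cons (P.lf 16825028 0 0) (P.cons (P.lf 0 11420179 0) (P.cons (P.lf 4924509 0 0) (P.lf 547167 0 0)))) (P.cons (P.cons (P.lf 0 3433337 0) (P.cons (P.lf 0 764610 0) (P.cons (P.lf 329708 0 0) (P.lf 36633 0 0)))) (P.cons (P.cons (P.lf 0 624342 0) (P.cons (P.lf 11060 0 0) (P.cons (P.lf 0 4769 0) P.nil))) (P.cons (P.cons (P.lf 0 3129 0) (P.cons (P.lf 3653 0 0) P.nil)) (P.cons (P.cons (P.lf 2354 0 0) P.nil) P.nil)))))) 5102)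
 EL.nil))
noncomputable def S154_169_660_808_14 : EL := (EL.cons 4 (TM.mk (P.cons (P.cons (P.lf 87619414 0 0) (P.cons (P.lf 31773838 0 0) (P.cons (P.lf 0 10820663 0) (P.cons (P.lf 0 4006630 0) (P.cons (P.lf 259591 0 0) (P.cons (P.lf 119026 0 0) P.nil)))))) (P.cons (P.cons (P.lf 0 25116185 0) (P.cons (P.lf 0 139489 0) (P.cons (P.lf 860576 0 0) (P.cons (P.lf 0 683622 0) (P.cons (P.lf 72132 0 0) P.nil))))) (P.cons (P.cons (P.lf 5518050 0 0) (P.cons (P.lf 51933 0 0) (P.cons (P.lf 35108 0 0) (P.cons (P.lf 0 52080 0) P.nil)))) (P.cons (P.cons (P.lf 0 415087 0) (P.cons (P.lf 87149 0 0) (P.cons (P.lf 0 42097 0) P.nil))) (P.cons (P.cons (P.lf 5823 0 0) (P.cons (P.lf 2636 0 0) P.nil)) (P.cons (P.cons (P.lf 3992 0 0) P.nil) P.nil)))))) 146889)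
 (EL.cons 8 (TM.mk (P.cons (P.cons (P.lf 52514846 0 0) (P.cons (P.lf 19043704 0 0) (P.cons (P.lf 0 6485383 0) (P.cons (P.lf 0 2401381 0) (P.cons (P.lf 155587 0 0) (P.cons (P.lf 71339 0 0) P.nil)))))) (P.cons (P.cons (P.lf 0 9174267 0) (P.cons (P.lf 2048384 0 0) (P.cons (P.lf 0 210265 0) (P.cons (P.lf 0 678570 0) (P.cons (P.lf 60651 0 0) P.nil))))) (P.cons (P.cons (P.lf 2020677 0 0) (P.cons (P.lf 166346 0 0) (P.cons (P.lf 29549 0 0) (P.cons (P.lf 0 95315 0) P.nil)))) (P.cons (P.cons (P.lf 38828 0 0) (P.cons (P.lf 66557 0 0) (P.cons (P.lf 0 22867 0) P.nil))) (P.cons (P.cons (P.lf 0 5811 0) (P.cons (P.lf 8524 0 0) P.nil)) (P.cons (P.cons (P.lf 2367 0 0) P.nil) P.nil)))))) 86745)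
 EL.nil))
noncomputable def S154_169_660_808_15 : EL := (EL.cons 4 (TM.mk (P.cons (P.lf 0 1602350041 0) (P.cons (P.lf 180307170 0 0) (P.cons (P.lf 2030922 0 0) (P.cons (P.lf 0 400845 0) (P.cons (P.lf 0 14342 0) (P.cons (P.lf 223 0 0) P.nil)))))) 116)
 (EL.cons 8 (TM.mk (P.cons (P.lf 0 960371244 0) (P.cons (P.lf 551573 0 0) (P.cons (P.lf 6024538 0 0) (P.cons (P.lf 137808 0 0) (P.cons (P.lf 0 7063 0) (P.cons (P.lf 0 396 0) P.nil)))))) 71)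
 EL.nil))
noncomputable def S154_169_660_808_16 : EL := (EL.cons 4 (TM.mk (P.cons (P.cons (P.lf 297601720 0 0) (P.cons (P.lf 53960352 0 0) (P.cons (P.lf 0 23268312 0) (P.lf 0 2585367 0)))) (P.cons (P.cons (P.lf 0 67770009 0) (P.cons (P.lf 2943015 0 0) (P.cons (P.lf 0 1269060 0) (P.lf 0 141006 0)))) (P.cons (P.cons (P.lf 9278010 0 0) (P.cons (P.lf 0 730261 0) (P.cons (P.lf 314896 0 0) (P.lf 34988 0 0)))) (P.cons (P.cons (P.lf 0 210324 0) (P.cons (P.lf 0 56643 0) (P.cons (P.lf 24424 0 0) P.nil))) (P.cons (P.cons (P.lf 0 61377 0) (P.cons (P.lf 2671 0 0) P.nil)) (P.cons (P.cons (P.lf 847 0 0) P.nil) P.nil)))))) 9126)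
 (EL.cons 8 (TM.mk (P.cons (P.cons (P.lf 178368101 0 0) (P.cons (P.lf 32341229 0 0) (P.cons (P.lf 0 13945903 0) (P.lf 0 1549544 0)))) (P.cons (P.cons (P.lf 0 20649339 0) (P.cons (P.lf 5384578 0 0) (P.cons (P.lf 0 2321890 0) (P.lf 0 257987 0)))) (P.cons (P.cons (P.lf 2367665 0 0) (P.cons (P.lf 5322 0 0) (P.cons (P.lf 0 2295 0) (P.lf 0 254 0)))) (P.cons (P.cons (P.lf 295588 0 0) (P.cons (P.lf 0 50071 0) (P.cons (P.lf 21590 0 0) P.nil))) (P.cons (P.cons (P.lf 0 24625 0) (P.cons (P.lf 0 2912 0) P.nil)) (P.cons (P.cons (P.lf 0 2481 0) P.nil) P.nil)))))) 5604)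
 EL.nil))
noncomputable def S154_169_660_808_17 : EL := (EL.cons 4 (TM.mk (P.cons (P.cons (P.lf 0 55273055 0) (P.cons (P.lf 0 20043926 0) (P.cons (P.lf 6826011 0 0) (P.cons (P.lf 2527507 0 0) (P.cons (P.lf 0 163758 0) (P.cons (P.lf 0 75085 0) P.nil)))))) (P.cons (P.cons (P.lf 18953919 0 0) (P.cons (P.lf 1215733 0 0) (P.cons (P.lf 0 926932 0) (P.cons (P.lf 289044 0 0) (P.cons (P.lf 0 36289 0) P.nil))))) (P.cons (P.cons (P.lf 0 4249885 0) (P.cons (P.lf 6714 0 0) (P.cons (P.lf 0 6733 0) (P.cons (P.lf 2987 0 0) P.nil)))) (P.cons (P.cons (P.lf 422561 0 0) (P.cons (P.lf 0 53335 0) (P.cons (P.lf 29008 0 0) P.nil))) (P.cons (P.cons (P.lf 0 10797 0) (P.cons (P.lf 1460 0 0) P.nil)) (P.cons (P.cons (P.lf 0 2864 0) P.nil) P.nil)))))) 109991)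
 (EL.cons 8 (TM.mk (P.cons (P.cons (P.lf 0 33128000 0) (P.cons (P.lf 0 12013361 0) (P.cons (P.lf 4091181 0 0) (P.cons (P.lf 1514865 0 0) (P.cons (P.lf 0 98149 0) (P.cons (P.lf 0 45002 0) P.nil)))))) (P.cons (P.cons (P.lf 7651305 0 0) (P.cons (P.lf 0 616272 0) (P.cons (P.lf 0 97541 0) (P.cons (P.lf 342831 0 0) (P.cons (P.lf 0 32738 0) P.nil))))) (P.cons (P.cons (P.lf 0 1526896 0) (P.cons (P.lf 0 5605 0) (P.cons (P.lf 0 35171 0) (P.cons (P.lf 32686 0 0) P.nil)))) (P.cons (P.cons (P.lf 34384 0 0) (P.cons (P.lf 0 33222 0) (P.cons (P.lf 15181 0 0) P.nil))) (P.cons (P.cons (P.lf 7804 0 0) (P.cons (P.lf 0 2807 0) P.nil)) (P.cons (P.cons (P.lf 0 1635 0) P.nil) P.nil)))))) 65516)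
 EL.nil))
noncomputable def S154_169_660_808_18 : EL := (EL.cons 4 (TM.mk (P.cons (P.lf 1010812316 0 0) (P.cons (P.lf 0 170615069 0) (P.cons (P.lf 2877933 0 0) (P.cons (P.lf 577438 0 0) (P.cons (P.lf 0 318 0) (P.cons (P.lf 0 1395 0) P.nil)))))) 149)
 (EL.cons 8 (TM.mk (P.cons (P.lf 605832095 0 0) (P.cons (P.lf 0 34434094 0) (P.cons (P.lf 0 5123725 0) (P.cons (P.lf 127889 0 0) (P.cons (P.lf 19006 0 0) (P.cons (P.lf 218 0 0) P.nil)))))) 96)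
 EL.nil))
noncomputable def S154_169_660_808_19 : EL := (EL.cons 4 (TM.mk (P.cons (P.cons (P.lf 0 187736434 0) (P.cons (P.lf 0 34039870 0) (P.cons (P.lf 14678375 0 0) (P.lf 1630929 0 0)))) (P.cons (P.cons (P.lf 53314113 0 0) (P.cons (P.lf 58650 0 0) (P.cons (P.lf 0 25290 0) (P.lf 0 2809 0)))) (P.cons (P.cons (P.lf 0 7842075 0) (P.cons (P.lf 640576 0 0) (P.cons (P.lf 0 276224 0) (P.lf 0 30691 0)))) (P.cons (P.cons (P.lf 367151 0 0) (P.cons (P.lf 13916 0 0) (P.cons (P.lf 0 6000 0) P.nil))) (P.cons (P.cons (P.lf 43859 0 0) (P.cons (P.lf 0 4786 0) P.nil)) (P.cons (P.cons (P.lf 0 2930 0) P.nil) P.nil)))))) 8948)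
 (EL.cons 8 (TM.mk (P.cons (P.cons (P.lf 0 112520154 0) (P.cons (P.lf 0 20401854 0) (P.cons (P.lf 8797509 0 0) (P.lf 977500 0 0)))) (P.cons (P.cons (P.lf 19357007 0 0) (P.cons (P.lf 0 2248883 0) (P.cons (P.lf 969743 0 0) (P.lf 107749 0 0)))) (P.cons (P.cons (P.lf 0 1977094 0) (P.cons (P.lf 232976 0 0) (P.cons (P.lf 0 100461 0) (P.lf 0 11162 0)))) (P.cons (P.cons (P.lf 0 131346 0) (P.cons (P.lf 39296 0 0) (P.cons (P.lf 0 16944 0) P.nil))) (P.cons (P.cons (P.lf 29111 0 0) (P.cons (P.lf 24 0 0) P.nil)) (P.cons (P.cons (P.lf 1125 0 0) P.nil) P.nil)))))) 5374)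
 EL.nil))
noncomputable def S154_169_660_808_20 : EL := (EL.cons 4 (TM.mk (P.cons (P.cons (P.lf 34867965 0 0) (P.cons (P.lf 12644332 0 0) (P.cons (P.lf 0 4306060 0) (P.cons (P.lf 0 1594429 0) (P.cons (P.lf 103304 0 0) (P.cons (P.lf 47366 0 0) P.nil)))))) (P.cons (P.cons (P.lf 0 13918511 0) (P.cons (P.lf 0 1478334 0) (P.cons (P.lf 827010 0 0) (P.cons (P.lf 0 92629 0) (P.cons (P.lf 17080 0 0) P.nil))))) (P.cons (P.cons (P.lf 3276400 0 0) (P.cons (P.lf 10887 0 0) (P.cons (P.lf 0 19106 0) (P.cons (P.lf 11907 0 0) P.nil)))) (P.cons (P.cons (P.lf 0 390889 0) (P.cons (P.lf 35588 0 0) (P.cons (P.lf 0 19835 0) P.nil))) (P.cons (P.cons (P.lf 15932 0 0) (P.cons (P.lf 0 2779 0) P.nil)) (P.cons (P.cons (P.lf 1992 0 0) P.nil) P.nil)))))) 82196)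
 (EL.cons 8 (TM.mk (P.cons (P.cons (P.lf 20898174 0 0) (P.cons (P.lf 7578402 0 0) (P.cons (P.lf 0 2580844 0) (P.cons (P.lf 0 955624 0) (P.cons (P.lf 61915 0 0) (P.cons (P.lf 28388 0 0) P.nil)))))) (P.cons (P.cons (P.lf 0 6002483 0) (P.cons (P.lf 0 37622 0) (P.cons (P.lf 206738 0 0) (P.cons (P.lf 0 162502 0) (P.cons (P.lf 17168 0 0) P.nil))))) (P.cons (P.cons (P.lf 1188458 0 0) (P.cons (P.lf 0 35134 0) (P.cons (P.lf 24445 0 0) (P.cons (P.lf 0 6333 0) P.nil)))) (P.cons (P.cons (P.lf 0 65178 0) (P.cons (P.lf 19900 0 0) (P.cons (P.lf 0 10962 0) P.nil))) (P.cons (P.cons (P.lf 0 5797 0) (P.cons (P.lf 600 0 0) P.nil)) (P.cons (P.cons (P.lf 1348 0 0) P.nil) P.nil)))))) 47433)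
 EL.nil))
noncomputable def S154_169_660_808_21 : EL := (EL.cons 4 (TM.mk (P.cons (P.cons (P.lf 0 975847134 0) (P.cons (P.lf 256615509 0 0) (P.cons (P.lf 0 110655501 0) (P.lf 0 12295050 0)))) (P.cons (P.cons (P.lf 298260984 0 0) (P.cons (P.lf 28433943 0 0) (P.cons (P.lf 0 12261030 0) (P.lf 0 1362333 0)))) (P.cons (P.cons (P.lf 39699660 0 0) (P.cons (P.lf 0 1304274 0) (P.cons (P.lf 562416 0 0) (P.lf 62490 0 0)))) (P.cons (P.cons (P.lf 0 850311 0) (P.cons (P.lf 0 279831 0) (P.cons (P.lf 120663 0 0) P.nil))) (P.cons (P.cons (P.lf 0 243405 0) (P.cons (P.lf 0 6459 0) P.nil)) (P.cons (P.cons (P.lf 0 5376 0) P.nil) P.nil)))))) 27540)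
 (EL.cons 8 (TM.mk (P.cons (P.cons (P.lf 578905275 0 0) (P.cons (P.lf 0 152232939 0) (P.cons (P.lf 65644563 0 0) (P.lf 7293843 0 0)))) (P.cons (P.cons (P.lf 0 241748241 0) (P.cons (P.lf 174861 0 0) (P.cons (P.lf 0 75399 0) (P.lf 0 8376 0)))) (P.cons (P.cons (P.lf 0 881919 0) (P.cons (P.lf 1909902 0 0) (P.cons (P.lf 0 823569 0) (P.lf 0 91506 0)))) (P.cons (P.cons (P.lf 2089698 0 0) (P.cons (P.lf 42594 0 0) (P.cons (P.lf 0 18366 0) P.nil))) (P.cons (P.cons (P.lf 35127 0 0) (P.cons (P.lf 0 8250 0) P.nil)) (P.cons (P.cons (P.lf 0 6699 0) P.nil) P.nil)))))) 20718)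
 (EL.cons 11 (TM.mk (P.cons (P.cons (P.lf 639464868 0 0) (P.cons (P.lf 0 595720683 0) (P.cons (P.lf 0 61140321 0) (P.cons (P.lf 12715485 0 0) (P.lf 1059621 0 0))))) (P.cons (P.cons (P.lf 71222343 0 0) (P.cons (P.lf 0 66350199 0) (P.cons (P.lf 0 6809688 0) (P.cons (P.lf 1416225 0 0) (P.lf 118017 0 0))))) (P.cons (P.cons (P.lf 802224 0 0) (P.cons (P.lf 0 747348 0) (P.cons (P.lf 0 76701 0) (P.cons (P.lf 15951 0 0) P.nil)))) (P.cons (P.cons (P.lf 0 158334 0) (P.cons (P.lf 147504 0 0) (P.cons (P.lf 15138 0 0) P.nil))) (P.cons (P.cons (P.lf 0 5664 0) (P.cons (P.lf 5277 0 0) P.nil)) (P.cons (P.cons (P.lf 84 0 0) P.nil) P.nil)))))) 5712)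
 EL.nil)))
noncomputable def S154_169_660_808_22 : EL := (EL.cons 4 (TM.mk (P.cons (P.cons (P.lf 181242411 0 0) (P.cons (P.lf 0 14798364 0) (P.cons (P.lf 0 2260497 0) (P.cons (P.lf 8161839 0 0) (P.cons (P.lf 0 778776 0) (P.cons (P.lf 0 357081 0) P.nil)))))) (P.cons (P.cons (P.lf 0 76273497 0) (P.cons (P.lf 0 4344705 0) (P.cons (P.lf 0 527793 0) (P.cons (P.lf 2279082 0 0) (P.cons (P.lf 0 216399 0) P.nil))))) (P.cons (P.cons (P.lf 2538654 0 0) (P.cons (P.lf 0 2878155 0) (P.cons (P.lf 1068579 0 0) (P.cons (P.lf 286677 0 0) P.nil)))) (P.cons (P.cons (P.lf 125544 0 0) (P.cons (P.lf 0 402666 0) (P.cons (P.lf 187188 0 0) P.nil))) (P.cons (P.cons (P.lf 0 184053 0) (P.cons (P.lf 2760 0 0) P.nil)) (P.cons (P.cons (P.lf 0 7698 0) P.nil) P.nil)))))) 307836)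
 (EL.cons 8 (TM.mk (P.cons (P.cons (P.lf 0 107519082 0) (P.cons (P.lf 8778888 0 0) (P.cons (P.lf 1341003 0 0) (P.cons (P.lf 0 4841877 0) (P.cons (P.lf 461997 0 0) (P.cons (P.lf 211833 0 0) P.nil)))))) (P.cons (P.cons (P.lf 57285015 0 0) (P.cons (P.lf 1594608 0 0) (P.cons (P.lf 162975 0 0) (P.cons (P.lf 0 809970 0) (P.cons (P.lf 76653 0 0) P.nil))))) (P.cons (P.cons (P.lf 0 7102923 0) (P.cons (P.lf 1462251 0 0) (P.cons (P.lf 0 662343 0) (P.cons (P.lf 0 42630 0) P.nil)))) (P.cons (P.cons (P.lf 350589 0 0) (P.cons (P.lf 57774 0 0) (P.cons (P.lf 0 38940 0) P.nil))) (P.cons (P.cons (P.lf 94485 0 0) (P.cons (P.lf 0 20589 0) P.nil)) (P.cons (P.cons (P.lf 0 6726 0) P.nil) P.nil)))))) 132663)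
 (EL.cons 11 (TM.mk (P.cons (P.cons (P.lf 0 118766709 0) (P.cons (P.lf 89107713 0 0) (P.cons (P.lf 40702734 0 0) (P.cons (P.lf 0 7921590 0) (P.cons (P.lf 0 2474031 0) (P.cons (P.lf 50313 0 0) P.nil)))))) (P.cons (P.cons (P.lf 453183 0 0) (P.cons (P.lf 0 6418347 0) (P.cons (P.lf 8128266 0 0) (P.cons (P.lf 0 1539132 0) (P.cons (P.lf 0 633330 0) P.nil))))) (P.cons (P.cons (P.lf 0 938907 0) (P.cons (P.lf 306261 0 0) (P.cons (P.lf 864414 0 0) (P.cons (P.lf 0 165429 0) P.nil)))) (P.cons (P.cons (P.lf 0 340488 0) (P.cons (P.lf 309945 0 0) (P.cons (P.lf 42435 0 0) P.nil))) (P.cons (P.cons (P.lf 0 15000 0) (P.cons (P.lf 16428 0 0) P.nil)) (P.cons (P.cons (P.lf 1251 0 0) P.nil) P.nil)))))) 256683)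
 EL.nil)))
noncomputable def S154_169_660_808_23 : EL := (EL.cons 4 (TM.mk (P.cons (P.cons (P.lf 615594768 0 0) (P.cons (P.lf 0 161881056 0) (P.cons (P.lf 69804936 0 0) (P.lf 7756098 0 0)))) (P.cons (P.cons (P.lf 0 222787743 0) (P.cons (P.lf 0 8829045 0) (P.cons (P.lf 3807177 0 0) (P.lf 423015 0 0)))) (P.cons (P.cons (P.lf 0 15822174 0) (P.cons (P.lf 2190783 0 0) (P.cons (P.lf 0 944688 0) (P.lf 0 104964 0)))) (P.cons (P.cons (P.lf 2362719 0 0) (P.cons (P.lf 169929 0 0) (P.cons (P.lf 0 73272 0) P.nil))) (P.cons (P.cons (P.lf 180063 0 0) (P.cons (P.lf 0 8016 0) P.nil)) (P.cons (P.cons (P.lf 0 6801 0) P.nil) P.nil)))))) 29385)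
 (EL.cons 8 (TM.mk (P.cons (P.cons (P.lf 0 365191479 0) (P.cons (P.lf 96033279 0 0) (P.cons (P.lf 0 41410635 0) (P.lf 0 4601181 0)))) (P.cons (P.cons (P.lf 173049216 0 0) (P.cons (P.lf 0 5513460 0) (P.cons (P.lf 2377464 0 0) (P.lf 264159 0 0)))) (P.cons (P.cons (P.lf 0 7214496 0) (P.cons (P.lf 0 1411476 0) (P.cons (P.lf 608643 0 0) (P.lf 67626 0 0)))) (P.cons (P.cons (P.lf 0 1687707 0) (P.cons (P.lf 41196 0 0) (P.cons (P.lf 0 17763 0) P.nil))) (P.cons (P.cons (P.lf 50088 0 0) (P.cons (P.lf 9582 0 0) P.nil)) (P.cons (P.cons (P.lf 8688 0 0) P.nil) P.nil)))))) 19899)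
 (EL.cons 11 (TM.mk (P.cons (P.cons (P.lf 0 403394355 0) (P.cons (P.lf 375799161 0 0) (P.cons (P.lf 38569218 0 0) (P.cons (P.lf 0 8021322 0) (P.lf 0 668439 0))))) (P.cons (P.cons (P.lf 0 22232952 0) (P.cons (P.lf 20712051 0 0) (P.cons (P.lf 2125728 0 0) (P.cons (P.lf 0 442092 0) (P.lf 0 36840 0))))) (P.cons (P.cons (P.lf 2915931 0 0) (P.cons (P.lf 0 2716458 0) (P.cons (P.lf 0 278796 0) (P.cons (P.lf 57981 0 0) P.nil)))) (P.cons (P.cons (P.lf 227790 0 0) (P.cons (P.lf 0 212208 0) (P.cons (P.lf 0 21777 0) P.nil))) (P.cons (P.cons (P.lf 0 1764 0) (P.cons (P.lf 1641 0 0) P.nil)) (P.cons (P.cons (P.lf 0 585 0) P.nil) P.nil)))))) 13602)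
 EL.nil)))
noncomputable def S154_169_660_808_24 : EL := (EL.cons 4 (TM.mk (P.cons (P.cons (P.lf 0 114333357 0) (P.cons (P.lf 9335268 0 0) (P.cons (P.lf 1425993 0 0) (P.cons (P.lf 0 5148741 0) (P.cons (P.lf 491277 0 0) (P.cons (P.lf 225258 0 0) P.nil)))))) (P.cons (P.cons (P.lf 54548475 0 0) (P.cons (P.lf 2215542 0 0) (P.cons (P.lf 252717 0 0) (P.cons (P.lf 0 1148031 0) (P.cons (P.lf 108870 0 0) P.nil))))) (P.cons (P.cons (P.lf 0 4055190 0) (P.cons (P.lf 1640733 0 0) (P.cons (P.lf 0 695988 0) (P.cons (P.lf 0 88542 0) P.nil)))) (P.cons (P.cons (P.lf 0 95784 0) (P.cons (P.lf 145788 0 0) (P.cons (P.lf 0 80895 0) P.nil))) (P.cons (P.cons (P.lf 123894 0 0) (P.cons (P.lf 0 20037 0) P.nil)) (P.cons (P.cons (P.lf 0 1407 0) P.nil) P.nil)))))) 172134)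
 (EL.cons 8 (TM.mk (P.cons (P.cons (P.lf 67826385 0 0) (P.cons (P.lf 0 5537994 0) (P.cons (P.lf 0 845946 0) (P.cons (P.lf 3054408 0 0) (P.cons (P.lf 0 291441 0) (P.cons (P.lf 0 133629 0) P.nil)))))) (P.cons (P.cons (P.lf 0 39953310 0) (P.cons (P.lf 0 694341 0) (P.cons (P.lf 0 55212 0) (P.cons (P.lf 339102 0 0) (P.cons (P.lf 0 31956 0) P.nil))))) (P.cons (P.cons (P.lf 6363606 0 0) (P.cons (P.lf 0 853560 0) (P.cons (P.lf 425487 0 0) (P.cons (P.lf 0 8625 0) P.nil)))) (P.cons (P.cons (P.lf 0 393138 0) (P.cons (P.lf 17679 0 0) (P.cons (P.lf 1284 0 0) P.nil))) (P.cons (P.cons (P.lf 0 56967 0) (P.cons (P.lf 17070 0 0) P.nil)) (P.cons (P.cons (P.lf 8016 0 0) P.nil) P.nil)))))) 76332)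
 (EL.cons 11 (TM.mk (P.cons (P.cons (P.lf 74921739 0 0) (P.cons (P.lf 0 56211921 0) (P.cons (P.lf 0 25676553 0) (P.cons (P.lf 4997184 0 0) (P.cons (P.lf 1560696 0 0) (P.cons (P.lf 0 31737 0) P.nil)))))) (P.cons (P.cons (P.lf 0 4501230 0) (P.cons (P.lf 7211565 0 0) (P.cons (P.lf 0 3682914 0) (P.cons (P.lf 689772 0 0) (P.cons (P.lf 311715 0 0) P.nil))))) (P.cons (P.cons (P.lf 442311 0 0) (P.cons (P.lf 0 296406 0) (P.cons (P.lf 0 199890 0) (P.cons (P.lf 38652 0 0) P.nil)))) (P.cons (P.cons (P.lf 182127 0 0) (P.cons (P.lf 0 193647 0) (P.cons (P.lf 15264 0 0) P.nil))) (P.cons (P.cons (P.lf 0 3780 0) (P.cons (P.lf 951 0 0) P.nil)) (P.cons (P.cons (P.lf 0 1794 0) P.nil) P.nil)))))) 145593)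
 EL.nil)))
noncomputable def S154_169_660_808_25 : EL := (EL.cons 4 (TM.mk (P.cons (P.cons (P.lf 0 388336353 0) (P.cons (P.lf 102119610 0 0) (P.cons (P.lf 0 44035128 0) (P.lf 0 4892787 0)))) (P.cons (P.cons (P.lf 162390552 0 0) (P.cons (P.lf 0 175953 0) (P.cons (P.lf 75876 0 0) (P.lf 8430 0 0)))) (P.cons (P.cons (P.lf 2934540 0 0) (P.cons (P.lf 0 1921731 0) (P.cons (P.lf 828669 0 0) (P.lf 92073 0 0)))) (P.cons (P.cons (P.lf 0 2363706 0) (P.cons (P.lf 0 41748 0) (P.cons (P.lf 18000 0 0) P.nil))) (P.cons (P.cons (P.lf 0 52593 0) (P.cons (P.lf 14361 0 0) P.nil)) (P.cons (P.cons (P.lf 14256 0 0) P.nil) P.nil)))))) 26082)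
 (EL.cons 8 (TM.mk (P.cons (P.cons (P.lf 230374158 0 0) (P.cons (P.lf 0 60580782 0) (P.cons (P.lf 26123118 0 0) (P.lf 2902569 0 0)))) (P.cons (P.cons (P.lf 0 122126457 0) (P.cons (P.lf 6886539 0 0) (P.cons (P.lf 0 2969553 0) (P.lf 0 329949 0)))) (P.cons (P.cons (P.lf 10182480 0 0) (P.cons (P.lf 828993 0 0) (P.cons (P.lf 0 357471 0) (P.lf 0 39717 0)))) (P.cons (P.cons (P.lf 1050645 0 0) (P.cons (P.lf 0 83817 0) (P.cons (P.lf 36141 0 0) P.nil))) (P.cons (P.cons (P.lf 0 101154 0) (P.cons (P.lf 0 6678 0) P.nil)) (P.cons (P.cons (P.lf 0 6273 0) P.nil) P.nil)))))) 16923)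
 (EL.cons 11 (TM.mk (P.cons (P.cons (P.lf 254473725 0 0) (P.cons (P.lf 0 237065817 0) (P.cons (P.lf 0 24330663 0) (P.cons (P.lf 5060100 0 0) (P.lf 421671 0 0))))) (P.cons (P.cons (P.lf 0 292305 0) (P.cons (P.lf 272310 0 0) (P.cons (P.lf 27948 0 0) (P.cons (P.lf 0 5811 0) (P.lf 0 483 0))))) (P.cons (P.cons (P.lf 0 3192612 0) (P.cons (P.lf 2974212 0 0) (P.cons (P.lf 305250 0 0) (P.cons (P.lf 0 63483 0) P.nil)))) (P.cons (P.cons (P.lf 0 71196 0) (P.cons (P.lf 66324 0 0) (P.cons (P.lf 6804 0 0) P.nil))) (P.cons (P.cons (P.lf 13797 0 0) (P.cons (P.lf 0 12855 0) P.nil)) (P.cons (P.cons (P.lf 663 0 0) P.nil) P.nil)))))) 13896)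
 EL.nil)))
noncomputable def S154_169_660_808_26 : EL := (EL.cons 4 (TM.mk (P.cons (P.cons (P.lf 72125043 0 0) (P.cons (P.lf 0 5888979 0) (P.cons (P.lf 0 899559 0) (P.cons (P.lf 3247986 0 0) (P.cons (P.lf 0 309912 0) (P.cons (P.lf 0 142098 0) P.nil)))))) (P.cons (P.cons (P.lf 0 38468874 0) (P.cons (P.lf 0 1066299 0) (P.cons (P.lf 0 108810 0) (P.cons (P.lf 541470 0 0) (P.cons (P.lf 0 51240 0) P.nil))))) (P.cons (P.cons (P.lf 4334343 0 0) (P.cons (P.lf 0 943335 0) (P.cons (P.lf 450012 0 0) (P.cons (P.lf 7908 0 0) P.nil)))) (P.cons (P.cons (P.lf 0 7203 0) (P.cons (P.lf 0 30639 0) (P.cons (P.lf 26682 0 0) P.nil))) (P.cons (P.cons (P.lf 0 87093 0) (P.cons (P.lf 20094 0 0) P.nil)) (P.cons (P.cons (P.lf 5085 0 0) P.nil) P.nil)))))) 112884)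
 (EL.cons 8 (TM.mk (P.cons (P.cons (P.lf 0 42786996 0) (P.cons (P.lf 3493539 0 0) (P.cons (P.lf 533649 0 0) (P.cons (P.lf 0 1926813 0) (P.cons (P.lf 183849 0 0) (P.cons (P.lf 84297 0 0) P.nil)))))) (P.cons (P.cons (P.lf 27611133 0 0) (P.cons (P.lf 241452 0 0) (P.cons (P.lf 4806 0 0) (P.cons (P.lf 0 105507 0) (P.cons (P.lf 9816 0 0) P.nil))))) (P.cons (P.cons (P.lf 0 5337573 0) (P.cons (P.lf 506064 0 0) (P.cons (P.lf 0 271551 0) (P.cons (P.lf 21747 0 0) P.nil)))) (P.cons (P.cons (P.lf 417984 0 0) (P.cons (P.lf 0 42417 0) (P.cons (P.lf 14214 0 0) P.nil))) (P.cons (P.cons (P.lf 30804 0 0) (P.cons (P.lf 0 11328 0) P.nil)) (P.cons (P.cons (P.lf 0 7581 0) P.nil) P.nil)))))) 51144)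
 (EL.cons 11 (TM.mk (P.cons (P.cons (P.lf 0 47262966 0) (P.cons (P.lf 35460231 0 0) (P.cons (P.lf 16197567 0 0) (P.cons (P.lf 0 3152379 0) (P.cons (P.lf 0 984534 0) (P.cons (P.lf 20022 0 0) P.nil)))))) (P.cons (P.cons (P.lf 5498688 0 0) (P.cons (P.lf 0 6544389 0) (P.cons (P.lf 1411965 0 0) (P.cons (P.lf 0 257766 0) (P.cons (P.lf 0 141246 0) P.nil))))) (P.cons (P.cons (P.lf 0 334023 0) (P.cons (P.lf 364341 0 0) (P.cons (P.lf 0 40518 0) (P.cons (P.lf 7083 0 0) P.nil)))) (P.cons (P.cons (P.lf 0 105504 0) (P.cons (P.lf 121734 0 0) (P.cons (P.lf 0 21867 0) P.nil))) (P.cons (P.cons (P.lf 9372 0 0) (P.cons (P.lf 0 7815 0) P.nil)) (P.cons (P.cons (P.lf 1254 0 0) P.nil) P.nil)))))) 96030)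
 EL.nil)))
noncomputable def S154_169_660_808_27 : EL := (EL.cons 13 (TM.mk (P.lf 0 4294967296 0) 0)
 EL.nil)
noncomputable def S154_169_660_808_28 : EL := (EL.cons 13 (TM.mk (P.cons (P.cons (P.lf 797696899 0 0) (P.cons (P.lf 144636280 0 0) (P.cons (P.lf 0 62368796 0) (P.lf 0 6929864 0)))) (P.cons (P.cons (P.lf 0 91889726 0) (P.cons (P.lf 24163956 0 0) (P.cons (P.lf 0 10419768 0) (P.lf 0 1157752 0)))) (P.cons (P.cons (P.lf 15539947 0 0) (P.cons (P.lf 945004 0 0) (P.cons (P.lf 0 407496 0) (P.lf 0 45276 0)))) (P.cons (P.cons (P.lf 868882 0 0) (P.cons (P.lf 0 51048 0) (P.cons (P.lf 22012 0 0) P.nil))) (P.cons (P.cons (P.lf 0 31202 0) (P.cons (P.lf 0 4724 0) P.nil)) (P.cons (P.cons (P.lf 0 3092 0) P.nil) P.nil)))))) 6533)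
 EL.nil)
noncomputable def S154_169_660_808_29 : EL := (EL.cons 13 (TM.mk (P.cons (P.cons (P.lf 0 148154874 0) (P.cons (P.lf 0 53726095 0) (P.cons (P.lf 18296562 0 0) (P.cons (P.lf 6774776 0 0) (P.cons (P.lf 0 438943 0) (P.cons (P.lf 0 201262 0) P.nil)))))) (P.cons (P.cons (P.lf 34133041 0 0) (P.cons (P.lf 0 2786947 0) (P.cons (P.lf 0 425716 0) (P.cons (P.lf 1537103 0 0) (P.cons (P.lf 0 146665 0) P.nil))))) (P.cons (P.cons (P.lf 0 7738372 0) (P.cons (P.lf 0 363703 0) (P.cons (P.lf 0 42763 0) (P.cons (P.lf 189561 0 0) P.nil)))) (P.cons (P.cons (P.lf 342194 0 0) (P.cons (P.lf 0 173981 0) (P.cons (P.lf 67827 0 0) P.nil))) (P.cons (P.cons (P.lf 0 7457 0) (P.cons (P.lf 0 14943 0) P.nil)) (P.cons (P.cons (P.lf 0 6474 0) P.nil) P.nil)))))) 195259)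
 EL.nil)
noncomputable def S154_169_660_808_30 : EL := (EL.cons 13 (TM.mk (P.cons (P.lf 2709399152 0 0) (P.cons (P.lf 0 152439880 0) (P.cons (P.lf 0 6005424 0) (P.cons (P.lf 1008 0 0) (P.cons (P.lf 5528 0 0) (P.cons (P.lf 124 0 0) P.nil)))))) 64)
 EL.nil)
noncomputable def S154_169_660_808_31 : EL := (EL.cons 13 (TM.mk (P.cons (P.cons (P.lf 0 503212050 0) (P.cons (P.lf 0 91241070 0) (P.cons (P.lf 39344179 0 0) (P.lf 4371574 0 0)))) (P.cons (P.cons (P.lf 86279298 0 0) (P.cons (P.lf 0 10109847 0) (P.cons (P.lf 4359478 0 0) (P.lf 484386 0 0)))) (P.cons (P.cons (P.lf 0 11949117 0) (P.cons (P.lf 463742 0 0) (P.cons (P.lf 0 199971 0) (P.lf 0 22219 0)))) (P.cons (P.cons (P.lf 0 125235 0) (P.cons (P.lf 99496 0 0) (P.cons (P.lf 0 42903 0) P.nil))) (P.cons (P.cons (P.lf 71245 0 0) (P.cons (P.lf 2297 0 0) P.nil)) (P.cons (P.cons (P.lf 2149 0 0) P.nil) P.nil))))))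 9646)
 EL.nil)
noncomputable def S154_169_660_808_32 : EL := (EL.cons 13 (TM.mk (P.cons (P.cons (P.lf 93460709 0 0) (P.cons (P.lf 33892094 0 0) (P.cons (P.lf 0 11542041 0) (P.cons (P.lf 0 4273739 0) (P.cons (P.lf 276898 0 0) (P.cons (P.lf 126962 0 0) P.nil)))))) (P.cons (P.cons (P.lf 0 26790598 0) (P.cons (P.lf 0 148789 0) (P.cons (P.lf 917948 0 0) (P.cons (P.lf 0 729197 0) (P.cons (P.lf 76941 0 0) P.nil))))) (P.cons (P.cons (P.lf 5885921 0 0) (P.cons (P.lf 55396 0 0) (P.cons (P.lf 37449 0 0) (P.cons (P.lf 0 55552 0) P.nil)))) (P.cons (P.cons (P.lf 0 442760 0) (P.cons (P.lf 92959 0 0) (P.cons (P.lf 0 44904 0) P.nil))) (P.cons (P.cons (P.lf 6212 0 0) (P.cons (P.lf 2812 0 0) P.nil)) (P.cons (P.cons (P.lf 4259 0 0) P.nil) P.nil)))))) 156659)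
 EL.nil)
noncomputable def S154_169_660_808_33 : EL := (EL.cons 14 (TM.mk (P.lf 8589934592 0 0) 0)
 EL.nil)
noncomputable def S154_169_660_808_34 : EL := (EL.cons 14 (TM.mk (P.cons (P.cons (P.lf 0 1595393798 0) (P.cons (P.lf 0 289272560 0) (P.cons (P.lf 124737592 0 0) (P.lf 13859728 0 0)))) (P.cons (P.cons (P.lf 183779452 0 0) (P.cons (P.lf 0 48327912 0) (P.cons (P.lf 20839536 0 0) (P.lf 2315504 0 0)))) (P.cons (P.cons (P.lf 0 31079894 0) (P.cons (P.lf 0 1890008 0) (P.cons (P.lf 814992 0 0) (P.lf 90552 0 0)))) (P.cons (P.cons (P.lf 0 1737764 0) (P.cons (P.lf 102096 0 0) (P.cons (P.lf 0 44024 0) P.nil))) (P.cons (P.cons (P.lf 62404 0 0) (P.cons (P.lf 9448 0 0) P.nil)) (P.cons (P.cons (P.lf 6184 0 0) P.nil) P.nil)))))) 13066)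
 EL.nil)
noncomputable def S154_169_660_808_35 : EL := (EL.cons 14 (TM.mk (P.cons (P.cons (P.lf 296309748 0 0) (P.cons (P.lf 107452190 0 0) (P.cons (P.lf 0 36593124 0) (P.cons (P.lf 0 13549552 0) (P.cons (P.lf 877886 0 0) (P.cons (P.lf 402524 0 0) P.nil)))))) (P.cons (P.cons (P.lf 0 68266082 0) (P.cons (P.lf 5573894 0 0) (P.cons (P.lf 851432 0 0) (P.cons (P.lf 0 3074206 0) (P.cons (P.lf 293330 0 0) P.nil))))) (P.cons (P.cons (P.lf 15476744 0 0) (P.cons (P.lf 727406 0 0) (P.cons (P.lf 85526 0 0) (P.cons (P.lf 0 379122 0) P.nil)))) (P.cons (P.cons (P.lf 0 684388 0) (P.cons (P.lf 347962 0 0) (P.cons (P.lf 0 135654 0) P.nil))) (P.cons (P.cons (P.lf 14914 0 0) (P.cons (P.lf 29886 0 0) P.nil)) (P.cons (P.cons (P.lf 12948 0 0) P.nil) P.nil)))))) 390518)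
 EL.nil)
noncomputable def S154_169_660_808_36 : EL := (EL.cons 14 (TM.mk (P.cons (P.lf 0 5418798304 0) (P.cons (P.lf 304879760 0 0) (P.cons (P.lf 12010848 0 0) (P.cons (P.lf 0 2016 0) (P.cons (P.lf 0 11056 0) (P.cons (P.lf 0 248 0) P.nil)))))) 128)
 EL.nil)
noncomputable def S154_169_660_808_37 : EL := (EL.cons 14 (TM.mk (P.cons (P.cons (P.lf 1006424100 0 0) (P.cons (P.lf 182482140 0 0) (P.cons (P.lf 0 78688358 0) (P.lf 0 8743148 0)))) (P.cons (P.cons (P.lf 0 172558596 0) (P.cons (P.lf 20219694 0 0) (P.cons (P.lf 0 8718956 0) (P.lf 0 968772 0)))) (P.cons (P.cons (P.lf 23898234 0 0) (P.cons (P.lf 0 927484 0) (P.cons (P.lf 399942 0 0) (P.lf 44438 0 0)))) (P.cons (P.cons (P.lf 250470 0 0) (P.cons (P.lf 0 198992 0) (P.cons (P.lf 85806 0 0) P.nil))) (P.cons (P.cons (P.lf 0 142490 0) (P.cons (P.lf 0 4594 0) P.nil)) (P.cons (P.cons (P.lf 0 4298 0) P.nil) P.nil))))))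 19292)
 EL.nil)
noncomputable def S154_169_660_808_38 : EL := (EL.cons 14 (TM.mk (P.cons (P.cons (P.lf 0 186921418 0) (P.cons (P.lf 0 67784188 0) (P.cons (P.lf 23084082 0 0) (P.cons (P.lf 8547478 0 0) (P.cons (P.lf 0 553796 0) (P.cons (P.lf 0 253924 0) P.nil)))))) (P.cons (P.cons (P.lf 53581196 0 0) (P.cons (P.lf 297578 0 0) (P.cons (P.lf 0 1835896 0) (P.cons (P.lf 1458394 0 0) (P.cons (P.lf 0 153882 0) P.nil))))) (P.cons (P.cons (P.lf 0 11771842 0) (P.cons (P.lf 0 110792 0) (P.cons (P.lf 0 74898 0) (P.cons (P.lf 111104 0 0) P.nil)))) (P.cons (P.cons (P.lf 885520 0 0) (P.cons (P.lf 0 185918 0) (P.cons (P.lf 89808 0 0) P.nil))) (P.cons (P.cons (P.lf 0 12424 0) (P.cons (P.lf 0 5624 0) P.nil)) (P.cons (P.cons (P.lf 0 8518 0) P.nil) P.nil)))))) 313318)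
 EL.nil)
noncomputable def S154_169_660_808_39 : EL := (EL.cons 14 (TM.mk (P.cons (P.lf 3418346756 0 0) (P.cons (P.lf 0 384655298 0) (P.cons (P.lf 0 4332634 0) (P.cons (P.lf 855136 0 0) (P.cons (P.lf 30598 0 0) (P.cons (P.lf 0 476 0) P.nil)))))) 234)
 EL.nil)
noncomputable def S154_169_660_808_40 : EL := (EL.cons 14 (TM.mk (P.cons (P.cons (P.lf 0 634883670 0) (P.cons (P.lf 0 115115418 0) (P.cons (P.lf 49639066 0 0) (P.lf 5515450 0 0)))) (P.cons (P.cons (P.lf 144576020 0 0) (P.cons (P.lf 0 6278434 0) (P.cons (P.lf 2707328 0 0) (P.lf 300814 0 0)))) (P.cons (P.cons (P.lf 0 19793088 0) (P.cons (P.lf 1557892 0 0) (P.cons (P.lf 0 671780 0) (P.lf 0 74642 0)))) (P.cons (P.cons (P.lf 448692 0 0) (P.cons (P.lf 120840 0 0) (P.cons (P.lf 0 52106 0) P.nil))) (P.cons (P.cons (P.lf 130938 0 0) (P.cons (P.lf 0 5700 0) P.nil)) (P.cons (P.cons (P.lf 0 1808 0) P.nil) P.nil))))))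 19430)
 EL.nil)
noncomputable def S154_169_660_808_41 : EL := (EL.cons 14 (TM.mk (P.cons (P.cons (P.lf 117915852 0 0) (P.cons (P.lf 42760376 0 0) (P.cons (P.lf 0 14562158 0) (P.cons (P.lf 0 5392016 0) (P.cons (P.lf 349352 0 0) (P.cons (P.lf 160182 0 0) P.nil)))))) (P.cons (P.cons (P.lf 0 40435028 0) (P.cons (P.lf 0 2593564 0) (P.cons (P.lf 1977456 0 0) (P.cons (P.lf 0 616628 0) (P.cons (P.lf 77418 0 0) P.nil))))) (P.cons (P.cons (P.lf 9066422 0 0) (P.cons (P.lf 0 14324 0) (P.cons (P.lf 14364 0 0) (P.cons (P.lf 0 6374 0) P.nil)))) (P.cons (P.cons (P.lf 0 901464 0) (P.cons (P.lf 113782 0 0) (P.cons (P.lf 0 61884 0) P.nil))) (P.cons (P.cons (P.lf 23034 0 0) (P.cons (P.lf 0 3116 0) P.nil)) (P.cons (P.cons (P.lf 6110 0 0) P.nil) P.nil)))))) 234602)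
 EL.nil)
noncomputable def S154_169_660_808_42 : EL := (EL.cons 14 (TM.mk (P.cons (P.lf 0 2156399608 0) (P.cons (P.lf 363978814 0 0) (P.cons (P.lf 0 6139592 0) (P.cons (P.lf 0 1231868 0) (P.cons (P.lf 680 0 0) (P.cons (P.lf 2978 0 0) P.nil)))))) 304)
 EL.nil)
noncomputable def S154_169_660_808_43 : EL := (EL.cons 14 (TM.mk (P.cons (P.cons (P.lf 400504394 0 0) (P.cons (P.lf 72618390 0 0) (P.cons (P.lf 0 31313868 0) (P.lf 0 3479316 0)))) (P.cons (P.cons (P.lf 0 113736776 0) (P.cons (P.lf 0 125122 0) (P.cons (P.lf 53954 0 0) (P.lf 5994 0 0)))) (P.cons (P.cons (P.lf 16729762 0 0) (P.cons (P.lf 0 1366564 0) (P.cons (P.lf 589278 0 0) (P.lf 65476 0 0)))) (P.cons (P.cons (P.lf 0 783256 0) (P.cons (P.lf 0 29688 0) (P.cons (P.lf 12800 0 0) P.nil))) (P.cons (P.cons (P.lf 0 93566 0) (P.cons (P.lf 10212 0 0) P.nil)) (P.cons (P.cons (P.lf 6252 0 0) P.nil) P.nil))))))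 19050)
 EL.nil)
noncomputable def S154_169_660_808_44 : EL := (EL.cons 14 (TM.mk (P.cons (P.cons (P.lf 0 74384992 0) (P.cons (P.lf 0 26974576 0) (P.cons (P.lf 9186262 0 0) (P.cons (P.lf 3401450 0 0) (P.cons (P.lf 0 220382 0) (P.cons (P.lf 0 101048 0) P.nil)))))) (P.cons (P.cons (P.lf 29692824 0 0) (P.cons (P.lf 3153780 0 0) (P.cons (P.lf 0 1764290 0) (P.cons (P.lf 197610 0 0) (P.cons (P.lf 0 36438 0) P.nil))))) (P.cons (P.cons (P.lf 0 6989654 0) (P.cons (P.lf 0 23226 0) (P.cons (P.lf 40760 0 0) (P.cons (P.lf 0 25402 0) P.nil)))) (P.cons (P.cons (P.lf 833898 0 0) (P.cons (P.lf 0 75922 0) (P.cons (P.lf 42316 0 0) P.nil))) (P.cons (P.cons (P.lf 0 33990 0) (P.cons (P.lf 5930 0 0) P.nil)) (P.cons (P.cons (P.lf 0 4250 0) P.nil) P.nil)))))) 175306)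
 EL.nil)
noncomputable def S154_169_660_808_45 : EL := (EL.cons 14 (TM.mk (P.cons (P.cons (P.lf 0 55033100 0) (P.cons (P.lf 0 29935366 0) (P.cons (P.lf 7480666 0 0) (P.cons (P.lf 5787280 0 0) (P.cons (P.lf 0 64766 0) (P.cons (P.lf 0 360124 0) P.nil)))))) (P.cons (P.cons (P.lf 19018412 0 0) (P.cons (P.lf 1895522 0 0) (P.cons (P.lf 0 2005734 0) (P.cons (P.lf 769632 0 0) (P.cons (P.lf 105604 0 0) P.nil))))) (P.cons (P.cons (P.lf 0 5407104 0) (P.cons (P.lf 0 606942 0) (P.cons (P.lf 142474 0 0) (P.cons (P.lf 98020 0 0) P.nil)))) (P.cons (P.cons (P.lf 645284 0 0) (P.cons (P.lf 0 136452 0) (P.cons (P.lf 35200 0 0) P.nil))) (P.cons (P.cons (P.lf 0 57446 0) (P.cons (P.lf 0 1626 0) P.nil)) (P.cons (P.cons (P.lf 0 3022 0) P.nil) P.nil)))))) 440080)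
 EL.nil)
noncomputable def S154_169_660_808_46 : EL := (EL.cons 15 (TM.mk (P.lf 4294967296 0 0) 0)
 EL.nil)
noncomputable def S154_169_660_808_47 : EL := (EL.cons 15 (TM.mk (P.cons (P.cons (P.lf 0 797696899 0) (P.cons (P.lf 0 144636280 0) (P.cons (P.lf 62368796 0 0) (P.lf 6929864 0 0)))) (P.cons (P.cons (P.lf 91889726 0 0) (P.cons (P.lf 0 24163956 0) (P.cons (P.lf 10419768 0 0) (P.lf 1157752 0 0)))) (P.cons (P.cons (P.lf 0 15539947 0) (P.cons (P.lf 0 945004 0) (P.cons (P.lf 407496 0 0) (P.lf 45276 0 0)))) (P.cons (P.cons (P.lf 0 868882 0) (P.cons (P.lf 51048 0 0) (P.cons (P.lf 0 22012 0) P.nil))) (P.cons (P.cons (P.lf 31202 0 0) (P.cons (P.lf 4724 0 0) P.nil)) (P.cons (P.cons (P.lf 3092 0 0) P.nil) P.nil)))))) 6533)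
 EL.nil)
noncomputable def S154_169_660_808_48 : EL := (EL.cons 15 (TM.mk (P.cons (P.cons (P.lf 148154874 0 0) (P.cons (P.lf 53726095 0 0) (P.cons (P.lf 0 18296562 0) (P.cons (P.lf 0 6774776 0) (P.cons (P.lf 438943 0 0) (P.cons (P.lf 201262 0 0) P.nil)))))) (P.cons (P.cons (P.lf 0 34133041 0) (P.cons (P.lf 2786947 0 0) (P.cons (P.lf 425716 0 0) (P.cons (P.lf 0 1537103 0) (P.cons (P.lf 146665 0 0) P.nil))))) (P.cons (P.cons (P.lf 7738372 0 0) (P.cons (P.lf 363703 0 0) (P.cons (P.lf 42763 0 0) (P.cons (P.lf 0 189561 0) P.nil)))) (P.cons (P.cons (P.lf 0 342194 0) (P.cons (P.lf 173981 0 0) (P.cons (P.lf 0 67827 0) P.nil))) (P.cons (P.cons (P.lf 7457 0 0) (P.cons (P.lf 14943 0 0) P.nil)) (P.cons (P.cons (P.lf 6474 0 0) P.nil) P.nil)))))) 195259)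
 EL.nil)
noncomputable def S154_169_660_808 : SL := (SL.cons S154_169_660_808_0 (SL.cons S154_169_660_808_1 (SL.cons S154_169_660_808_2 (SL.cons S154_169_660_808_3 (SL.cons S154_169_660_808_4 (SL.cons S154_169_660_808_5 (SL.cons S154_169_660_808_6 (SL.cons S154_169_660_808_7 (SL.cons S154_169_660_808_8 (SL.cons S154_169_660_808_9 (SL.cons S154_169_660_808_10 (SL.cons S154_169_660_808_11 (SL.cons S154_169_660_808_12 (SL.cons S154_169_660_808_13 (SL.cons S154_169_660_808_14 (SL.cons S154_169_660_808_15 (SL.cons S154_169_660_808_16 (SL.cons S154_169_660_808_17 (SL.cons S154_169_660_808_18 (SL.cons S154_169_660_808_19 (SL.cons S154_169_660_808_20 (SL.cons S154_169_660_808_21 (SL.cons S154_169_660_808_22 (SL.cons S154_169_660_808_23 (SL.cons S154_169_660_808_24 (SL.cons S154_169_660_808_25 (SL.cons S154_169_660_808_26 (SL.cons S154_169_660_808_27 (SL.cons S154_169_660_808_28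 (SL.cons S154_169_660_808_29 (SL.cons S154_169_660_808_30 (SL.cons S154_169_660_808_31 (SL.cons S154_169_660_808_32 (SL.cons S154_169_660_808_33 (SL.cons S154_169_660_808_34 (SL.cons S154_169_660_808_35 (SL.cons S154_169_660_808_36 (SL.cons S154_169_660_808_37 (SL.cons S154_169_660_808_38 (SL.cons S154_169_660_808_39 (SL.cons S154_169_660_808_40 (SL.cons S154_169_660_808_41 (SL.cons S154_169_660_808_42 (SL.cons S154_169_660_808_43 (SL.cons S154_169_660_808_44 (SL.cons S154_169_660_808_45 (SL.cons S154_169_660_808_46 (SL.cons S154_169_660_808_47 (SL.cons S154_169_660_808_48 SL.nil)))))))))))))))))))))))))))))))))))))))))))))))))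
noncomputable def S154_169_734_808_0 : EL := (EL.cons 0 (TM.mk (P.cons (P.lf 5451310535 0 0) (P.cons (P.lf 338075945 0 0) (P.cons (P.lf 3807979 0 0) (P.cons (P.lf 0 751584 0) (P.cons (P.lf 0 26892 0) (P.cons (P.lf 418 0 0) P.nil)))))) 212)
 (EL.cons 1 (TM.mk (P.cons (P.lf 0 1800696082 0) (P.cons (P.lf 1034199 0 0) (P.cons (P.lf 11296008 0 0) (P.cons (P.lf 258390 0 0) (P.cons (P.lf 0 13243 0) (P.cons (P.lf 0 742 0) P.nil)))))) 140)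
 (EL.cons 5 (TM.mk (P.cons (P.lf 5363200660 0 0) (P.cons (P.lf 0 120204780 0) (P.cons (P.lf 0 1353950 0) (P.cons (P.lf 267230 0 0) (P.cons (P.lf 9562 0 0) (P.cons (P.lf 0 146 0) P.nil)))))) 103)
 (EL.cons 9 (TM.mk (P.lf 6442450944 0 0) 2)
 EL.nil))))
noncomputable def S154_169_734_808_1 : EL := (EL.cons 0 (TM.mk (P.cons (P.cons (P.lf 0 2120377075 0) (P.cons (P.lf 31957928 0 0) (P.cons (P.lf 0 15086092 0) (P.lf 0 718381 0)))) (P.cons (P.cons (P.lf 461717778 0 0) (P.cons (P.lf 0 6793943 0) (P.cons (P.lf 3207168 0 0) (P.lf 152735 0 0)))) (P.cons (P.cons (P.lf 13634794 0 0) (P.cons (P.lf 0 1954885 0) (P.cons (P.lf 922821 0 0) (P.lf 43940 0 0)))) (P.cons (P.cons (P.lf 0 6660328 0) (P.cons (P.lf 0 86407 0) (P.cons (P.lf 40778 0 0) P.nil))) (P.cons (P.cons (P.lf 0 379934 0) (P.cons (P.lf 7819 0 0) P.nil)) (P.cons (P.cons (P.lf 21523 0 0) P.nil) P.nil)))))) 21741)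
 (EL.cons 1 (TM.mk (P.cons (P.cons (P.lf 354687468 0 0) (P.cons (P.lf 16403467 0 0) (P.cons (P.lf 0 7743436 0) (P.lf 0 368729 0)))) (P.cons (P.cons (P.lf 0 102748305 0) (P.cons (P.lf 8101798 0 0) (P.cons (P.lf 0 3824538 0) (P.lf 0 182110 0)))) (P.cons (P.cons (P.lf 32002463 0 0) (P.cons (P.lf 359193 0 0) (P.cons (P.lf 0 169559 0) (P.lf 0 8065 0)))) (P.cons (P.cons (P.lf 2440552 0 0) (P.cons (P.lf 0 72818 0) (P.cons (P.lf 34365 0 0) P.nil))) (P.cons (P.cons (P.lf 0 225291 0) (P.cons (P.lf 0 6021 0) P.nil)) (P.cons (P.cons (P.lf 0 20201 0) P.nil) P.nil)))))) 11169)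
 (EL.cons 5 (TM.mk (P.cons (P.cons (P.lf 0 697134390 0) (P.cons (P.lf 0 76872392 0) (P.cons (P.lf 36288472 0 0) (P.lf 1728024 0 0)))) (P.cons (P.cons (P.lf 0 23818719 0) (P.cons (P.lf 0 8528868 0) (P.cons (P.lf 4026144 0 0) (P.lf 191718 0 0)))) (P.cons (P.cons (P.lf 0 31886294 0) (P.cons (P.lf 267052 0 0) (P.cons (P.lf 0 126060 0) (P.lf 0 6000 0)))) (P.cons (P.cons (P.lf 924535 0 0) (P.cons (P.lf 53840 0 0) (P.cons (P.lf 0 25414 0) P.nil))) (P.cons (P.cons (P.lf 191233 0 0) (P.cons (P.lf 0 634 0) P.nil)) (P.cons (P.cons (P.lf 0 2358 0) P.nil) P.nil)))))) 9540)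
 (EL.cons 9 (TM.mk (P.cons (P.cons (P.lf 0 1280334910 0) (P.cons (P.lf 0 57802560 0) (P.cons (P.lf 27286344 0 0) (P.lf 1299348 0 0)))) (P.cons (P.cons (P.lf 123836115 0 0) (P.cons (P.lf 0 9656898 0) (P.cons (P.lf 4558644 0 0) (P.lf 217074 0 0)))) (P.cons (P.cons (P.lf 0 23857372 0) (P.cons (P.lf 0 377658 0) (P.cons (P.lf 178278 0 0) (P.lf 8484 0 0)))) (P.cons (P.cons (P.lf 0 1273749 0) (P.cons (P.lf 20400 0 0) (P.cons (P.lf 0 9624 0) P.nil))) (P.cons (P.cons (P.lf 49539 0 0) (P.cons (P.lf 1884 0 0) P.nil)) (P.cons (P.cons (P.lf 4662 0 0) P.nil) P.nil)))))) 2594)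
 (EL.cons 2 (TM.mk (P.cons (P.cons (P.lf 193965856 0 0) (P.cons (P.lf 0 191258513 0) (P.cons (P.lf 0 5984662 0) (P.cons (P.lf 1096661 0 0) (P.lf 39164 0 0))))) (P.cons (P.cons (P.lf 10690365 0 0) (P.cons (P.lf 0 10541148 0) (P.cons (P.lf 0 329841 0) (P.cons (P.lf 60440 0 0) (P.lf 2157 0 0))))) (P.cons (P.cons (P.lf 0 1402079 0) (P.cons (P.lf 1382509 0 0) (P.cons (P.lf 43259 0 0) (P.cons (P.lf 0 7925 0) P.nil)))) (P.cons (P.cons (P.lf 0 109527 0) (P.cons (P.lf 108000 0 0) (P.cons (P.lf 3377 0 0) P.nil))) (P.cons (P.cons (P.lf 846 0 0) (P.cons (P.lf 0 835 0) P.nil)) (P.cons (P.cons (P.lf 278 0 0) P.nil) P.nil)))))) 1711)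
 (EL.cons 6 (TM.mk (P.cons (P.cons (P.lf 116253768 0 0) (P.cons (P.lf 0 114631116 0) (P.cons (P.lf 0 3586917 0) (P.cons (P.lf 657285 0 0) (P.lf 23472 0 0))))) (P.cons (P.cons (P.lf 19422174 0 0) (P.cons (P.lf 0 19151082 0) (P.cons (P.lf 0 599253 0) (P.cons (P.lf 109809 0 0) (P.lf 3921 0 0))))) (P.cons (P.cons (P.lf 759564 0 0) (P.cons (P.lf 0 748962 0) (P.cons (P.lf 0 23433 0) (P.cons (P.lf 4293 0 0) P.nil)))) (P.cons (P.cons (P.lf 0 41031 0) (P.cons (P.lf 40458 0 0) (P.cons (P.lf 1263 0 0) P.nil))) (P.cons (P.cons (P.lf 0 3798 0) (P.cons (P.lf 3747 0 0) P.nil)) (P.cons (P.cons (P.lf 0 30 0) P.nil) P.nil)))))) 939)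
 EL.nil))))))
noncomputable def S154_169_734_808_2 : EL := (EL.cons 0 (TM.mk (P.cons (P.cons (P.lf 627481690 0 0) (P.cons (P.lf 5906230 0 0) (P.cons (P.lf 0 3800392 0) (P.cons (P.lf 822956 0 0) (P.cons (P.lf 0 180060 0) (P.cons (P.lf 0 21477 0) P.nil)))))) (P.cons (P.cons (P.lf 0 236737362 0) (P.cons (P.lf 0 572701 0) (P.cons (P.lf 122612 0 0) (P.cons (P.lf 152352 0 0) (P.cons (P.lf 0 26271 0) P.nil))))) (P.cons (P.cons (P.lf 20429605 0 0) (P.cons (P.lf 0 1374624 0) (P.cons (P.lf 673225 0 0) (P.cons (P.lf 7938 0 0) P.nil)))) (P.cons (P.cons (P.lf 374194 0 0) (P.cons (P.lf 0 61888 0) (P.cons (P.lf 35813 0 0) P.nil))) (P.cons (P.cons (P.lf 0 427988 0) (P.cons (P.lf 29605 0 0) P.nil)) (P.cons (P.cons (P.lf 17149 0 0) P.nil) P.nil)))))) 110657)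
 (EL.cons 1 (TM.mk (P.cons (P.cons (P.lf 0 69858055 0) (P.cons (P.lf 0 6462935 0) (P.cons (P.lf 2901499 0 0) (P.cons (P.lf 286320 0 0) (P.cons (P.lf 0 26573 0) (P.cons (P.lf 0 3167 0) P.nil)))))) (P.cons (P.cons (P.lf 40676389 0 0) (P.cons (P.lf 0 1361129 0) (P.cons (P.lf 496325 0 0) (P.cons (P.lf 168627 0 0) (P.cons (P.lf 0 26006 0) P.nil))))) (P.cons (P.cons (P.lf 0 16419413 0) (P.cons (P.lf 0 243301 0) (P.cons (P.lf 87196 0 0) (P.cons (P.lf 31575 0 0) P.nil)))) (P.cons (P.cons (P.lf 840328 0 0) (P.cons (P.lf 0 132903 0) (P.cons (P.lf 62007 0 0) P.nil))) (P.cons (P.cons (P.lf 0 20297 0) (P.cons (P.lf 0 12257 0) P.nil)) (P.cons (P.cons (P.lf 0 29598 0) P.nil) P.nil)))))) 51953)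
 (EL.cons 5 (TM.mk (P.cons (P.cons (P.lf 65267827 0 0) (P.cons (P.lf 23937974 0 0) (P.cons (P.lf 0 10352499 0) (P.cons (P.lf 0 1432827 0) (P.cons (P.lf 168575 0 0) (P.cons (P.lf 20107 0 0) P.nil)))))) (P.cons (P.cons (P.lf 28389559 0 0) (P.cons (P.lf 2035272 0 0) (P.cons (P.lf 0 711845 0) (P.cons (P.lf 0 280746 0) (P.cons (P.lf 44267 0 0) P.nil))))) (P.cons (P.cons (P.lf 6180784 0 0) (P.cons (P.lf 723306 0 0) (P.cons (P.lf 0 326002 0) (P.cons (P.lf 0 30830 0) P.nil)))) (P.cons (P.cons (P.lf 0 598720 0) (P.cons (P.lf 103321 0 0) (P.cons (P.lf 0 50248 0) P.nil))) (P.cons (P.cons (P.lf 174471 0 0) (P.cons (P.lf 0 3994 0) P.nil)) (P.cons (P.cons (P.lf 4656 0 0) P.nil) P.nil)))))) 52154)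
 (EL.cons 9 (TM.mk (P.cons (P.cons (P.lf 254446249 0 0) (P.cons (P.lf 22974682 0 0) (P.cons (P.lf 0 10326843 0) (P.cons (P.lf 0 1006083 0) (P.cons (P.lf 92251 0 0) (P.cons (P.lf 11005 0 0) P.nil)))))) (P.cons (P.cons (P.lf 0 49220925 0) (P.cons (P.lf 1616160 0 0) (P.cons (P.lf 0 589639 0) (P.cons (P.lf 0 199930 0) (P.cons (P.lf 30823 0 0) P.nil))))) (P.cons (P.cons (P.lf 11862912 0 0) (P.cons (P.lf 206962 0 0) (P.cons (P.lf 0 76446 0) (P.cons (P.lf 0 24714 0) P.nil)))) (P.cons (P.cons (P.lf 0 410892 0) (P.cons (P.lf 71751 0 0) (P.cons (P.lf 0 33106 0) P.nil))) (P.cons (P.cons (P.lf 19689 0 0) (P.cons (P.lf 5761 0 0) P.nil)) (P.cons (P.cons (P.lf 9484 0 0) P.nil) P.nil)))))) 21848)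
 (EL.cons 2 (TM.mk (P.cons (P.cons (P.lf 0 77095271 0) (P.cons (P.lf 72538610 0 0) (P.cons (P.lf 7453749 0 0) (P.cons (P.lf 0 1870368 0) (P.cons (P.lf 0 163085 0) (P.cons (P.lf 6170 0 0) P.nil)))))) (P.cons (P.cons (P.lf 3207695 0 0) (P.cons (P.lf 0 3936245 0) (P.cons (P.lf 1028604 0 0) (P.cons (P.lf 0 300577 0) (P.cons (P.lf 0 32124 0) P.nil))))) (P.cons (P.cons (P.lf 0 468303 0) (P.cons (P.lf 432140 0 0) (P.cons (P.lf 57650 0 0) (P.cons (P.lf 0 14855 0) P.nil)))) (P.cons (P.cons (P.lf 0 166241 0) (P.cons (P.lf 170060 0 0) (P.cons (P.lf 0 3825 0) P.nil))) (P.cons (P.cons (P.lf 4590 0 0) (P.cons (P.lf 0 3864 0) P.nil)) (P.cons (P.cons (P.lf 1726 0 0) P.nil) P.nil)))))) 17594)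
 (EL.cons 6 (TM.mk (P.cons (P.cons (P.lf 0 46207182 0) (P.cons (P.lf 43476138 0 0) (P.cons (P.lf 4467420 0 0) (P.cons (P.lf 0 1121004 0) (P.cons (P.lf 0 97740 0) (P.cons (P.lf 3696 0 0) P.nil)))))) (P.cons (P.cons (P.lf 0 3250458 0) (P.cons (P.lf 2508054 0 0) (P.cons (P.lf 1116636 0 0) (P.cons (P.lf 0 305652 0) (P.cons (P.lf 0 30198 0) P.nil))))) (P.cons (P.cons (P.lf 0 416250 0) (P.cons (P.lf 324954 0 0) (P.cons (P.lf 137484 0 0) (P.cons (P.lf 0 37584 0) P.nil)))) (P.cons (P.cons (P.lf 0 144300 0) (P.cons (P.lf 139206 0 0) (P.cons (P.lf 8940 0 0) P.nil))) (P.cons (P.cons (P.lf 0 11580 0) (P.cons (P.lf 11712 0 0) P.nil)) (P.cons (P.cons (P.lf 336 0 0) P.nil) P.nil)))))) 15240)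
 EL.nil))))))
noncomputable def S154_169_734_808_3 : EL := (EL.cons 0 (TM.mk (P.cons (P.lf 3004406328 0 0) (P.cons (P.lf 0 338075945 0) (P.cons (P.lf 0 3807979 0) (P.cons (P.lf 751584 0 0) (P.cons (P.lf 26892 0 0) (P.cons (P.lf 0 418 0) P.nil)))))) 212)
 (EL.cons 1 (TM.mk (P.cons (P.lf 1800696082 0 0) (P.cons (P.lf 0 1034199 0) (P.cons (P.lf 0 11296008 0) (P.cons (P.lf 0 258390 0) (P.cons (P.lf 13243 0 0) (P.cons (P.lf 742 0 0) P.nil)))))) 140)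
 (EL.cons 5 (TM.mk (P.cons (P.lf 1079250284 0 0) (P.cons (P.lf 120204780 0 0) (P.cons (P.lf 1353950 0 0) (P.cons (P.lf 0 267230 0) (P.cons (P.lf 0 9562 0) (P.cons (P.lf 146 0 0) P.nil)))))) 96)
 EL.nil)))
noncomputable def S154_169_734_808_4 : EL := (EL.cons 0 (TM.mk (P.cons (P.cons (P.lf 0 597078089 0) (P.cons (P.lf 0 26955947 0) (P.cons (P.lf 12724855 0 0) (P.lf 605944 0 0)))) (P.cons (P.cons (P.lf 124937611 0 0) (P.cons (P.lf 0 1470183 0) (P.cons (P.lf 694014 0 0) (P.lf 33045 0 0)))) (P.cons (P.cons (P.lf 0 16867455 0) (P.cons (P.lf 364804 0 0) (P.cons (P.lf 0 172209 0) (P.lf 0 8201 0)))) (P.cons (P.cons (P.lf 435376 0 0) (P.cons (P.lf 28295 0 0) (P.cons (P.lf 0 13354 0) P.nil))) (P.cons (P.cons (P.lf 113146 0 0) (P.cons (P.lf 0 1335 0) P.nil)) (P.cons (P.cons (P.lf 0 1854 0) P.nil) P.nil)))))) 4258)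
 (EL.cons 1 (TM.mk (P.cons (P.cons (P.lf 0 357859775 0) (P.cons (P.lf 0 16156093 0) (P.cons (P.lf 7626663 0 0) (P.lf 363172 0 0)))) (P.cons (P.cons (P.lf 34818320 0 0) (P.cons (P.lf 0 2689869 0) (P.cons (P.lf 1269781 0 0) (P.lf 60463 0 0)))) (P.cons (P.cons (P.lf 0 4443226 0) (P.cons (P.lf 0 2656 0) (P.cons (P.lf 1254 0 0) (P.lf 58 0 0)))) (P.cons (P.cons (P.lf 0 517966 0) (P.cons (P.lf 25012 0 0) (P.cons (P.lf 0 11805 0) P.nil))) (P.cons (P.cons (P.lf 48281 0 0) (P.cons (P.lf 1453 0 0) P.nil)) (P.cons (P.cons (P.lf 4590 0 0) P.nil) P.nil)))))) 2610)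
 (EL.cons 5 (TM.mk (P.cons (P.cons (P.lf 0 214483870 0) (P.cons (P.lf 0 9683182 0) (P.cons (P.lf 4571054 0 0) (P.lf 217668 0 0)))) (P.cons (P.cons (P.lf 0 3143556 0) (P.cons (P.lf 0 2696232 0) (P.cons (P.lf 1272786 0 0) (P.lf 60606 0 0)))) (P.cons (P.cons (P.lf 0 1955138 0) (P.cons (P.lf 0 255592 0) (P.cons (P.lf 120654 0 0) (P.lf 5742 0 0)))) (P.cons (P.cons (P.lf 0 579382 0) (P.cons (P.lf 0 3260 0) (P.cons (P.lf 1540 0 0) P.nil))) (P.cons (P.cons (P.lf 0 23716 0) (P.cons (P.lf 1102 0 0) P.nil)) (P.cons (P.cons (P.lf 2214 0 0) P.nil) P.nil)))))) 1624)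
 EL.nil)))
noncomputable def S154_169_734_808_5 : EL := (EL.cons 0 (TM.mk (P.cons (P.cons (P.lf 118659796 0 0) (P.cons (P.lf 10714132 0 0) (P.cons (P.lf 0 4815873 0) (P.cons (P.lf 0 469181 0) (P.cons (P.lf 43020 0 0) (P.cons (P.lf 5131 0 0) P.nil)))))) (P.cons (P.cons (P.lf 0 36306339 0) (P.cons (P.lf 0 451937 0) (P.cons (P.lf 266937 0 0) (P.cons (P.lf 0 40440 0) (P.cons (P.lf 9532 0 0) P.nil))))) (P.cons (P.cons (P.lf 7964746 0 0) (P.cons (P.lf 0 1873 0) (P.cons (P.lf 1395 0 0) (P.cons (P.lf 0 437 0) P.nil)))) (P.cons (P.cons (P.lf 0 755360 0) (P.cons (P.lf 24324 0 0) (P.cons (P.lf 0 12283 0) P.nil))) (P.cons (P.cons (P.lf 19051 0 0) (P.cons (P.lf 0 915 0) P.nil)) (P.cons (P.cons (P.lf 4793 0 0) P.nil) P.nil)))))) 18222)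
 (EL.cons 1 (TM.mk (P.cons (P.cons (P.lf 71118952 0 0) (P.cons (P.lf 6421533 0 0) (P.cons (P.lf 0 2886401 0) (P.cons (P.lf 0 281203 0) (P.cons (P.lf 25783 0 0) (P.cons (P.lf 3075 0 0) P.nil)))))) (P.cons (P.cons (P.lf 0 13798329 0) (P.cons (P.lf 448035 0 0) (P.cons (P.lf 0 163147 0) (P.cons (P.lf 0 55719 0) (P.cons (P.lf 8598 0 0) P.nil))))) (P.cons (P.cons (P.lf 2877502 0 0) (P.cons (P.lf 17302 0 0) (P.cons (P.lf 0 3165 0) (P.cons (P.lf 0 5111 0) P.nil)))) (P.cons (P.cons (P.lf 0 40651 0) (P.cons (P.lf 16265 0 0) (P.cons (P.lf 0 7792 0) P.nil))) (P.cons (P.cons (P.lf 0 12733 0) (P.cons (P.lf 1216 0 0) P.nil)) (P.cons (P.cons (P.lf 2820 0 0) P.nil) P.nil)))))) 10711)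
 (EL.cons 5 (TM.mk (P.cons (P.cons (P.lf 42625266 0 0) (P.cons (P.lf 3848756 0 0) (P.cons (P.lf 0 1729968 0) (P.cons (P.lf 0 168540 0) (P.cons (P.lf 15452 0 0) (P.cons (P.lf 1842 0 0) P.nil)))))) (P.cons (P.cons (P.lf 0 3498052 0) (P.cons (P.lf 699408 0 0) (P.cons (P.lf 0 291458 0) (P.cons (P.lf 0 52264 0) (P.cons (P.lf 6884 0 0) P.nil))))) (P.cons (P.cons (P.lf 1122392 0 0) (P.cons (P.lf 69652 0 0) (P.cons (P.lf 0 25976 0) (P.cons (P.lf 0 8080 0) P.nil)))) (P.cons (P.cons (P.lf 131608 0 0) (P.cons (P.lf 15266 0 0) (P.cons (P.lf 0 6666 0) P.nil))) (P.cons (P.cons (P.lf 0 210 0) (P.cons (P.lf 2244 0 0) P.nil)) (P.cons (P.cons (P.lf 1456 0 0) P.nil) P.nil)))))) 6846)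
 EL.nil)))
noncomputable def S154_169_734_808_6 : EL := (EL.cons 12 (TM.mk (P.lf 8589934592 0 0) 0)
 (EL.cons 3 (TM.mk (P.cons (P.lf 0 2540061705 0) (P.cons (P.lf 142912387 0 0) (P.cons (P.lf 5630085 0 0) (P.cons (P.lf 0 945 0) (P.cons (P.lf 0 5182 0) (P.cons (P.lf 0 116 0) P.nil)))))) 67)
 (EL.cons 7 (TM.mk (P.cons (P.lf 0 1522390337 0) (P.cons (P.lf 0 84780425 0) (P.cons (P.lf 1405728 0 0) (P.cons (P.lf 110195 0 0) (P.cons (P.lf 1257 0 0) (P.cons (P.lf 0 72 0) P.nil)))))) 47)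
 EL.nil)))
noncomputable def S154_169_734_808_7 : EL := (EL.cons 12 (TM.mk (P.cons (P.cons (P.lf 0 1707113214 0) (P.cons (P.lf 0 77070080 0) (P.cons (P.lf 36381792 0 0) (P.lf 1732464 0 0)))) (P.cons (P.cons (P.lf 165114820 0 0) (P.cons (P.lf 0 12875864 0) (P.cons (P.lf 6078192 0 0) (P.lf 289432 0 0)))) (P.cons (P.cons (P.lf 0 31809830 0) (P.cons (P.lf 0 503544 0) (P.cons (P.lf 237704 0 0) (P.lf 11312 0 0)))) (P.cons (P.cons (P.lf 0 1698332 0) (P.cons (P.lf 27200 0 0) (P.cons (P.lf 0 12832 0) P.nil))) (P.cons (P.cons (P.lf 66052 0 0) (P.cons (P.lf 2512 0 0) P.nil)) (P.cons (P.cons (P.lf 6216 0 0) P.nil) P.nil)))))) 3434)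
 (EL.cons 3 (TM.mk (P.cons (P.cons (P.lf 1381537096 0 0) (P.cons (P.lf 0 45579568 0) (P.cons (P.lf 21516342 0 0) (P.lf 1024586 0 0)))) (P.cons (P.cons (P.lf 0 386468774 0) (P.cons (P.lf 0 5050380 0) (P.cons (P.lf 2384084 0 0) (P.lf 113522 0 0)))) (P.cons (P.cons (P.lf 0 28161546 0) (P.cons (P.lf 231664 0 0) (P.cons (P.lf 0 109358 0) (P.lf 0 5210 0)))) (P.cons (P.cons (P.lf 1039768 0 0) (P.cons (P.lf 49702 0 0) (P.cons (P.lf 0 23456 0) P.nil))) (P.cons (P.cons (P.lf 178275 0 0) (P.cons (P.lf 1142 0 0) P.nil)) (P.cons (P.cons (P.lf 3182 0 0) P.nil) P.nil)))))) 9017)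
 (EL.cons 7 (TM.mk (P.cons (P.cons (P.lf 0 217560749 0) (P.cons (P.lf 54218097 0 0) (P.cons (P.lf 0 25594262 0) (P.lf 0 1218776 0)))) (P.cons (P.cons (P.lf 229266246 0 0) (P.cons (P.lf 2996061 0 0) (P.cons (P.lf 0 1414324 0) (P.lf 0 67350 0)))) (P.cons (P.cons (P.lf 3872935 0 0) (P.cons (P.lf 0 305134 0) (P.cons (P.lf 144043 0 0) (P.lf 6856 0 0)))) (P.cons (P.cons (P.lf 0 1486077 0) (P.cons (P.lf 0 14295 0) (P.cons (P.lf 6750 0 0) P.nil))) (P.cons (P.cons (P.lf 0 30223 0) (P.cons (P.lf 1224 0 0) P.nil)) (P.cons (P.cons (P.lf 4454 0 0) P.nil) P.nil)))))) 6277)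
 (EL.cons 10 (TM.mk (P.cons (P.cons (P.lf 0 327975108 0) (P.cons (P.lf 323397288 0 0) (P.cons (P.lf 10119414 0 0) (P.cons (P.lf 0 1854339 0) (P.lf 0 66225 0))))) (P.cons (P.cons (P.lf 0 36529224 0) (P.cons (P.lf 36019353 0 0) (P.cons (P.lf 1127079 0 0) (P.cons (P.lf 0 206532 0) (P.lf 0 7374 0))))) (P.cons (P.cons (P.lf 0 411453 0) (P.cons (P.lf 405711 0 0) (P.cons (P.lf 12693 0 0) (P.cons (P.lf 0 2325 0) P.nil)))) (P.cons (P.cons (P.lf 81207 0 0) (P.cons (P.lf 0 80073 0) (P.cons (P.lf 0 2505 0) P.nil))) (P.cons (P.cons (P.lf 2904 0 0) (P.cons (P.lf 0 2865 0) P.nil)) (P.cons (P.cons (P.lf 0 42 0) P.nil) P.nil)))))) 870)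
 EL.nil))))
noncomputable def S154_169_734_808_8 : EL := (EL.cons 12 (TM.mk (P.cons (P.cons (P.lf 339261666 0 0) (P.cons (P.lf 30632910 0 0) (P.cons (P.lf 0 13769124 0) (P.cons (P.lf 0 1341444 0) (P.cons (P.lf 123002 0 0) (P.cons (P.lf 14674 0 0) P.nil)))))) (P.cons (P.cons (P.lf 0 65627900 0) (P.cons (P.lf 2154880 0 0) (P.cons (P.lf 0 786186 0) (P.cons (P.lf 0 266574 0) (P.cons (P.lf 41098 0 0) P.nil))))) (P.cons (P.cons (P.lf 15817216 0 0) (P.cons (P.lf 275950 0 0) (P.cons (P.lf 0 101928 0) (P.cons (P.lf 0 32952 0) P.nil)))) (P.cons (P.cons (P.lf 0 547856 0) (P.cons (P.lf 95668 0 0) (P.cons (P.lf 0 44142 0) P.nil))) (P.cons (P.cons (P.lf 26252 0 0) (P.cons (P.lf 7682 0 0) P.nil)) (P.cons (P.cons (P.lf 12646 0 0) P.nil) P.nil)))))) 29102)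
 (EL.cons 3 (TM.mk (P.cons (P.cons (P.lf 0 448796769 0) (P.cons (P.lf 2383965 0 0) (P.cons (P.lf 0 103008 0) (P.cons (P.lf 0 1018823 0) (P.cons (P.lf 181861 0 0) (P.cons (P.lf 21696 0 0) P.nil)))))) (P.cons (P.cons (P.lf 181669922 0 0) (P.cons (P.lf 3175870 0 0) (P.cons (P.lf 0 1215114 0) (P.cons (P.lf 0 339601 0) (P.cons (P.lf 50530 0 0) P.nil))))) (P.cons (P.cons (P.lf 0 8349393 0) (P.cons (P.lf 1578971 0 0) (P.cons (P.lf 0 724961 0) (P.cons (P.lf 0 54761 0) P.nil)))) (P.cons (P.cons (P.lf 437994 0 0) (P.cons (P.lf 186691 0 0) (P.cons (P.lf 0 89735 0) P.nil))) (P.cons (P.cons (P.lf 358459 0 0) (P.cons (P.lf 0 3097 0) P.nil)) (P.cons (P.cons (P.lf 8708 0 0) P.nil) P.nil)))))) 65411)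
 (EL.cons 7 (TM.mk (P.cons (P.cons (P.lf 146600686 0 0) (P.cons (P.lf 0 12216941 0) (P.cons (P.lf 4916789 0 0) (P.cons (P.lf 1077461 0 0) (P.cons (P.lf 0 151261 0) (P.cons (P.lf 0 18044 0) P.nil)))))) (P.cons (P.cons (P.lf 0 107772695 0) (P.cons (P.lf 0 1884031 0) (P.cons (P.lf 720847 0 0) (P.cons (P.lf 201460 0 0) (P.cons (P.lf 0 29977 0) P.nil))))) (P.cons (P.cons (P.lf 10985840 0 0) (P.cons (P.lf 0 831235 0) (P.cons (P.lf 389720 0 0) (P.cons (P.lf 21211 0 0) P.nil)))) (P.cons (P.cons (P.lf 0 807021 0) (P.cons (P.lf 0 43941 0) (P.cons (P.lf 22317 0 0) P.nil))) (P.cons (P.cons (P.lf 0 170352 0) (P.cons (P.lf 8968 0 0) P.nil)) (P.cons (P.cons (P.lf 12151 0 0) P.nil) P.nil)))))) 32352)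
 (EL.cons 10 (TM.mk (P.cons (P.cons (P.lf 130359696 0 0) (P.cons (P.lf 0 122654880 0) (P.cons (P.lf 0 12603486 0) (P.cons (P.lf 3162588 0 0) (P.cons (P.lf 275760 0 0) (P.cons (P.lf 0 10434 0) P.nil)))))) (P.cons (P.cons (P.lf 1910598 0 0) (P.cons (P.lf 0 245202 0) (P.cons (P.lf 0 2448378 0) (P.cons (P.lf 686184 0 0) (P.cons (P.lf 69840 0 0) P.nil))))) (P.cons (P.cons (P.lf 1188300 0 0) (P.cons (P.lf 0 1016364 0) (P.cons (P.lf 0 263172 0) (P.cons (P.lf 70740 0 0) P.nil)))) (P.cons (P.cons (P.lf 352140 0 0) (P.cons (P.lf 0 345240 0) (P.cons (P.lf 0 13752 0) P.nil))) (P.cons (P.cons (P.lf 14412 0 0) (P.cons (P.lf 0 14880 0) P.nil)) (P.cons (P.cons (P.lf 0 1344 0) P.nil) P.nil)))))) 28626)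
 EL.nil))))
noncomputable def S154_169_734_808_9 : EL := (EL.cons 3 (TM.mk (P.cons (P.lf 0 2540061705 0) (P.cons (P.lf 142912387 0 0) (P.cons (P.lf 5630085 0 0) (P.cons (P.lf 0 945 0) (P.cons (P.lf 0 5182 0) (P.cons (P.lf 0 116 0) P.nil)))))) 67)
 (EL.cons 7 (TM.mk (P.cons (P.lf 0 1522390337 0) (P.cons (P.lf 0 84780425 0) (P.cons (P.lf 1405728 0 0) (P.cons (P.lf 110195 0 0) (P.cons (P.lf 1257 0 0) (P.cons (P.lf 0 72 0) P.nil)))))) 47)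
 EL.nil))
noncomputable def S154_169_734_808_10 : EL := (EL.cons 3 (TM.mk (P.cons (P.cons (P.lf 504796963 0 0) (P.cons (P.lf 22789784 0 0) (P.cons (P.lf 0 10758171 0) (P.lf 0 512293 0)))) (P.cons (P.cons (P.lf 0 77226368 0) (P.cons (P.lf 2525190 0 0) (P.cons (P.lf 0 1192042 0) (P.lf 0 56761 0)))) (P.cons (P.cons (P.lf 11034390 0 0) (P.cons (P.lf 0 115832 0) (P.cons (P.lf 54679 0 0) (P.lf 2605 0 0)))) (P.cons (P.cons (P.lf 81382 0 0) (P.cons (P.lf 0 24851 0) (P.cons (P.lf 11728 0 0) P.nil))) (P.cons (P.cons (P.lf 0 67623 0) (P.cons (P.lf 0 571 0) P.nil)) (P.cons (P.cons (P.lf 0 1924 0) P.nil) P.nil)))))) 2161)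
 (EL.cons 7 (TM.mk (P.cons (P.cons (P.lf 302550925 0 0) (P.cons (P.lf 13659096 0 0) (P.cons (P.lf 0 6447929 0) (P.lf 0 307043 0)))) (P.cons (P.cons (P.lf 0 12414462 0) (P.cons (P.lf 3042645 0 0) (P.cons (P.lf 0 1436314 0) (P.lf 0 68394 0)))) (P.cons (P.cons (P.lf 3728635 0 0) (P.cons (P.lf 203711 0 0) (P.cons (P.lf 0 96164 0) (P.lf 0 4577 0)))) (P.cons (P.cons (P.lf 620070 0 0) (P.cons (P.lf 0 2946 0) (P.cons (P.lf 1389 0 0) P.nil))) (P.cons (P.cons (P.lf 1718 0 0) (P.cons (P.lf 0 972 0) P.nil)) (P.cons (P.cons (P.lf 0 2401 0) P.nil) P.nil)))))) 1257)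
 EL.nil))
noncomputable def S154_169_734_808_11 : EL := (EL.cons 3 (TM.mk (P.cons (P.cons (P.lf 0 100320387 0) (P.cons (P.lf 0 9058215 0) (P.cons (P.lf 4071558 0 0) (P.cons (P.lf 396667 0 0) (P.cons (P.lf 0 36371 0) (P.cons (P.lf 0 4338 0) P.nil)))))) (P.cons (P.cons (P.lf 25050668 0 0) (P.cons (P.lf 0 127556 0) (P.cons (P.lf 3396 0 0) (P.cons (P.lf 56507 0 0) (P.cons (P.lf 0 10106 0) P.nil))))) (P.cons (P.cons (P.lf 0 5546685 0) (P.cons (P.lf 0 25669 0) (P.cons (P.lf 8035 0 0) (P.cons (P.lf 4429 0 0) P.nil)))) (P.cons (P.cons (P.lf 382104 0 0) (P.cons (P.lf 0 22289 0) (P.cons (P.lf 10843 0 0) P.nil))) (P.cons (P.cons (P.lf 0 6707 0) (P.cons (P.lf 0 517 0) P.nil)) (P.cons (P.cons (P.lf 0 3628 0) P.nil) P.nil)))))) 12229)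
 (EL.cons 7 (TM.mk (P.cons (P.cons (P.lf 0 60127196 0) (P.cons (P.lf 0 5429057 0) (P.cons (P.lf 2440295 0 0) (P.cons (P.lf 237743 0 0) (P.cons (P.lf 0 21799 0) (P.cons (P.lf 0 2600 0) P.nil)))))) (P.cons (P.cons (P.lf 8282779 0 0) (P.cons (P.lf 0 684247 0) (P.cons (P.lf 275233 0 0) (P.cons (P.lf 60484 0 0) (P.cons (P.lf 0 8497 0) P.nil))))) (P.cons (P.cons (P.lf 0 2100028 0) (P.cons (P.lf 0 65161 0) (P.cons (P.lf 23570 0 0) (P.cons (P.lf 8251 0 0) P.nil)))) (P.cons (P.cons (P.lf 0 65403 0) (P.cons (P.lf 0 18933 0) (P.cons (P.lf 8523 0 0) P.nil))) (P.cons (P.cons (P.lf 2550 0 0) (P.cons (P.lf 0 2228 0) P.nil)) (P.cons (P.cons (P.lf 0 2399 0) P.nil) P.nil)))))) 7166)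
 EL.nil))
noncomputable def S154_169_734_808_12 : EL := (EL.cons 4 (TM.mk (P.cons (P.lf 2540061705 0 0) (P.cons (P.lf 0 142912387 0) (P.cons (P.lf 0 5630085 0) (P.cons (P.lf 945 0 0) (P.cons (P.lf 5182 0 0) (P.cons (P.lf 116 0 0) P.nil)))))) 67)
 (EL.cons 8 (TM.mk (P.cons (P.lf 1522390337 0 0) (P.cons (P.lf 84780425 0 0) (P.cons (P.lf 0 1405728 0) (P.cons (P.lf 0 110195 0) (P.cons (P.lf 0 1257 0) (P.cons (P.lf 72 0 0) P.nil)))))) 47)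
 EL.nil))
noncomputable def S154_169_734_808_13 : EL := (EL.cons 4 (TM.mk (P.cons (P.cons (P.lf 0 504796963 0) (P.cons (P.lf 0 22789784 0) (P.cons (P.lf 10758171 0 0) (P.lf 512293 0 0)))) (P.cons (P.cons (P.lf 77226368 0 0) (P.cons (P.lf 0 2525190 0) (P.cons (P.lf 1192042 0 0) (P.lf 56761 0 0)))) (P.cons (P.cons (P.lf 0 11034390 0) (P.cons (P.lf 115832 0 0) (P.cons (P.lf 0 54679 0) (P.lf 0 2605 0)))) (P.cons (P.cons (P.lf 0 81382 0) (P.cons (P.lf 24851 0 0) (P.cons (P.lf 0 11728 0) P.nil))) (P.cons (P.cons (P.lf 67623 0 0) (P.cons (P.lf 571 0 0) P.nil)) (P.cons (P.cons (P.lf 1924 0 0) P.nil) P.nil)))))) 2161)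
 (EL.cons 8 (TM.mk (P.cons (P.cons (P.lf 0 302550925 0) (P.cons (P.lf 0 13659096 0) (P.cons (P.lf 6447929 0 0) (P.lf 307043 0 0)))) (P.cons (P.cons (P.lf 12414462 0 0) (P.cons (P.lf 0 3042645 0) (P.cons (P.lf 1436314 0 0) (P.lf 68394 0 0)))) (P.cons (P.cons (P.lf 0 3728635 0) (P.cons (P.lf 0 203711 0) (P.cons (P.lf 96164 0 0) (P.lf 4577 0 0)))) (P.cons (P.cons (P.lf 0 620070 0) (P.cons (P.lf 2946 0 0) (P.cons (P.lf 0 1389 0) P.nil))) (P.cons (P.cons (P.lf 0 1718 0) (P.cons (P.lf 972 0 0) P.nil)) (P.cons (P.cons (P.lf 2401 0 0) P.nil) P.nil)))))) 1257)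
 EL.nil))
noncomputable def S154_169_734_808_14 : EL := (EL.cons 4 (TM.mk (P.cons (P.cons (P.lf 100320387 0 0) (P.cons (P.lf 9058215 0 0) (P.cons (P.lf 0 4071558 0) (P.cons (P.lf 0 396667 0) (P.cons (P.lf 36371 0 0) (P.cons (P.lf 4338 0 0) P.nil)))))) (P.cons (P.cons (P.lf 0 25050668 0) (P.cons (P.lf 127556 0 0) (P.cons (P.lf 0 3396 0) (P.cons (P.lf 0 56507 0) (P.cons (P.lf 10106 0 0) P.nil))))) (P.cons (P.cons (P.lf 5546685 0 0) (P.cons (P.lf 25669 0 0) (P.cons (P.lf 0 8035 0) (P.cons (P.lf 0 4429 0) P.nil)))) (P.cons (P.cons (P.lf 0 382104 0) (P.cons (P.lf 22289 0 0) (P.cons (P.lf 0 10843 0) P.nil))) (P.cons (P.cons (P.lf 6707 0 0) (P.cons (P.lf 517 0 0) P.nil)) (P.cons (P.cons (P.lf 3628 0 0) P.nil) P.nil)))))) 12229)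
 (EL.cons 8 (TM.mk (P.cons (P.cons (P.lf 60127196 0 0) (P.cons (P.lf 5429057 0 0) (P.cons (P.lf 0 2440295 0) (P.cons (P.lf 0 237743 0) (P.cons (P.lf 21799 0 0) (P.cons (P.lf 2600 0 0) P.nil)))))) (P.cons (P.cons (P.lf 0 8282779 0) (P.cons (P.lf 684247 0 0) (P.cons (P.lf 0 275233 0) (P.cons (P.lf 0 60484 0) (P.cons (P.lf 8497 0 0) P.nil))))) (P.cons (P.cons (P.lf 2100028 0 0) (P.cons (P.lf 65161 0 0) (P.cons (P.lf 0 23570 0) (P.cons (P.lf 0 8251 0) P.nil)))) (P.cons (P.cons (P.lf 65403 0 0) (P.cons (P.lf 18933 0 0) (P.cons (P.lf 0 8523 0) P.nil))) (P.cons (P.cons (P.lf 0 2550 0) (P.cons (P.lf 2228 0 0) P.nil)) (P.cons (P.cons (P.lf 2399 0 0) P.nil) P.nil)))))) 7166)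
 EL.nil))
noncomputable def S154_169_734_808_15 : EL := (EL.cons 4 (TM.mk (P.cons (P.lf 0 1602350041 0) (P.cons (P.lf 180307170 0 0) (P.cons (P.lf 2030922 0 0) (P.cons (P.lf 0 400845 0) (P.cons (P.lf 0 14342 0) (P.cons (P.lf 223 0 0) P.nil)))))) 116)
 (EL.cons 8 (TM.mk (P.cons (P.lf 0 960371244 0) (P.cons (P.lf 551573 0 0) (P.cons (P.lf 6024538 0 0) (P.cons (P.lf 137808 0 0) (P.cons (P.lf 0 7063 0) (P.cons (P.lf 0 396 0) P.nil)))))) 71)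
 EL.nil))
noncomputable def S154_169_734_808_16 : EL := (EL.cons 4 (TM.mk (P.cons (P.cons (P.lf 318441647 0 0) (P.cons (P.lf 14376505 0 0) (P.cons (P.lf 0 6786589 0) (P.lf 0 323170 0)))) (P.cons (P.cons (P.lf 0 66633392 0) (P.cons (P.lf 784097 0 0) (P.cons (P.lf 0 370140 0) (P.lf 0 17624 0)))) (P.cons (P.cons (P.lf 8995976 0 0) (P.cons (P.lf 0 194562 0) (P.cons (P.lf 91845 0 0) (P.lf 4374 0 0)))) (P.cons (P.cons (P.lf 0 232200 0) (P.cons (P.lf 0 15090 0) (P.cons (P.lf 7122 0 0) P.nil))) (P.cons (P.cons (P.lf 0 60345 0) (P.cons (P.lf 712 0 0) P.nil)) (P.cons (P.cons (P.lf 989 0 0) P.nil) P.nil)))))) 2280)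
 (EL.cons 8 (TM.mk (P.cons (P.cons (P.lf 190858547 0 0) (P.cons (P.lf 8616583 0 0) (P.cons (P.lf 0 4067554 0) (P.lf 0 193692 0)))) (P.cons (P.cons (P.lf 0 18569771 0) (P.cons (P.lf 1434597 0 0) (P.cons (P.lf 0 677217 0) (P.lf 0 32247 0)))) (P.cons (P.cons (P.lf 2369721 0 0) (P.cons (P.lf 1417 0 0) (P.cons (P.lf 0 669 0) (P.lf 0 31 0)))) (P.cons (P.cons (P.lf 276249 0 0) (P.cons (P.lf 0 13340 0) (P.cons (P.lf 6296 0 0) P.nil))) (P.cons (P.cons (P.lf 0 25750 0) (P.cons (P.lf 0 775 0) P.nil)) (P.cons (P.cons (P.lf 0 2448 0) P.nil) P.nil)))))) 1382)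
 EL.nil))
noncomputable def S154_169_734_808_17 : EL := (EL.cons 4 (TM.mk (P.cons (P.cons (P.lf 0 63285225 0) (P.cons (P.lf 0 5714204 0) (P.cons (P.lf 2568465 0 0) (P.cons (P.lf 250230 0 0) (P.cons (P.lf 0 22944 0) (P.cons (P.lf 0 2736 0) P.nil)))))) (P.cons (P.cons (P.lf 19363380 0 0) (P.cons (P.lf 241033 0 0) (P.cons (P.lf 0 142366 0) (P.cons (P.lf 21568 0 0) (P.cons (P.lf 0 5084 0) P.nil))))) (P.cons (P.cons (P.lf 0 4247865 0) (P.cons (P.lf 999 0 0) (P.cons (P.lf 0 744 0) (P.cons (P.lf 233 0 0) P.nil)))) (P.cons (P.cons (P.lf 402858 0 0) (P.cons (P.lf 0 12973 0) (P.cons (P.lf 6551 0 0) P.nil))) (P.cons (P.cons (P.lf 0 10160 0) (P.cons (P.lf 488 0 0) P.nil)) (P.cons (P.cons (P.lf 0 2556 0) P.nil) P.nil)))))) 9728)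
 (EL.cons 8 (TM.mk (P.cons (P.cons (P.lf 0 37930108 0) (P.cons (P.lf 0 3424818 0) (P.cons (P.lf 1539414 0 0) (P.cons (P.lf 149975 0 0) (P.cons (P.lf 0 13751 0) (P.cons (P.lf 0 1640 0) P.nil)))))) (P.cons (P.cons (P.lf 7359109 0 0) (P.cons (P.lf 0 238952 0) (P.cons (P.lf 87012 0 0) (P.cons (P.lf 29717 0 0) (P.cons (P.lf 0 4586 0) P.nil))))) (P.cons (P.cons (P.lf 0 1534668 0) (P.cons (P.lf 0 9228 0) (P.cons (P.lf 1688 0 0) (P.cons (P.lf 2726 0 0) P.nil)))) (P.cons (P.cons (P.lf 21681 0 0) (P.cons (P.lf 0 8675 0) (P.cons (P.lf 4156 0 0) P.nil))) (P.cons (P.cons (P.lf 6791 0 0) (P.cons (P.lf 0 649 0) P.nil)) (P.cons (P.cons (P.lf 0 1504 0) P.nil) P.nil)))))) 5701)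
 EL.nil))
noncomputable def S154_169_734_808_18 : EL := (EL.cons 4 (TM.mk (P.cons (P.lf 1010812316 0 0) (P.cons (P.lf 0 170615069 0) (P.cons (P.lf 2877933 0 0) (P.cons (P.lf 577438 0 0) (P.cons (P.lf 0 318 0) (P.cons (P.lf 0 1395 0) P.nil)))))) 149)
 (EL.cons 8 (TM.mk (P.cons (P.lf 605832095 0 0) (P.cons (P.lf 0 34434094 0) (P.cons (P.lf 0 5123725 0) (P.cons (P.lf 127889 0 0) (P.cons (P.lf 19006 0 0) (P.cons (P.lf 218 0 0) P.nil)))))) 96)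
 EL.nil))
noncomputable def S154_169_734_808_19 : EL := (EL.cons 4 (TM.mk (P.cons (P.cons (P.lf 0 200882910 0) (P.cons (P.lf 0 9069147 0) (P.cons (P.lf 4281192 0 0) (P.lf 203865 0 0)))) (P.cons (P.cons (P.lf 53336765 0 0) (P.cons (P.lf 15626 0 0) (P.cons (P.lf 0 7377 0) (P.lf 0 351 0)))) (P.cons (P.cons (P.lf 0 7594679 0) (P.cons (P.lf 170667 0 0) (P.cons (P.lf 0 80565 0) (P.lf 0 3837 0)))) (P.cons (P.cons (P.lf 372525 0 0) (P.cons (P.lf 3706 0 0) (P.cons (P.lf 0 1748 0) P.nil))) (P.cons (P.cons (P.lf 42010 0 0) (P.cons (P.lf 0 1275 0) P.nil)) (P.cons (P.cons (P.lf 0 3015 0) P.nil) P.nil)))))) 2190)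
 (EL.cons 8 (TM.mk (P.cons (P.cons (P.lf 0 120399516 0) (P.cons (P.lf 0 5435609 0) (P.cons (P.lf 2565939 0 0) (P.lf 122187 0 0)))) (P.cons (P.cons (P.lf 18488470 0 0) (P.cons (P.lf 0 599163 0) (P.cons (P.lf 282841 0 0) (P.lf 13467 0 0)))) (P.cons (P.cons (P.lf 0 1887117 0) (P.cons (P.lf 62071 0 0) (P.cons (P.lf 0 29301 0) (P.lf 0 1395 0)))) (P.cons (P.cons (P.lf 0 116169 0) (P.cons (P.lf 10469 0 0) (P.cons (P.lf 0 4941 0) P.nil))) (P.cons (P.cons (P.lf 29121 0 0) (P.cons (P.lf 6 0 0) P.nil)) (P.cons (P.cons (P.lf 1035 0 0) P.nil) P.nil)))))) 1317)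
 EL.nil))
noncomputable def S154_169_734_808_20 : EL := (EL.cons 4 (TM.mk (P.cons (P.cons (P.lf 39922290 0 0) (P.cons (P.lf 3604697 0 0) (P.cons (P.lf 0 1620268 0) (P.cons (P.lf 0 157852 0) (P.cons (P.lf 14474 0 0) (P.cons (P.lf 1725 0 0) P.nil)))))) (P.cons (P.cons (P.lf 0 14461185 0) (P.cons (P.lf 0 354863 0) (P.cons (P.lf 180971 0 0) (P.cons (P.lf 0 4724 0) (P.cons (P.lf 2392 0 0) P.nil))))) (P.cons (P.cons (P.lf 3278455 0 0) (P.cons (P.lf 0 64 0) (P.cons (P.lf 0 991 0) (P.cons (P.lf 967 0 0) P.nil)))) (P.cons (P.cons (P.lf 0 377814 0) (P.cons (P.lf 8557 0 0) (P.cons (P.lf 0 4358 0) P.nil))) (P.cons (P.cons (P.lf 14845 0 0) (P.cons (P.lf 0 759 0) P.nil)) (P.cons (P.cons (P.lf 1793 0 0) P.nil) P.nil)))))) 7636)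
 (EL.cons 8 (TM.mk (P.cons (P.cons (P.lf 23927493 0 0) (P.cons (P.lf 2160481 0 0) (P.cons (P.lf 0 971110 0) (P.cons (P.lf 0 94609 0) (P.cons (P.lf 8675 0 0) (P.cons (P.lf 1034 0 0) P.nil)))))) (P.cons (P.cons (P.lf 0 5988596 0) (P.cons (P.lf 29182 0 0) (P.cons (P.lf 0 252 0) (P.cons (P.lf 0 13423 0) (P.cons (P.lf 2405 0 0) P.nil))))) (P.cons (P.cons (P.lf 1176275 0 0) (P.cons (P.lf 0 7447 0) (P.cons (P.lf 4175 0 0) (P.cons (P.lf 0 455 0) P.nil)))) (P.cons (P.cons (P.lf 0 57847 0) (P.cons (P.lf 4811 0 0) (P.cons (P.lf 0 2440 0) P.nil))) (P.cons (P.cons (P.lf 0 5613 0) (P.cons (P.lf 93 0 0) P.nil)) (P.cons (P.cons (P.lf 1212 0 0) P.nil) P.nil)))))) 4330)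
 EL.nil))
noncomputable def S154_169_734_808_21 : EL := (EL.cons 4 (TM.mk (P.cons (P.cons (P.lf 0 876740133 0) (P.cons (P.lf 68369352 0 0) (P.cons (P.lf 0 32274513 0) (P.lf 0 1536879 0)))) (P.cons (P.cons (P.lf 309242406 0 0) (P.cons (P.lf 7575570 0 0) (P.cons (P.lf 0 3576126 0) (P.lf 0 170283 0)))) (P.cons (P.cons (P.lf 39195936 0 0) (P.cons (P.lf 0 347496 0) (P.cons (P.lf 164037 0 0) (P.lf 7815 0 0)))) (P.cons (P.cons (P.lf 0 958386 0) (P.cons (P.lf 0 74553 0) (P.cons (P.lf 35184 0 0) P.nil))) (P.cons (P.cons (P.lf 0 245898 0) (P.cons (P.lf 0 1713 0) P.nil)) (P.cons (P.cons (P.lf 0 5106 0) P.nil) P.nil)))))) 6837)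
 (EL.cons 8 (TM.mk (P.cons (P.cons (P.lf 520111674 0 0) (P.cons (P.lf 0 40559001 0) (P.cons (P.lf 19146333 0 0) (P.lf 911733 0 0)))) (P.cons (P.cons (P.lf 0 241680708 0) (P.cons (P.lf 46584 0 0) (P.cons (P.lf 0 21990 0) (P.lf 0 1044 0)))) (P.cons (P.cons (P.lf 0 144300 0) (P.cons (P.lf 508845 0 0) (P.cons (P.lf 0 240207 0) (P.lf 0 11433 0)))) (P.cons (P.cons (P.lf 2106147 0 0) (P.cons (P.lf 11349 0 0) (P.cons (P.lf 0 5361 0) P.nil))) (P.cons (P.cons (P.lf 31941 0 0) (P.cons (P.lf 0 2196 0) P.nil)) (P.cons (P.cons (P.lf 0 6855 0) P.nil) P.nil)))))) 5001)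
 (EL.cons 11 (TM.mk (P.cons (P.cons (P.lf 327975108 0 0) (P.cons (P.lf 0 323397288 0) (P.cons (P.lf 0 10119414 0) (P.cons (P.lf 1854339 0 0) (P.lf 66225 0 0))))) (P.cons (P.cons (P.lf 36529224 0 0) (P.cons (P.lf 0 36019353 0) (P.cons (P.lf 0 1127079 0) (P.cons (P.lf 206532 0 0) (P.lf 7374 0 0))))) (P.cons (P.cons (P.lf 411453 0 0) (P.cons (P.lf 0 405711 0) (P.cons (P.lf 0 12693 0) (P.cons (P.lf 2325 0 0) P.nil)))) (P.cons (P.cons (P.lf 0 81207 0) (P.cons (P.lf 80073 0 0) (P.cons (P.lf 2505 0 0) P.nil))) (P.cons (P.cons (P.lf 0 2904 0) (P.cons (P.lf 2865 0 0) P.nil)) (P.cons (P.cons (P.lf 42 0 0) P.nil) P.nil)))))) 870)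
 EL.nil)))
noncomputable def S154_169_734_808_22 : EL := (EL.cons 4 (TM.mk (P.cons (P.cons (P.lf 174238191 0 0) (P.cons (P.lf 0 5721090 0) (P.cons (P.lf 2087283 0 0) (P.cons (P.lf 707745 0 0) (P.cons (P.lf 0 109116 0) (P.cons (P.lf 0 13017 0) P.nil)))))) (P.cons (P.cons (P.lf 0 78309627 0) (P.cons (P.lf 0 1651713 0) (P.cons (P.lf 609255 0 0) (P.cons (P.lf 198054 0 0) (P.cons (P.lf 0 30318 0) P.nil))))) (P.cons (P.cons (P.lf 1401354 0 0) (P.cons (P.lf 0 802320 0) (P.cons (P.lf 366498 0 0) (P.cons (P.lf 29595 0 0) P.nil)))) (P.cons (P.cons (P.lf 0 27945 0) (P.cons (P.lf 0 104490 0) (P.cons (P.lf 50289 0 0) P.nil))) (P.cons (P.cons (P.lf 0 182583 0) (P.cons (P.lf 1290 0 0) P.nil)) (P.cons (P.cons (P.lf 0 6168 0) P.nil) P.nil)))))) 26580)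
 (EL.cons 8 (TM.mk (P.cons (P.cons (P.lf 0 103363941 0) (P.cons (P.lf 3393942 0 0) (P.cons (P.lf 0 1238247 0) (P.cons (P.lf 0 419859 0) (P.cons (P.lf 64731 0 0) (P.cons (P.lf 7722 0 0) P.nil)))))) (P.cons (P.cons (P.lf 58027737 0 0) (P.cons (P.lf 599892 0 0) (P.cons (P.lf 0 222807 0) (P.cons (P.lf 0 70488 0) (P.cons (P.lf 10740 0 0) P.nil))))) (P.cons (P.cons (P.lf 0 6542934 0) (P.cons (P.lf 383037 0 0) (P.cons (P.lf 0 183075 0) (P.cons (P.lf 0 6480 0) P.nil)))) (P.cons (P.cons (P.lf 370809 0 0) (P.cons (P.lf 12504 0 0) (P.cons (P.lf 0 6897 0) P.nil))) (P.cons (P.cons (P.lf 86451 0 0) (P.cons (P.lf 0 5598 0) P.nil)) (P.cons (P.cons (P.lf 0 7275 0) P.nil) P.nil)))))) 12582)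
 (EL.cons 11 (TM.mk (P.cons (P.cons (P.lf 0 65179848 0) (P.cons (P.lf 61327440 0 0) (P.cons (P.lf 6301743 0 0) (P.cons (P.lf 0 1581294 0) (P.cons (P.lf 0 137880 0) (P.cons (P.lf 5217 0 0) P.nil)))))) (P.cons (P.cons (P.lf 0 955299 0) (P.cons (P.lf 122601 0 0) (P.cons (P.lf 1224189 0 0) (P.cons (P.lf 0 343092 0) (P.cons (P.lf 0 34920 0) P.nil))))) (P.cons (P.cons (P.lf 0 594150 0) (P.cons (P.lf 508182 0 0) (P.cons (P.lf 131586 0 0) (P.cons (P.lf 0 35370 0) P.nil)))) (P.cons (P.cons (P.lf 0 176070 0) (P.cons (P.lf 172620 0 0) (P.cons (P.lf 6876 0 0) P.nil))) (P.cons (P.cons (P.lf 0 7206 0) (P.cons (P.lf 7440 0 0) P.nil)) (P.cons (P.cons (P.lf 672 0 0) P.nil) P.nil)))))) 14313)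
 EL.nil)))
noncomputable def S154_169_734_808_23 : EL := (EL.cons 4 (TM.mk (P.cons (P.cons (P.lf 553074984 0 0) (P.cons (P.lf 0 43129515 0) (P.cons (P.lf 20359767 0 0) (P.lf 969510 0 0)))) (P.cons (P.cons (P.lf 0 226197594 0) (P.cons (P.lf 0 2352294 0) (P.cons (P.lf 1110420 0 0) (P.lf 52869 0 0)))) (P.cons (P.cons (P.lf 0 14976075 0) (P.cons (P.lf 583683 0 0) (P.cons (P.lf 0 275532 0) (P.lf 0 13122 0)))) (P.cons (P.cons (P.lf 2428350 0 0) (P.cons (P.lf 45273 0 0) (P.cons (P.lf 0 21363 0) P.nil))) (P.cons (P.cons (P.lf 176964 0 0) (P.cons (P.lf 0 2139 0) P.nil)) (P.cons (P.cons (P.lf 0 7227 0) P.nil) P.nil)))))) 7521)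
 (EL.cons 8 (TM.mk (P.cons (P.cons (P.lf 0 328102644 0) (P.cons (P.lf 25585881 0 0) (P.cons (P.lf 0 12078102 0) (P.lf 0 575148 0)))) (P.cons (P.cons (P.lf 170919873 0 0) (P.cons (P.lf 0 1468932 0) (P.cons (P.lf 693426 0 0) (P.lf 33018 0 0)))) (P.cons (P.cons (P.lf 0 7759620 0) (P.cons (P.lf 0 376053 0) (P.cons (P.lf 177519 0 0) (P.lf 8448 0 0)))) (P.cons (P.cons (P.lf 0 1671795 0) (P.cons (P.lf 10974 0 0) (P.cons (P.lf 0 5178 0) P.nil))) (P.cons (P.cons (P.lf 53787 0 0) (P.cons (P.lf 2550 0 0) P.nil)) (P.cons (P.cons (P.lf 8697 0 0) P.nil) P.nil)))))) 4797)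
 (EL.cons 11 (TM.mk (P.cons (P.cons (P.lf 0 206896914 0) (P.cons (P.lf 204009081 0 0) (P.cons (P.lf 6383640 0 0) (P.cons (P.lf 0 1169772 0) (P.lf 0 41775 0))))) (P.cons (P.cons (P.lf 0 11403057 0) (P.cons (P.lf 11243892 0 0) (P.cons (P.lf 351831 0 0) (P.cons (P.lf 0 64470 0) (P.lf 0 2301 0))))) (P.cons (P.cons (P.lf 1495551 0 0) (P.cons (P.lf 0 1474677 0) (P.cons (P.lf 0 46143 0) (P.cons (P.lf 8454 0 0) P.nil)))) (P.cons (P.cons (P.lf 116829 0 0) (P.cons (P.lf 0 115200 0) (P.cons (P.lf 0 3603 0) P.nil))) (P.cons (P.cons (P.lf 0 903 0) (P.cons (P.lf 891 0 0) P.nil)) (P.cons (P.cons (P.lf 0 297 0) P.nil) P.nil)))))) 1803)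
 EL.nil)))
noncomputable def S154_169_734_808_24 : EL := (EL.cons 4 (TM.mk (P.cons (P.cons (P.lf 0 109914876 0) (P.cons (P.lf 3609042 0 0) (P.cons (P.lf 0 1316724 0) (P.cons (P.lf 0 446469 0) (P.cons (P.lf 68832 0 0) (P.cons (P.lf 8211 0 0) P.nil)))))) (P.cons (P.cons (P.lf 55584330 0 0) (P.cons (P.lf 838893 0 0) (P.cons (P.lf 0 310254 0) (P.cons (P.lf 0 99819 0) (P.cons (P.lf 15252 0 0) P.nil))))) (P.cons (P.cons (P.lf 0 3419808 0) (P.cons (P.lf 439503 0 0) (P.cons (P.lf 0 206655 0) (P.cons (P.lf 0 10650 0) P.nil)))) (P.cons (P.cons (P.lf 0 42168 0) (P.cons (P.lf 35130 0 0) (P.cons (P.lf 0 17862 0) P.nil))) (P.cons (P.cons (P.lf 115941 0 0) (P.cons (P.lf 0 5634 0) P.nil)) (P.cons (P.cons (P.lf 0 2532 0) P.nil) P.nil)))))) 17010)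
 (EL.cons 8 (TM.mk (P.cons (P.cons (P.lf 65205192 0 0) (P.cons (P.lf 0 2141004 0) (P.cons (P.lf 781125 0 0) (P.cons (P.lf 264861 0 0) (P.cons (P.lf 0 40833 0) (P.cons (P.lf 0 4869 0) P.nil)))))) (P.cons (P.cons (P.lf 0 40274367 0) (P.cons (P.lf 0 257970 0) (P.cons (P.lf 96606 0 0) (P.cons (P.lf 29565 0 0) (P.cons (P.lf 0 4476 0) P.nil))))) (P.cons (P.cons (P.lf 6042519 0 0) (P.cons (P.lf 0 215595 0) (P.cons (P.lf 105849 0 0) (P.cons (P.lf 996 0 0) P.nil)))) (P.cons (P.cons (P.lf 0 384984 0) (P.cons (P.lf 6543 0 0) (P.cons (P.lf 0 2457 0) P.nil))) (P.cons (P.cons (P.lf 0 50403 0) (P.cons (P.lf 4506 0 0) P.nil)) (P.cons (P.cons (P.lf 8106 0 0) P.nil) P.nil)))))) 8079)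
 (EL.cons 11 (TM.mk (P.cons (P.cons (P.lf 41117478 0 0) (P.cons (P.lf 0 38687259 0) (P.cons (P.lf 0 3975333 0) (P.cons (P.lf 997530 0 0) (P.cons (P.lf 86979 0 0) (P.cons (P.lf 0 3291 0) P.nil)))))) (P.cons (P.cons (P.lf 0 1710771 0) (P.cons (P.lf 2099331 0 0) (P.cons (P.lf 0 548589 0) (P.cons (P.lf 160308 0 0) (P.cons (P.lf 17133 0 0) P.nil))))) (P.cons (P.cons (P.lf 249762 0 0) (P.cons (P.lf 0 230475 0) (P.cons (P.lf 0 30747 0) (P.cons (P.lf 7923 0 0) P.nil)))) (P.cons (P.cons (P.lf 88662 0 0) (P.cons (P.lf 0 90699 0) (P.cons (P.lf 2040 0 0) P.nil))) (P.cons (P.cons (P.lf 0 2448 0) (P.cons (P.lf 2061 0 0) P.nil)) (P.cons (P.cons (P.lf 0 921 0) P.nil) P.nil)))))) 9372)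
 EL.nil)))
noncomputable def S154_169_734_808_25 : EL := (EL.cons 4 (TM.mk (P.cons (P.cons (P.lf 0 348896925 0) (P.cons (P.lf 27207441 0 0) (P.cons (P.lf 0 12843573 0) (P.lf 0 611595 0)))) (P.cons (P.cons (P.lf 162322599 0 0) (P.cons (P.lf 0 46881 0) (P.cons (P.lf 22131 0 0) (P.lf 1056 0 0)))) (P.cons (P.cons (P.lf 2192352 0 0) (P.cons (P.lf 0 512001 0) (P.cons (P.lf 241695 0 0) (P.lf 11508 0 0)))) (P.cons (P.cons (P.lf 0 2379828 0) (P.cons (P.lf 0 11121 0) (P.cons (P.lf 5244 0 0) P.nil))) (P.cons (P.cons (P.lf 0 47043 0) (P.cons (P.lf 3828 0 0) P.nil)) (P.cons (P.cons (P.lf 14514 0 0) P.nil) P.nil)))))) 6750)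
 (EL.cons 8 (TM.mk (P.cons (P.cons (P.lf 206977368 0 0) (P.cons (P.lf 0 16140369 0) (P.cons (P.lf 7619241 0 0) (P.lf 362820 0 0)))) (P.cons (P.cons (P.lf 0 119466819 0) (P.cons (P.lf 1834758 0 0) (P.cons (P.lf 0 866118 0) (P.lf 0 41241 0)))) (P.cons (P.cons (P.lf 10502646 0 0) (P.cons (P.lf 220863 0 0) (P.cons (P.lf 0 104262 0) (P.lf 0 4962 0)))) (P.cons (P.cons (P.lf 1018275 0 0) (P.cons (P.lf 0 22329 0) (P.cons (P.lf 10539 0 0) P.nil))) (P.cons (P.cons (P.lf 0 103734 0) (P.cons (P.lf 0 1776 0) P.nil)) (P.cons (P.cons (P.lf 0 6123 0) P.nil) P.nil)))))) 4092)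
 (EL.cons 11 (TM.mk (P.cons (P.cons (P.lf 130517016 0 0) (P.cons (P.lf 0 128695281 0) (P.cons (P.lf 0 4026999 0) (P.cons (P.lf 737928 0 0) (P.lf 26352 0 0))))) (P.cons (P.cons (P.lf 0 149919 0) (P.cons (P.lf 147828 0 0) (P.cons (P.lf 4626 0 0) (P.cons (P.lf 0 846 0) (P.lf 0 30 0))))) (P.cons (P.cons (P.lf 0 1637457 0) (P.cons (P.lf 1614603 0 0) (P.cons (P.lf 50523 0 0) (P.cons (P.lf 0 9258 0) P.nil)))) (P.cons (P.cons (P.lf 0 36513 0) (P.cons (P.lf 36003 0 0) (P.cons (P.lf 1125 0 0) P.nil))) (P.cons (P.cons (P.lf 7077 0 0) (P.cons (P.lf 0 6978 0) P.nil)) (P.cons (P.cons (P.lf 339 0 0) P.nil) P.nil)))))) 1923)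
 EL.nil)))
noncomputable def S154_169_734_808_26 : EL := (EL.cons 4 (TM.mk (P.cons (P.cons (P.lf 69337728 0 0) (P.cons (P.lf 0 2276694 0) (P.cons (P.lf 830628 0 0) (P.cons (P.lf 281646 0 0) (P.cons (P.lf 0 43422 0) (P.cons (P.lf 0 5178 0) P.nil)))))) (P.cons (P.cons (P.lf 0 38965500 0) (P.cons (P.lf 0 401106 0) (P.cons (P.lf 148983 0 0) (P.cons (P.lf 47121 0 0) (P.cons (P.lf 0 7179 0) P.nil))))) (P.cons (P.cons (P.lf 3976470 0 0) (P.cons (P.lf 0 242430 0) (P.cons (P.lf 117510 0 0) (P.cons (P.lf 2550 0 0) P.nil)))) (P.cons (P.cons (P.lf 0 17028 0) (P.cons (P.lf 0 5391 0) (P.cons (P.lf 3501 0 0) P.nil))) (P.cons (P.cons (P.lf 0 79287 0) (P.cons (P.lf 5412 0 0) P.nil)) (P.cons (P.cons (P.lf 5586 0 0) P.nil) P.nil)))))) 12885)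
 (EL.cons 8 (TM.mk (P.cons (P.cons (P.lf 0 41133465 0) (P.cons (P.lf 1350612 0 0) (P.cons (P.lf 0 492756 0) (P.cons (P.lf 0 167082 0) (P.cons (P.lf 25758 0 0) (P.cons (P.lf 3072 0 0) P.nil)))))) (P.cons (P.cons (P.lf 27720630 0 0) (P.cons (P.lf 86745 0 0) (P.cons (P.lf 0 33216 0) (P.cons (P.lf 0 9249 0) (P.cons (P.lf 1374 0 0) P.nil))))) (P.cons (P.cons (P.lf 0 5150079 0) (P.cons (P.lf 123852 0 0) (P.cons (P.lf 0 62250 0) (P.cons (P.lf 789 0 0) P.nil)))) (P.cons (P.cons (P.lf 400995 0 0) (P.cons (P.lf 0 12138 0) (P.cons (P.lf 5442 0 0) P.nil))) (P.cons (P.cons (P.lf 26505 0 0) (P.cons (P.lf 0 2907 0) P.nil)) (P.cons (P.cons (P.lf 0 7392 0) P.nil) P.nil)))))) 5982)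
 (EL.cons 11 (TM.mk (P.cons (P.cons (P.lf 0 25938186 0) (P.cons (P.lf 24405129 0 0) (P.cons (P.lf 2507763 0 0) (P.cons (P.lf 0 629271 0) (P.cons (P.lf 0 54870 0) (P.cons (P.lf 2076 0 0) P.nil)))))) (P.cons (P.cons (P.lf 2538576 0 0) (P.cons (P.lf 0 2697438 0) (P.cons (P.lf 204972 0 0) (P.cons (P.lf 0 65721 0) (P.cons (P.lf 0 7722 0) P.nil))))) (P.cons (P.cons (P.lf 0 160785 0) (P.cons (P.lf 165807 0 0) (P.cons (P.lf 0 5631 0) (P.cons (P.lf 2085 0 0) P.nil)))) (P.cons (P.cons (P.lf 0 49467 0) (P.cons (P.lf 51981 0 0) (P.cons (P.lf 0 3144 0) P.nil))) (P.cons (P.cons (P.lf 4986 0 0) (P.cons (P.lf 0 4791 0) P.nil)) (P.cons (P.cons (P.lf 618 0 0) P.nil) P.nil)))))) 7182)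
 EL.nil)))
noncomputable def S154_169_734_808_27 : EL := (EL.cons 13 (TM.mk (P.lf 0 4294967296 0) 0)
 EL.nil)
noncomputable def S154_169_734_808_28 : EL := (EL.cons 13 (TM.mk (P.cons (P.cons (P.lf 853556607 0 0) (P.cons (P.lf 38535040 0 0) (P.cons (P.lf 0 18190896 0) (P.lf 0 866232 0)))) (P.cons (P.cons (P.lf 0 82557410 0) (P.cons (P.lf 6437932 0 0) (P.cons (P.lf 0 3039096 0) (P.lf 0 144716 0)))) (P.cons (P.cons (P.lf 15904915 0 0) (P.cons (P.lf 251772 0 0) (P.cons (P.lf 0 118852 0) (P.lf 0 5656 0)))) (P.cons (P.cons (P.lf 849166 0 0) (P.cons (P.lf 0 13600 0) (P.cons (P.lf 6416 0 0) P.nil))) (P.cons (P.cons (P.lf 0 33026 0) (P.cons (P.lf 0 1256 0) P.nil)) (P.cons (P.cons (P.lf 0 3108 0) P.nil) P.nil)))))) 1717)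
 EL.nil)
noncomputable def S154_169_734_808_29 : EL := (EL.cons 13 (TM.mk (P.cons (P.cons (P.lf 0 169630833 0) (P.cons (P.lf 0 15316455 0) (P.cons (P.lf 6884562 0 0) (P.cons (P.lf 670722 0 0) (P.cons (P.lf 0 61501 0) (P.cons (P.lf 0 7337 0) P.nil)))))) (P.cons (P.cons (P.lf 32813950 0 0) (P.cons (P.lf 0 1077440 0) (P.cons (P.lf 393093 0 0) (P.cons (P.lf 133287 0 0) (P.cons (P.lf 0 20549 0) P.nil))))) (P.cons (P.cons (P.lf 0 7908608 0) (P.cons (P.lf 0 137975 0) (P.cons (P.lf 50964 0 0) (P.cons (P.lf 16476 0 0) P.nil)))) (P.cons (P.cons (P.lf 273928 0 0) (P.cons (P.lf 0 47834 0) (P.cons (P.lf 22071 0 0) P.nil))) (P.cons (P.cons (P.lf 0 13126 0) (P.cons (P.lf 0 3841 0) P.nil)) (P.cons (P.cons (P.lf 0 6323 0) P.nil) P.nil)))))) 14551)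
 EL.nil)
noncomputable def S154_169_734_808_30 : EL := (EL.cons 13 (TM.mk (P.cons (P.lf 2709399152 0 0) (P.cons (P.lf 0 152439880 0) (P.cons (P.lf 0 6005424 0) (P.cons (P.lf 1008 0 0) (P.cons (P.lf 5528 0 0) (P.cons (P.lf 124 0 0) P.nil)))))) 64)
 EL.nil)
noncomputable def S154_169_734_808_31 : EL := (EL.cons 13 (TM.mk (P.cons (P.cons (P.lf 0 538450094 0) (P.cons (P.lf 0 24309103 0) (P.cons (P.lf 11475383 0 0) (P.lf 546446 0 0)))) (P.cons (P.cons (P.lf 82374793 0 0) (P.cons (P.lf 0 2693536 0) (P.cons (P.lf 1271512 0 0) (P.lf 60546 0 0)))) (P.cons (P.cons (P.lf 0 11770016 0) (P.cons (P.lf 123555 0 0) (P.cons (P.lf 0 58325 0) (P.lf 0 2779 0)))) (P.cons (P.cons (P.lf 0 86808 0) (P.cons (P.lf 26508 0 0) (P.cons (P.lf 0 12510 0) P.nil))) (P.cons (P.cons (P.lf 72132 0 0) (P.cons (P.lf 610 0 0) P.nil)) (P.cons (P.cons (P.lf 2053 0 0) P.nil) P.nil)))))) 2285)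
 EL.nil)
noncomputable def S154_169_734_808_32 : EL := (EL.cons 13 (TM.mk (P.cons (P.cons (P.lf 107008413 0 0) (P.cons (P.lf 9662096 0 0) (P.cons (P.lf 0 4342996 0) (P.cons (P.lf 0 423112 0) (P.cons (P.lf 38796 0 0) (P.cons (P.lf 4628 0 0) P.nil)))))) (P.cons (P.cons (P.lf 0 26720713 0) (P.cons (P.lf 136060 0 0) (P.cons (P.lf 0 3623 0) (P.cons (P.lf 0 60275 0) (P.cons (P.lf 10780 0 0) P.nil))))) (P.cons (P.cons (P.lf 5916465 0 0) (P.cons (P.lf 27381 0 0) (P.cons (P.lf 0 8571 0) (P.cons (P.lf 0 4725 0) P.nil)))) (P.cons (P.cons (P.lf 0 407578 0) (P.cons (P.lf 23775 0 0) (P.cons (P.lf 0 11566 0) P.nil))) (P.cons (P.cons (P.lf 7155 0 0) (P.cons (P.lf 552 0 0) P.nil)) (P.cons (P.cons (P.lf 3870 0 0) P.nil) P.nil)))))) 13021)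
 EL.nil)
noncomputable def S154_169_734_808_33 : EL := (EL.cons 14 (TM.mk (P.lf 8589934592 0 0) 0)
 EL.nil)
noncomputable def S154_169_734_808_34 : EL := (EL.cons 14 (TM.mk (P.cons (P.cons (P.lf 0 1707113214 0) (P.cons (P.lf 0 77070080 0) (P.cons (P.lf 36381792 0 0) (P.lf 1732464 0 0)))) (P.cons (P.cons (P.lf 165114820 0 0) (P.cons (P.lf 0 12875864 0) (P.cons (P.lf 6078192 0 0) (P.lf 289432 0 0)))) (P.cons (P.cons (P.lf 0 31809830 0) (P.cons (P.lf 0 503544 0) (P.cons (P.lf 237704 0 0) (P.lf 11312 0 0)))) (P.cons (P.cons (P.lf 0 1698332 0) (P.cons (P.lf 27200 0 0) (P.cons (P.lf 0 12832 0) P.nil))) (P.cons (P.cons (P.lf 66052 0 0) (P.cons (P.lf 2512 0 0) P.nil)) (P.cons (P.cons (P.lf 6216 0 0) P.nil) P.nil)))))) 3434)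
 EL.nil)
noncomputable def S154_169_734_808_35 : EL := (EL.cons 14 (TM.mk (P.cons (P.cons (P.lf 339261666 0 0) (P.cons (P.lf 30632910 0 0) (P.cons (P.lf 0 13769124 0) (P.cons (P.lf 0 1341444 0) (P.cons (P.lf 123002 0 0) (P.cons (P.lf 14674 0 0) P.nil)))))) (P.cons (P.cons (P.lf 0 65627900 0) (P.cons (P.lf 2154880 0 0) (P.cons (P.lf 0 786186 0) (P.cons (P.lf 0 266574 0) (P.cons (P.lf 41098 0 0) P.nil))))) (P.cons (P.cons (P.lf 15817216 0 0) (P.cons (P.lf 275950 0 0) (P.cons (P.lf 0 101928 0) (P.cons (P.lf 0 32952 0) P.nil)))) (P.cons (P.cons (P.lf 0 547856 0) (P.cons (P.lf 95668 0 0) (P.cons (P.lf 0 44142 0) P.nil))) (P.cons (P.cons (P.lf 26252 0 0) (P.cons (P.lf 7682 0 0) P.nil)) (P.cons (P.cons (P.lf 12646 0 0) P.nil) P.nil)))))) 29102)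
 EL.nil)
noncomputable def S154_169_734_808_36 : EL := (EL.cons 14 (TM.mk (P.cons (P.lf 0 5418798304 0) (P.cons (P.lf 304879760 0 0) (P.cons (P.lf 12010848 0 0) (P.cons (P.lf 0 2016 0) (P.cons (P.lf 0 11056 0) (P.cons (P.lf 0 248 0) P.nil)))))) 128)
 EL.nil)
noncomputable def S154_169_734_808_37 : EL := (EL.cons 14 (TM.mk (P.cons (P.cons (P.lf 1076900188 0 0) (P.cons (P.lf 48618206 0 0) (P.cons (P.lf 0 22950766 0) (P.lf 0 1092892 0)))) (P.cons (P.cons (P.lf 0 164749586 0) (P.cons (P.lf 5387072 0 0) (P.cons (P.lf 0 2543024 0) (P.lf 0 121092 0)))) (P.cons (P.cons (P.lf 23540032 0 0) (P.cons (P.lf 0 247110 0) (P.cons (P.lf 116650 0 0) (P.lf 5558 0 0)))) (P.cons (P.cons (P.lf 173616 0 0) (P.cons (P.lf 0 53016 0) (P.cons (P.lf 25020 0 0) P.nil))) (P.cons (P.cons (P.lf 0 144264 0) (P.cons (P.lf 0 1220 0) P.nil)) (P.cons (P.cons (P.lf 0 4106 0) P.nil) P.nil))))))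 4570)
 EL.nil)
noncomputable def S154_169_734_808_38 : EL := (EL.cons 14 (TM.mk (P.cons (P.cons (P.lf 0 214016826 0) (P.cons (P.lf 0 19324192 0) (P.cons (P.lf 8685992 0 0) (P.cons (P.lf 846224 0 0) (P.cons (P.lf 0 77592 0) (P.cons (P.lf 0 9256 0) P.nil)))))) (P.cons (P.cons (P.lf 53441426 0 0) (P.cons (P.lf 0 272120 0) (P.cons (P.lf 7246 0 0) (P.cons (P.lf 120550 0 0) (P.cons (P.lf 0 21560 0) P.nil))))) (P.cons (P.cons (P.lf 0 11832930 0) (P.cons (P.lf 0 54762 0) (P.cons (P.lf 17142 0 0) (P.cons (P.lf 9450 0 0) P.nil)))) (P.cons (P.cons (P.lf 815156 0 0) (P.cons (P.lf 0 47550 0) (P.cons (P.lf 23132 0 0) P.nil))) (P.cons (P.cons (P.lf 0 14310 0) (P.cons (P.lf 0 1104 0) P.nil)) (P.cons (P.cons (P.lf 0 7740 0) P.nil) P.nil)))))) 26042)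
 EL.nil)
noncomputable def S154_169_734_808_39 : EL := (EL.cons 14 (TM.mk (P.cons (P.lf 3418346756 0 0) (P.cons (P.lf 0 384655298 0) (P.cons (P.lf 0 4332634 0) (P.cons (P.lf 855136 0 0) (P.cons (P.lf 30598 0 0) (P.cons (P.lf 0 476 0) P.nil)))))) 234)
 EL.nil)
noncomputable def S154_169_734_808_40 : EL := (EL.cons 14 (TM.mk (P.cons (P.cons (P.lf 0 679342182 0) (P.cons (P.lf 0 30669878 0) (P.cons (P.lf 14478058 0 0) (P.lf 689430 0 0)))) (P.cons (P.cons (P.lf 142151238 0 0) (P.cons (P.lf 0 1672742 0) (P.cons (P.lf 789634 0 0) (P.lf 37598 0 0)))) (P.cons (P.cons (P.lf 0 19191416 0) (P.cons (P.lf 415066 0 0) (P.cons (P.lf 0 195936 0) (P.lf 0 9332 0)))) (P.cons (P.cons (P.lf 495362 0 0) (P.cons (P.lf 32194 0 0) (P.cons (P.lf 0 15194 0) P.nil))) (P.cons (P.cons (P.lf 128736 0 0) (P.cons (P.lf 0 1520 0) P.nil)) (P.cons (P.cons (P.lf 0 2110 0) P.nil) P.nil))))))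 4824)
 EL.nil)
noncomputable def S154_169_734_808_41 : EL := (EL.cons 14 (TM.mk (P.cons (P.cons (P.lf 135008480 0 0) (P.cons (P.lf 12190302 0 0) (P.cons (P.lf 0 5479394 0) (P.cons (P.lf 0 533824 0) (P.cons (P.lf 48948 0 0) (P.cons (P.lf 5838 0 0) P.nil)))))) (P.cons (P.cons (P.lf 0 41308546 0) (P.cons (P.lf 0 514204 0) (P.cons (P.lf 303716 0 0) (P.cons (P.lf 0 46012 0) (P.cons (P.lf 10846 0 0) P.nil))))) (P.cons (P.cons (P.lf 9062112 0 0) (P.cons (P.lf 0 2132 0) (P.cons (P.lf 1588 0 0) (P.cons (P.lf 0 498 0) P.nil)))) (P.cons (P.cons (P.lf 0 859432 0) (P.cons (P.lf 27676 0 0) (P.cons (P.lf 0 13976 0) P.nil))) (P.cons (P.cons (P.lf 21676 0 0) (P.cons (P.lf 0 1042 0) P.nil)) (P.cons (P.cons (P.lf 5454 0 0) P.nil) P.nil)))))) 20708)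
 EL.nil)
noncomputable def S154_169_734_808_42 : EL := (EL.cons 14 (TM.mk (P.cons (P.lf 0 2156399608 0) (P.cons (P.lf 363978814 0 0) (P.cons (P.lf 0 6139592 0) (P.cons (P.lf 0 1231868 0) (P.cons (P.lf 680 0 0) (P.cons (P.lf 2978 0 0) P.nil)))))) 304)
 EL.nil)
noncomputable def S154_169_734_808_43 : EL := (EL.cons 14 (TM.mk (P.cons (P.cons (P.lf 428550208 0 0) (P.cons (P.lf 19347514 0 0) (P.cons (P.lf 0 9133210 0) (P.lf 0 434914 0)))) (P.cons (P.cons (P.lf 0 113785100 0) (P.cons (P.lf 0 33336 0) (P.cons (P.lf 15738 0 0) (P.lf 750 0 0)))) (P.cons (P.cons (P.lf 16201982 0 0) (P.cons (P.lf 0 364090 0) (P.cons (P.lf 171872 0 0) (P.lf 8186 0 0)))) (P.cons (P.cons (P.lf 0 794722 0) (P.cons (P.lf 0 7908 0) (P.cons (P.lf 3730 0 0) P.nil))) (P.cons (P.cons (P.lf 0 89622 0) (P.cons (P.lf 2722 0 0) P.nil)) (P.cons (P.cons (P.lf 6434 0 0) P.nil) P.nil)))))) 4632)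
 EL.nil)
noncomputable def S154_169_734_808_44 : EL := (EL.cons 14 (TM.mk (P.cons (P.cons (P.lf 0 85167554 0) (P.cons (P.lf 0 7690022 0) (P.cons (P.lf 3456572 0 0) (P.cons (P.lf 336752 0 0) (P.cons (P.lf 0 30878 0) (P.cons (P.lf 0 3682 0) P.nil)))))) (P.cons (P.cons (P.lf 30850530 0 0) (P.cons (P.lf 757042 0 0) (P.cons (P.lf 0 386072 0) (P.cons (P.lf 10078 0 0) (P.cons (P.lf 0 5104 0) P.nil))))) (P.cons (P.cons (P.lf 0 6994038 0) (P.cons (P.lf 138 0 0) (P.cons (P.lf 2116 0 0) (P.cons (P.lf 0 2064 0) P.nil)))) (P.cons (P.cons (P.lf 806004 0 0) (P.cons (P.lf 0 18256 0) (P.cons (P.lf 9298 0 0) P.nil))) (P.cons (P.cons (P.lf 0 31670 0) (P.cons (P.lf 1620 0 0) P.nil)) (P.cons (P.cons (P.lf 0 3826 0) P.nil) P.nil)))))) 16244)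
 EL.nil)
noncomputable def S154_169_734_808_45 : EL := (EL.cons 14 (TM.mk (P.cons (P.cons (P.lf 0 67422872 0) (P.cons (P.lf 0 9131706 0) (P.cons (P.lf 3898460 0 0) (P.cons (P.lf 588294 0 0) (P.cons (P.lf 0 64548 0) (P.cons (P.lf 0 12478 0) P.nil)))))) (P.cons (P.cons (P.lf 19563754 0 0) (P.cons (P.lf 240860 0 0) (P.cons (P.lf 0 211578 0) (P.cons (P.lf 83882 0 0) (P.cons (P.lf 0 13006 0) P.nil))))) (P.cons (P.cons (P.lf 0 5661250 0) (P.cons (P.lf 0 190286 0) (P.cons (P.lf 78574 0 0) (P.cons (P.lf 14258 0 0) P.nil)))) (P.cons (P.cons (P.lf 588868 0 0) (P.cons (P.lf 0 41616 0) (P.cons (P.lf 17694 0 0) P.nil))) (P.cons (P.cons (P.lf 0 58736 0) (P.cons (P.lf 0 1350 0) P.nil)) (P.cons (P.cons (P.lf 0 3366 0) P.nil) P.nil)))))) 26100)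
 EL.nil)
noncomputable def S154_169_734_808_46 : EL := (EL.cons 15 (TM.mk (P.lf 4294967296 0 0) 0)
 EL.nil)
noncomputable def S154_169_734_808_47 : EL := (EL.cons 15 (TM.mk (P.cons (P.cons (P.lf 0 853556607 0) (P.cons (P.lf 0 38535040 0) (P.cons (P.lf 18190896 0 0) (P.lf 866232 0 0)))) (P.cons (P.cons (P.lf 82557410 0 0) (P.cons (P.lf 0 6437932 0) (P.cons (P.lf 3039096 0 0) (P.lf 144716 0 0)))) (P.cons (P.cons (P.lf 0 15904915 0) (P.cons (P.lf 0 251772 0) (P.cons (P.lf 118852 0 0) (P.lf 5656 0 0)))) (P.cons (P.cons (P.lf 0 849166 0) (P.cons (P.lf 13600 0 0) (P.cons (P.lf 0 6416 0) P.nil))) (P.cons (P.cons (P.lf 33026 0 0) (P.cons (P.lf 1256 0 0) P.nil)) (P.cons (P.cons (P.lf 3108 0 0) P.nil) P.nil)))))) 1717)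
 EL.nil)
noncomputable def S154_169_734_808_48 : EL := (EL.cons 15 (TM.mk (P.cons (P.cons (P.lf 169630833 0 0) (P.cons (P.lf 15316455 0 0) (P.cons (P.lf 0 6884562 0) (P.cons (P.lf 0 670722 0) (P.cons (P.lf 61501 0 0) (P.cons (P.lf 7337 0 0) P.nil)))))) (P.cons (P.cons (P.lf 0 32813950 0) (P.cons (P.lf 1077440 0 0) (P.cons (P.lf 0 393093 0) (P.cons (P.lf 0 133287 0) (P.cons (P.lf 20549 0 0) P.nil))))) (P.cons (P.cons (P.lf 7908608 0 0) (P.cons (P.lf 137975 0 0) (P.cons (P.lf 0 50964 0) (P.cons (P.lf 0 16476 0) P.nil)))) (P.cons (P.cons (P.lf 0 273928 0) (P.cons (P.lf 47834 0 0) (P.cons (P.lf 0 22071 0) P.nil))) (P.cons (P.cons (P.lf 13126 0 0) (P.cons (P.lf 3841 0 0) P.nil)) (P.cons (P.cons (P.lf 6323 0 0) P.nil) P.nil)))))) 14551)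
 EL.nil)
noncomputable def S154_169_734_808 : SL := (SL.cons S154_169_734_808_0 (SL.cons S154_169_734_808_1 (SL.cons S154_169_734_808_2 (SL.cons S154_169_734_808_3 (SL.cons S154_169_734_808_4 (SL.cons S154_169_734_808_5 (SL.cons S154_169_734_808_6 (SL.cons S154_169_734_808_7 (SL.cons S154_169_734_808_8 (SL.cons S154_169_734_808_9 (SL.cons S154_169_734_808_10 (SL.cons S154_169_734_808_11 (SL.cons S154_169_734_808_12 (SL.cons S154_169_734_808_13 (SL.cons S154_169_734_808_14 (SL.cons S154_169_734_808_15 (SL.cons S154_169_734_808_16 (SL.cons S154_169_734_808_17 (SL.cons S154_169_734_808_18 (SL.cons S154_169_734_808_19 (SL.cons S154_169_734_808_20 (SL.cons S154_169_734_808_21 (SL.cons S154_169_734_808_22 (SL.cons S154_169_734_808_23 (SL.cons S154_169_734_808_24 (SL.cons S154_169_734_808_25 (SL.cons S154_169_734_808_26 (SL.cons S154_169_734_808_27 (SL.cons S154_169_734_808_28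 (SL.cons S154_169_734_808_29 (SL.cons S154_169_734_808_30 (SL.cons S154_169_734_808_31 (SL.cons S154_169_734_808_32 (SL.cons S154_169_734_808_33 (SL.cons S154_169_734_808_34 (SL.cons S154_169_734_808_35 (SL.cons S154_169_734_808_36 (SL.cons S154_169_734_808_37 (SL.cons S154_169_734_808_38 (SL.cons S154_169_734_808_39 (SL.cons S154_169_734_808_40 (SL.cons S154_169_734_808_41 (SL.cons S154_169_734_808_42 (SL.cons S154_169_734_808_43 (SL.cons S154_169_734_808_44 (SL.cons S154_169_734_808_45 (SL.cons S154_169_734_808_46 (SL.cons S154_169_734_808_47 (SL.cons S154_169_734_808_48 SL.nil)))))))))))))))))))))))))))))))))))))))))))))))))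
noncomputable def S157_161_364_512_0 : EL := (EL.cons 0 (TM.mk (P.cons (P.lf 5339069171 0 0) (P.cons (P.lf 89410865 0 0) (P.cons (P.lf 322947 0 0) (P.cons (P.lf 0 13568 0) (P.cons (P.lf 0 131 0) (P.cons (P.lf 0 0 0) P.nil)))))) 147)
 (EL.cons 1 (TM.mk (P.cons (P.lf 0 1799795433 0) (P.cons (P.lf 0 1708912 0) (P.cons (P.lf 784286 0 0) (P.cons (P.lf 5216 0 0) (P.cons (P.lf 0 58 0) (P.cons (P.lf 0 0 0) P.nil)))))) 110)
 (EL.cons 5 (TM.mk (P.cons (P.lf 5403108702 0 0) (P.cons (P.lf 0 31790530 0) (P.cons (P.lf 0 114828 0) (P.cons (P.lf 4822 0 0) (P.cons (P.lf 48 0 0) (P.cons (P.lf 0 0 0) P.nil)))))) 83)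
 (EL.cons 9 (TM.mk (P.lf 6442450944 0 0) 2)
 EL.nil))))
noncomputable def S157_161_364_512_1 : EL := (EL.cons 0 (TM.mk (P.cons (P.cons (P.lf 0 3321682939 0) (P.cons (P.lf 274428113 0 0) (P.cons (P.lf 18347611 0 0) (P.lf 0 6115865 0)))) (P.cons (P.cons (P.lf 165539698 0 0) (P.cons (P.lf 0 11879381 0) (P.cons (P.lf 0 794239 0) (P.lf 264749 0 0)))) (P.cons (P.cons (P.lf 5512824 0 0) (P.cons (P.lf 0 1069346 0) (P.cons (P.lf 0 71489 0) (P.lf 23829 0 0)))) (P.cons (P.cons (P.lf 0 60134 0) (P.cons (P.lf 0 14680 0) (P.cons (P.lf 0 971 0) P.nil))) (P.cons (P.cons (P.lf 0 3082 0) (P.cons (P.lf 266 0 0) P.nil)) (P.cons (P.cons (P.lf 0 3 0) P.nil) P.nil)))))) 3414)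
 (EL.cons 1 (TM.mk (P.cons (P.cons (P.lf 0 31641876 0) (P.cons (P.lf 110916606 0 0) (P.cons (P.lf 7415620 0 0) (P.lf 0 2471867 0)))) (P.cons (P.cons (P.lf 0 97351265 0) (P.cons (P.lf 16868103 0 0) (P.cons (P.lf 1127752 0 0) (P.lf 0 375909 0)))) (P.cons (P.cons (P.lf 1153166 0 0) (P.cons (P.lf 245568 0 0) (P.cons (P.lf 16412 0 0) (P.lf 0 5464 0)))) (P.cons (P.cons (P.lf 89372 0 0) (P.cons (P.lf 0 9892 0) (P.cons (P.lf 0 650 0) P.nil))) (P.cons (P.cons (P.lf 0 6 0) (P.cons (P.lf 0 245 0) P.nil)) (P.cons (P.cons (P.lf 0 20 0) P.nil) P.nil)))))) 1700)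
 (EL.cons 5 (TM.mk (P.cons (P.cons (P.lf 1590161999 0 0) (P.cons (P.lf 0 597146778 0) (P.cons (P.lf 0 39923840 0) (P.lf 13307944 0 0)))) (P.cons (P.cons (P.lf 70871380 0 0) (P.cons (P.lf 0 18696970 0) (P.cons (P.lf 0 1250032 0) (P.lf 416674 0 0)))) (P.cons (P.cons (P.lf 0 2791085 0) (P.cons (P.lf 122150 0 0) (P.cons (P.lf 8164 0 0) (P.lf 0 2718 0)))) (P.cons (P.cons (P.lf 0 19178 0) (P.cons (P.lf 8320 0 0) (P.cons (P.lf 552 0 0) P.nil))) (P.cons (P.cons (P.lf 1011 0 0) (P.cons (P.lf 0 8 0) P.nil)) (P.cons (P.cons (P.lf 0 0 0) P.nil) P.nil)))))) 1847)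
 (EL.cons 9 (TM.mk (P.cons (P.cons (P.lf 360987499 0 0) (P.cons (P.lf 0 440799120 0) (P.cons (P.lf 0 29470800 0) (P.lf 9823596 0 0)))) (P.cons (P.cons (P.lf 114467580 0 0) (P.cons (P.lf 0 20224188 0) (P.cons (P.lf 0 1352136 0) (P.lf 450708 0 0)))) (P.cons (P.cons (P.lf 0 733207 0) (P.cons (P.lf 0 227694 0) (P.cons (P.lf 0 15222 0) (P.lf 5070 0 0)))) (P.cons (P.cons (P.lf 0 35772 0) (P.cons (P.lf 2736 0 0) (P.cons (P.lf 180 0 0) P.nil))) (P.cons (P.cons (P.lf 0 76 0) (P.cons (P.lf 72 0 0) P.nil)) (P.cons (P.cons (P.lf 0 0 0) P.nil) P.nil)))))) 677)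
 (EL.cons 2 (TM.mk (P.cons (P.cons (P.lf 871028516 0 0) (P.cons (P.lf 134857085 0 0) (P.cons (P.lf 0 64969889 0) (P.cons (P.lf 0 2458648 0) (P.lf 614660 0 0))))) (P.cons (P.cons (P.lf 14148188 0 0) (P.cons (P.lf 2190493 0 0) (P.cons (P.lf 0 1055309 0) (P.cons (P.lf 0 39934 0) (P.lf 9981 0 0))))) (P.cons (P.cons (P.lf 0 420662 0) (P.cons (P.lf 0 65129 0) (P.cons (P.lf 31376 0 0) (P.cons (P.lf 1186 0 0) P.nil)))) (P.cons (P.cons (P.lf 0 9576 0) (P.cons (P.lf 0 1482 0) (P.cons (P.lf 711 0 0) P.nil))) (P.cons (P.cons (P.lf 8 0 0) (P.cons (P.lf 0 0 0) P.nil)) (P.cons (P.cons (P.lf 0 0 0) P.nil) P.nil)))))) 715)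
 (EL.cons 6 (TM.mk (P.cons (P.cons (P.lf 502999794 0 0) (P.cons (P.lf 77876997 0 0) (P.cons (P.lf 0 37518681 0) (P.cons (P.lf 0 1419816 0) (P.lf 354954 0 0))))) (P.cons (P.cons (P.lf 23078001 0 0) (P.cons (P.lf 3573054 0 0) (P.cons (P.lf 0 1721382 0) (P.cons (P.lf 0 65139 0) (P.lf 16284 0 0))))) (P.cons (P.cons (P.lf 259830 0 0) (P.cons (P.lf 40227 0 0) (P.cons (P.lf 0 19380 0) (P.cons (P.lf 0 732 0) P.nil)))) (P.cons (P.cons (P.lf 0 3123 0) (P.cons (P.lf 0 483 0) (P.cons (P.lf 231 0 0) P.nil))) (P.cons (P.cons (P.lf 0 84 0) (P.cons (P.lf 0 12 0) P.nil)) (P.cons (P.cons (P.lf 0 0 0) P.nil) P.nil)))))) 411)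
 EL.nil))))))
noncomputable def S157_161_364_512_2 : EL := (EL.cons 0 (TM.mk (P.cons (P.cons (P.lf 0 389008132 0) (P.cons (P.lf 526237744 0 0) (P.cons (P.lf 0 27364797 0) (P.cons (P.lf 0 20091265 0) (P.cons (P.lf 2508271 0 0) (P.cons (P.lf 186383 0 0) P.nil)))))) (P.cons (P.cons (P.lf 0 110397687 0) (P.cons (P.lf 22167831 0 0) (P.cons (P.lf 0 1327396 0) (P.cons (P.lf 0 869682 0) (P.cons (P.lf 112662 0 0) P.nil))))) (P.cons (P.cons (P.lf 5459943 0 0) (P.cons (P.lf 0 1378446 0) (P.cons (P.lf 0 8999 0) (P.cons (P.lf 41834 0 0) P.nil)))) (P.cons (P.cons (P.lf 185595 0 0) (P.cons (P.lf 0 72580 0) (P.cons (P.lf 2673 0 0) P.nil))) (P.cons (P.cons (P.lf 0 4151 0) (P.cons (P.lf 6 0 0) P.nil)) (P.cons (P.cons (P.lf 0 142 0) P.nil) P.nil)))))) 133105)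
 (EL.cons 1 (TM.mk (P.cons (P.cons (P.lf 2104789 0 0) (P.cons (P.lf 2959689 0 0) (P.cons (P.lf 0 6554542 0) (P.cons (P.lf 0 968855 0) (P.cons (P.lf 270784 0 0) (P.cons (P.lf 20116 0 0) P.nil)))))) (P.cons (P.cons (P.lf 0 8445087 0) (P.cons (P.lf 14329969 0 0) (P.cons (P.lf 0 1265427 0) (P.cons (P.lf 0 616666 0) (P.cons (P.lf 89160 0 0) P.nil))))) (P.cons (P.cons (P.lf 0 2776813 0) (P.cons (P.lf 878713 0 0) (P.cons (P.lf 0 65092 0) (P.cons (P.lf 0 36136 0) P.nil)))) (P.cons (P.cons (P.lf 64044 0 0) (P.cons (P.lf 0 7538 0) (P.cons (P.lf 0 1828 0) P.nil))) (P.cons (P.cons (P.lf 3395 0 0) (P.cons (P.lf 0 1137 0) P.nil)) (P.cons (P.cons (P.lf 0 25 0) P.nil) P.nil)))))) 56990)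
 (EL.cons 5 (TM.mk (P.cons (P.cons (P.lf 161238020 0 0) (P.cons (P.lf 0 243091463 0) (P.cons (P.lf 40167949 0 0) (P.cons (P.lf 12961779 0 0) (P.cons (P.lf 0 2262552 0) (P.cons (P.lf 0 168124 0) P.nil)))))) (P.cons (P.cons (P.lf 53790727 0 0) (P.cons (P.lf 0 28203017 0) (P.cons (P.lf 2249856 0 0) (P.cons (P.lf 1181491 0 0) (P.cons (P.lf 0 165828 0) P.nil))))) (P.cons (P.cons (P.lf 270581 0 0) (P.cons (P.lf 0 239595 0) (P.cons (P.lf 61672 0 0) (P.cons (P.lf 15735 0 0) P.nil)))) (P.cons (P.cons (P.lf 0 100049 0) (P.cons (P.lf 27743 0 0) (P.cons (P.lf 382 0 0) P.nil))) (P.cons (P.cons (P.lf 114 0 0) (P.cons (P.lf 439 0 0) P.nil)) (P.cons (P.cons (P.lf 46 0 0) P.nil) P.nil)))))) 64821)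
 (EL.cons 9 (TM.mk (P.cons (P.cons (P.lf 20227080 0 0) (P.cons (P.lf 0 49398271 0) (P.cons (P.lf 26857275 0 0) (P.cons (P.lf 5133727 0 0) (P.cons (P.lf 0 1209466 0) (P.cons (P.lf 0 89874 0) P.nil)))))) (P.cons (P.cons (P.lf 12827839 0 0) (P.cons (P.lf 0 17930407 0) (P.cons (P.lf 1568734 0 0) (P.cons (P.lf 769653 0 0) (P.cons (P.lf 0 110980 0) P.nil))))) (P.cons (P.cons (P.lf 1951659 0 0) (P.cons (P.lf 0 643857 0) (P.cons (P.lf 51598 0 0) (P.cons (P.lf 27003 0 0) P.nil)))) (P.cons (P.cons (P.lf 0 30063 0) (P.cons (P.lf 1713 0 0) (P.cons (P.lf 1168 0 0) P.nil))) (P.cons (P.cons (P.lf 0 1195 0) (P.cons (P.lf 391 0 0) P.nil)) (P.cons (P.cons (P.lf 4 0 0) P.nil) P.nil)))))) 30623)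
 (EL.cons 2 (TM.mk (P.cons (P.cons (P.lf 97612042 0 0) (P.cons (P.lf 0 104080533 0) (P.cons (P.lf 0 33703976 0) (P.cons (P.lf 10037610 0 0) (P.cons (P.lf 1410997 0 0) (P.cons (P.lf 0 259751 0) P.nil)))))) (P.cons (P.cons (P.lf 32537874 0 0) (P.cons (P.lf 0 2367061 0) (P.cons (P.lf 0 4068495 0) (P.cons (P.lf 548842 0 0) (P.cons (P.lf 106335 0 0) P.nil))))) (P.cons (P.cons (P.lf 257355 0 0) (P.cons (P.lf 0 52981 0) (P.cons (P.lf 0 39774 0) (P.cons (P.lf 7301 0 0) P.nil)))) (P.cons (P.cons (P.lf 0 28912 0) (P.cons (P.lf 0 781 0) (P.cons (P.lf 2970 0 0) P.nil))) (P.cons (P.cons (P.lf 0 421 0) (P.cons (P.lf 50 0 0) P.nil)) (P.cons (P.cons (P.lf 5 0 0) P.nil) P.nil)))))) 39436)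
 (EL.cons 6 (TM.mk (P.cons (P.cons (P.lf 56368806 0 0) (P.cons (P.lf 0 60104214 0) (P.cons (P.lf 0 19463304 0) (P.cons (P.lf 5796498 0 0) (P.cons (P.lf 814818 0 0) (P.cons (P.lf 0 150000 0) P.nil)))))) (P.cons (P.cons (P.lf 20460546 0 0) (P.cons (P.lf 0 3148272 0) (P.cons (P.lf 0 2926308 0) (P.cons (P.lf 488736 0 0) (P.cons (P.lf 85554 0 0) P.nil))))) (P.cons (P.cons (P.lf 734706 0 0) (P.cons (P.lf 0 102246 0) (P.cons (P.lf 0 102684 0) (P.cons (P.lf 16608 0 0) P.nil)))) (P.cons (P.cons (P.lf 0 1950 0) (P.cons (P.lf 0 2706 0) (P.cons (P.lf 0 384 0) P.nil))) (P.cons (P.cons (P.lf 0 444 0) (P.cons (P.lf 0 24 0) P.nil)) (P.cons (P.cons (P.lf 0 0 0) P.nil) P.nil)))))) 29946)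
 EL.nil))))))
noncomputable def S157_161_364_512_3 : EL := (EL.cons 0 (TM.mk (P.cons (P.lf 3116647692 0 0) (P.cons (P.lf 0 89410865 0) (P.cons (P.lf 0 322947 0) (P.cons (P.lf 13568 0 0) (P.cons (P.lf 131 0 0) (P.cons (P.lf 0 0 0) P.nil)))))) 147)
 (EL.cons 1 (TM.mk (P.cons (P.lf 1799795433 0 0) (P.cons (P.lf 1708912 0 0) (P.cons (P.lf 0 784286 0) (P.cons (P.lf 0 5216 0) (P.cons (P.lf 58 0 0) (P.cons (P.lf 0 0 0) P.nil)))))) 110)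
 (EL.cons 5 (TM.mk (P.cons (P.lf 1039342242 0 0) (P.cons (P.lf 31790530 0 0) (P.cons (P.lf 114828 0 0) (P.cons (P.lf 0 4822 0) (P.cons (P.lf 0 48 0) (P.cons (P.lf 0 0 0) P.nil)))))) 76)
 EL.nil)))
noncomputable def S157_161_364_512_4 : EL := (EL.cons 0 (TM.mk (P.cons (P.cons (P.lf 174633980 0 0) (P.cons (P.lf 0 213244240 0) (P.cons (P.lf 0 14257010 0) (P.lf 4752333 0 0)))) (P.cons (P.cons (P.lf 50365756 0 0) (P.cons (P.lf 0 3666218 0) (P.cons (P.lf 0 245111 0) (P.lf 81701 0 0)))) (P.cons (P.cons (P.lf 0 1961423 0) (P.cons (P.lf 192624 0 0) (P.cons (P.lf 12877 0 0) (P.lf 0 4294 0)))) (P.cons (P.cons (P.lf 0 12106 0) (P.cons (P.lf 4568 0 0) (P.cons (P.lf 302 0 0) P.nil))) (P.cons (P.cons (P.lf 743 0 0) (P.cons (P.lf 0 42 0) P.nil)) (P.cons (P.cons (P.lf 3 0 0) P.nil) P.nil)))))) 525)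
 (EL.cons 1 (TM.mk (P.cons (P.cons (P.lf 100847278 0 0) (P.cons (P.lf 0 123143853 0) (P.cons (P.lf 0 8233110 0) (P.lf 2744368 0 0)))) (P.cons (P.cons (P.lf 32073991 0 0) (P.cons (P.lf 0 5766855 0) (P.cons (P.lf 0 385556 0) (P.lf 128516 0 0)))) (P.cons (P.cons (P.lf 0 218413 0) (P.cons (P.lf 0 15311 0) (P.cons (P.lf 0 1021 0) (P.lf 339 0 0)))) (P.cons (P.cons (P.lf 0 24414 0) (P.cons (P.lf 3521 0 0) (P.cons (P.lf 232 0 0) P.nil))) (P.cons (P.cons (P.lf 0 30 0) (P.cons (P.lf 60 0 0) P.nil)) (P.cons (P.cons (P.lf 5 0 0) P.nil) P.nil)))))) 337)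
 (EL.cons 5 (TM.mk (P.cons (P.cons (P.lf 58237082 0 0) (P.cons (P.lf 0 71112864 0) (P.cons (P.lf 0 4754440 0) (P.lf 1584812 0 0)))) (P.cons (P.cons (P.lf 20248034 0 0) (P.cons (P.lf 0 5437850 0) (P.cons (P.lf 0 363560 0) (P.lf 121184 0 0)))) (P.cons (P.cons (P.lf 452992 0 0) (P.cons (P.lf 0 144386 0) (P.cons (P.lf 0 9652 0) (P.lf 3216 0 0)))) (P.cons (P.cons (P.lf 0 7618 0) (P.cons (P.lf 0 712 0) (P.cons (P.lf 0 48 0) P.nil))) (P.cons (P.cons (P.lf 0 290 0) (P.cons (P.lf 38 0 0) P.nil)) (P.cons (P.cons (P.lf 0 0 0) P.nil) P.nil)))))) 228)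
 EL.nil)))
noncomputable def S157_161_364_512_5 : EL := (EL.cons 0 (TM.mk (P.cons (P.cons (P.lf 9785200 0 0) (P.cons (P.lf 0 23897272 0) (P.cons (P.lf 12992672 0 0) (P.cons (P.lf 2483528 0 0) (P.cons (P.lf 0 585100 0) (P.cons (P.lf 0 43477 0) P.nil)))))) (P.cons (P.cons (P.lf 5924970 0 0) (P.cons (P.lf 0 7988577 0) (P.cons (P.lf 386165 0 0) (P.cons (P.lf 301083 0 0) (P.cons (P.lf 0 36901 0) P.nil))))) (P.cons (P.cons (P.lf 765103 0 0) (P.cons (P.lf 0 60154 0) (P.cons (P.lf 1842 0 0) (P.cons (P.lf 2123 0 0) P.nil)))) (P.cons (P.cons (P.lf 0 42229 0) (P.cons (P.lf 10557 0 0) (P.cons (P.lf 0 172 0) P.nil))) (P.cons (P.cons (P.lf 0 230 0) (P.cons (P.lf 158 0 0) P.nil)) (P.cons (P.cons (P.lf 24 0 0) P.nil) P.nil)))))) 18612)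
 (EL.cons 1 (TM.mk (P.cons (P.cons (P.lf 5650736 0 0) (P.cons (P.lf 0 13800148 0) (P.cons (P.lf 7502981 0 0) (P.cons (P.lf 1434181 0 0) (P.cons (P.lf 0 337880 0) (P.cons (P.lf 0 25106 0) P.nil)))))) (P.cons (P.cons (P.lf 3589014 0 0) (P.cons (P.lf 0 5022230 0) (P.cons (P.lf 445372 0 0) (P.cons (P.lf 216375 0 0) (P.cons (P.lf 0 31323 0) P.nil))))) (P.cons (P.cons (P.lf 546165 0 0) (P.cons (P.lf 0 178612 0) (P.cons (P.lf 11559 0 0) (P.cons (P.lf 7121 0 0) P.nil)))) (P.cons (P.cons (P.lf 0 9457 0) (P.cons (P.lf 2529 0 0) (P.cons (P.lf 125 0 0) P.nil))) (P.cons (P.cons (P.lf 0 588 0) (P.cons (P.lf 200 0 0) P.nil)) (P.cons (P.cons (P.lf 1 0 0) P.nil) P.nil)))))) 10808)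
 (EL.cons 5 (TM.mk (P.cons (P.cons (P.lf 3263176 0 0) (P.cons (P.lf 0 7969280 0) (P.cons (P.lf 4332806 0 0) (P.cons (P.lf 828208 0 0) (P.cons (P.lf 0 195118 0) (P.cons (P.lf 0 14498 0) P.nil)))))) (P.cons (P.cons (P.lf 2169288 0 0) (P.cons (P.lf 0 3136418 0) (P.cons (P.lf 385606 0 0) (P.cons (P.lf 149498 0 0) (P.cons (P.lf 0 23872 0) P.nil))))) (P.cons (P.cons (P.lf 378514 0 0) (P.cons (P.lf 0 193230 0) (P.cons (P.lf 16542 0 0) (P.cons (P.lf 8244 0 0) P.nil)))) (P.cons (P.cons (P.lf 4994 0 0) (P.cons (P.lf 0 3182 0) (P.cons (P.lf 450 0 0) P.nil))) (P.cons (P.cons (P.lf 0 314 0) (P.cons (P.lf 72 0 0) P.nil)) (P.cons (P.cons (P.lf 0 6 0) P.nil) P.nil)))))) 6418)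
 EL.nil)))
noncomputable def S157_161_364_512_6 : EL := (EL.cons 12 (TM.mk (P.lf 8589934592 0 0) 0)
 (EL.cons 3 (TM.mk (P.cons (P.lf 0 2587073628 0) (P.cons (P.lf 37109182 0 0) (P.cons (P.lf 400185 0 0) (P.cons (P.lf 108 0 0) (P.cons (P.lf 0 22 0) (P.cons (P.lf 0 0 0) P.nil)))))) 59)
 (EL.cons 7 (TM.mk (P.cons (P.lf 0 1493978069 0) (P.cons (P.lf 0 22848275 0) (P.cons (P.lf 92187 0 0) (P.cons (P.lf 2056 0 0) (P.cons (P.lf 7 0 0) (P.cons (P.lf 0 0 0) P.nil)))))) 44)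
 EL.nil)))
noncomputable def S157_161_364_512_7 : EL := (EL.cons 12 (TM.mk (P.cons (P.cons (P.lf 481316666 0 0) (P.cons (P.lf 0 587732160 0) (P.cons (P.lf 0 39294400 0) (P.lf 13098128 0 0)))) (P.cons (P.cons (P.lf 152623440 0 0) (P.cons (P.lf 0 26965584 0) (P.cons (P.lf 0 1802848 0) (P.lf 600944 0 0)))) (P.cons (P.cons (P.lf 0 977610 0) (P.cons (P.lf 0 303592 0) (P.cons (P.lf 0 20296 0) (P.lf 6760 0 0)))) (P.cons (P.cons (P.lf 0 47696 0) (P.cons (P.lf 3648 0 0) (P.cons (P.lf 240 0 0) P.nil))) (P.cons (P.cons (P.lf 0 102 0) (P.cons (P.lf 96 0 0) P.nil)) (P.cons (P.cons (P.lf 0 0 0) P.nil) P.nil)))))) 878)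
 (EL.cons 3 (TM.mk (P.cons (P.cons (P.lf 2860638310 0 0) (P.cons (P.lf 0 354020476 0) (P.cons (P.lf 0 23668980 0) (P.lf 7889656 0 0)))) (P.cons (P.cons (P.lf 0 55283302 0) (P.cons (P.lf 0 11164620 0) (P.cons (P.lf 0 746434 0) (P.lf 248808 0 0)))) (P.cons (P.cons (P.lf 0 2469117 0) (P.cons (P.lf 104880 0 0) (P.cons (P.lf 7012 0 0) (P.lf 0 2340 0)))) (P.cons (P.cons (P.lf 0 12806 0) (P.cons (P.lf 7346 0 0) (P.cons (P.lf 486 0 0) P.nil))) (P.cons (P.cons (P.lf 651 0 0) (P.cons (P.lf 50 0 0) P.nil)) (P.cons (P.cons (P.lf 4 0 0) P.nil) P.nil)))))) 1766)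
 (EL.cons 7 (TM.mk (P.cons (P.cons (P.lf 0 1934271037 0) (P.cons (P.lf 429177303 0 0) (P.cons (P.lf 28693796 0 0) (P.lf 0 9564601 0)))) (P.cons (P.cons (P.lf 34038148 0 0) (P.cons (P.lf 6874107 0 0) (P.cons (P.lf 459590 0 0) (P.lf 0 153198 0)))) (P.cons (P.cons (P.lf 1015843 0 0) (P.cons (P.lf 0 166436 0) (P.cons (P.lf 0 11126 0) (P.lf 3706 0 0)))) (P.cons (P.cons (P.lf 0 18054 0) (P.cons (P.lf 0 2423 0) (P.cons (P.lf 0 163 0) P.nil))) (P.cons (P.cons (P.lf 0 357 0) (P.cons (P.lf 45 0 0) P.nil)) (P.cons (P.cons (P.lf 0 0 0) P.nil) P.nil)))))) 1225)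
 (EL.cons 10 (TM.mk (P.cons (P.cons (P.lf 0 1446050457 0) (P.cons (P.lf 0 223884924 0) (P.cons (P.lf 107860695 0 0) (P.cons (P.lf 4081764 0 0) (P.lf 0 1020441 0))))) (P.cons (P.cons (P.lf 0 44230578 0) (P.cons (P.lf 0 6848004 0) (P.cons (P.lf 3299151 0 0) (P.cons (P.lf 124848 0 0) (P.lf 0 31212 0))))) (P.cons (P.cons (P.lf 0 159759 0) (P.cons (P.lf 0 24735 0) (P.cons (P.lf 11916 0 0) (P.cons (P.lf 450 0 0) P.nil)))) (P.cons (P.cons (P.lf 6708 0 0) (P.cons (P.lf 1038 0 0) (P.cons (P.lf 0 498 0) P.nil))) (P.cons (P.cons (P.lf 66 0 0) (P.cons (P.lf 9 0 0) P.nil)) (P.cons P.nil P.nil)))))) 369)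
 EL.nil))))
noncomputable def S157_161_364_512_8 : EL := (EL.cons 12 (TM.mk (P.cons (P.cons (P.lf 26969440 0 0) (P.cons (P.lf 0 65864362 0) (P.cons (P.lf 35809700 0 0) (P.cons (P.lf 6844970 0 0) (P.cons (P.lf 0 1612622 0) (P.cons (P.lf 0 119832 0) P.nil)))))) (P.cons (P.cons (P.lf 17103786 0 0) (P.cons (P.lf 0 23907210 0) (P.cons (P.lf 2091646 0 0) (P.cons (P.lf 1026204 0 0) (P.cons (P.lf 0 147974 0) P.nil))))) (P.cons (P.cons (P.lf 2602212 0 0) (P.cons (P.lf 0 858476 0) (P.cons (P.lf 68798 0 0) (P.cons (P.lf 36004 0 0) P.nil)))) (P.cons (P.cons (P.lf 0 40084 0) (P.cons (P.lf 2284 0 0) (P.cons (P.lf 1558 0 0) P.nil))) (P.cons (P.cons (P.lf 0 1594 0) (P.cons (P.lf 522 0 0) P.nil)) (P.cons (P.cons (P.lf 6 0 0) P.nil) P.nil)))))) 40802)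
 (EL.cons 3 (TM.mk (P.cons (P.cons (P.lf 328700722 0 0) (P.cons (P.lf 0 450965727 0) (P.cons (P.lf 30405597 0 0) (P.cons (P.lf 18147445 0 0) (P.cons (P.lf 0 2428405 0) (P.cons (P.lf 0 180450 0) P.nil)))))) (P.cons (P.cons (P.lf 100493350 0 0) (P.cons (P.lf 0 31142334 0) (P.cons (P.lf 2605996 0 0) (P.cons (P.lf 1320897 0 0) (P.cons (P.lf 0 187995 0) P.nil))))) (P.cons (P.cons (P.lf 0 2183770 0) (P.cons (P.lf 26159 0 0) (P.cons (P.lf 102707 0 0) (P.cons (P.lf 12912 0 0) P.nil)))) (P.cons (P.cons (P.lf 0 132472 0) (P.cons (P.lf 40126 0 0) (P.cons (P.lf 1210 0 0) P.nil))) (P.cons (P.cons (P.lf 301 0 0) (P.cons (P.lf 744 0 0) P.nil)) (P.cons (P.cons (P.lf 62 0 0) P.nil) P.nil)))))) 81458)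
 (EL.cons 7 (TM.mk (P.cons (P.cons (P.lf 0 212074025 0) (P.cons (P.lf 301330239 0 0) (P.cons (P.lf 0 31589300 0) (P.cons (P.lf 0 13633242 0) (P.cons (P.lf 2074686 0 0) (P.cons (P.lf 154167 0 0) P.nil)))))) (P.cons (P.cons (P.lf 0 61874167 0) (P.cons (P.lf 19174462 0 0) (P.cons (P.lf 0 1604522 0) (P.cons (P.lf 0 813282 0) (P.cons (P.lf 115747 0 0) P.nil))))) (P.cons (P.cons (P.lf 2261458 0 0) (P.cons (P.lf 0 300245 0) (P.cons (P.lf 0 39458 0) (P.cons (P.lf 4096 0 0) P.nil)))) (P.cons (P.cons (P.lf 47561 0 0) (P.cons (P.lf 0 22087 0) (P.cons (P.lf 310 0 0) P.nil))) (P.cons (P.cons (P.lf 0 1661 0) (P.cons (P.lf 57 0 0) P.nil)) (P.cons (P.cons (P.lf 0 21 0) P.nil) P.nil)))))) 43343)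
 (EL.cons 10 (TM.mk (P.cons (P.cons (P.lf 0 162052032 0) (P.cons (P.lf 172790790 0 0) (P.cons (P.lf 55954140 0 0) (P.cons (P.lf 0 16664082 0) (P.cons (P.lf 0 2342490 0) (P.cons (P.lf 431232 0 0) P.nil)))))) (P.cons (P.cons (P.lf 0 56342712 0) (P.cons (P.lf 6408240 0 0) (P.cons (P.lf 7556982 0 0) (P.cons (P.lf 0 1150200 0) (P.cons (P.lf 0 210138 0) P.nil))))) (P.cons (P.cons (P.lf 0 1260504 0) (P.cons (P.lf 206616 0 0) (P.cons (P.lf 183084 0 0) (P.cons (P.lf 0 31200 0) P.nil)))) (P.cons (P.cons (P.lf 21198 0 0) (P.cons (P.lf 5262 0 0) (P.cons (P.lf 0 1140 0) P.nil))) (P.cons (P.cons (P.lf 804 0 0) (P.cons (P.lf 12 0 0) P.nil)) (P.cons (P.cons (P.lf 0 0 0) P.nil) P.nil)))))) 73962)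
 EL.nil))))
noncomputable def S157_161_364_512_9 : EL := (EL.cons 3 (TM.mk (P.cons (P.lf 0 2587073628 0) (P.cons (P.lf 37109182 0 0) (P.cons (P.lf 400185 0 0) (P.cons (P.lf 108 0 0) (P.cons (P.lf 0 22 0) (P.cons (P.lf 0 0 0) P.nil)))))) 59)
 (EL.cons 7 (TM.mk (P.cons (P.lf 0 1493978069 0) (P.cons (P.lf 0 22848275 0) (P.cons (P.lf 92187 0 0) (P.cons (P.lf 2056 0 0) (P.cons (P.lf 7 0 0) (P.cons (P.lf 0 0 0) P.nil)))))) 44)
 EL.nil))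
noncomputable def S157_161_364_512_10 : EL := (EL.cons 3 (TM.mk (P.cons (P.cons (P.lf 0 144960551 0) (P.cons (P.lf 177010238 0 0) (P.cons (P.lf 11834490 0 0) (P.lf 0 3944828 0)))) (P.cons (P.cons (P.lf 0 43887040 0) (P.cons (P.lf 5582310 0 0) (P.cons (P.lf 373217 0 0) (P.lf 0 124404 0)))) (P.cons (P.cons (P.lf 976200 0 0) (P.cons (P.lf 0 52440 0) (P.cons (P.lf 0 3506 0) (P.lf 1170 0 0)))) (P.cons (P.cons (P.lf 17257 0 0) (P.cons (P.lf 0 3673 0) (P.cons (P.lf 0 243 0) P.nil))) (P.cons (P.cons (P.lf 0 219 0) (P.cons (P.lf 0 25 0) P.nil)) (P.cons (P.cons (P.lf 0 2 0) P.nil) P.nil)))))) 373)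
 (EL.cons 7 (TM.mk (P.cons (P.cons (P.lf 0 83711527 0) (P.cons (P.lf 102219516 0 0) (P.cons (P.lf 6834158 0 0) (P.lf 0 2278051 0)))) (P.cons (P.cons (P.lf 0 27824813 0) (P.cons (P.lf 6253209 0 0) (P.cons (P.lf 418073 0 0) (P.lf 0 139356 0)))) (P.cons (P.cons (P.lf 0 230768 0) (P.cons (P.lf 118219 0 0) (P.cons (P.lf 7903 0 0) (P.lf 0 2633 0)))) (P.cons (P.cons (P.lf 12648 0 0) (P.cons (P.lf 0 257 0) (P.cons (P.lf 0 16 0) P.nil))) (P.cons (P.cons (P.lf 171 0 0) (P.cons (P.lf 0 36 0) P.nil)) (P.cons (P.cons (P.lf 0 0 0) P.nil) P.nil)))))) 210)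
 EL.nil))
noncomputable def S157_161_364_512_11 : EL := (EL.cons 3 (TM.mk (P.cons (P.cons (P.lf 0 8122520 0) (P.cons (P.lf 19836699 0 0) (P.cons (P.lf 0 10784985 0) (P.cons (P.lf 0 2061533 0) (P.cons (P.lf 485681 0 0) (P.cons (P.lf 36090 0 0) P.nil)))))) (P.cons (P.cons (P.lf 0 5034722 0) (P.cons (P.lf 6915714 0 0) (P.cons (P.lf 0 475250 0) (P.cons (P.lf 0 279495 0) (P.cons (P.lf 37599 0 0) P.nil))))) (P.cons (P.cons (P.lf 0 708574 0) (P.cons (P.lf 152201 0 0) (P.cons (P.lf 0 10015 0) (P.cons (P.lf 0 6090 0) P.nil)))) (P.cons (P.cons (P.lf 24110 0 0) (P.cons (P.lf 0 5510 0) (P.cons (P.lf 0 74 0) P.nil))) (P.cons (P.cons (P.lf 427 0 0) (P.cons (P.lf 0 186 0) P.nil)) (P.cons (P.cons (P.lf 0 10 0) P.nil) P.nil)))))) 13972)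
 (EL.cons 7 (TM.mk (P.cons (P.cons (P.lf 0 4690577 0) (P.cons (P.lf 11455257 0 0) (P.cons (P.lf 0 6228092 0) (P.cons (P.lf 0 1190490 0) (P.cons (P.lf 280470 0 0) (P.cons (P.lf 20841 0 0) P.nil)))))) (P.cons (P.cons (P.lf 0 3046459 0) (P.cons (P.lf 4333180 0 0) (P.cons (P.lf 0 459032 0) (P.cons (P.lf 0 196686 0) (P.cons (P.lf 30025 0 0) P.nil))))) (P.cons (P.cons (P.lf 0 497786 0) (P.cons (P.lf 212191 0 0) (P.cons (P.lf 0 17144 0) (P.cons (P.lf 0 8918 0) P.nil)))) (P.cons (P.cons (P.lf 239 0 0) (P.cons (P.lf 1613 0 0) (P.cons (P.lf 0 422 0) P.nil))) (P.cons (P.cons (P.lf 415 0 0) (P.cons (P.lf 0 111 0) P.nil)) (P.cons (P.cons (P.lf 3 0 0) P.nil) P.nil)))))) 8077)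
 EL.nil))
noncomputable def S157_161_364_512_12 : EL := (EL.cons 4 (TM.mk (P.cons (P.lf 2587073628 0 0) (P.cons (P.lf 0 37109182 0) (P.cons (P.lf 0 400185 0) (P.cons (P.lf 0 108 0) (P.cons (P.lf 22 0 0) (P.cons (P.lf 0 0 0) P.nil)))))) 59)
 (EL.cons 8 (TM.mk (P.cons (P.lf 1493978069 0 0) (P.cons (P.lf 22848275 0 0) (P.cons (P.lf 0 92187 0) (P.cons (P.lf 0 2056 0) (P.cons (P.lf 0 7 0) (P.cons (P.lf 0 0 0) P.nil)))))) 44)
 EL.nil))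
noncomputable def S157_161_364_512_13 : EL := (EL.cons 4 (TM.mk (P.cons (P.cons (P.lf 144960551 0 0) (P.cons (P.lf 0 177010238 0) (P.cons (P.lf 0 11834490 0) (P.lf 3944828 0 0)))) (P.cons (P.cons (P.lf 43887040 0 0) (P.cons (P.lf 0 5582310 0) (P.cons (P.lf 0 373217 0) (P.lf 124404 0 0)))) (P.cons (P.cons (P.lf 0 976200 0) (P.cons (P.lf 52440 0 0) (P.cons (P.lf 3506 0 0) (P.lf 0 1170 0)))) (P.cons (P.cons (P.lf 0 17257 0) (P.cons (P.lf 3673 0 0) (P.cons (P.lf 243 0 0) P.nil))) (P.cons (P.cons (P.lf 219 0 0) (P.cons (P.lf 25 0 0) P.nil)) (P.cons (P.cons (P.lf 2 0 0) P.nil) P.nil)))))) 373)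
 (EL.cons 8 (TM.mk (P.cons (P.cons (P.lf 83711527 0 0) (P.cons (P.lf 0 102219516 0) (P.cons (P.lf 0 6834158 0) (P.lf 2278051 0 0)))) (P.cons (P.cons (P.lf 27824813 0 0) (P.cons (P.lf 0 6253209 0) (P.cons (P.lf 0 418073 0) (P.lf 139356 0 0)))) (P.cons (P.cons (P.lf 230768 0 0) (P.cons (P.lf 0 118219 0) (P.cons (P.lf 0 7903 0) (P.lf 2633 0 0)))) (P.cons (P.cons (P.lf 0 12648 0) (P.cons (P.lf 257 0 0) (P.cons (P.lf 16 0 0) P.nil))) (P.cons (P.cons (P.lf 0 171 0) (P.cons (P.lf 36 0 0) P.nil)) (P.cons (P.cons (P.lf 0 0 0) P.nil) P.nil)))))) 210)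
 EL.nil))
noncomputable def S157_161_364_512_14 : EL := (EL.cons 4 (TM.mk (P.cons (P.cons (P.lf 8122520 0 0) (P.cons (P.lf 0 19836699 0) (P.cons (P.lf 10784985 0 0) (P.cons (P.lf 2061533 0 0) (P.cons (P.lf 0 485681 0) (P.cons (P.lf 0 36090 0) P.nil)))))) (P.cons (P.cons (P.lf 5034722 0 0) (P.cons (P.lf 0 6915714 0) (P.cons (P.lf 475250 0 0) (P.cons (P.lf 279495 0 0) (P.cons (P.lf 0 37599 0) P.nil))))) (P.cons (P.cons (P.lf 708574 0 0) (P.cons (P.lf 0 152201 0) (P.cons (P.lf 10015 0 0) (P.cons (P.lf 6090 0 0) P.nil)))) (P.cons (P.cons (P.lf 0 24110 0) (P.cons (P.lf 5510 0 0) (P.cons (P.lf 74 0 0) P.nil))) (P.cons (P.cons (P.lf 0 427 0) (P.cons (P.lf 186 0 0) P.nil)) (P.cons (P.cons (P.lf 10 0 0) P.nil) P.nil)))))) 13972)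
 (EL.cons 8 (TM.mk (P.cons (P.cons (P.lf 4690577 0 0) (P.cons (P.lf 0 11455257 0) (P.cons (P.lf 6228092 0 0) (P.cons (P.lf 1190490 0 0) (P.cons (P.lf 0 280470 0) (P.cons (P.lf 0 20841 0) P.nil)))))) (P.cons (P.cons (P.lf 3046459 0 0) (P.cons (P.lf 0 4333180 0) (P.cons (P.lf 459032 0 0) (P.cons (P.lf 196686 0 0) (P.cons (P.lf 0 30025 0) P.nil))))) (P.cons (P.cons (P.lf 497786 0 0) (P.cons (P.lf 0 212191 0) (P.cons (P.lf 17144 0 0) (P.cons (P.lf 8918 0 0) P.nil)))) (P.cons (P.cons (P.lf 0 239 0) (P.cons (P.lf 0 1613 0) (P.cons (P.lf 422 0 0) P.nil))) (P.cons (P.cons (P.lf 0 415 0) (P.cons (P.lf 111 0 0) P.nil)) (P.cons (P.cons (P.lf 0 3 0) P.nil) P.nil)))))) 8077)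
 EL.nil))
noncomputable def S157_161_364_512_15 : EL := (EL.cons 4 (TM.mk (P.cons (P.lf 0 1662212102 0) (P.cons (P.lf 47685795 0 0) (P.cons (P.lf 172238 0 0) (P.cons (P.lf 0 7236 0) (P.cons (P.lf 0 70 0) (P.cons (P.lf 0 0 0) P.nil)))))) 82)
 (EL.cons 8 (TM.mk (P.cons (P.lf 0 959890898 0) (P.cons (P.lf 0 911420 0) (P.cons (P.lf 418286 0 0) (P.cons (P.lf 2782 0 0) (P.cons (P.lf 0 31 0) (P.cons (P.lf 0 0 0) P.nil)))))) 55)
 EL.nil))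
noncomputable def S157_161_364_512_16 : EL := (EL.cons 4 (TM.mk (P.cons (P.cons (P.lf 0 93138122 0) (P.cons (P.lf 113730261 0 0) (P.cons (P.lf 7603739 0 0) (P.lf 0 2534578 0)))) (P.cons (P.cons (P.lf 0 26861736 0) (P.cons (P.lf 1955316 0 0) (P.cons (P.lf 130725 0 0) (P.lf 0 43574 0)))) (P.cons (P.cons (P.lf 1046092 0 0) (P.cons (P.lf 0 102733 0) (P.cons (P.lf 0 6868 0) (P.lf 2290 0 0)))) (P.cons (P.cons (P.lf 6456 0 0) (P.cons (P.lf 0 2436 0) (P.cons (P.lf 0 161 0) P.nil))) (P.cons (P.cons (P.lf 0 396 0) (P.cons (P.lf 22 0 0) P.nil)) (P.cons (P.cons (P.lf 0 1 0) P.nil) P.nil)))))) 289)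
 (EL.cons 8 (TM.mk (P.cons (P.cons (P.lf 0 53785215 0) (P.cons (P.lf 65676722 0 0) (P.cons (P.lf 4390992 0 0) (P.lf 0 1463663 0)))) (P.cons (P.cons (P.lf 0 17106129 0) (P.cons (P.lf 3075656 0 0) (P.cons (P.lf 205630 0 0) (P.lf 0 68542 0)))) (P.cons (P.cons (P.lf 116487 0 0) (P.cons (P.lf 8166 0 0) (P.cons (P.lf 545 0 0) (P.lf 0 181 0)))) (P.cons (P.cons (P.lf 13021 0 0) (P.cons (P.lf 0 1878 0) (P.cons (P.lf 0 124 0) P.nil))) (P.cons (P.cons (P.lf 16 0 0) (P.cons (P.lf 0 32 0) P.nil)) (P.cons (P.cons (P.lf 0 3 0) P.nil) P.nil)))))) 170)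
 EL.nil))
noncomputable def S157_161_364_512_17 : EL := (EL.cons 4 (TM.mk (P.cons (P.cons (P.lf 0 5218773 0) (P.cons (P.lf 12745212 0 0) (P.cons (P.lf 0 6929425 0) (P.cons (P.lf 0 1324548 0) (P.cons (P.lf 312053 0 0) (P.cons (P.lf 23188 0 0) P.nil)))))) (P.cons (P.cons (P.lf 0 3159984 0) (P.cons (P.lf 4260574 0 0) (P.cons (P.lf 0 205954 0) (P.cons (P.lf 0 160577 0) (P.cons (P.lf 19680 0 0) P.nil))))) (P.cons (P.cons (P.lf 0 408055 0) (P.cons (P.lf 32082 0 0) (P.cons (P.lf 0 982 0) (P.cons (P.lf 0 1132 0) P.nil)))) (P.cons (P.cons (P.lf 22522 0 0) (P.cons (P.lf 0 5630 0) (P.cons (P.lf 91 0 0) P.nil))) (P.cons (P.cons (P.lf 122 0 0) (P.cons (P.lf 0 84 0) P.nil)) (P.cons (P.cons (P.lf 0 13 0) P.nil) P.nil)))))) 9937)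
 (EL.cons 8 (TM.mk (P.cons (P.cons (P.lf 0 3013726 0) (P.cons (P.lf 7360079 0 0) (P.cons (P.lf 0 4001590 0) (P.cons (P.lf 0 764897 0) (P.cons (P.lf 180203 0 0) (P.cons (P.lf 13390 0 0) P.nil)))))) (P.cons (P.cons (P.lf 0 1914141 0) (P.cons (P.lf 2678523 0 0) (P.cons (P.lf 0 237532 0) (P.cons (P.lf 0 115400 0) (P.cons (P.lf 16706 0 0) P.nil))))) (P.cons (P.cons (P.lf 0 291288 0) (P.cons (P.lf 95260 0 0) (P.cons (P.lf 0 6165 0) (P.cons (P.lf 0 3798 0) P.nil)))) (P.cons (P.cons (P.lf 5044 0 0) (P.cons (P.lf 0 1349 0) (P.cons (P.lf 0 67 0) P.nil))) (P.cons (P.cons (P.lf 314 0 0) (P.cons (P.lf 0 107 0) P.nil)) (P.cons (P.cons (P.lf 0 1 0) P.nil) P.nil)))))) 5753)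
 EL.nil))
noncomputable def S157_161_364_512_18 : EL := (EL.cons 4 (TM.mk (P.cons (P.lf 1067982389 0 0) (P.cons (P.lf 0 45957662 0) (P.cons (P.lf 163613 0 0) (P.cons (P.lf 10931 0 0) (P.cons (P.lf 5 0 0) (P.cons (P.lf 0 0 0) P.nil)))))) 83)
 (EL.cons 8 (TM.mk (P.cons (P.lf 616736319 0 0) (P.cons (P.lf 0 8260918 0) (P.cons (P.lf 0 372552 0) (P.cons (P.lf 1950 0 0) (P.cons (P.lf 92 0 0) (P.cons (P.lf 0 0 0) P.nil)))))) 53)
 EL.nil))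
noncomputable def S157_161_364_512_19 : EL := (EL.cons 4 (TM.mk (P.cons (P.cons (P.lf 59841866 0 0) (P.cons (P.lf 0 73072453 0) (P.cons (P.lf 0 4885453 0) (P.lf 1628483 0 0)))) (P.cons (P.cons (P.lf 16400468 0 0) (P.cons (P.lf 0 208146 0) (P.cons (P.lf 0 13914 0) (P.lf 4636 0 0)))) (P.cons (P.cons (P.lf 0 928939 0) (P.cons (P.lf 95329 0 0) (P.cons (P.lf 6373 0 0) (P.lf 0 2124 0)))) (P.cons (P.cons (P.lf 2819 0 0) (P.cons (P.lf 815 0 0) (P.cons (P.lf 53 0 0) P.nil))) (P.cons (P.cons (P.lf 418 0 0) (P.cons (P.lf 0 47 0) P.nil)) (P.cons (P.cons (P.lf 0 0 0) P.nil) P.nil)))))) 231)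
 (EL.cons 8 (TM.mk (P.cons (P.cons (P.lf 34557360 0 0) (P.cons (P.lf 0 42197733 0) (P.cons (P.lf 0 2821241 0) (P.lf 940413 0 0)))) (P.cons (P.cons (P.lf 10495109 0 0) (P.cons (P.lf 0 1370842 0) (P.cons (P.lf 0 91650 0) (P.lf 30549 0 0)))) (P.cons (P.cons (P.lf 0 237842 0) (P.cons (P.lf 29625 0 0) (P.cons (P.lf 1980 0 0) (P.lf 0 660 0)))) (P.cons (P.cons (P.lf 0 8994 0) (P.cons (P.lf 1589 0 0) (P.cons (P.lf 105 0 0) P.nil))) (P.cons (P.cons (P.lf 120 0 0) (P.cons (P.lf 4 0 0) P.nil)) (P.cons (P.cons (P.lf 3 0 0) P.nil) P.nil)))))) 140)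
 EL.nil))
noncomputable def S157_161_364_512_20 : EL := (EL.cons 4 (TM.mk (P.cons (P.cons (P.lf 3353097 0 0) (P.cons (P.lf 0 8188883 0) (P.cons (P.lf 4452202 0 0) (P.cons (P.lf 851031 0 0) (P.cons (P.lf 0 200495 0) (P.cons (P.lf 0 14897 0) P.nil)))))) (P.cons (P.cons (P.lf 1982213 0 0) (P.cons (P.lf 0 2619985 0) (P.cons (P.lf 68464 0 0) (P.cons (P.lf 90965 0 0) (P.cons (P.lf 0 9769 0) P.nil))))) (P.cons (P.cons (P.lf 232536 0 0) (P.cons (P.lf 19919 0 0) (P.cons (P.lf 0 1954 0) (P.cons (P.lf 0 883 0) P.nil)))) (P.cons (P.cons (P.lf 0 18545 0) (P.cons (P.lf 4336 0 0) (P.cons (P.lf 0 88 0) P.nil))) (P.cons (P.cons (P.lf 87 0 0) (P.cons (P.lf 5 0 0) P.nil)) (P.cons (P.cons (P.lf 11 0 0) P.nil) P.nil)))))) 7046)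
 (EL.cons 8 (TM.mk (P.cons (P.cons (P.lf 1936339 0 0) (P.cons (P.lf 0 4728900 0) (P.cons (P.lf 2571048 0 0) (P.cons (P.lf 491451 0 0) (P.cons (P.lf 0 115782 0) (P.cons (P.lf 0 8603 0) P.nil)))))) (P.cons (P.cons (P.lf 1202073 0 0) (P.cons (P.lf 0 1653137 0) (P.cons (P.lf 115736 0 0) (P.cons (P.lf 67095 0 0) (P.cons (P.lf 0 9073 0) P.nil))))) (P.cons (P.cons (P.lf 169213 0 0) (P.cons (P.lf 0 35788 0) (P.cons (P.lf 1374 0 0) (P.cons (P.lf 1301 0 0) P.nil)))) (P.cons (P.cons (P.lf 0 6116 0) (P.cons (P.lf 2011 0 0) (P.cons (P.lf 0 36 0) P.nil))) (P.cons (P.cons (P.lf 0 184 0) (P.cons (P.lf 66 0 0) P.nil)) (P.cons (P.cons (P.lf 4 0 0) P.nil) P.nil)))))) 4021)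
 EL.nil))
noncomputable def S157_161_364_512_21 : EL := (EL.cons 4 (TM.mk (P.cons (P.cons (P.lf 0 3005598861 0) (P.cons (P.lf 531030714 0 0) (P.cons (P.lf 35503470 0 0) (P.lf 0 11834484 0)))) (P.cons (P.cons (P.lf 11396262 0 0) (P.cons (P.lf 16746930 0 0) (P.cons (P.lf 1119651 0 0) (P.lf 0 373212 0)))) (P.cons (P.cons (P.lf 3445317 0 0) (P.cons (P.lf 0 157320 0) (P.cons (P.lf 0 10518 0) (P.lf 3510 0 0)))) (P.cons (P.cons (P.lf 30063 0 0) (P.cons (P.lf 0 11019 0) (P.cons (P.lf 0 729 0) P.nil))) (P.cons (P.cons (P.lf 0 870 0) (P.cons (P.lf 0 75 0) P.nil)) (P.cons (P.cons (P.lf 0 6 0) P.nil) P.nil)))))) 1374)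
 (EL.cons 8 (TM.mk (P.cons (P.cons (P.lf 1850559510 0 0) (P.cons (P.lf 0 326957787 0) (P.cons (P.lf 0 21859638 0) (P.lf 7286550 0 0)))) (P.cons (P.cons (P.lf 0 61862961 0) (P.cons (P.lf 0 620898 0) (P.cons (P.lf 0 41517 0) (P.lf 13842 0 0)))) (P.cons (P.cons (P.lf 0 1246611 0) (P.cons (P.lf 284655 0 0) (P.cons (P.lf 19029 0 0) (P.lf 0 6339 0)))) (P.cons (P.cons (P.lf 30702 0 0) (P.cons (P.lf 2166 0 0) (P.cons (P.lf 147 0 0) P.nil))) (P.cons (P.cons (P.lf 528 0 0) (P.cons (P.lf 0 81 0) P.nil)) (P.cons (P.cons (P.lf 0 0 0) P.nil) P.nil)))))) 996)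
 (EL.cons 11 (TM.mk (P.cons (P.cons (P.lf 1446050457 0 0) (P.cons (P.lf 223884924 0 0) (P.cons (P.lf 0 107860695 0) (P.cons (P.lf 0 4081764 0) (P.lf 1020441 0 0))))) (P.cons (P.cons (P.lf 44230578 0 0) (P.cons (P.lf 6848004 0 0) (P.cons (P.lf 0 3299151 0) (P.cons (P.lf 0 124848 0) (P.lf 31212 0 0))))) (P.cons (P.cons (P.lf 159759 0 0) (P.cons (P.lf 24735 0 0) (P.cons (P.lf 0 11916 0) (P.cons (P.lf 0 450 0) P.nil)))) (P.cons (P.cons (P.lf 0 6708 0) (P.cons (P.lf 0 1038 0) (P.cons (P.lf 498 0 0) P.nil))) (P.cons (P.cons (P.lf 0 66 0) (P.cons (P.lf 0 9 0) P.nil)) (P.cons P.nil P.nil)))))) 369)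
 EL.nil)))
noncomputable def S157_161_364_512_22 : EL := (EL.cons 4 (TM.mk (P.cons (P.cons (P.lf 0 168411621 0) (P.cons (P.lf 235401213 0 0) (P.cons (P.lf 0 20595291 0) (P.cons (P.lf 0 10104489 0) (P.cons (P.lf 1457043 0 0) (P.cons (P.lf 108270 0 0) P.nil)))))) (P.cons (P.cons (P.lf 0 52764036 0) (P.cons (P.lf 19029024 0 0) (P.cons (P.lf 0 1540623 0) (P.cons (P.lf 0 800196 0) (P.cons (P.lf 112797 0 0) P.nil))))) (P.cons (P.cons (P.lf 737598 0 0) (P.cons (P.lf 63021 0 0) (P.cons (P.lf 0 56361 0) (P.cons (P.lf 0 9501 0) P.nil)))) (P.cons (P.cons (P.lf 78291 0 0) (P.cons (P.lf 0 22818 0) (P.cons (P.lf 0 642 0) P.nil))) (P.cons (P.cons (P.lf 63 0 0) (P.cons (P.lf 0 465 0) P.nil)) (P.cons (P.cons (P.lf 0 36 0) P.nil) P.nil)))))) 33732)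
 (EL.cons 8 (TM.mk (P.cons (P.cons (P.lf 103691724 0 0) (P.cons (P.lf 0 144937491 0) (P.cons (P.lf 12680604 0 0) (P.cons (P.lf 6221376 0 0) (P.cons (P.lf 0 897108 0) (P.cons (P.lf 0 66663 0) P.nil)))))) (P.cons (P.cons (P.lf 29413854 0 0) (P.cons (P.lf 0 7420641 0) (P.cons (P.lf 572745 0 0) (P.cons (P.lf 308298 0 0) (P.cons (P.lf 0 42861 0) P.nil))))) (P.cons (P.cons (P.lf 0 1379622 0) (P.cons (P.lf 256218 0 0) (P.cons (P.lf 11157 0 0) (P.cons (P.lf 0 6507 0) P.nil)))) (P.cons (P.cons (P.lf 0 23661 0) (P.cons (P.lf 11850 0 0) (P.cons (P.lf 0 366 0) P.nil))) (P.cons (P.cons (P.lf 1038 0 0) (P.cons (P.lf 0 84 0) P.nil)) (P.cons (P.cons (P.lf 12 0 0) P.nil) P.nil)))))) 17622)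
 (EL.cons 11 (TM.mk (P.cons (P.cons (P.lf 81026016 0 0) (P.cons (P.lf 0 86395395 0) (P.cons (P.lf 0 27977070 0) (P.cons (P.lf 8332041 0 0) (P.cons (P.lf 1171245 0 0) (P.cons (P.lf 0 215616 0) P.nil)))))) (P.cons (P.cons (P.lf 28171356 0 0) (P.cons (P.lf 0 3204120 0) (P.cons (P.lf 0 3778491 0) (P.cons (P.lf 575100 0 0) (P.cons (P.lf 105069 0 0) P.nil))))) (P.cons (P.cons (P.lf 630252 0 0) (P.cons (P.lf 0 103308 0) (P.cons (P.lf 0 91542 0) (P.cons (P.lf 15600 0 0) P.nil)))) (P.cons (P.cons (P.lf 0 10599 0) (P.cons (P.lf 0 2631 0) (P.cons (P.lf 570 0 0) P.nil))) (P.cons (P.cons (P.lf 0 402 0) (P.cons (P.lf 0 6 0) P.nil)) (P.cons (P.cons (P.lf 0 0 0) P.nil) P.nil)))))) 36981)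
 EL.nil)))
noncomputable def S157_161_364_512_23 : EL := (EL.cons 4 (TM.mk (P.cons (P.cons (P.lf 1931117361 0 0) (P.cons (P.lf 0 341190783 0) (P.cons (P.lf 0 22811214 0) (P.lf 7603734 0 0)))) (P.cons (P.cons (P.lf 0 35022270 0) (P.cons (P.lf 0 5865945 0) (P.cons (P.lf 0 392175 0) (P.lf 130722 0 0)))) (P.cons (P.cons (P.lf 0 2407326 0) (P.cons (P.lf 308199 0 0) (P.cons (P.lf 20604 0 0) (P.lf 0 6870 0)))) (P.cons (P.cons (P.lf 13488 0 0) (P.cons (P.lf 7308 0 0) (P.cons (P.lf 483 0 0) P.nil))) (P.cons (P.cons (P.lf 1194 0 0) (P.cons (P.lf 0 69 0) P.nil)) (P.cons (P.cons (P.lf 0 0 0) P.nil) P.nil)))))) 1080)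
 (EL.cons 8 (TM.mk (P.cons (P.cons (P.lf 0 1188996858 0) (P.cons (P.lf 210072564 0 0) (P.cons (P.lf 14044962 0 0) (P.lf 0 4681656 0)))) (P.cons (P.cons (P.lf 56802426 0 0) (P.cons (P.lf 0 2614365 0) (P.cons (P.lf 0 174786 0) (P.lf 58260 0 0)))) (P.cons (P.cons (P.lf 414738 0 0) (P.cons (P.lf 0 221109 0) (P.cons (P.lf 0 14781 0) (P.lf 4923 0 0)))) (P.cons (P.cons (P.lf 0 37311 0) (P.cons (P.lf 1161 0 0) (P.cons (P.lf 75 0 0) P.nil))) (P.cons (P.cons (P.lf 0 192 0) (P.cons (P.lf 102 0 0) P.nil)) (P.cons (P.cons (P.lf 6 0 0) P.nil) P.nil)))))) 798)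
 (EL.cons 11 (TM.mk (P.cons (P.cons (P.lf 0 929097084 0) (P.cons (P.lf 0 143847558 0) (P.cons (P.lf 69301215 0 0) (P.cons (P.lf 2622558 0 0) (P.lf 0 655638 0))))) (P.cons (P.cons (P.lf 0 15091401 0) (P.cons (P.lf 0 2336526 0) (P.cons (P.lf 1125663 0 0) (P.cons (P.lf 42597 0 0) (P.lf 0 10647 0))))) (P.cons (P.cons (P.lf 448707 0 0) (P.cons (P.lf 69471 0 0) (P.cons (P.lf 0 33468 0) (P.cons (P.lf 0 1266 0) P.nil)))) (P.cons (P.cons (P.lf 10215 0 0) (P.cons (P.lf 1581 0 0) (P.cons (P.lf 0 759 0) P.nil))) (P.cons (P.cons (P.lf 0 9 0) (P.cons (P.lf 0 0 0) P.nil)) (P.cons (P.cons (P.lf 0 0 0) P.nil) P.nil)))))) 741)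
 EL.nil)))
noncomputable def S157_161_364_512_24 : EL := (EL.cons 4 (TM.mk (P.cons (P.cons (P.lf 108205593 0 0) (P.cons (P.lf 0 151246854 0) (P.cons (P.lf 13232613 0 0) (P.cons (P.lf 6492201 0 0) (P.cons (P.lf 0 936159 0) (P.cons (P.lf 0 69564 0) P.nil)))))) (P.cons (P.cons (P.lf 32349135 0 0) (P.cons (P.lf 0 10056777 0) (P.cons (P.lf 800052 0 0) (P.cons (P.lf 421005 0 0) (P.cons (P.lf 0 59046 0) P.nil))))) (P.cons (P.cons (P.lf 0 976932 0) (P.cons (P.lf 158277 0 0) (P.cons (P.lf 19968 0 0) (P.cons (P.lf 0 2271 0) P.nil)))) (P.cons (P.cons (P.lf 0 48753 0) (P.cons (P.lf 17139 0 0) (P.cons (P.lf 0 258 0) P.nil))) (P.cons (P.cons (P.lf 750 0 0) (P.cons (P.lf 93 0 0) P.nil)) (P.cons (P.cons (P.lf 33 0 0) P.nil) P.nil)))))) 19821)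
 (EL.cons 8 (TM.mk (P.cons (P.cons (P.lf 0 66622626 0) (P.cons (P.lf 93123306 0 0) (P.cons (P.lf 0 8147373 0) (P.cons (P.lf 0 3997275 0) (P.cons (P.lf 576396 0 0) (P.cons (P.lf 42831 0 0) P.nil)))))) (P.cons (P.cons (P.lf 0 17942955 0) (P.cons (P.lf 3432042 0 0) (P.cons (P.lf 0 251124 0) (P.cons (P.lf 0 140745 0) (P.cons (P.lf 19272 0 0) P.nil))))) (P.cons (P.cons (P.lf 1167804 0 0) (P.cons (P.lf 0 247416 0) (P.cons (P.lf 0 630 0) (P.cons (P.lf 7641 0 0) P.nil)))) (P.cons (P.cons (P.lf 5415 0 0) (P.cons (P.lf 0 5991 0) (P.cons (P.lf 396 0 0) P.nil))) (P.cons (P.cons (P.lf 0 1020 0) (P.cons (P.lf 189 0 0) P.nil)) (P.cons (P.cons (P.lf 0 0 0) P.nil) P.nil)))))) 10467)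
 (EL.cons 11 (TM.mk (P.cons (P.cons (P.lf 0 52059756 0) (P.cons (P.lf 55509618 0 0) (P.cons (P.lf 17975454 0 0) (P.cons (P.lf 0 5353392 0) (P.cons (P.lf 0 752532 0) (P.cons (P.lf 138534 0 0) P.nil)))))) (P.cons (P.cons (P.lf 0 17353533 0) (P.cons (P.lf 1262433 0 0) (P.cons (P.lf 2169864 0 0) (P.cons (P.lf 0 292716 0) (P.cons (P.lf 0 56712 0) P.nil))))) (P.cons (P.cons (P.lf 0 137256 0) (P.cons (P.lf 28257 0 0) (P.cons (P.lf 21213 0 0) (P.cons (P.lf 0 3894 0) P.nil)))) (P.cons (P.cons (P.lf 15420 0 0) (P.cons (P.lf 417 0 0) (P.cons (P.lf 0 1584 0) P.nil))) (P.cons (P.cons (P.lf 225 0 0) (P.cons (P.lf 0 27 0) P.nil)) (P.cons (P.cons (P.lf 0 3 0) P.nil) P.nil)))))) 21021)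
 EL.nil)))
noncomputable def S157_161_364_512_25 : EL := (EL.cons 4 (TM.mk (P.cons (P.cons (P.lf 0 1240755816 0) (P.cons (P.lf 219217359 0 0) (P.cons (P.lf 14656359 0 0) (P.lf 0 4885449 0)))) (P.cons (P.cons (P.lf 40299537 0 0) (P.cons (P.lf 624438 0 0) (P.cons (P.lf 41742 0 0) (P.lf 0 13911 0)))) (P.cons (P.cons (P.lf 1415880 0 0) (P.cons (P.lf 0 285990 0) (P.cons (P.lf 0 19119 0) (P.lf 6375 0 0)))) (P.cons (P.cons (P.lf 0 34281 0) (P.cons (P.lf 0 2445 0) (P.cons (P.lf 0 159 0) P.nil))) (P.cons (P.cons (P.lf 0 894 0) (P.cons (P.lf 144 0 0) P.nil)) (P.cons (P.cons (P.lf 12 0 0) P.nil) P.nil)))))) 801)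
 (EL.cons 8 (TM.mk (P.cons (P.cons (P.lf 763938429 0 0) (P.cons (P.lf 0 134973024 0) (P.cons (P.lf 0 9023982 0) (P.lf 3007995 0 0)))) (P.cons (P.cons (P.lf 0 47453928 0) (P.cons (P.lf 3615810 0 0) (P.cons (P.lf 241740 0 0) (P.lf 0 80577 0)))) (P.cons (P.cons (P.lf 138855 0 0) (P.cons (P.lf 138846 0 0) (P.cons (P.lf 9282 0 0) (P.lf 0 3090 0)))) (P.cons (P.cons (P.lf 33408 0 0) (P.cons (P.lf 0 3036 0) (P.cons (P.lf 0 201 0) P.nil))) (P.cons (P.cons (P.lf 0 171 0) (P.cons (P.lf 0 78 0) P.nil)) (P.cons (P.cons (P.lf 0 9 0) P.nil) P.nil)))))) 615)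
 (EL.cons 11 (TM.mk (P.cons (P.cons (P.lf 596951088 0 0) (P.cons (P.lf 92423019 0 0) (P.cons (P.lf 0 44526495 0) (P.cons (P.lf 0 1685010 0) (P.lf 421251 0 0))))) (P.cons (P.cons (P.lf 1133613 0 0) (P.cons (P.lf 175509 0 0) (P.cons (P.lf 0 84555 0) (P.cons (P.lf 0 3198 0) (P.lf 798 0 0))))) (P.cons (P.cons (P.lf 0 519723 0) (P.cons (P.lf 0 80466 0) (P.cons (P.lf 38766 0 0) (P.cons (P.lf 1467 0 0) P.nil)))) (P.cons (P.cons (P.lf 0 3954 0) (P.cons (P.lf 0 609 0) (P.cons (P.lf 291 0 0) P.nil))) (P.cons (P.cons (P.lf 150 0 0) (P.cons (P.lf 21 0 0) P.nil)) (P.cons (P.cons (P.lf 0 0 0) P.nil) P.nil)))))) 702)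
 EL.nil)))
noncomputable def S157_161_364_512_26 : EL := (EL.cons 4 (TM.mk (P.cons (P.cons (P.lf 0 69522816 0) (P.cons (P.lf 97177113 0 0) (P.cons (P.lf 0 8502042 0) (P.cons (P.lf 0 4171281 0) (P.cons (P.lf 601488 0 0) (P.cons (P.lf 44694 0 0) P.nil)))))) (P.cons (P.cons (P.lf 0 19787295 0) (P.cons (P.lf 5067630 0 0) (P.cons (P.lf 0 392085 0) (P.cons (P.lf 0 210666 0) (P.cons (P.lf 29307 0 0) P.nil))))) (P.cons (P.cons (P.lf 936573 0 0) (P.cons (P.lf 0 209409 0) (P.cons (P.lf 0 4140 0) (P.cons (P.lf 5985 0 0) P.nil)))) (P.cons (P.cons (P.lf 25536 0 0) (P.cons (P.lf 0 10554 0) (P.cons (P.lf 429 0 0) P.nil))) (P.cons (P.cons (P.lf 0 1026 0) (P.cons (P.lf 111 0 0) P.nil)) (P.cons (P.cons (P.lf 0 18 0) P.nil) P.nil)))))) 12219)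
 (EL.cons 8 (TM.mk (P.cons (P.cons (P.lf 42805482 0 0) (P.cons (P.lf 0 59832345 0) (P.cons (P.lf 5234742 0 0) (P.cons (P.lf 2568276 0 0) (P.cons (P.lf 0 370338 0) (P.cons (P.lf 0 27519 0) P.nil)))))) (P.cons (P.cons (P.lf 10914465 0 0) (P.cons (P.lf 0 1346871 0) (P.cons (P.lf 86262 0 0) (P.cons (P.lf 53589 0 0) (P.cons (P.lf 0 7068 0) P.nil))))) (P.cons (P.cons (P.lf 0 922308 0) (P.cons (P.lf 199851 0 0) (P.cons (P.lf 0 2718 0) (P.cons (P.lf 0 6603 0) P.nil)))) (P.cons (P.cons (P.lf 5496 0 0) (P.cons (P.lf 1914 0 0) (P.cons (P.lf 0 285 0) P.nil))) (P.cons (P.cons (P.lf 822 0 0) (P.cons (P.lf 0 201 0) P.nil)) (P.cons (P.cons (P.lf 0 6 0) P.nil) P.nil)))))) 6588)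
 (EL.cons 11 (TM.mk (P.cons (P.cons (P.lf 33448740 0 0) (P.cons (P.lf 0 35665302 0) (P.cons (P.lf 0 11549349 0) (P.cons (P.lf 3439590 0 0) (P.cons (P.lf 483507 0 0) (P.cons (P.lf 0 89007 0) P.nil)))))) (P.cons (P.cons (P.lf 10669971 0 0) (P.cons (P.lf 0 299535 0) (P.cons (P.lf 0 1228488 0) (P.cons (P.lf 138735 0 0) (P.cons (P.lf 29502 0 0) P.nil))))) (P.cons (P.cons (P.lf 0 76917 0) (P.cons (P.lf 0 1005 0) (P.cons (P.lf 8154 0 0) (P.cons (P.lf 0 726 0) P.nil)))) (P.cons (P.cons (P.lf 0 12897 0) (P.cons (P.lf 117 0 0) (P.cons (P.lf 1428 0 0) P.nil))) (P.cons (P.cons (P.lf 0 15 0) (P.cons (P.lf 24 0 0) P.nil)) (P.cons (P.cons (P.lf 6 0 0) P.nil) P.nil)))))) 12270)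
 EL.nil)))
noncomputable def S157_161_364_512_27 : EL := (EL.cons 13 (TM.mk (P.lf 0 4294967296 0) 0)
 EL.nil)
noncomputable def S157_161_364_512_28 : EL := (EL.cons 13 (TM.mk (P.cons (P.cons (P.lf 0 240658333 0) (P.cons (P.lf 293866080 0 0) (P.cons (P.lf 19647200 0 0) (P.lf 0 6549064 0)))) (P.cons (P.cons (P.lf 0 76311720 0) (P.cons (P.lf 13482792 0 0) (P.cons (P.lf 901424 0 0) (P.lf 0 300472 0)))) (P.cons (P.cons (P.lf 488805 0 0) (P.cons (P.lf 151796 0 0) (P.cons (P.lf 10148 0 0) (P.lf 0 3380 0)))) (P.cons (P.cons (P.lf 23848 0 0) (P.cons (P.lf 0 1824 0) (P.cons (P.lf 0 120 0) P.nil))) (P.cons (P.cons (P.lf 51 0 0) (P.cons (P.lf 0 48 0) P.nil)) (P.cons (P.cons (P.lf 0 0 0) P.nil) P.nil)))))) 439)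
 EL.nil)
noncomputable def S157_161_364_512_29 : EL := (EL.cons 13 (TM.mk (P.cons (P.cons (P.lf 0 13484720 0) (P.cons (P.lf 32932181 0 0) (P.cons (P.lf 0 17904850 0) (P.cons (P.lf 0 3422485 0) (P.cons (P.lf 806311 0 0) (P.cons (P.lf 59916 0 0) P.nil)))))) (P.cons (P.cons (P.lf 0 8551893 0) (P.cons (P.lf 11953605 0 0) (P.cons (P.lf 0 1045823 0) (P.cons (P.lf 0 513102 0) (P.cons (P.lf 73987 0 0) P.nil))))) (P.cons (P.cons (P.lf 0 1301106 0) (P.cons (P.lf 429238 0 0) (P.cons (P.lf 0 34399 0) (P.cons (P.lf 0 18002 0) P.nil)))) (P.cons (P.cons (P.lf 20042 0 0) (P.cons (P.lf 0 1142 0) (P.cons (P.lf 0 779 0) P.nil))) (P.cons (P.cons (P.lf 797 0 0) (P.cons (P.lf 0 261 0) P.nil)) (P.cons (P.cons (P.lf 0 3 0) P.nil) P.nil)))))) 20401)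
 EL.nil)
noncomputable def S157_161_364_512_30 : EL := (EL.cons 13 (TM.mk (P.cons (P.lf 2759545204 0 0) (P.cons (P.lf 0 39583128 0) (P.cons (P.lf 0 426864 0) (P.cons (P.lf 0 116 0) (P.cons (P.lf 24 0 0) (P.cons (P.lf 0 0 0) P.nil)))))) 56)
 EL.nil)
noncomputable def S157_161_364_512_31 : EL := (EL.cons 13 (TM.mk (P.cons (P.cons (P.lf 154624588 0 0) (P.cons (P.lf 0 188810921 0) (P.cons (P.lf 0 12623457 0) (P.lf 4207817 0 0)))) (P.cons (P.cons (P.lf 46812843 0 0) (P.cons (P.lf 0 5954465 0) (P.cons (P.lf 0 398099 0) (P.lf 132698 0 0)))) (P.cons (P.cons (P.lf 0 1041280 0) (P.cons (P.lf 55936 0 0) (P.cons (P.lf 3740 0 0) (P.lf 0 1248 0)))) (P.cons (P.cons (P.lf 0 18408 0) (P.cons (P.lf 3918 0 0) (P.cons (P.lf 260 0 0) P.nil))) (P.cons (P.cons (P.lf 234 0 0) (P.cons (P.lf 27 0 0) P.nil)) (P.cons (P.cons (P.lf 3 0 0) P.nil) P.nil)))))) 378)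
 EL.nil)
noncomputable def S157_161_364_512_32 : EL := (EL.cons 13 (TM.mk (P.cons (P.cons (P.lf 8664022 0 0) (P.cons (P.lf 0 21159146 0) (P.cons (P.lf 11503985 0 0) (P.cons (P.lf 2198969 0 0) (P.cons (P.lf 0 518060 0) (P.cons (P.lf 0 38496 0) P.nil)))))) (P.cons (P.cons (P.lf 5370371 0 0) (P.cons (P.lf 0 7376762 0) (P.cons (P.lf 506934 0 0) (P.cons (P.lf 298129 0 0) (P.cons (P.lf 0 40106 0) P.nil))))) (P.cons (P.cons (P.lf 755813 0 0) (P.cons (P.lf 0 162348 0) (P.cons (P.lf 10683 0 0) (P.cons (P.lf 6497 0 0) P.nil)))) (P.cons (P.cons (P.lf 0 25718 0) (P.cons (P.lf 5878 0 0) (P.cons (P.lf 79 0 0) P.nil))) (P.cons (P.cons (P.lf 0 456 0) (P.cons (P.lf 199 0 0) P.nil)) (P.cons (P.cons (P.lf 11 0 0) P.nil) P.nil)))))) 14880)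
 EL.nil)
noncomputable def S157_161_364_512_33 : EL := (EL.cons 14 (TM.mk (P.lf 8589934592 0 0) 0)
 EL.nil)
noncomputable def S157_161_364_512_34 : EL := (EL.cons 14 (TM.mk (P.cons (P.cons (P.lf 481316666 0 0) (P.cons (P.lf 0 587732160 0) (P.cons (P.lf 0 39294400 0) (P.lf 13098128 0 0)))) (P.cons (P.cons (P.lf 152623440 0 0) (P.cons (P.lf 0 26965584 0) (P.cons (P.lf 0 1802848 0) (P.lf 600944 0 0)))) (P.cons (P.cons (P.lf 0 977610 0) (P.cons (P.lf 0 303592 0) (P.cons (P.lf 0 20296 0) (P.lf 6760 0 0)))) (P.cons (P.cons (P.lf 0 47696 0) (P.cons (P.lf 3648 0 0) (P.cons (P.lf 240 0 0) P.nil))) (P.cons (P.cons (P.lf 0 102 0) (P.cons (P.lf 96 0 0) P.nil)) (P.cons (P.cons (P.lf 0 0 0) P.nil) P.nil)))))) 878)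
 EL.nil)
noncomputable def S157_161_364_512_35 : EL := (EL.cons 14 (TM.mk (P.cons (P.cons (P.lf 26969440 0 0) (P.cons (P.lf 0 65864362 0) (P.cons (P.lf 35809700 0 0) (P.cons (P.lf 6844970 0 0) (P.cons (P.lf 0 1612622 0) (P.cons (P.lf 0 119832 0) P.nil)))))) (P.cons (P.cons (P.lf 17103786 0 0) (P.cons (P.lf 0 23907210 0) (P.cons (P.lf 2091646 0 0) (P.cons (P.lf 1026204 0 0) (P.cons (P.lf 0 147974 0) P.nil))))) (P.cons (P.cons (P.lf 2602212 0 0) (P.cons (P.lf 0 858476 0) (P.cons (P.lf 68798 0 0) (P.cons (P.lf 36004 0 0) P.nil)))) (P.cons (P.cons (P.lf 0 40084 0) (P.cons (P.lf 2284 0 0) (P.cons (P.lf 1558 0 0) P.nil))) (P.cons (P.cons (P.lf 0 1594 0) (P.cons (P.lf 522 0 0) P.nil)) (P.cons (P.cons (P.lf 6 0 0) P.nil) P.nil)))))) 40802)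
 EL.nil)
noncomputable def S157_161_364_512_36 : EL := (EL.cons 14 (TM.mk (P.cons (P.lf 0 5519090408 0) (P.cons (P.lf 79166256 0 0) (P.cons (P.lf 853728 0 0) (P.cons (P.lf 232 0 0) (P.cons (P.lf 0 48 0) (P.cons (P.lf 0 0 0) P.nil)))))) 112)
 EL.nil)
noncomputable def S157_161_364_512_37 : EL := (EL.cons 14 (TM.mk (P.cons (P.cons (P.lf 0 309249176 0) (P.cons (P.lf 377621842 0 0) (P.cons (P.lf 25246914 0 0) (P.lf 0 8415634 0)))) (P.cons (P.cons (P.lf 0 93625686 0) (P.cons (P.lf 11908930 0 0) (P.cons (P.lf 796198 0 0) (P.lf 0 265396 0)))) (P.cons (P.cons (P.lf 2082560 0 0) (P.cons (P.lf 0 111872 0) (P.cons (P.lf 0 7480 0) (P.lf 2496 0 0)))) (P.cons (P.cons (P.lf 36816 0 0) (P.cons (P.lf 0 7836 0) (P.cons (P.lf 0 520 0) P.nil))) (P.cons (P.cons (P.lf 0 468 0) (P.cons (P.lf 0 54 0) P.nil)) (P.cons (P.cons (P.lf 0 6 0) P.nil) P.nil)))))) 756)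
 EL.nil)
noncomputable def S157_161_364_512_38 : EL := (EL.cons 14 (TM.mk (P.cons (P.cons (P.lf 0 17328044 0) (P.cons (P.lf 42318292 0 0) (P.cons (P.lf 0 23007970 0) (P.cons (P.lf 0 4397938 0) (P.cons (P.lf 1036120 0 0) (P.cons (P.lf 76992 0 0) P.nil)))))) (P.cons (P.cons (P.lf 0 10740742 0) (P.cons (P.lf 14753524 0 0) (P.cons (P.lf 0 1013868 0) (P.cons (P.lf 0 596258 0) (P.cons (P.lf 80212 0 0) P.nil))))) (P.cons (P.cons (P.lf 0 1511626 0) (P.cons (P.lf 324696 0 0) (P.cons (P.lf 0 21366 0) (P.cons (P.lf 0 12994 0) P.nil)))) (P.cons (P.cons (P.lf 51436 0 0) (P.cons (P.lf 0 11756 0) (P.cons (P.lf 0 158 0) P.nil))) (P.cons (P.cons (P.lf 912 0 0) (P.cons (P.lf 0 398 0) P.nil)) (P.cons (P.cons (P.lf 0 22 0) P.nil) P.nil)))))) 29760)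
 EL.nil)
noncomputable def S157_161_364_512_39 : EL := (EL.cons 14 (TM.mk (P.cons (P.lf 3546052486 0 0) (P.cons (P.lf 0 101729696 0) (P.cons (P.lf 0 367442 0) (P.cons (P.lf 15438 0 0) (P.cons (P.lf 150 0 0) (P.cons (P.lf 0 0 0) P.nil)))))) 160)
 EL.nil)
noncomputable def S157_161_364_512_40 : EL := (EL.cons 14 (TM.mk (P.cons (P.cons (P.lf 198694662 0 0) (P.cons (P.lf 0 242624558 0) (P.cons (P.lf 0 16221310 0) (P.lf 5407100 0 0)))) (P.cons (P.cons (P.lf 57305038 0 0) (P.cons (P.lf 0 4171342 0) (P.cons (P.lf 0 278882 0) (P.lf 92958 0 0)))) (P.cons (P.cons (P.lf 0 2231664 0) (P.cons (P.lf 219164 0 0) (P.cons (P.lf 14652 0 0) (P.lf 0 4886 0)))) (P.cons (P.cons (P.lf 0 13774 0) (P.cons (P.lf 5198 0 0) (P.cons (P.lf 344 0 0) P.nil))) (P.cons (P.cons (P.lf 846 0 0) (P.cons (P.lf 0 48 0) P.nil)) (P.cons (P.cons (P.lf 4 0 0) P.nil) P.nil)))))) 576)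
 EL.nil)
noncomputable def S157_161_364_512_41 : EL := (EL.cons 14 (TM.mk (P.cons (P.cons (P.lf 11133384 0 0) (P.cons (P.lf 0 27189786 0) (P.cons (P.lf 14782774 0 0) (P.cons (P.lf 2825704 0 0) (P.cons (P.lf 0 665714 0) (P.cons (P.lf 0 49468 0) P.nil)))))) (P.cons (P.cons (P.lf 6741300 0 0) (P.cons (P.lf 0 9089226 0) (P.cons (P.lf 439370 0 0) (P.cons (P.lf 342566 0 0) (P.cons (P.lf 0 41986 0) P.nil))))) (P.cons (P.cons (P.lf 870518 0 0) (P.cons (P.lf 0 68442 0) (P.cons (P.lf 2096 0 0) (P.cons (P.lf 2416 0 0) P.nil)))) (P.cons (P.cons (P.lf 0 48048 0) (P.cons (P.lf 12012 0 0) (P.cons (P.lf 0 196 0) P.nil))) (P.cons (P.cons (P.lf 0 262 0) (P.cons (P.lf 180 0 0) P.nil)) (P.cons (P.cons (P.lf 28 0 0) P.nil) P.nil)))))) 21152)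
 EL.nil)
noncomputable def S157_161_364_512_42 : EL := (EL.cons 14 (TM.mk (P.cons (P.lf 0 2278362430 0) (P.cons (P.lf 98043014 0 0) (P.cons (P.lf 0 349042 0) (P.cons (P.lf 0 23320 0) (P.cons (P.lf 0 12 0) (P.cons (P.lf 2 0 0) P.nil)))))) 164)
 EL.nil)
noncomputable def S157_161_364_512_43 : EL := (EL.cons 14 (TM.mk (P.cons (P.cons (P.lf 0 127662648 0) (P.cons (P.lf 155887900 0 0) (P.cons (P.lf 10422300 0 0) (P.lf 0 3474098 0)))) (P.cons (P.cons (P.lf 0 34987666 0) (P.cons (P.lf 444046 0 0) (P.cons (P.lf 29684 0 0) (P.lf 0 9892 0)))) (P.cons (P.cons (P.lf 1981738 0 0) (P.cons (P.lf 0 203370 0) (P.cons (P.lf 0 13596 0) (P.lf 4532 0 0)))) (P.cons (P.cons (P.lf 0 6014 0) (P.cons (P.lf 0 1740 0) (P.cons (P.lf 0 114 0) P.nil))) (P.cons (P.cons (P.lf 0 892 0) (P.cons (P.lf 102 0 0) P.nil)) (P.cons (P.cons (P.lf 2 0 0) P.nil) P.nil)))))) 454)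
 EL.nil)
noncomputable def S157_161_364_512_44 : EL := (EL.cons 14 (TM.mk (P.cons (P.cons (P.lf 0 7153274 0) (P.cons (P.lf 17469618 0 0) (P.cons (P.lf 0 9498032 0) (P.cons (P.lf 0 1815534 0) (P.cons (P.lf 427724 0 0) (P.cons (P.lf 31782 0 0) P.nil)))))) (P.cons (P.cons (P.lf 0 4228722 0) (P.cons (P.lf 5589302 0 0) (P.cons (P.lf 0 146058 0) (P.cons (P.lf 0 194060 0) (P.cons (P.lf 20842 0 0) P.nil))))) (P.cons (P.cons (P.lf 0 496078 0) (P.cons (P.lf 0 42494 0) (P.cons (P.lf 4170 0 0) (P.cons (P.lf 1884 0 0) P.nil)))) (P.cons (P.cons (P.lf 39564 0 0) (P.cons (P.lf 0 9252 0) (P.cons (P.lf 188 0 0) P.nil))) (P.cons (P.cons (P.lf 0 186 0) (P.cons (P.lf 0 12 0) P.nil)) (P.cons (P.cons (P.lf 0 24 0) P.nil) P.nil)))))) 14986)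
 EL.nil)
noncomputable def S157_161_364_512_45 : EL := (EL.cons 14 (TM.mk (P.cons (P.cons (P.lf 1511168 0 0) (P.cons (P.lf 0 5535830 0) (P.cons (P.lf 6389648 0 0) (P.cons (P.lf 0 1724176 0) (P.cons (P.lf 0 822940 0) (P.cons (P.lf 126914 0 0) P.nil)))))) (P.cons (P.cons (P.lf 1437554 0 0) (P.cons (P.lf 0 3764762 0) (P.cons (P.lf 2512072 0 0) (P.cons (P.lf 74746 0 0) (P.cons (P.lf 0 186790 0) P.nil))))) (P.cons (P.cons (P.lf 446634 0 0) (P.cons (P.lf 0 698074 0) (P.cons (P.lf 157500 0 0) (P.cons (P.lf 21218 0 0) P.nil)))) (P.cons (P.cons (P.lf 41892 0 0) (P.cons (P.lf 0 18056 0) (P.cons (P.lf 3824 0 0) P.nil))) (P.cons (P.cons (P.lf 0 1192 0) (P.cons (P.lf 450 0 0) P.nil)) (P.cons (P.cons (P.lf 0 38 0) P.nil) P.nil)))))) 84664)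
 EL.nil)
noncomputable def S157_161_364_512_46 : EL := (EL.cons 15 (TM.mk (P.lf 4294967296 0 0) 0)
 EL.nil)
noncomputable def S157_161_364_512_47 : EL := (EL.cons 15 (TM.mk (P.cons (P.cons (P.lf 240658333 0 0) (P.cons (P.lf 0 293866080 0) (P.cons (P.lf 0 19647200 0) (P.lf 6549064 0 0)))) (P.cons (P.cons (P.lf 76311720 0 0) (P.cons (P.lf 0 13482792 0) (P.cons (P.lf 0 901424 0) (P.lf 300472 0 0)))) (P.cons (P.cons (P.lf 0 488805 0) (P.cons (P.lf 0 151796 0) (P.cons (P.lf 0 10148 0) (P.lf 3380 0 0)))) (P.cons (P.cons (P.lf 0 23848 0) (P.cons (P.lf 1824 0 0) (P.cons (P.lf 120 0 0) P.nil))) (P.cons (P.cons (P.lf 0 51 0) (P.cons (P.lf 48 0 0) P.nil)) (P.cons (P.cons (P.lf 0 0 0) P.nil) P.nil)))))) 439)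
 EL.nil)
noncomputable def S157_161_364_512_48 : EL := (EL.cons 15 (TM.mk (P.cons (P.cons (P.lf 13484720 0 0) (P.cons (P.lf 0 32932181 0) (P.cons (P.lf 17904850 0 0) (P.cons (P.lf 3422485 0 0) (P.cons (P.lf 0 806311 0) (P.cons (P.lf 0 59916 0) P.nil)))))) (P.cons (P.cons (P.lf 8551893 0 0) (P.cons (P.lf 0 11953605 0) (P.cons (P.lf 1045823 0 0) (P.cons (P.lf 513102 0 0) (P.cons (P.lf 0 73987 0) P.nil))))) (P.cons (P.cons (P.lf 1301106 0 0) (P.cons (P.lf 0 429238 0) (P.cons (P.lf 34399 0 0) (P.cons (P.lf 18002 0 0) P.nil)))) (P.cons (P.cons (P.lf 0 20042 0) (P.cons (P.lf 1142 0 0) (P.cons (P.lf 779 0 0) P.nil))) (P.cons (P.cons (P.lf 0 797 0) (P.cons (P.lf 261 0 0) P.nil)) (P.cons (P.cons (P.lf 3 0 0) P.nil) P.nil)))))) 20401)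
 EL.nil)
noncomputable def S157_161_364_512 : SL := (SL.cons S157_161_364_512_0 (SL.cons S157_161_364_512_1 (SL.cons S157_161_364_512_2 (SL.cons S157_161_364_512_3 (SL.cons S157_161_364_512_4 (SL.cons S157_161_364_512_5 (SL.cons S157_161_364_512_6 (SL.cons S157_161_364_512_7 (SL.cons S157_161_364_512_8 (SL.cons S157_161_364_512_9 (SL.cons S157_161_364_512_10 (SL.cons S157_161_364_512_11 (SL.cons S157_161_364_512_12 (SL.cons S157_161_364_512_13 (SL.cons S157_161_364_512_14 (SL.cons S157_161_364_512_15 (SL.cons S157_161_364_512_16 (SL.cons S157_161_364_512_17 (SL.cons S157_161_364_512_18 (SL.cons S157_161_364_512_19 (SL.cons S157_161_364_512_20 (SL.cons S157_161_364_512_21 (SL.cons S157_161_364_512_22 (SL.cons S157_161_364_512_23 (SL.cons S157_161_364_512_24 (SL.cons S157_161_364_512_25 (SL.cons S157_161_364_512_26 (SL.cons S157_161_364_512_27 (SL.cons S157_161_364_512_28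 (SL.cons S157_161_364_512_29 (SL.cons S157_161_364_512_30 (SL.cons S157_161_364_512_31 (SL.cons S157_161_364_512_32 (SL.cons S157_161_364_512_33 (SL.cons S157_161_364_512_34 (SL.cons S157_161_364_512_35 (SL.cons S157_161_364_512_36 (SL.cons S157_161_364_512_37 (SL.cons S157_161_364_512_38 (SL.cons S157_161_364_512_39 (SL.cons S157_161_364_512_40 (SL.cons S157_161_364_512_41 (SL.cons S157_161_364_512_42 (SL.cons S157_161_364_512_43 (SL.cons S157_161_364_512_44 (SL.cons S157_161_364_512_45 (SL.cons S157_161_364_512_46 (SL.cons S157_161_364_512_47 (SL.cons S157_161_364_512_48 SL.nil)))))))))))))))))))))))))))))))))))))))))))))))))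
noncomputable def S161_165_364_512_0 : EL := (EL.cons 0 (TM.mk (P.cons (P.lf 5519071987 0 0) (P.cons (P.lf 90535485 0 0) (P.cons (P.lf 238259 0 0) (P.cons (P.lf 0 14656 0) (P.cons (P.lf 0 131 0) (P.cons (P.lf 0 0 0) P.nil)))))) 133)
 (EL.cons 1 (TM.mk (P.cons (P.lf 0 1800035356 0) (P.cons (P.lf 1488845 0 0) (P.cons (P.lf 814063 0 0) (P.cons (P.lf 4691 0 0) (P.cons (P.lf 0 69 0) (P.cons (P.lf 0 0 0) P.nil)))))) 106)
 (EL.cons 5 (TM.mk (P.cons (P.lf 5339107700 0 0) (P.cons (P.lf 0 32190396 0) (P.cons (P.lf 0 84716 0) (P.cons (P.lf 5208 0 0) (P.cons (P.lf 46 0 0) (P.cons (P.lf 0 0 0) P.nil)))))) 85)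
 (EL.cons 9 (TM.mk (P.lf 6442450944 0 0) 2)
 EL.nil))))
noncomputable def S161_165_364_512_1 : EL := (EL.cons 0 (TM.mk (P.cons (P.cons (P.lf 0 2969083039 0) (P.cons (P.lf 246279025 0 0) (P.cons (P.lf 16465633 0 0) (P.lf 0 5488538 0)))) (P.cons (P.cons (P.lf 186769734 0 0) (P.cons (P.lf 0 16323804 0) (P.cons (P.lf 0 1091379 0) (P.lf 363797 0 0)))) (P.cons (P.cons (P.lf 5077085 0 0) (P.cons (P.lf 0 1150390 0) (P.cons (P.lf 0 76911 0) (P.lf 25634 0 0)))) (P.cons (P.cons (P.lf 0 85178 0) (P.cons (P.lf 0 12211 0) (P.cons (P.lf 0 805 0) P.nil))) (P.cons (P.cons (P.lf 0 3128 0) (P.cons (P.lf 354 0 0) P.nil)) (P.cons (P.cons (P.lf 3 0 0) P.nil) P.nil)))))) 3325)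
 (EL.cons 1 (TM.mk (P.cons (P.cons (P.lf 0 221017714 0) (P.cons (P.lf 145551959 0 0) (P.cons (P.lf 9731257 0 0) (P.lf 0 3243749 0)))) (P.cons (P.cons (P.lf 0 91668549 0) (P.cons (P.lf 17723654 0 0) (P.cons (P.lf 1184957 0 0) (P.lf 0 394977 0)))) (P.cons (P.cons (P.lf 1686915 0 0) (P.cons (P.lf 180217 0 0) (P.cons (P.lf 12047 0 0) (P.lf 0 4012 0)))) (P.cons (P.cons (P.lf 88096 0 0) (P.cons (P.lf 0 11864 0) (P.cons (P.lf 0 786 0) P.nil))) (P.cons (P.cons (P.lf 0 315 0) (P.cons (P.lf 0 228 0) P.nil)) (P.cons (P.cons (P.lf 0 20 0) P.nil) P.nil)))))) 1724)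
 (EL.cons 5 (TM.mk (P.cons (P.cons (P.lf 1720603490 0 0) (P.cons (P.lf 0 633985740 0) (P.cons (P.lf 0 42386812 0) (P.lf 14128932 0 0)))) (P.cons (P.cons (P.lf 59510058 0 0) (P.cons (P.lf 0 18108946 0) (P.cons (P.lf 0 1210714 0) (P.lf 403570 0 0)))) (P.cons (P.cons (P.lf 0 2881113 0) (P.cons (P.lf 171680 0 0) (P.cons (P.lf 11476 0 0) (P.lf 0 3822 0)))) (P.cons (P.cons (P.lf 0 10730 0) (P.cons (P.lf 8142 0 0) (P.cons (P.lf 540 0 0) P.nil))) (P.cons (P.cons (P.lf 1083 0 0) (P.cons (P.lf 0 34 0) P.nil)) (P.cons (P.cons (P.lf 0 0 0) P.nil) P.nil)))))) 1895)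
 (EL.cons 9 (TM.mk (P.cons (P.cons (P.lf 586702510 0 0) (P.cons (P.lf 0 482135166 0) (P.cons (P.lf 0 32234430 0) (P.lf 10744806 0 0)))) (P.cons (P.cons (P.lf 111103290 0 0) (P.cons (P.lf 0 21099672 0) (P.cons (P.lf 0 1410672 0) (P.lf 470220 0 0)))) (P.cons (P.cons (P.lf 0 949353 0) (P.cons (P.lf 0 209424 0) (P.cons (P.lf 0 13998 0) (P.lf 4662 0 0)))) (P.cons (P.cons (P.lf 0 36180 0) (P.cons (P.lf 3348 0 0) (P.cons (P.lf 222 0 0) P.nil))) (P.cons (P.cons (P.lf 0 22 0) (P.cons (P.lf 72 0 0) P.nil)) (P.cons (P.cons (P.lf 0 0 0) P.nil) P.nil)))))) 677)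
 (EL.cons 2 (TM.mk (P.cons (P.cons (P.lf 897565798 0 0) (P.cons (P.lf 138965723 0 0) (P.cons (P.lf 0 66949301 0) (P.cons (P.lf 0 2533556 0) (P.lf 633386 0 0))))) (P.cons (P.cons (P.lf 12350989 0 0) (P.cons (P.lf 1912241 0 0) (P.cons (P.lf 0 921256 0) (P.cons (P.lf 0 34860 0) (P.lf 8713 0 0))))) (P.cons (P.cons (P.lf 0 477795 0) (P.cons (P.lf 0 73974 0) (P.cons (P.lf 35637 0 0) (P.cons (P.lf 1350 0 0) P.nil)))) (P.cons (P.cons (P.lf 0 9435 0) (P.cons (P.lf 0 1456 0) (P.cons (P.lf 703 0 0) P.nil))) (P.cons (P.cons (P.lf 25 0 0) (P.cons (P.lf 2 0 0) P.nil)) (P.cons (P.cons (P.lf 0 0 0) P.nil) P.nil)))))) 715)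
 (EL.cons 6 (TM.mk (P.cons (P.cons (P.lf 550168725 0 0) (P.cons (P.lf 85179933 0 0) (P.cons (P.lf 0 41037006 0) (P.cons (P.lf 0 1552959 0) (P.lf 388239 0 0))))) (P.cons (P.cons (P.lf 24077025 0 0) (P.cons (P.lf 3727725 0 0) (P.cons (P.lf 0 1795899 0) (P.cons (P.lf 0 67962 0) (P.lf 16989 0 0))))) (P.cons (P.cons (P.lf 238977 0 0) (P.cons (P.lf 36996 0 0) (P.cons (P.lf 0 17823 0) (P.cons (P.lf 0 672 0) P.nil)))) (P.cons (P.cons (P.lf 0 3825 0) (P.cons (P.lf 0 591 0) (P.cons (P.lf 285 0 0) P.nil))) (P.cons (P.cons (P.lf 0 87 0) (P.cons (P.lf 0 12 0) P.nil)) (P.cons (P.cons (P.lf 0 0 0) P.nil) P.nil)))))) 411)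
 EL.nil))))))
noncomputable def S161_165_364_512_2 : EL := (EL.cons 0 (TM.mk (P.cons (P.cons (P.lf 0 586550164 0) (P.cons (P.lf 564480443 0 0) (P.cons (P.lf 0 30032008 0) (P.cons (P.lf 0 21642075 0) (P.cons (P.lf 2717769 0 0) (P.cons (P.lf 201951 0 0) P.nil)))))) (P.cons (P.cons (P.lf 0 86475502 0) (P.cons (P.lf 15786826 0 0) (P.cons (P.lf 0 1326946 0) (P.cons (P.lf 0 670376 0) (P.cons (P.lf 95531 0 0) P.nil))))) (P.cons (P.cons (P.lf 6461997 0 0) (P.cons (P.lf 0 1810047 0) (P.cons (P.lf 10313 0 0) (P.cons (P.lf 57902 0 0) P.nil)))) (P.cons (P.cons (P.lf 146473 0 0) (P.cons (P.lf 0 70565 0) (P.cons (P.lf 3767 0 0) P.nil))) (P.cons (P.cons (P.lf 0 5581 0) (P.cons (P.lf 521 0 0) P.nil)) (P.cons (P.cons (P.lf 0 125 0) P.nil) P.nil)))))) 148290)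
 (EL.cons 1 (TM.mk (P.cons (P.cons (P.lf 0 25326930 0) (P.cons (P.lf 35055484 0 0) (P.cons (P.lf 0 9360385 0) (P.cons (P.lf 0 2346257 0) (P.cons (P.lf 469357 0 0) (P.cons (P.lf 34873 0 0) P.nil)))))) (P.cons (P.cons (P.lf 0 18677680 0) (P.cons (P.lf 17716775 0 0) (P.cons (P.lf 0 1547635 0) (P.cons (P.lf 0 760162 0) (P.cons (P.lf 109559 0 0) P.nil))))) (P.cons (P.cons (P.lf 0 2313749 0) (P.cons (P.lf 805089 0 0) (P.cons (P.lf 0 75922 0) (P.cons (P.lf 0 35281 0) P.nil)))) (P.cons (P.cons (P.lf 89730 0 0) (P.cons (P.lf 0 17115 0) (P.cons (P.lf 0 1747 0) P.nil))) (P.cons (P.cons (P.lf 2969 0 0) (P.cons (P.lf 0 1224 0) P.nil)) (P.cons (P.cons (P.lf 0 47 0) P.nil) P.nil)))))) 63638)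
 (EL.cons 5 (TM.mk (P.cons (P.cons (P.lf 269105114 0 0) (P.cons (P.lf 0 300227111 0) (P.cons (P.lf 44916714 0 0) (P.cons (P.lf 15380870 0 0) (P.cons (P.lf 0 2606171 0) (P.cons (P.lf 0 193651 0) P.nil)))))) (P.cons (P.cons (P.lf 53680921 0 0) (P.cons (P.lf 0 28815076 0) (P.cons (P.lf 2499732 0 0) (P.cons (P.lf 1234016 0 0) (P.cons (P.lf 0 177489 0) P.nil))))) (P.cons (P.cons (P.lf 0 322054 0) (P.cons (P.lf 0 63407 0) (P.cons (P.lf 62901 0 0) (P.cons (P.lf 10397 0 0) P.nil)))) (P.cons (P.cons (P.lf 0 96645 0) (P.cons (P.lf 30777 0 0) (P.cons (P.lf 36 0 0) P.nil))) (P.cons (P.cons (P.lf 720 0 0) (P.cons (P.lf 312 0 0) P.nil)) (P.cons (P.cons (P.lf 49 0 0) P.nil) P.nil)))))) 73669)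
 (EL.cons 9 (TM.mk (P.cons (P.cons (P.lf 53429950 0 0) (P.cons (P.lf 0 87814377 0) (P.cons (P.lf 30210594 0 0) (P.cons (P.lf 6781690 0 0) (P.cons (P.lf 0 1446939 0) (P.cons (P.lf 0 107521 0) P.nil)))))) (P.cons (P.cons (P.lf 20235955 0 0) (P.cons (P.lf 0 20472342 0) (P.cons (P.lf 1789348 0 0) (P.cons (P.lf 878526 0 0) (P.cons (P.lf 0 126643 0) P.nil))))) (P.cons (P.cons (P.lf 1743120 0 0) (P.cons (P.lf 0 623797 0) (P.cons (P.lf 58743 0 0) (P.cons (P.lf 27331 0 0) P.nil)))) (P.cons (P.cons (P.lf 0 39333 0) (P.cons (P.lf 5019 0 0) (P.cons (P.lf 1206 0 0) P.nil))) (P.cons (P.cons (P.lf 0 1111 0) (P.cons (P.lf 430 0 0) P.nil)) (P.cons (P.cons (P.lf 9 0 0) P.nil) P.nil)))))) 35327)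
 (EL.cons 2 (TM.mk (P.cons (P.cons (P.lf 163479425 0 0) (P.cons (P.lf 0 109031945 0) (P.cons (P.lf 0 41975358 0) (P.cons (P.lf 11162475 0 0) (P.cons (P.lf 1628060 0 0) (P.cons (P.lf 0 292764 0) P.nil)))))) (P.cons (P.cons (P.lf 33207502 0 0) (P.cons (P.lf 0 2586504 0) (P.cons (P.lf 0 4190073 0) (P.cons (P.lf 574908 0 0) (P.cons (P.lf 110446 0 0) P.nil))))) (P.cons (P.cons (P.lf 74441 0 0) (P.cons (P.lf 0 56210 0) (P.cons (P.lf 0 20565 0) (P.cons (P.lf 5647 0 0) P.nil)))) (P.cons (P.cons (P.lf 0 31916 0) (P.cons (P.lf 0 270 0) (P.cons (P.lf 3414 0 0) P.nil))) (P.cons (P.cons (P.lf 0 320 0) (P.cons (P.lf 67 0 0) P.nil)) (P.cons (P.cons (P.lf 5 0 0) P.nil) P.nil)))))) 42507)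
 (EL.cons 6 (TM.mk (P.cons (P.cons (P.lf 100205766 0 0) (P.cons (P.lf 0 66831828 0) (P.cons (P.lf 0 25729062 0) (P.cons (P.lf 6842106 0 0) (P.cons (P.lf 997926 0 0) (P.cons (P.lf 0 179448 0) P.nil)))))) (P.cons (P.cons (P.lf 23361168 0 0) (P.cons (P.lf 0 3590532 0) (P.cons (P.lf 0 3340266 0) (P.cons (P.lf 557676 0 0) (P.cons (P.lf 97638 0 0) P.nil))))) (P.cons (P.cons (P.lf 711822 0 0) (P.cons (P.lf 0 119034 0) (P.cons (P.lf 0 103908 0) (P.cons (P.lf 17820 0 0) P.nil)))) (P.cons (P.cons (P.lf 0 5724 0) (P.cons (P.lf 0 2868 0) (P.cons (P.lf 0 12 0) P.nil))) (P.cons (P.cons (P.lf 0 486 0) (P.cons (P.lf 0 12 0) P.nil)) (P.cons (P.cons (P.lf 0 0 0) P.nil) P.nil)))))) 34320)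
 EL.nil))))))
noncomputable def S161_165_364_512_3 : EL := (EL.cons 0 (TM.mk (P.cons (P.lf 2936644876 0 0) (P.cons (P.lf 0 90535485 0) (P.cons (P.lf 0 238259 0) (P.cons (P.lf 14656 0 0) (P.cons (P.lf 131 0 0) (P.cons (P.lf 0 0 0) P.nil)))))) 133)
 (EL.cons 1 (TM.mk (P.cons (P.lf 1800035356 0 0) (P.cons (P.lf 0 1488845 0) (P.cons (P.lf 0 814063 0) (P.cons (P.lf 0 4691 0) (P.cons (P.lf 69 0 0) (P.cons (P.lf 0 0 0) P.nil)))))) 106)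
 (EL.cons 5 (TM.mk (P.cons (P.lf 1103343244 0 0) (P.cons (P.lf 32190396 0 0) (P.cons (P.lf 84716 0 0) (P.cons (P.lf 0 5208 0) (P.cons (P.lf 0 46 0) (P.cons (P.lf 0 0 0) P.nil)))))) 78)
 EL.nil)))
noncomputable def S161_165_364_512_4 : EL := (EL.cons 0 (TM.mk (P.cons (P.cons (P.lf 267435007 0 0) (P.cons (P.lf 0 219770360 0) (P.cons (P.lf 0 14693331 0) (P.lf 4897775 0 0)))) (P.cons (P.cons (P.lf 42399003 0 0) (P.cons (P.lf 0 2842381 0) (P.cons (P.lf 0 190033 0) (P.lf 63342 0 0)))) (P.cons (P.cons (P.lf 0 2015767 0) (P.cons (P.lf 218881 0 0) (P.cons (P.lf 14635 0 0) (P.lf 0 4879 0)))) (P.cons (P.cons (P.lf 0 5923 0) (P.cons (P.lf 4151 0 0) (P.cons (P.lf 275 0 0) P.nil))) (P.cons (P.cons (P.lf 798 0 0) (P.cons (P.lf 0 63 0) P.nil)) (P.cons (P.cons (P.lf 1 0 0) P.nil) P.nil)))))) 504)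
 (EL.cons 1 (TM.mk (P.cons (P.cons (P.lf 163926005 0 0) (P.cons (P.lf 0 134709654 0) (P.cons (P.lf 0 9006371 0) (P.lf 3002122 0 0)))) (P.cons (P.cons (P.lf 30906922 0 0) (P.cons (P.lf 0 5783872 0) (P.cons (P.lf 0 386694 0) (P.lf 128896 0 0)))) (P.cons (P.cons (P.lf 0 365060 0) (P.cons (P.lf 7284 0 0) (P.cons (P.lf 487 0 0) (P.lf 0 163 0)))) (P.cons (P.cons (P.lf 0 24354 0) (P.cons (P.lf 3999 0 0) (P.cons (P.lf 266 0 0) P.nil))) (P.cons (P.cons (P.lf 46 0 0) (P.cons (P.lf 54 0 0) P.nil)) (P.cons (P.cons (P.lf 5 0 0) P.nil) P.nil)))))) 349)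
 (EL.cons 5 (TM.mk (P.cons (P.cons (P.lf 100479500 0 0) (P.cons (P.lf 0 82571148 0) (P.cons (P.lf 0 5520512 0) (P.lf 1840170 0 0)))) (P.cons (P.cons (P.lf 21959226 0 0) (P.cons (P.lf 0 6022598 0) (P.cons (P.lf 0 402656 0) (P.lf 134216 0 0)))) (P.cons (P.cons (P.lf 400266 0 0) (P.cons (P.lf 0 147632 0) (P.cons (P.lf 0 9868 0) (P.lf 3288 0 0)))) (P.cons (P.cons (P.lf 0 9952 0) (P.cons (P.lf 0 360 0) (P.cons (P.lf 0 24 0) P.nil))) (P.cons (P.cons (P.lf 0 290 0) (P.cons (P.lf 46 0 0) P.nil)) (P.cons (P.cons (P.lf 0 0 0) P.nil) P.nil)))))) 240)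
 EL.nil)))
noncomputable def S161_165_364_512_5 : EL := (EL.cons 0 (TM.mk (P.cons (P.cons (P.lf 24354827 0 0) (P.cons (P.lf 0 40028187 0) (P.cons (P.lf 13770812 0 0) (P.cons (P.lf 3091278 0 0) (P.cons (P.lf 0 659554 0) (P.cons (P.lf 0 49009 0) P.nil)))))) (P.cons (P.cons (P.lf 8473250 0 0) (P.cons (P.lf 0 8097799 0) (P.cons (P.lf 391085 0 0) (P.cons (P.lf 305152 0 0) (P.cons (P.lf 0 37392 0) P.nil))))) (P.cons (P.cons (P.lf 508209 0 0) (P.cons (P.lf 6600 0 0) (P.cons (P.lf 513 0 0) (P.cons (P.lf 0 137 0) P.nil)))) (P.cons (P.cons (P.lf 0 43050 0) (P.cons (P.lf 11610 0 0) (P.cons (P.lf 0 272 0) P.nil))) (P.cons (P.cons (P.lf 28 0 0) (P.cons (P.lf 100 0 0) P.nil)) (P.cons (P.cons (P.lf 24 0 0) P.nil) P.nil)))))) 20479)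
 (EL.cons 1 (TM.mk (P.cons (P.cons (P.lf 14928448 0 0) (P.cons (P.lf 0 24535533 0) (P.cons (P.lf 8440906 0 0) (P.cons (P.lf 1894818 0 0) (P.cons (P.lf 0 404276 0) (P.cons (P.lf 0 30039 0) P.nil)))))) (P.cons (P.cons (P.lf 5641623 0 0) (P.cons (P.lf 0 5699724 0) (P.cons (P.lf 492965 0 0) (P.cons (P.lf 243894 0 0) (P.cons (P.lf 0 35049 0) P.nil))))) (P.cons (P.cons (P.lf 475603 0 0) (P.cons (P.lf 0 158461 0) (P.cons (P.lf 12181 0 0) (P.cons (P.lf 6575 0 0) P.nil)))) (P.cons (P.cons (P.lf 0 13987 0) (P.cons (P.lf 4196 0 0) (P.cons (P.lf 73 0 0) P.nil))) (P.cons (P.cons (P.lf 0 534 0) (P.cons (P.lf 210 0 0) P.nil)) (P.cons (P.cons (P.lf 5 0 0) P.nil) P.nil)))))) 12483)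
 (EL.cons 5 (TM.mk (P.cons (P.cons (P.lf 9150488 0 0) (P.cons (P.lf 0 15039214 0) (P.cons (P.lf 5173908 0 0) (P.cons (P.lf 1161440 0 0) (P.cons (P.lf 0 247804 0) (P.cons (P.lf 0 18414 0) P.nil)))))) (P.cons (P.cons (P.lf 3732606 0 0) (P.cons (P.lf 0 3944894 0) (P.cons (P.lf 457396 0 0) (P.cons (P.lf 184342 0 0) (P.cons (P.lf 0 28918 0) P.nil))))) (P.cons (P.cons (P.lf 400342 0 0) (P.cons (P.lf 0 210278 0) (P.cons (P.lf 19398 0 0) (P.cons (P.lf 9158 0 0) P.nil)))) (P.cons (P.cons (P.lf 2196 0 0) (P.cons (P.lf 0 2454 0) (P.cons (P.lf 498 0 0) P.nil))) (P.cons (P.cons (P.lf 0 380 0) (P.cons (P.lf 106 0 0) P.nil)) (P.cons (P.cons (P.lf 0 4 0) P.nil) P.nil)))))) 7766)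
 EL.nil)))
noncomputable def S161_165_364_512_6 : EL := (EL.cons 12 (TM.mk (P.lf 8589934592 0 0) 0)
 (EL.cons 3 (TM.mk (P.cons (P.lf 0 2511254040 0) (P.cons (P.lf 38710436 0 0) (P.cons (P.lf 400230 0 0) (P.cons (P.lf 0 97 0) (P.cons (P.lf 0 26 0) (P.cons (P.lf 0 0 0) P.nil)))))) 55)
 (EL.cons 7 (TM.mk (P.cons (P.lf 0 1539289309 0) (P.cons (P.lf 0 22454632 0) (P.cons (P.lf 104685 0 0) (P.cons (P.lf 2107 0 0) (P.cons (P.lf 6 0 0) (P.cons (P.lf 0 0 0) P.nil)))))) 44)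
 EL.nil)))
noncomputable def S161_165_364_512_7 : EL := (EL.cons 12 (TM.mk (P.cons (P.cons (P.lf 782270014 0 0) (P.cons (P.lf 0 642846888 0) (P.cons (P.lf 0 42979240 0) (P.lf 14326408 0 0)))) (P.cons (P.cons (P.lf 148137720 0 0) (P.cons (P.lf 0 28132896 0) (P.cons (P.lf 0 1880896 0) (P.lf 626960 0 0)))) (P.cons (P.cons (P.lf 0 1265804 0) (P.cons (P.lf 0 279232 0) (P.cons (P.lf 0 18664 0) (P.lf 6216 0 0)))) (P.cons (P.cons (P.lf 0 48240 0) (P.cons (P.lf 4464 0 0) (P.cons (P.lf 296 0 0) P.nil))) (P.cons (P.cons (P.lf 0 30 0) (P.cons (P.lf 96 0 0) P.nil)) (P.cons (P.cons (P.lf 0 0 0) P.nil) P.nil)))))) 878)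
 (EL.cons 3 (TM.mk (P.cons (P.cons (P.lf 2740103548 0 0) (P.cons (P.lf 0 375870576 0) (P.cons (P.lf 0 25129828 0) (P.lf 8376604 0 0)))) (P.cons (P.cons (P.lf 0 65291694 0) (P.cons (P.lf 0 10655250 0) (P.cons (P.lf 0 712380 0) (P.lf 237456 0 0)))) (P.cons (P.cons (P.lf 0 2529384 0) (P.cons (P.lf 150198 0 0) (P.cons (P.lf 10044 0 0) (P.lf 0 3350 0)))) (P.cons (P.cons (P.lf 0 7134 0) (P.cons (P.lf 7732 0 0) (P.cons (P.lf 512 0 0) P.nil))) (P.cons (P.cons (P.lf 750 0 0) (P.cons (P.lf 34 0 0) P.nil)) (P.cons (P.cons (P.lf 4 0 0) P.nil) P.nil)))))) 1727)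
 (EL.cons 7 (TM.mk (P.cons (P.cons (P.lf 0 1862281490 0) (P.cons (P.lf 442241110 0 0) (P.cons (P.lf 29567214 0 0) (P.lf 0 9855738 0)))) (P.cons (P.cons (P.lf 37873524 0 0) (P.cons (P.lf 6180758 0 0) (P.cons (P.lf 413230 0 0) (P.lf 0 137745 0)))) (P.cons (P.cons (P.lf 899061 0 0) (P.cons (P.lf 0 179843 0) (P.cons (P.lf 0 12024 0) (P.lf 4007 0 0)))) (P.cons (P.cons (P.lf 0 20832 0) (P.cons (P.lf 0 2034 0) (P.cons (P.lf 0 136 0) P.nil))) (P.cons (P.cons (P.lf 0 331 0) (P.cons (P.lf 51 0 0) P.nil)) (P.cons (P.cons (P.lf 0 0 0) P.nil) P.nil)))))) 1255)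
 (EL.cons 10 (TM.mk (P.cons (P.cons (P.lf 0 1535095890 0) (P.cons (P.lf 0 237671391 0) (P.cons (P.lf 114502581 0 0) (P.cons (P.lf 4333113 0 0) (P.lf 0 1083276 0))))) (P.cons (P.cons (P.lf 0 44786919 0) (P.cons (P.lf 0 6934137 0) (P.cons (P.lf 3340647 0 0) (P.cons (P.lf 126420 0 0) (P.lf 0 31605 0))))) (P.cons (P.cons (P.lf 0 117864 0) (P.cons (P.lf 0 18246 0) (P.cons (P.lf 8790 0 0) (P.cons (P.lf 330 0 0) P.nil)))) (P.cons (P.cons (P.lf 7245 0 0) (P.cons (P.lf 1119 0 0) (P.cons (P.lf 0 540 0) P.nil))) (P.cons (P.cons (P.lf 63 0 0) (P.cons (P.lf 9 0 0) P.nil)) (P.cons P.nil P.nil)))))) 345)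
 EL.nil))))
noncomputable def S161_165_364_512_8 : EL := (EL.cons 12 (TM.mk (P.cons (P.cons (P.lf 71239934 0 0) (P.cons (P.lf 0 117085836 0) (P.cons (P.lf 40280792 0 0) (P.cons (P.lf 9042254 0 0) (P.cons (P.lf 0 1929252 0) (P.cons (P.lf 0 143362 0) P.nil)))))) (P.cons (P.cons (P.lf 26981274 0 0) (P.cons (P.lf 0 27296456 0) (P.cons (P.lf 2385798 0 0) (P.cons (P.lf 1171368 0 0) (P.cons (P.lf 0 168858 0) P.nil))))) (P.cons (P.cons (P.lf 2324160 0 0) (P.cons (P.lf 0 831730 0) (P.cons (P.lf 78324 0 0) (P.cons (P.lf 36442 0 0) P.nil)))) (P.cons (P.cons (P.lf 0 52444 0) (P.cons (P.lf 6692 0 0) (P.cons (P.lf 1608 0 0) P.nil))) (P.cons (P.cons (P.lf 0 1482 0) (P.cons (P.lf 574 0 0) P.nil)) (P.cons (P.cons (P.lf 12 0 0) P.nil) P.nil)))))) 47074)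
 (EL.cons 3 (TM.mk (P.cons (P.cons (P.lf 519899560 0 0) (P.cons (P.lf 0 512813088 0) (P.cons (P.lf 36037296 0 0) (P.cons (P.lf 20831722 0 0) (P.cons (P.lf 0 2820071 0) (P.cons (P.lf 0 209556 0) P.nil)))))) (P.cons (P.cons (P.lf 90183807 0 0) (P.cons (P.lf 0 30533018 0) (P.cons (P.lf 3029694 0 0) (P.cons (P.lf 1358526 0 0) (P.cons (P.lf 0 203356 0) P.nil))))) (P.cons (P.cons (P.lf 0 2965665 0) (P.cons (P.lf 284044 0 0) (P.cons (P.lf 108681 0 0) (P.cons (P.lf 5656 0 0) P.nil)))) (P.cons (P.cons (P.lf 0 127133 0) (P.cons (P.lf 45651 0 0) (P.cons (P.lf 751 0 0) P.nil))) (P.cons (P.cons (P.lf 1042 0 0) (P.cons (P.lf 617 0 0) P.nil)) (P.cons (P.cons (P.lf 66 0 0) P.nil) P.nil)))))) 91610)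
 (EL.cons 7 (TM.mk (P.cons (P.cons (P.lf 0 326423328 0) (P.cons (P.lf 338302766 0 0) (P.cons (P.lf 0 34953101 0) (P.cons (P.lf 0 15237529 0) (P.cons (P.lf 2308705 0 0) (P.cons (P.lf 171556 0 0) P.nil)))))) (P.cons (P.cons (P.lf 0 52312615 0) (P.cons (P.lf 17711186 0 0) (P.cons (P.lf 0 1757424 0) (P.cons (P.lf 0 788032 0) (P.cons (P.lf 117958 0 0) P.nil))))) (P.cons (P.cons (P.lf 2505036 0 0) (P.cons (P.lf 0 430451 0) (P.cons (P.lf 0 36677 0) (P.cons (P.lf 8536 0 0) P.nil)))) (P.cons (P.cons (P.lf 33296 0 0) (P.cons (P.lf 0 21143 0) (P.cons (P.lf 621 0 0) P.nil))) (P.cons (P.cons (P.lf 0 1891 0) (P.cons (P.lf 181 0 0) P.nil)) (P.cons (P.cons (P.lf 0 17 0) P.nil) P.nil)))))) 47458)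
 (EL.cons 10 (TM.mk (P.cons (P.cons (P.lf 0 279596886 0) (P.cons (P.lf 186476016 0 0) (P.cons (P.lf 71789952 0 0) (P.cons (P.lf 0 19091046 0) (P.cons (P.lf 0 2784456 0) (P.cons (P.lf 500712 0 0) P.nil)))))) (P.cons (P.cons (P.lf 0 61104318 0) (P.cons (P.lf 7298160 0 0) (P.cons (P.lf 8272860 0 0) (P.cons (P.lf 0 1277550 0) (P.cons (P.lf 0 231816 0) P.nil))))) (P.cons (P.cons (P.lf 0 1113792 0) (P.cons (P.lf 238362 0 0) (P.cons (P.lf 174138 0 0) (P.cons (P.lf 0 32394 0) P.nil)))) (P.cons (P.cons (P.lf 27690 0 0) (P.cons (P.lf 5286 0 0) (P.cons (P.lf 0 1842 0) P.nil))) (P.cons (P.cons (P.lf 804 0 0) (P.cons (P.lf 0 0 0) P.nil)) (P.cons (P.cons (P.lf 0 0 0) P.nil) P.nil)))))) 82596)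
 EL.nil))))
noncomputable def S161_165_364_512_9 : EL := (EL.cons 3 (TM.mk (P.cons (P.lf 0 2511254040 0) (P.cons (P.lf 38710436 0 0) (P.cons (P.lf 400230 0 0) (P.cons (P.lf 0 97 0) (P.cons (P.lf 0 26 0) (P.cons (P.lf 0 0 0) P.nil)))))) 55)
 (EL.cons 7 (TM.mk (P.cons (P.lf 0 1539289309 0) (P.cons (P.lf 0 22454632 0) (P.cons (P.lf 104685 0 0) (P.cons (P.lf 2107 0 0) (P.cons (P.lf 6 0 0) (P.cons (P.lf 0 0 0) P.nil)))))) 44)
 EL.nil))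
noncomputable def S161_165_364_512_10 : EL := (EL.cons 3 (TM.mk (P.cons (P.cons (P.lf 0 228695423 0) (P.cons (P.lf 187935288 0 0) (P.cons (P.lf 12564914 0 0) (P.lf 0 4188302 0)))) (P.cons (P.cons (P.lf 0 39782541 0) (P.cons (P.lf 5327625 0 0) (P.cons (P.lf 356190 0 0) (P.lf 0 118728 0)))) (P.cons (P.cons (P.lf 1074084 0 0) (P.cons (P.lf 0 75099 0) (P.cons (P.lf 0 5022 0) (P.lf 1675 0 0)))) (P.cons (P.cons (P.lf 15291 0 0) (P.cons (P.lf 0 3866 0) (P.cons (P.lf 0 256 0) P.nil))) (P.cons (P.cons (P.lf 0 270 0) (P.cons (P.lf 0 17 0) P.nil)) (P.cons (P.cons (P.lf 0 2 0) P.nil) P.nil)))))) 367)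
 (EL.cons 7 (TM.mk (P.cons (P.cons (P.lf 0 140180330 0) (P.cons (P.lf 115196143 0 0) (P.cons (P.lf 7701744 0 0) (P.lf 0 2567247 0)))) (P.cons (P.cons (P.lf 0 28590717 0) (P.cons (P.lf 6721769 0 0) (P.cons (P.lf 449401 0 0) (P.lf 0 149799 0)))) (P.cons (P.cons (P.lf 0 150879 0) (P.cons (P.lf 115744 0 0) (P.cons (P.lf 7737 0 0) (P.lf 0 2578 0)))) (P.cons (P.cons (P.lf 13950 0 0) (P.cons (P.lf 0 570 0) (P.cons (P.lf 0 37 0) P.nil))) (P.cons (P.cons (P.lf 152 0 0) (P.cons (P.lf 0 39 0) P.nil)) (P.cons (P.cons (P.lf 0 0 0) P.nil) P.nil)))))) 216)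
 EL.nil))
noncomputable def S161_165_364_512_11 : EL := (EL.cons 3 (TM.mk (P.cons (P.cons (P.lf 0 20826884 0) (P.cons (P.lf 34229862 0 0) (P.cons (P.lf 0 11776026 0) (P.cons (P.lf 0 2643488 0) (P.cons (P.lf 564013 0 0) (P.cons (P.lf 41910 0 0) P.nil)))))) (P.cons (P.cons (P.lf 0 7566891 0) (P.cons (P.lf 7452430 0 0) (P.cons (P.lf 0 515958 0) (P.cons (P.lf 0 301698 0) (P.cons (P.lf 40670 0 0) P.nil))))) (P.cons (P.cons (P.lf 0 554553 0) (P.cons (P.lf 114688 0 0) (P.cons (P.lf 0 10269 0) (P.cons (P.lf 0 4952 0) P.nil)))) (P.cons (P.cons (P.lf 27061 0 0) (P.cons (P.lf 0 6975 0) (P.cons (P.lf 0 5 0) P.nil))) (P.cons (P.cons (P.lf 304 0 0) (P.cons (P.lf 0 175 0) P.nil)) (P.cons (P.cons (P.lf 0 12 0) P.nil) P.nil)))))) 15766)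
 (EL.cons 7 (TM.mk (P.cons (P.cons (P.lf 0 12765972 0) (P.cons (P.lf 20981414 0 0) (P.cons (P.lf 0 7218191 0) (P.cons (P.lf 0 1620343 0) (P.cons (P.lf 345715 0 0) (P.cons (P.lf 25690 0 0) P.nil)))))) (P.cons (P.cons (P.lf 0 5021185 0) (P.cons (P.lf 5197508 0 0) (P.cons (P.lf 0 532824 0) (P.cons (P.lf 0 233542 0) (P.cons (P.lf 35302 0 0) P.nil))))) (P.cons (P.cons (P.lf 0 486144 0) (P.cons (P.lf 218971 0 0) (P.cons (P.lf 0 19781 0) (P.cons (P.lf 0 9482 0) P.nil)))) (P.cons (P.cons (P.lf 3668 0 0) (P.cons (P.lf 613 0 0) (P.cons (P.lf 0 453 0) P.nil))) (P.cons (P.cons (P.lf 437 0 0) (P.cons (P.lf 0 137 0) P.nil)) (P.cons (P.cons (P.lf 1 0 0) P.nil) P.nil)))))) 9546)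
 EL.nil))
noncomputable def S161_165_364_512_12 : EL := (EL.cons 4 (TM.mk (P.cons (P.lf 2511254040 0 0) (P.cons (P.lf 0 38710436 0) (P.cons (P.lf 0 400230 0) (P.cons (P.lf 97 0 0) (P.cons (P.lf 26 0 0) (P.cons (P.lf 0 0 0) P.nil)))))) 55)
 (EL.cons 8 (TM.mk (P.cons (P.lf 1539289309 0 0) (P.cons (P.lf 22454632 0 0) (P.cons (P.lf 0 104685 0) (P.cons (P.lf 0 2107 0) (P.cons (P.lf 0 6 0) (P.cons (P.lf 0 0 0) P.nil)))))) 44)
 EL.nil))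
noncomputable def S161_165_364_512_13 : EL := (EL.cons 4 (TM.mk (P.cons (P.cons (P.lf 228695423 0 0) (P.cons (P.lf 0 187935288 0) (P.cons (P.lf 0 12564914 0) (P.lf 4188302 0 0)))) (P.cons (P.cons (P.lf 39782541 0 0) (P.cons (P.lf 0 5327625 0) (P.cons (P.lf 0 356190 0) (P.lf 118728 0 0)))) (P.cons (P.cons (P.lf 0 1074084 0) (P.cons (P.lf 75099 0 0) (P.cons (P.lf 5022 0 0) (P.lf 0 1675 0)))) (P.cons (P.cons (P.lf 0 15291 0) (P.cons (P.lf 3866 0 0) (P.cons (P.lf 256 0 0) P.nil))) (P.cons (P.cons (P.lf 270 0 0) (P.cons (P.lf 17 0 0) P.nil)) (P.cons (P.cons (P.lf 2 0 0) P.nil) P.nil)))))) 367)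
 (EL.cons 8 (TM.mk (P.cons (P.cons (P.lf 140180330 0 0) (P.cons (P.lf 0 115196143 0) (P.cons (P.lf 0 7701744 0) (P.lf 2567247 0 0)))) (P.cons (P.cons (P.lf 28590717 0 0) (P.cons (P.lf 0 6721769 0) (P.cons (P.lf 0 449401 0) (P.lf 149799 0 0)))) (P.cons (P.cons (P.lf 150879 0 0) (P.cons (P.lf 0 115744 0) (P.cons (P.lf 0 7737 0) (P.lf 2578 0 0)))) (P.cons (P.cons (P.lf 0 13950 0) (P.cons (P.lf 570 0 0) (P.cons (P.lf 37 0 0) P.nil))) (P.cons (P.cons (P.lf 0 152 0) (P.cons (P.lf 39 0 0) P.nil)) (P.cons (P.cons (P.lf 0 0 0) P.nil) P.nil)))))) 216)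
 EL.nil))
noncomputable def S161_165_364_512_14 : EL := (EL.cons 4 (TM.mk (P.cons (P.cons (P.lf 20826884 0 0) (P.cons (P.lf 0 34229862 0) (P.cons (P.lf 11776026 0 0) (P.cons (P.lf 2643488 0 0) (P.cons (P.lf 0 564013 0) (P.cons (P.lf 0 41910 0) P.nil)))))) (P.cons (P.cons (P.lf 7566891 0 0) (P.cons (P.lf 0 7452430 0) (P.cons (P.lf 515958 0 0) (P.cons (P.lf 301698 0 0) (P.cons (P.lf 0 40670 0) P.nil))))) (P.cons (P.cons (P.lf 554553 0 0) (P.cons (P.lf 0 114688 0) (P.cons (P.lf 10269 0 0) (P.cons (P.lf 4952 0 0) P.nil)))) (P.cons (P.cons (P.lf 0 27061 0) (P.cons (P.lf 6975 0 0) (P.cons (P.lf 5 0 0) P.nil))) (P.cons (P.cons (P.lf 0 304 0) (P.cons (P.lf 175 0 0) P.nil)) (P.cons (P.cons (P.lf 12 0 0) P.nil) P.nil)))))) 15766)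
 (EL.cons 8 (TM.mk (P.cons (P.cons (P.lf 12765972 0 0) (P.cons (P.lf 0 20981414 0) (P.cons (P.lf 7218191 0 0) (P.cons (P.lf 1620343 0 0) (P.cons (P.lf 0 345715 0) (P.cons (P.lf 0 25690 0) P.nil)))))) (P.cons (P.cons (P.lf 5021185 0 0) (P.cons (P.lf 0 5197508 0) (P.cons (P.lf 532824 0 0) (P.cons (P.lf 233542 0 0) (P.cons (P.lf 0 35302 0) P.nil))))) (P.cons (P.cons (P.lf 486144 0 0) (P.cons (P.lf 0 218971 0) (P.cons (P.lf 19781 0 0) (P.cons (P.lf 9482 0 0) P.nil)))) (P.cons (P.cons (P.lf 0 3668 0) (P.cons (P.lf 0 613 0) (P.cons (P.lf 453 0 0) P.nil))) (P.cons (P.cons (P.lf 0 437 0) (P.cons (P.lf 137 0 0) P.nil)) (P.cons (P.cons (P.lf 0 1 0) P.nil) P.nil)))))) 9546)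
 EL.nil))
noncomputable def S161_165_364_512_15 : EL := (EL.cons 4 (TM.mk (P.cons (P.lf 0 1566210600 0) (P.cons (P.lf 48285592 0 0) (P.cons (P.lf 127071 0 0) (P.cons (P.lf 0 7816 0) (P.cons (P.lf 0 70 0) (P.cons (P.lf 0 0 0) P.nil)))))) 74)
 (EL.cons 8 (TM.mk (P.cons (P.lf 0 960018857 0) (P.cons (P.lf 794051 0 0) (P.cons (P.lf 434167 0 0) (P.cons (P.lf 2502 0 0) (P.cons (P.lf 0 37 0) (P.cons (P.lf 0 0 0) P.nil)))))) 53)
 EL.nil))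
noncomputable def S161_165_364_512_16 : EL := (EL.cons 4 (TM.mk (P.cons (P.cons (P.lf 0 142632003 0) (P.cons (P.lf 117210858 0 0) (P.cons (P.lf 7836443 0 0) (P.lf 0 2612146 0)))) (P.cons (P.cons (P.lf 0 22612801 0) (P.cons (P.lf 1515936 0 0) (P.cons (P.lf 101351 0 0) (P.lf 0 33782 0)))) (P.cons (P.cons (P.lf 1075076 0 0) (P.cons (P.lf 0 116736 0) (P.cons (P.lf 0 7805 0) (P.lf 2602 0 0)))) (P.cons (P.cons (P.lf 3159 0 0) (P.cons (P.lf 0 2214 0) (P.cons (P.lf 0 147 0) P.nil))) (P.cons (P.cons (P.lf 0 425 0) (P.cons (P.lf 33 0 0) P.nil)) (P.cons (P.cons (P.lf 0 0 0) P.nil) P.nil)))))) 277)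
 (EL.cons 8 (TM.mk (P.cons (P.cons (P.lf 0 87427203 0) (P.cons (P.lf 71845149 0 0) (P.cons (P.lf 4803398 0 0) (P.lf 0 1601132 0)))) (P.cons (P.cons (P.lf 0 16483692 0) (P.cons (P.lf 3084732 0 0) (P.cons (P.lf 206237 0 0) (P.lf 0 68745 0)))) (P.cons (P.cons (P.lf 194699 0 0) (P.cons (P.lf 0 3885 0) (P.cons (P.lf 0 260 0) (P.lf 87 0 0)))) (P.cons (P.cons (P.lf 12989 0 0) (P.cons (P.lf 0 2133 0) (P.cons (P.lf 0 142 0) P.nil))) (P.cons (P.cons (P.lf 0 25 0) (P.cons (P.lf 0 29 0) P.nil)) (P.cons (P.cons (P.lf 0 3 0) P.nil) P.nil)))))) 176)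
 EL.nil))
noncomputable def S161_165_364_512_17 : EL := (EL.cons 4 (TM.mk (P.cons (P.cons (P.lf 0 12989241 0) (P.cons (P.lf 21348366 0 0) (P.cons (P.lf 0 7344433 0) (P.cons (P.lf 0 1648681 0) (P.cons (P.lf 351762 0 0) (P.cons (P.lf 26138 0 0) P.nil)))))) (P.cons (P.cons (P.lf 0 4519066 0) (P.cons (P.lf 4318826 0 0) (P.cons (P.lf 0 208578 0) (P.cons (P.lf 0 162748 0) (P.cons (P.lf 19942 0 0) P.nil))))) (P.cons (P.cons (P.lf 0 271045 0) (P.cons (P.lf 0 3520 0) (P.cons (P.lf 0 273 0) (P.cons (P.lf 73 0 0) P.nil)))) (P.cons (P.cons (P.lf 22960 0 0) (P.cons (P.lf 0 6192 0) (P.cons (P.lf 145 0 0) P.nil))) (P.cons (P.cons (P.lf 0 15 0) (P.cons (P.lf 0 53 0) P.nil)) (P.cons (P.cons (P.lf 0 13 0) P.nil) P.nil)))))) 10932)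
 (EL.cons 8 (TM.mk (P.cons (P.cons (P.lf 0 7961839 0) (P.cons (P.lf 13085618 0 0) (P.cons (P.lf 0 4501817 0) (P.cons (P.lf 0 1010570 0) (P.cons (P.lf 215614 0 0) (P.cons (P.lf 16021 0 0) P.nil)))))) (P.cons (P.cons (P.lf 0 3008866 0) (P.cons (P.lf 3039853 0 0) (P.cons (P.lf 0 262915 0) (P.cons (P.lf 0 130077 0) (P.cons (P.lf 18693 0 0) P.nil))))) (P.cons (P.cons (P.lf 0 253655 0) (P.cons (P.lf 84513 0 0) (P.cons (P.lf 0 6497 0) (P.cons (P.lf 0 3507 0) P.nil)))) (P.cons (P.cons (P.lf 7460 0 0) (P.cons (P.lf 0 2238 0) (P.cons (P.lf 0 39 0) P.nil))) (P.cons (P.cons (P.lf 285 0 0) (P.cons (P.lf 0 112 0) P.nil)) (P.cons (P.cons (P.lf 0 3 0) P.nil) P.nil)))))) 6646)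
 EL.nil))
noncomputable def S161_165_364_512_18 : EL := (EL.cons 4 (TM.mk (P.cons (P.lf 976809039 0 0) (P.cons (P.lf 0 45171897 0) (P.cons (P.lf 229279 0 0) (P.cons (P.lf 10934 0 0) (P.cons (P.lf 0 9 0) (P.cons (P.lf 0 0 0) P.nil)))))) 75)
 (EL.cons 8 (TM.mk (P.cons (P.lf 598741380 0 0) (P.cons (P.lf 0 9724699 0) (P.cons (P.lf 0 358570 0) (P.cons (P.lf 2715 0 0) (P.cons (P.lf 96 0 0) (P.cons (P.lf 0 0 0) P.nil)))))) 50)
 EL.nil))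
noncomputable def S161_165_364_512_19 : EL := (EL.cons 4 (TM.mk (P.cons (P.cons (P.lf 88956255 0 0) (P.cons (P.lf 0 73101679 0) (P.cons (P.lf 0 4887406 0) (P.lf 1629135 0 0)))) (P.cons (P.cons (P.lf 12731835 0 0) (P.cons (P.lf 181391 0 0) (P.cons (P.lf 12127 0 0) (P.lf 0 4042 0)))) (P.cons (P.cons (P.lf 0 902072 0) (P.cons (P.lf 99030 0 0) (P.cons (P.lf 6620 0 0) (P.lf 0 2206 0)))) (P.cons (P.cons (P.lf 6120 0 0) (P.cons (P.lf 405 0 0) (P.cons (P.lf 26 0 0) P.nil))) (P.cons (P.cons (P.lf 404 0 0) (P.cons (P.lf 0 54 0) P.nil)) (P.cons (P.cons (P.lf 0 2 0) P.nil) P.nil)))))) 228)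
 (EL.cons 8 (TM.mk (P.cons (P.cons (P.lf 54526308 0 0) (P.cons (P.lf 0 44808144 0) (P.cons (P.lf 0 2995767 0) (P.lf 998588 0 0)))) (P.cons (P.cons (P.lf 9439983 0 0) (P.cons (P.lf 0 1233168 0) (P.cons (P.lf 0 82446 0) (P.lf 27481 0 0)))) (P.cons (P.cons (P.lf 0 288591 0) (P.cons (P.lf 39220 0 0) (P.cons (P.lf 2622 0 0) (P.lf 0 874 0)))) (P.cons (P.cons (P.lf 0 7865 0) (P.cons (P.lf 1598 0 0) (P.cons (P.lf 106 0 0) P.nil))) (P.cons (P.cons (P.lf 160 0 0) (P.cons (P.lf 0 2 0) P.nil)) (P.cons (P.cons (P.lf 3 0 0) P.nil) P.nil)))))) 140)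
 EL.nil))
noncomputable def S161_165_364_512_20 : EL := (EL.cons 4 (TM.mk (P.cons (P.cons (P.lf 8101086 0 0) (P.cons (P.lf 0 13314478 0) (P.cons (P.lf 4580551 0 0) (P.cons (P.lf 1028244 0 0) (P.cons (P.lf 0 219385 0) (P.cons (P.lf 0 16302 0) P.nil)))))) (P.cons (P.cons (P.lf 2693560 0 0) (P.cons (P.lf 0 2488311 0) (P.cons (P.lf 59476 0 0) (P.cons (P.lf 85651 0 0) (P.cons (P.lf 0 9056 0) P.nil))))) (P.cons (P.cons (P.lf 124307 0 0) (P.cons (P.lf 45837 0 0) (P.cons (P.lf 0 2564 0) (P.cons (P.lf 0 1773 0) P.nil)))) (P.cons (P.cons (P.lf 0 17374 0) (P.cons (P.lf 4256 0 0) (P.cons (P.lf 0 113 0) P.nil))) (P.cons (P.cons (P.lf 203 0 0) (P.cons (P.lf 0 26 0) P.nil)) (P.cons (P.cons (P.lf 10 0 0) P.nil) P.nil)))))) 7606)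
 (EL.cons 8 (TM.mk (P.cons (P.cons (P.lf 4965613 0 0) (P.cons (P.lf 0 8161195 0) (P.cons (P.lf 2807678 0 0) (P.cons (P.lf 630269 0 0) (P.cons (P.lf 0 134473 0) (P.cons (P.lf 0 9992 0) P.nil)))))) (P.cons (P.cons (P.lf 1800015 0 0) (P.cons (P.lf 0 1770082 0) (P.cons (P.lf 120694 0 0) (P.cons (P.lf 71410 0 0) (P.cons (P.lf 0 9585 0) P.nil))))) (P.cons (P.cons (P.lf 128480 0 0) (P.cons (P.lf 0 22183 0) (P.cons (P.lf 1076 0 0) (P.cons (P.lf 836 0 0) P.nil)))) (P.cons (P.cons (P.lf 0 7390 0) (P.cons (P.lf 2510 0 0) (P.cons (P.lf 0 63 0) P.nil))) (P.cons (P.cons (P.lf 0 131 0) (P.cons (P.lf 57 0 0) P.nil)) (P.cons (P.cons (P.lf 5 0 0) P.nil) P.nil)))))) 4529)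
 EL.nil))
noncomputable def S161_165_364_512_21 : EL := (EL.cons 4 (TM.mk (P.cons (P.cons (P.lf 0 2968798971 0) (P.cons (P.lf 563805864 0 0) (P.cons (P.lf 37694742 0 0) (P.lf 0 12564906 0)))) (P.cons (P.cons (P.lf 25509153 0 0) (P.cons (P.lf 15982875 0 0) (P.cons (P.lf 1068570 0 0) (P.lf 0 356184 0)))) (P.cons (P.cons (P.lf 3603468 0 0) (P.cons (P.lf 0 225297 0) (P.cons (P.lf 0 15066 0) (P.lf 5025 0 0)))) (P.cons (P.cons (P.lf 22425 0 0) (P.cons (P.lf 0 11598 0) (P.cons (P.lf 0 768 0) P.nil))) (P.cons (P.cons (P.lf 0 1020 0) (P.cons (P.lf 0 51 0) P.nil)) (P.cons (P.cons (P.lf 0 6 0) P.nil) P.nil)))))) 1341)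
 (EL.cons 8 (TM.mk (P.cons (P.cons (P.lf 1722101160 0 0) (P.cons (P.lf 0 327044967 0) (P.cons (P.lf 0 21865470 0) (P.lf 7288491 0 0)))) (P.cons (P.cons (P.lf 0 66464241 0) (P.cons (P.lf 541011 0 0) (P.cons (P.lf 36171 0 0) (P.lf 0 12054 0)))) (P.cons (P.cons (P.lf 0 1049940 0) (P.cons (P.lf 295587 0 0) (P.cons (P.lf 19761 0 0) (P.lf 0 6585 0)))) (P.cons (P.cons (P.lf 34782 0 0) (P.cons (P.lf 1464 0 0) (P.cons (P.lf 99 0 0) P.nil))) (P.cons (P.cons (P.lf 483 0 0) (P.cons (P.lf 0 90 0) P.nil)) (P.cons (P.cons (P.lf 0 0 0) P.nil) P.nil)))))) 1020)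
 (EL.cons 11 (TM.mk (P.cons (P.cons (P.lf 1535095890 0 0) (P.cons (P.lf 237671391 0 0) (P.cons (P.lf 0 114502581 0) (P.cons (P.lf 0 4333113 0) (P.lf 1083276 0 0))))) (P.cons (P.cons (P.lf 44786919 0 0) (P.cons (P.lf 6934137 0 0) (P.cons (P.lf 0 3340647 0) (P.cons (P.lf 0 126420 0) (P.lf 31605 0 0))))) (P.cons (P.cons (P.lf 117864 0 0) (P.cons (P.lf 18246 0 0) (P.cons (P.lf 0 8790 0) (P.cons (P.lf 0 330 0) P.nil)))) (P.cons (P.cons (P.lf 0 7245 0) (P.cons (P.lf 0 1119 0) (P.cons (P.lf 540 0 0) P.nil))) (P.cons (P.cons (P.lf 0 63 0) (P.cons (P.lf 0 9 0) P.nil)) (P.cons P.nil P.nil)))))) 345)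
 EL.nil)))
noncomputable def S161_165_364_512_22 : EL := (EL.cons 4 (TM.mk (P.cons (P.cons (P.lf 0 270363222 0) (P.cons (P.lf 273521475 0 0) (P.cons (P.lf 0 23906661 0) (P.cons (P.lf 0 11737605 0) (P.cons (P.lf 1692042 0 0) (P.cons (P.lf 125733 0 0) P.nil)))))) (P.cons (P.cons (P.lf 0 48875349 0) (P.cons (P.lf 18992724 0 0) (P.cons (P.lf 0 1772826 0) (P.cons (P.lf 0 830112 0) (P.cons (P.lf 122013 0 0) P.nil))))) (P.cons (P.cons (P.lf 1205556 0 0) (P.cons (P.lf 0 84678 0) (P.cons (P.lf 0 59475 0) (P.cons (P.lf 0 5304 0) P.nil)))) (P.cons (P.cons (P.lf 77097 0 0) (P.cons (P.lf 0 26313 0) (P.cons (P.lf 0 378 0) P.nil))) (P.cons (P.cons (P.lf 0 369 0) (P.cons (P.lf 0 396 0) P.nil)) (P.cons (P.cons (P.lf 0 39 0) P.nil) P.nil)))))) 37911)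
 (EL.cons 8 (TM.mk (P.cons (P.cons (P.lf 156828678 0 0) (P.cons (P.lf 0 158660676 0) (P.cons (P.lf 13867455 0 0) (P.cons (P.lf 6808593 0 0) (P.cons (P.lf 0 981495 0) (P.cons (P.lf 0 72933 0) P.nil)))))) (P.cons (P.cons (P.lf 23645715 0 0) (P.cons (P.lf 0 6256839 0) (P.cons (P.lf 612300 0 0) (P.cons (P.lf 277245 0 0) (P.cons (P.lf 0 41328 0) P.nil))))) (P.cons (P.cons (P.lf 0 1495590 0) (P.cons (P.lf 324711 0 0) (P.cons (P.lf 8448 0 0) (P.cons (P.lf 0 9009 0) P.nil)))) (P.cons (P.cons (P.lf 0 14814 0) (P.cons (P.lf 10878 0 0) (P.cons (P.lf 0 537 0) P.nil))) (P.cons (P.cons (P.lf 1164 0 0) (P.cons (P.lf 0 159 0) P.nil)) (P.cons (P.cons (P.lf 9 0 0) P.nil) P.nil)))))) 18945)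
 (EL.cons 11 (TM.mk (P.cons (P.cons (P.lf 139798443 0 0) (P.cons (P.lf 0 93238008 0) (P.cons (P.lf 0 35894976 0) (P.cons (P.lf 9545523 0 0) (P.cons (P.lf 1392228 0 0) (P.cons (P.lf 0 250356 0) P.nil)))))) (P.cons (P.cons (P.lf 30552159 0 0) (P.cons (P.lf 0 3649080 0) (P.cons (P.lf 0 4136430 0) (P.cons (P.lf 638775 0 0) (P.cons (P.lf 115908 0 0) P.nil))))) (P.cons (P.cons (P.lf 556896 0 0) (P.cons (P.lf 0 119181 0) (P.cons (P.lf 0 87069 0) (P.cons (P.lf 16197 0 0) P.nil)))) (P.cons (P.cons (P.lf 0 13845 0) (P.cons (P.lf 0 2643 0) (P.cons (P.lf 921 0 0) P.nil))) (P.cons (P.cons (P.lf 0 402 0) (P.cons (P.lf 0 0 0) P.nil)) (P.cons (P.cons (P.lf 0 0 0) P.nil) P.nil)))))) 41298)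
 EL.nil)))
noncomputable def S161_165_364_512_23 : EL := (EL.cons 4 (TM.mk (P.cons (P.cons (P.lf 1851570708 0 0) (P.cons (P.lf 0 351632571 0) (P.cons (P.lf 0 23509329 0) (P.lf 7836438 0 0)))) (P.cons (P.cons (P.lf 0 44451024 0) (P.cons (P.lf 0 4547805 0) (P.cons (P.lf 0 304050 0) (P.lf 101346 0 0)))) (P.cons (P.cons (P.lf 0 2297250 0) (P.cons (P.lf 350208 0 0) (P.cons (P.lf 23415 0 0) (P.lf 0 7806 0)))) (P.cons (P.cons (P.lf 23262 0 0) (P.cons (P.lf 6642 0 0) (P.cons (P.lf 438 0 0) P.nil))) (P.cons (P.cons (P.lf 1227 0 0) (P.cons (P.lf 0 105 0) P.nil)) (P.cons (P.cons (P.lf 0 3 0) P.nil) P.nil)))))) 1044)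
 (EL.cons 8 (TM.mk (P.cons (P.cons (P.lf 0 1074034344 0) (P.cons (P.lf 203970321 0 0) (P.cons (P.lf 13636983 0 0) (P.lf 0 4545660 0)))) (P.cons (P.cons (P.lf 58008204 0 0) (P.cons (P.lf 0 3481572 0) (P.cons (P.lf 0 232770 0) (P.lf 77586 0 0)))) (P.cons (P.cons (P.lf 187020 0 0) (P.cons (P.lf 0 211656 0) (P.cons (P.lf 0 14148 0) (P.lf 4713 0 0)))) (P.cons (P.cons (P.lf 0 38433 0) (P.cons (P.lf 1989 0 0) (P.cons (P.lf 132 0 0) P.nil))) (P.cons (P.cons (P.lf 0 78 0) (P.cons (P.lf 99 0 0) P.nil)) (P.cons (P.cons (P.lf 6 0 0) P.nil) P.nil)))))) 798)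
 (EL.cons 11 (TM.mk (P.cons (P.cons (P.lf 0 957403518 0) (P.cons (P.lf 0 148230105 0) (P.cons (P.lf 71412588 0 0) (P.cons (P.lf 2702460 0 0) (P.lf 0 675612 0))))) (P.cons (P.cons (P.lf 0 13174389 0) (P.cons (P.lf 0 2039724 0) (P.cons (P.lf 982674 0 0) (P.cons (P.lf 37185 0 0) (P.lf 0 9294 0))))) (P.cons (P.cons (P.lf 509649 0 0) (P.cons (P.lf 78906 0 0) (P.cons (P.lf 0 38013 0) (P.cons (P.lf 0 1440 0) P.nil)))) (P.cons (P.cons (P.lf 10065 0 0) (P.cons (P.lf 1554 0 0) (P.cons (P.lf 0 750 0) P.nil))) (P.cons (P.cons (P.lf 0 27 0) (P.cons (P.lf 0 3 0) P.nil)) (P.cons (P.cons (P.lf 0 0 0) P.nil) P.nil)))))) 741)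
 EL.nil)))
noncomputable def S161_165_364_512_24 : EL := (EL.cons 4 (TM.mk (P.cons (P.cons (P.lf 168619239 0 0) (P.cons (P.lf 0 170588967 0) (P.cons (P.lf 14910027 0 0) (P.cons (P.lf 7320471 0 0) (P.cons (P.lf 0 1055286 0) (P.cons (P.lf 0 78417 0) P.nil)))))) (P.cons (P.cons (P.lf 27883185 0 0) (P.cons (P.lf 0 9215727 0) (P.cons (P.lf 875835 0 0) (P.cons (P.lf 404877 0 0) (P.cons (P.lf 0 59829 0) P.nil))))) (P.cons (P.cons (P.lf 0 1248630 0) (P.cons (P.lf 262590 0 0) (P.cons (P.lf 17673 0 0) (P.cons (P.lf 0 5838 0) P.nil)))) (P.cons (P.cons (P.lf 0 41346 0) (P.cons (P.lf 17478 0 0) (P.cons (P.lf 0 510 0) P.nil))) (P.cons (P.cons (P.lf 1092 0 0) (P.cons (P.lf 0 15 0) P.nil)) (P.cons (P.cons (P.lf 30 0 0) P.nil) P.nil)))))) 21726)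
 (EL.cons 8 (TM.mk (P.cons (P.cons (P.lf 0 97810389 0) (P.cons (P.lf 98952963 0 0) (P.cons (P.lf 0 8648808 0) (P.cons (P.lf 0 4246359 0) (P.cons (P.lf 612135 0 0) (P.cons (P.lf 45486 0 0) P.nil)))))) (P.cons (P.cons (P.lf 0 13239555 0) (P.cons (P.lf 2376906 0 0) (P.cons (P.lf 0 248556 0) (P.cons (P.lf 0 107454 0) (P.cons (P.lf 16338 0 0) P.nil))))) (P.cons (P.cons (P.lf 1175679 0 0) (P.cons (P.lf 0 278436 0) (P.cons (P.lf 1995 0 0) (P.cons (P.lf 8961 0 0) P.nil)))) (P.cons (P.cons (P.lf 0 2790 0) (P.cons (P.lf 0 4278 0) (P.cons (P.lf 477 0 0) P.nil))) (P.cons (P.cons (P.lf 0 1017 0) (P.cons (P.lf 237 0 0) P.nil)) (P.cons (P.cons (P.lf 3 0 0) P.nil) P.nil)))))) 11001)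
 (EL.cons 11 (TM.mk (P.cons (P.cons (P.lf 0 87189027 0) (P.cons (P.lf 58150371 0 0) (P.cons (P.lf 22386858 0 0) (P.cons (P.lf 0 5953320 0) (P.cons (P.lf 0 868299 0) (P.cons (P.lf 156141 0 0) P.nil)))))) (P.cons (P.cons (P.lf 0 17710668 0) (P.cons (P.lf 1379469 0 0) (P.cons (P.lf 2234706 0 0) (P.cons (P.lf 0 306618 0) (P.cons (P.lf 0 58905 0) P.nil))))) (P.cons (P.cons (P.lf 0 39702 0) (P.cons (P.lf 29979 0 0) (P.cons (P.lf 10968 0 0) (P.cons (P.lf 0 3012 0) P.nil)))) (P.cons (P.cons (P.lf 17022 0 0) (P.cons (P.lf 144 0 0) (P.cons (P.lf 0 1821 0) P.nil))) (P.cons (P.cons (P.lf 171 0 0) (P.cons (P.lf 0 36 0) P.nil)) (P.cons (P.cons (P.lf 0 3 0) P.nil) P.nil)))))) 22659)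
 EL.nil)))
noncomputable def S161_165_364_512_25 : EL := (EL.cons 4 (TM.mk (P.cons (P.cons (P.lf 0 1154781483 0) (P.cons (P.lf 219305037 0 0) (P.cons (P.lf 14662221 0 0) (P.lf 0 4887402 0)))) (P.cons (P.cons (P.lf 45523773 0 0) (P.cons (P.lf 0 544176 0) (P.cons (P.lf 0 36384 0) (P.lf 12129 0 0)))) (P.cons (P.cons (P.lf 1189437 0 0) (P.cons (P.lf 0 297090 0) (P.cons (P.lf 0 19863 0) (P.lf 6621 0 0)))) (P.cons (P.cons (P.lf 0 41058 0) (P.cons (P.lf 0 1218 0) (P.cons (P.lf 0 78 0) P.nil))) (P.cons (P.cons (P.lf 0 780 0) (P.cons (P.lf 165 0 0) P.nil)) (P.cons (P.cons (P.lf 15 0 0) P.nil) P.nil)))))) 765)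
 (EL.cons 8 (TM.mk (P.cons (P.cons (P.lf 669850182 0 0) (P.cons (P.lf 0 127211532 0) (P.cons (P.lf 0 8505066 0) (P.lf 2835021 0 0)))) (P.cons (P.cons (P.lf 0 46503957 0) (P.cons (P.lf 4132314 0 0) (P.cons (P.lf 276276 0 0) (P.lf 0 92091 0)))) (P.cons (P.cons (P.lf 334284 0 0) (P.cons (P.lf 118806 0 0) (P.cons (P.lf 7941 0 0) (P.lf 0 2646 0)))) (P.cons (P.cons (P.lf 31560 0 0) (P.cons (P.lf 0 3627 0) (P.cons (P.lf 0 240 0) P.nil))) (P.cons (P.cons (P.lf 0 294 0) (P.cons (P.lf 0 66 0) P.nil)) (P.cons (P.cons (P.lf 0 9 0) P.nil) P.nil)))))) 600)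
 (EL.cons 11 (TM.mk (P.cons (P.cons (P.lf 597110253 0 0) (P.cons (P.lf 92447661 0 0) (P.cons (P.lf 0 44538366 0) (P.cons (P.lf 0 1685460 0) (P.lf 421362 0 0))))) (P.cons (P.cons (P.lf 0 987765 0) (P.cons (P.lf 0 152931 0) (P.cons (P.lf 73677 0 0) (P.cons (P.lf 2787 0 0) (P.lf 0 696 0))))) (P.cons (P.cons (P.lf 0 539676 0) (P.cons (P.lf 0 83556 0) (P.cons (P.lf 40254 0 0) (P.cons (P.lf 1524 0 0) P.nil)))) (P.cons (P.cons (P.lf 0 2664 0) (P.cons (P.lf 0 411 0) (P.cons (P.lf 198 0 0) P.nil))) (P.cons (P.cons (P.lf 171 0 0) (P.cons (P.lf 24 0 0) P.nil)) (P.cons (P.cons (P.lf 0 0 0) P.nil) P.nil)))))) 681)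
 EL.nil)))
noncomputable def S161_165_364_512_26 : EL := (EL.cons 4 (TM.mk (P.cons (P.cons (P.lf 0 105163887 0) (P.cons (P.lf 106392360 0 0) (P.cons (P.lf 0 9299034 0) (P.cons (P.lf 0 4565607 0) (P.cons (P.lf 658158 0 0) (P.cons (P.lf 48906 0 0) P.nil)))))) (P.cons (P.cons (P.lf 0 15769014 0) (P.cons (P.lf 4107618 0 0) (P.cons (P.lf 0 402894 0) (P.cons (P.lf 0 182133 0) (P.cons (P.lf 27168 0 0) P.nil))))) (P.cons (P.cons (P.lf 1063566 0 0) (P.cons (P.lf 0 269325 0) (P.cons (P.lf 0 1119 0) (P.cons (P.lf 8259 0 0) P.nil)))) (P.cons (P.cons (P.lf 16548 0 0) (P.cons (P.lf 0 9288 0) (P.cons (P.lf 573 0 0) P.nil))) (P.cons (P.cons (P.lf 0 1206 0) (P.cons (P.lf 204 0 0) P.nil)) (P.cons (P.cons (P.lf 0 12 0) P.nil) P.nil)))))) 12894)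
 (EL.cons 8 (TM.mk (P.cons (P.cons (P.lf 61002060 0 0) (P.cons (P.lf 0 61714656 0) (P.cons (P.lf 5394060 0 0) (P.cons (P.lf 2648355 0 0) (P.cons (P.lf 0 381774 0) (P.cons (P.lf 0 28368 0) P.nil)))))) (P.cons (P.cons (P.lf 7316868 0 0) (P.cons (P.lf 0 531102 0) (P.cons (P.lf 71871 0 0) (P.cons (P.lf 26193 0 0) (P.cons (P.lf 0 4305 0) P.nil))))) (P.cons (P.cons (P.lf 0 870249 0) (P.cons (P.lf 206340 0 0) (P.cons (P.lf 0 4491 0) (P.cons (P.lf 0 7044 0) P.nil)))) (P.cons (P.cons (P.lf 11730 0 0) (P.cons (P.lf 225 0 0) (P.cons (P.lf 0 303 0) P.nil))) (P.cons (P.cons (P.lf 726 0 0) (P.cons (P.lf 0 216 0) P.nil)) (P.cons (P.cons (P.lf 0 12 0) P.nil) P.nil)))))) 6669)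
 (EL.cons 11 (TM.mk (P.cons (P.cons (P.lf 54377763 0 0) (P.cons (P.lf 0 36267030 0) (P.cons (P.lf 0 13962162 0) (P.cons (P.lf 3712947 0 0) (P.cons (P.lf 541536 0 0) (P.cons (P.lf 0 97380 0) P.nil)))))) (P.cons (P.cons (P.lf 10207509 0 0) (P.cons (P.lf 0 301293 0) (P.cons (P.lf 0 1178511 0) (P.cons (P.lf 133995 0 0) (P.cons (P.lf 28389 0 0) P.nil))))) (P.cons (P.cons (P.lf 0 154170 0) (P.cons (P.lf 342 0 0) (P.cons (P.lf 16866 0 0) (P.cons (P.lf 0 1659 0) P.nil)))) (P.cons (P.cons (P.lf 0 12756 0) (P.cons (P.lf 333 0 0) (P.cons (P.lf 1461 0 0) P.nil))) (P.cons (P.cons (P.lf 51 0 0) (P.cons (P.lf 27 0 0) P.nil)) (P.cons (P.cons (P.lf 6 0 0) P.nil) P.nil)))))) 12603)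
 EL.nil)))
noncomputable def S161_165_364_512_27 : EL := (EL.cons 13 (TM.mk (P.lf 0 4294967296 0) 0)
 EL.nil)
noncomputable def S161_165_364_512_28 : EL := (EL.cons 13 (TM.mk (P.cons (P.cons (P.lf 0 391135007 0) (P.cons (P.lf 321423444 0 0) (P.cons (P.lf 21489620 0 0) (P.lf 0 7163204 0)))) (P.cons (P.cons (P.lf 0 74068860 0) (P.cons (P.lf 14066448 0 0) (P.cons (P.lf 940448 0 0) (P.lf 0 313480 0)))) (P.cons (P.cons (P.lf 632902 0 0) (P.cons (P.lf 139616 0 0) (P.cons (P.lf 9332 0 0) (P.lf 0 3108 0)))) (P.cons (P.cons (P.lf 24120 0 0) (P.cons (P.lf 0 2232 0) (P.cons (P.lf 0 148 0) P.nil))) (P.cons (P.cons (P.lf 15 0 0) (P.cons (P.lf 0 48 0) P.nil)) (P.cons (P.cons (P.lf 0 0 0) P.nil) P.nil)))))) 439)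
 EL.nil)
noncomputable def S161_165_364_512_29 : EL := (EL.cons 13 (TM.mk (P.cons (P.cons (P.lf 0 35619967 0) (P.cons (P.lf 58542918 0 0) (P.cons (P.lf 0 20140396 0) (P.cons (P.lf 0 4521127 0) (P.cons (P.lf 964626 0 0) (P.cons (P.lf 71681 0 0) P.nil)))))) (P.cons (P.cons (P.lf 0 13490637 0) (P.cons (P.lf 13648228 0 0) (P.cons (P.lf 0 1192899 0) (P.cons (P.lf 0 585684 0) (P.cons (P.lf 84429 0 0) P.nil))))) (P.cons (P.cons (P.lf 0 1162080 0) (P.cons (P.lf 415865 0 0) (P.cons (P.lf 0 39162 0) (P.cons (P.lf 0 18221 0) P.nil)))) (P.cons (P.cons (P.lf 26222 0 0) (P.cons (P.lf 0 3346 0) (P.cons (P.lf 0 804 0) P.nil))) (P.cons (P.cons (P.lf 741 0 0) (P.cons (P.lf 0 287 0) P.nil)) (P.cons (P.cons (P.lf 0 6 0) P.nil) P.nil)))))) 23537)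
 EL.nil)
noncomputable def S161_165_364_512_30 : EL := (EL.cons 13 (TM.mk (P.cons (P.lf 2678670976 0 0) (P.cons (P.lf 0 41291132 0) (P.cons (P.lf 0 426912 0) (P.cons (P.lf 104 0 0) (P.cons (P.lf 28 0 0) (P.cons (P.lf 0 0 0) P.nil)))))) 52)
 EL.nil)
noncomputable def S161_165_364_512_31 : EL := (EL.cons 13 (TM.mk (P.cons (P.cons (P.lf 243941785 0 0) (P.cons (P.lf 0 200464308 0) (P.cons (P.lf 0 13402575 0) (P.lf 4467523 0 0)))) (P.cons (P.cons (P.lf 42434711 0 0) (P.cons (P.lf 0 5682801 0) (P.cons (P.lf 0 379937 0) (P.lf 126644 0 0)))) (P.cons (P.cons (P.lf 0 1145690 0) (P.cons (P.lf 80106 0 0) (P.cons (P.lf 5357 0 0) (P.lf 0 1787 0)))) (P.cons (P.cons (P.lf 0 16311 0) (P.cons (P.lf 4124 0 0) (P.cons (P.lf 274 0 0) P.nil))) (P.cons (P.cons (P.lf 289 0 0) (P.cons (P.lf 19 0 0) P.nil)) (P.cons (P.cons (P.lf 3 0 0) P.nil) P.nil)))))) 372)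
 EL.nil)
noncomputable def S161_165_364_512_32 : EL := (EL.cons 13 (TM.mk (P.cons (P.cons (P.lf 22215343 0 0) (P.cons (P.lf 0 36511853 0) (P.cons (P.lf 12561095 0 0) (P.cons (P.lf 2819721 0 0) (P.cons (P.lf 0 601614 0) (P.cons (P.lf 0 44705 0) P.nil)))))) (P.cons (P.cons (P.lf 8071351 0 0) (P.cons (P.lf 0 7949259 0) (P.cons (P.lf 550356 0 0) (P.cons (P.lf 321812 0 0) (P.cons (P.lf 0 43382 0) P.nil))))) (P.cons (P.cons (P.lf 591524 0 0) (P.cons (P.lf 0 122334 0) (P.cons (P.lf 10954 0 0) (P.cons (P.lf 5283 0 0) P.nil)))) (P.cons (P.cons (P.lf 0 28866 0) (P.cons (P.lf 7440 0 0) (P.cons (P.lf 6 0 0) P.nil))) (P.cons (P.cons (P.lf 0 325 0) (P.cons (P.lf 187 0 0) P.nil)) (P.cons (P.cons (P.lf 13 0 0) P.nil) P.nil)))))) 16794)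
 EL.nil)
noncomputable def S161_165_364_512_33 : EL := (EL.cons 14 (TM.mk (P.lf 8589934592 0 0) 0)
 EL.nil)
noncomputable def S161_165_364_512_34 : EL := (EL.cons 14 (TM.mk (P.cons (P.cons (P.lf 782270014 0 0) (P.cons (P.lf 0 642846888 0) (P.cons (P.lf 0 42979240 0) (P.lf 14326408 0 0)))) (P.cons (P.cons (P.lf 148137720 0 0) (P.cons (P.lf 0 28132896 0) (P.cons (P.lf 0 1880896 0) (P.lf 626960 0 0)))) (P.cons (P.cons (P.lf 0 1265804 0) (P.cons (P.lf 0 279232 0) (P.cons (P.lf 0 18664 0) (P.lf 6216 0 0)))) (P.cons (P.cons (P.lf 0 48240 0) (P.cons (P.lf 4464 0 0) (P.cons (P.lf 296 0 0) P.nil))) (P.cons (P.cons (P.lf 0 30 0) (P.cons (P.lf 96 0 0) P.nil)) (P.cons (P.cons (P.lf 0 0 0) P.nil) P.nil)))))) 878)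
 EL.nil)
noncomputable def S161_165_364_512_35 : EL := (EL.cons 14 (TM.mk (P.cons (P.cons (P.lf 71239934 0 0) (P.cons (P.lf 0 117085836 0) (P.cons (P.lf 40280792 0 0) (P.cons (P.lf 9042254 0 0) (P.cons (P.lf 0 1929252 0) (P.cons (P.lf 0 143362 0) P.nil)))))) (P.cons (P.cons (P.lf 26981274 0 0) (P.cons (P.lf 0 27296456 0) (P.cons (P.lf 2385798 0 0) (P.cons (P.lf 1171368 0 0) (P.cons (P.lf 0 168858 0) P.nil))))) (P.cons (P.cons (P.lf 2324160 0 0) (P.cons (P.lf 0 831730 0) (P.cons (P.lf 78324 0 0) (P.cons (P.lf 36442 0 0) P.nil)))) (P.cons (P.cons (P.lf 0 52444 0) (P.cons (P.lf 6692 0 0) (P.cons (P.lf 1608 0 0) P.nil))) (P.cons (P.cons (P.lf 0 1482 0) (P.cons (P.lf 574 0 0) P.nil)) (P.cons (P.cons (P.lf 12 0 0) P.nil) P.nil)))))) 47074)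
 EL.nil)
noncomputable def S161_165_364_512_36 : EL := (EL.cons 14 (TM.mk (P.cons (P.lf 0 5357341952 0) (P.cons (P.lf 82582264 0 0) (P.cons (P.lf 853824 0 0) (P.cons (P.lf 0 208 0) (P.cons (P.lf 0 56 0) (P.cons (P.lf 0 0 0) P.nil)))))) 104)
 EL.nil)
noncomputable def S161_165_364_512_37 : EL := (EL.cons 14 (TM.mk (P.cons (P.cons (P.lf 0 487883570 0) (P.cons (P.lf 400928616 0 0) (P.cons (P.lf 26805150 0 0) (P.lf 0 8935046 0)))) (P.cons (P.cons (P.lf 0 84869422 0) (P.cons (P.lf 11365602 0 0) (P.cons (P.lf 759874 0 0) (P.lf 0 253288 0)))) (P.cons (P.cons (P.lf 2291380 0 0) (P.cons (P.lf 0 160212 0) (P.cons (P.lf 0 10714 0) (P.lf 3574 0 0)))) (P.cons (P.cons (P.lf 32622 0 0) (P.cons (P.lf 0 8248 0) (P.cons (P.lf 0 548 0) P.nil))) (P.cons (P.cons (P.lf 0 578 0) (P.cons (P.lf 0 38 0) P.nil)) (P.cons (P.cons (P.lf 0 6 0) P.nil) P.nil)))))) 744)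
 EL.nil)
noncomputable def S161_165_364_512_38 : EL := (EL.cons 14 (TM.mk (P.cons (P.cons (P.lf 0 44430686 0) (P.cons (P.lf 73023706 0 0) (P.cons (P.lf 0 25122190 0) (P.cons (P.lf 0 5639442 0) (P.cons (P.lf 1203228 0 0) (P.cons (P.lf 89410 0 0) P.nil)))))) (P.cons (P.cons (P.lf 0 16142702 0) (P.cons (P.lf 15898518 0 0) (P.cons (P.lf 0 1100712 0) (P.cons (P.lf 0 643624 0) (P.cons (P.lf 86764 0 0) P.nil))))) (P.cons (P.cons (P.lf 0 1183048 0) (P.cons (P.lf 244668 0 0) (P.cons (P.lf 0 21908 0) (P.cons (P.lf 0 10566 0) P.nil)))) (P.cons (P.cons (P.lf 57732 0 0) (P.cons (P.lf 0 14880 0) (P.cons (P.lf 0 12 0) P.nil))) (P.cons (P.cons (P.lf 650 0 0) (P.cons (P.lf 0 374 0) P.nil)) (P.cons (P.cons (P.lf 0 26 0) P.nil) P.nil)))))) 33588)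
 EL.nil)
noncomputable def S161_165_364_512_39 : EL := (EL.cons 14 (TM.mk (P.cons (P.lf 3341249282 0 0) (P.cons (P.lf 0 103009264 0) (P.cons (P.lf 0 271086 0) (P.cons (P.lf 16676 0 0) (P.cons (P.lf 150 0 0) (P.cons (P.lf 0 0 0) P.nil)))))) 144)
 EL.nil)
noncomputable def S161_165_364_512_40 : EL := (EL.cons 14 (TM.mk (P.cons (P.cons (P.lf 304281608 0 0) (P.cons (P.lf 0 250049832 0) (P.cons (P.lf 0 16717746 0) (P.lf 5572580 0 0)))) (P.cons (P.cons (P.lf 48240644 0 0) (P.cons (P.lf 0 3233998 0) (P.cons (P.lf 0 216216 0) (P.lf 72070 0 0)))) (P.cons (P.cons (P.lf 0 2293496 0) (P.cons (P.lf 249038 0 0) (P.cons (P.lf 16652 0 0) (P.lf 0 5552 0)))) (P.cons (P.cons (P.lf 0 6740 0) (P.cons (P.lf 4724 0 0) (P.cons (P.lf 314 0 0) P.nil))) (P.cons (P.cons (P.lf 908 0 0) (P.cons (P.lf 0 72 0) P.nil)) (P.cons (P.cons (P.lf 2 0 0) P.nil) P.nil)))))) 552)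
 EL.nil)
noncomputable def S161_165_364_512_41 : EL := (EL.cons 14 (TM.mk (P.cons (P.cons (P.lf 27710382 0 0) (P.cons (P.lf 0 45543182 0) (P.cons (P.lf 15668124 0 0) (P.cons (P.lf 3517188 0 0) (P.cons (P.lf 0 750426 0) (P.cons (P.lf 0 55762 0) P.nil)))))) (P.cons (P.cons (P.lf 9640676 0 0) (P.cons (P.lf 0 9213496 0) (P.cons (P.lf 444968 0 0) (P.cons (P.lf 347196 0 0) (P.cons (P.lf 0 42544 0) P.nil))))) (P.cons (P.cons (P.lf 578230 0 0) (P.cons (P.lf 7510 0 0) (P.cons (P.lf 584 0 0) (P.cons (P.lf 0 156 0) P.nil)))) (P.cons (P.cons (P.lf 0 48982 0) (P.cons (P.lf 13210 0 0) (P.cons (P.lf 0 310 0) P.nil))) (P.cons (P.cons (P.lf 32 0 0) (P.cons (P.lf 114 0 0) P.nil)) (P.cons (P.cons (P.lf 28 0 0) P.nil) P.nil)))))) 23276)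
 EL.nil)
noncomputable def S161_165_364_512_42 : EL := (EL.cons 14 (TM.mk (P.cons (P.lf 0 2083859284 0) (P.cons (P.lf 96366714 0 0) (P.cons (P.lf 0 489130 0) (P.cons (P.lf 0 23326 0) (P.cons (P.lf 20 0 0) (P.cons (P.lf 2 0 0) P.nil)))))) 146)
 EL.nil)
noncomputable def S161_165_364_512_43 : EL := (EL.cons 14 (TM.mk (P.cons (P.cons (P.lf 0 189773346 0) (P.cons (P.lf 155950250 0 0) (P.cons (P.lf 10426468 0 0) (P.lf 0 3475488 0)))) (P.cons (P.cons (P.lf 0 27161250 0) (P.cons (P.lf 0 386968 0) (P.cons (P.lf 0 25872 0) (P.lf 8624 0 0)))) (P.cons (P.cons (P.lf 1924422 0 0) (P.cons (P.lf 0 211264 0) (P.cons (P.lf 0 14124 0) (P.lf 4708 0 0)))) (P.cons (P.cons (P.lf 0 13056 0) (P.cons (P.lf 0 866 0) (P.cons (P.lf 0 56 0) P.nil))) (P.cons (P.cons (P.lf 0 862 0) (P.cons (P.lf 116 0 0) P.nil)) (P.cons (P.cons (P.lf 6 0 0) P.nil) P.nil)))))) 446)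
 EL.nil)
noncomputable def S161_165_364_512_44 : EL := (EL.cons 14 (TM.mk (P.cons (P.cons (P.lf 0 17282318 0) (P.cons (P.lf 28404220 0 0) (P.cons (P.lf 0 9771844 0) (P.cons (P.lf 0 2193588 0) (P.cons (P.lf 468022 0 0) (P.cons (P.lf 34778 0 0) P.nil)))))) (P.cons (P.cons (P.lf 0 5746262 0) (P.cons (P.lf 5308398 0 0) (P.cons (P.lf 0 126884 0) (P.cons (P.lf 0 182724 0) (P.cons (P.lf 19320 0 0) P.nil))))) (P.cons (P.cons (P.lf 0 265190 0) (P.cons (P.lf 0 97786 0) (P.cons (P.lf 5470 0 0) (P.cons (P.lf 3784 0 0) P.nil)))) (P.cons (P.cons (P.lf 37066 0 0) (P.cons (P.lf 0 9080 0) (P.cons (P.lf 242 0 0) P.nil))) (P.cons (P.cons (P.lf 0 434 0) (P.cons (P.lf 56 0 0) P.nil)) (P.cons (P.cons (P.lf 0 22 0) P.nil) P.nil)))))) 16180)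
 EL.nil)
noncomputable def S161_165_364_512_45 : EL := (EL.cons 14 (TM.mk (P.cons (P.cons (P.lf 6487692 0 0) (P.cons (P.lf 0 15994196 0) (P.cons (P.lf 12074234 0 0) (P.cons (P.lf 0 1486392 0) (P.cons (P.lf 0 1249210 0) (P.cons (P.lf 153262 0 0) P.nil)))))) (P.cons (P.cons (P.lf 3685704 0 0) (P.cons (P.lf 0 6757564 0) (P.cons (P.lf 3187592 0 0) (P.cons (P.lf 164554 0 0) (P.cons (P.lf 0 240752 0) P.nil))))) (P.cons (P.cons (P.lf 666464 0 0) (P.cons (P.lf 0 793846 0) (P.cons (P.lf 180098 0 0) (P.cons (P.lf 23492 0 0) P.nil)))) (P.cons (P.cons (P.lf 30928 0 0) (P.cons (P.lf 0 13580 0) (P.cons (P.lf 3666 0 0) P.nil))) (P.cons (P.cons (P.lf 0 1532 0) (P.cons (P.lf 664 0 0) P.nil)) (P.cons (P.cons (P.lf 0 28 0) P.nil) P.nil)))))) 108482)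
 EL.nil)
noncomputable def S161_165_364_512_46 : EL := (EL.cons 15 (TM.mk (P.lf 4294967296 0 0) 0)
 EL.nil)
noncomputable def S161_165_364_512_47 : EL := (EL.cons 15 (TM.mk (P.cons (P.cons (P.lf 391135007 0 0) (P.cons (P.lf 0 321423444 0) (P.cons (P.lf 0 21489620 0) (P.lf 7163204 0 0)))) (P.cons (P.cons (P.lf 74068860 0 0) (P.cons (P.lf 0 14066448 0) (P.cons (P.lf 0 940448 0) (P.lf 313480 0 0)))) (P.cons (P.cons (P.lf 0 632902 0) (P.cons (P.lf 0 139616 0) (P.cons (P.lf 0 9332 0) (P.lf 3108 0 0)))) (P.cons (P.cons (P.lf 0 24120 0) (P.cons (P.lf 2232 0 0) (P.cons (P.lf 148 0 0) P.nil))) (P.cons (P.cons (P.lf 0 15 0) (P.cons (P.lf 48 0 0) P.nil)) (P.cons (P.cons (P.lf 0 0 0) P.nil) P.nil)))))) 439)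
 EL.nil)
noncomputable def S161_165_364_512_48 : EL := (EL.cons 15 (TM.mk (P.cons (P.cons (P.lf 35619967 0 0) (P.cons (P.lf 0 58542918 0) (P.cons (P.lf 20140396 0 0) (P.cons (P.lf 4521127 0 0) (P.cons (P.lf 0 964626 0) (P.cons (P.lf 0 71681 0) P.nil)))))) (P.cons (P.cons (P.lf 13490637 0 0) (P.cons (P.lf 0 13648228 0) (P.cons (P.lf 1192899 0 0) (P.cons (P.lf 585684 0 0) (P.cons (P.lf 0 84429 0) P.nil))))) (P.cons (P.cons (P.lf 1162080 0 0) (P.cons (P.lf 0 415865 0) (P.cons (P.lf 39162 0 0) (P.cons (P.lf 18221 0 0) P.nil)))) (P.cons (P.cons (P.lf 0 26222 0) (P.cons (P.lf 3346 0 0) (P.cons (P.lf 804 0 0) P.nil))) (P.cons (P.cons (P.lf 0 741 0) (P.cons (P.lf 287 0 0) P.nil)) (P.cons (P.cons (P.lf 6 0 0) P.nil) P.nil)))))) 23537)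
 EL.nil)
noncomputable def S161_165_364_512 : SL := (SL.cons S161_165_364_512_0 (SL.cons S161_165_364_512_1 (SL.cons S161_165_364_512_2 (SL.cons S161_165_364_512_3 (SL.cons S161_165_364_512_4 (SL.cons S161_165_364_512_5 (SL.cons S161_165_364_512_6 (SL.cons S161_165_364_512_7 (SL.cons S161_165_364_512_8 (SL.cons S161_165_364_512_9 (SL.cons S161_165_364_512_10 (SL.cons S161_165_364_512_11 (SL.cons S161_165_364_512_12 (SL.cons S161_165_364_512_13 (SL.cons S161_165_364_512_14 (SL.cons S161_165_364_512_15 (SL.cons S161_165_364_512_16 (SL.cons S161_165_364_512_17 (SL.cons S161_165_364_512_18 (SL.cons S161_165_364_512_19 (SL.cons S161_165_364_512_20 (SL.cons S161_165_364_512_21 (SL.cons S161_165_364_512_22 (SL.cons S161_165_364_512_23 (SL.cons S161_165_364_512_24 (SL.cons S161_165_364_512_25 (SL.cons S161_165_364_512_26 (SL.cons S161_165_364_512_27 (SL.cons S161_165_364_512_28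 (SL.cons S161_165_364_512_29 (SL.cons S161_165_364_512_30 (SL.cons S161_165_364_512_31 (SL.cons S161_165_364_512_32 (SL.cons S161_165_364_512_33 (SL.cons S161_165_364_512_34 (SL.cons S161_165_364_512_35 (SL.cons S161_165_364_512_36 (SL.cons S161_165_364_512_37 (SL.cons S161_165_364_512_38 (SL.cons S161_165_364_512_39 (SL.cons S161_165_364_512_40 (SL.cons S161_165_364_512_41 (SL.cons S161_165_364_512_42 (SL.cons S161_165_364_512_43 (SL.cons S161_165_364_512_44 (SL.cons S161_165_364_512_45 (SL.cons S161_165_364_512_46 (SL.cons S161_165_364_512_47 (SL.cons S161_165_364_512_48 SL.nil)))))))))))))))))))))))))))))))))))))))))))))))))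
theorem S154_169_586_660_ok : band (seq (shp 5 154 169 586 660) S154_169_586_660) (sok S154_169_586_660) = true := by decide +kernel

theorem S154_169_660_734_ok : band (seq (shp 5 154 169 660 734) S154_169_660_734) (sok S154_169_660_734) = true := by decide +kernel

theorem S154_169_660_808_ok : band (seq (shp 5 154 169 660 808) S154_169_660_808) (sok S154_169_660_808) = true := by decide +kernel

theorem S154_169_734_808_ok : band (seq (shp 5 154 169 734 808) S154_169_734_808) (sok S154_169_734_808) = true := by decide +kernel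

theorem S157_161_364_512_ok : band (seq (shp 5 157 161 364 512) S157_161_364_512) (sok S157_161_364_512) = true := by decide +kernel

theorem S161_165_364_512_ok : band (seq (shp 5 161 165 364 512) S161_165_364_512) (sok S161_165_364_512) = true := by decide +kernel

end Vale.Agent.P098.Ck
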